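import Vale.Agent.P330Q.Top

/-! Arithmetic modulo `p` on natural numbers (task Ar): meaning in `ZMod p`, bounds, polynomial
time. For `prodm`, `powm` use `PT.foldl`/`PT.foldl'` (the state stays below `p`, so its size is at
most `sz p + 4`); `invm` by `ZMod.pow_card_sub_one_eq_one` (and `0 ^ (p - 2) = 0 = 0⁻¹`). -/

namespace Vale.Agent.P330Q

open Vale.Agent.Lib.H23 Vale.Agent.P333 Vale.Agent.P325 Vale.Agent.P330 Vale.Agent.P330.Amp Finset

def addm (p a b : ℕ) : ℕ := (a + b) % p
def subm (p a b : ℕ) : ℕ := (a + (p - b % p)) % p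
def mulm (p a b : ℕ) : ℕ := a * b % p
def summ (p : ℕ) (l : List ℕ) : ℕ := l.sum % p
def prodm (p : ℕ) (l : List ℕ) : ℕ := l.foldl (mulm p) (1 % p)
def powm (p a n : ℕ) : ℕ :=
  n.bits.reverse.foldl (fun x b => if b then mulm p (mulm p x x) a else mulm p x x) (1 % p)
def invm (p a : ℕ) : ℕ := powm p a (p - 2)
def divm (p a b : ℕ) : ℕ := mulm p a (invm p b)
/-- `-1` for odd `b`, `1` for even `b` -/
def sgm (p b : ℕ) : ℕ := if b % 2 = 1 then p - 1 else 1
/-- `n` entries of `l` from position `o` on -/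
def tb (l : List ℕ) (o n : ℕ) : List ℕ := (List.range n).map fun i => l.getD (o + i) 0
/-- equality test for lists of numbers -/
def eqN (l m : List ℕ) : Bool := decide (l = m)

variable {p : ℕ}

theorem cast_addm (a b : ℕ) : ((addm p a b : ℕ) : ZMod p) = a + b := by
  simp [addm]
theorem cast_subm (hp : 0 < p) (a b : ℕ) : ((subm p a b : ℕ) : ZMod p) = a - b := by
  rw [subm, ZMod.natCast_mod, Nat.cast_add, Nat.cast_sub (Nat.mod_lt b hp).le, ZMod.natCast_self,
    ZMod.natCast_mod, zero_sub, sub_eq_add_neg]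
theorem cast_mulm (a b : ℕ) : ((mulm p a b : ℕ) : ZMod p) = a * b := by
  simp [mulm]
theorem cast_summ (l : List ℕ) : ((summ p l : ℕ) : ZMod p) = (l.map fun n : ℕ => (n : ZMod p)).sum := by
  rw [summ, ZMod.natCast_mod, Nat.cast_list_sum]
theorem cast_prodm (l : List ℕ) :
    ((prodm p l : ℕ) : ZMod p) = (l.map fun n : ℕ => (n : ZMod p)).prod := by
  have e : ∀ (l : List ℕ) (s : ℕ), ((l.foldl (mulm p) s : ℕ) : ZMod p) =
      s * (l.map fun n : ℕ => (n : ZMod p)).prod := by
    intro l
    induction l with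
    | nil => simp
    | cons a l ih => intro s; rw [List.foldl_cons, ih, cast_mulm, List.map_cons, List.prod_cons, mul_assoc]
  rw [prodm, e, ZMod.natCast_mod, Nat.cast_one, one_mul]
theorem cast_summ_range (n : ℕ) (f : ℕ → ℕ) :
    ((summ p ((List.range n).map f) : ℕ) : ZMod p) = ∑ i ∈ range n, (f i : ZMod p) := by
  rw [cast_summ, List.map_map]
  rfl
theorem cast_prodm_range (n : ℕ) (f : ℕ → ℕ) :
    ((prodm p ((List.range n).map f) : ℕ) : ZMod p) = ∏ i ∈ range n, (f i : ZMod p) := by
  rw [cast_prodm, List.map_map]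
  rfl
theorem cast_powm (a n : ℕ) : ((powm p a n : ℕ) : ZMod p) = (a : ZMod p) ^ n := by
  rw [powm, List.foldl_reverse]
  induction n using Nat.binaryRec' with
  | zero => simp
  | bit b n h ih =>
    rw [Nat.bits_append_bit n b h, List.foldr_cons, Nat.bit_val]
    cases b
    · simp only [Bool.false_eq_true, if_false, cast_mulm, ih, Bool.toNat_false]
      ring
    · simp only [if_true, cast_mulm, ih, Bool.toNat_true]
      ring
theorem cast_invm [Fact p.Prime] (hp : 2 < p) (a : ℕ) :
    ((invm p a : ℕ) : ZMod p) = (a : ZMod p)⁻¹ := by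
  rw [invm, cast_powm]
  by_cases h : (a : ZMod p) = 0
  · rw [h, inv_zero, zero_pow (by omega)]
  · refine eq_inv_of_mul_eq_one_left ?_
    rw [← pow_succ, show p - 2 + 1 = p - 1 by omega, ZMod.pow_card_sub_one_eq_one h]
theorem cast_divm [Fact p.Prime] (hp : 2 < p) (a b : ℕ) :
    ((divm p a b : ℕ) : ZMod p) = (a : ZMod p) / b := by
  rw [divm, cast_mulm, cast_invm hp, div_eq_mul_inv]
theorem cast_sgm (hp : 0 < p) (b : ℕ) :
    ((sgm p b : ℕ) : ZMod p) = if b % 2 = 1 then -1 else 1 := by
  rw [sgm]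
  split_ifs
  · rw [Nat.cast_pred hp, ZMod.natCast_self, zero_sub]
  · exact Nat.cast_one
theorem cast_pred (hp : 0 < p) : ((p - 1 : ℕ) : ZMod p) = -1 := by
  rw [Nat.cast_pred hp, ZMod.natCast_self, zero_sub]

theorem addm_lt (hp : 0 < p) (a b : ℕ) : addm p a b < p := Nat.mod_lt _ hp
theorem subm_lt (hp : 0 < p) (a b : ℕ) : subm p a b < p := Nat.mod_lt _ hp
theorem mulm_lt (hp : 0 < p) (a b : ℕ) : mulm p a b < p := Nat.mod_lt _ hp
theorem summ_lt (hp : 0 < p) (l : List ℕ) : summ p l < p := Nat.mod_lt _ hp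
theorem divm_lt (hp : 0 < p) (a b : ℕ) : divm p a b < p := Nat.mod_lt _ hp
theorem prodm_lt (hp : 0 < p) (l : List ℕ) : prodm p l < p := by
  have e : ∀ (l : List ℕ) (s : ℕ), s < p → l.foldl (mulm p) s < p := by
    intro l
    induction l with
    | nil => exact fun s h => h
    | cons a l ih => exact fun s _ => ih _ (mulm_lt hp s a)
  exact e l _ (Nat.mod_lt _ hp)

/-- a reduced number is the value of its class -/
theorem eq_val {n : ℕ} {x : ZMod p} (h : n < p) (e : (n : ZMod p) = x) : n = x.val := by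
  rw [← e, ZMod.val_natCast_of_lt h]

theorem length_tb (l : List ℕ) (o n : ℕ) : (tb l o n).length = n := by simp [tb]
theorem getD_tb (l : List ℕ) (o : ℕ) {n i : ℕ} (h : i < n) : (tb l o n).getD i 0 = l.getD (o + i) 0 := by
  simp [tb, List.getD_eq_getElem?_getD, h]
theorem tb_congr {l m : List ℕ} {o o' n : ℕ} (h : ∀ i < n, l.getD (o + i) 0 = m.getD (o' + i) 0) :
    tb l o n = tb m o' n := by
  exact List.map_congr_left fun i hi => h i (List.mem_range.1 hi)
theorem tb_self (l : List ℕ) : tb l 0 l.length = l := by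
  refine List.ext_getElem (length_tb _ _ _) fun i h1 h2 => ?_
  simp [tb, List.getD_eq_getElem?_getD, h2]
theorem ar_len {n m : ℕ} {f : ℕ → List ℕ} (hf : ∀ j < n, (f j).length = m) :
    ((List.range n).flatMap f).length = n * m := by
  rw [length_flatMap_const fun a ha => hf a (List.mem_range.1 ha), List.length_range]
/-- blocks of equal length -/
theorem getD_flatMap_range {n m r i : ℕ} {f : ℕ → List ℕ} (hf : ∀ j < n, (f j).length = m)
    (hr : r < n) (hi : i < m) : ((List.range n).flatMap f).getD (r * m + i) 0 = (f r).getD i 0 := by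
  induction n with
  | zero => omega
  | succ n ih =>
    have hl := ar_len (n := n) (f := f) fun j hj => hf j (by omega)
    rw [List.range_succ, List.flatMap_append, List.flatMap_singleton]
    rcases Nat.lt_succ_iff_lt_or_eq.1 hr with h | rfl
    · have : (r + 1) * m ≤ n * m := Nat.mul_le_mul_right m h
      rw [List.getD_append _ _ _ _ (by rw [hl]; nlinarith), ih (fun j hj => hf j (by omega)) h]
    · rw [List.getD_append_right _ _ _ _ (by rw [hl]; omega), hl, Nat.add_sub_cancel_left]
theorem length_flatMap_range {n m : ℕ} {f : ℕ → List ℕ} (hf : ∀ j < n, (f j).length = m) :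
    ((List.range n).flatMap f).length = n * m := by
  exact ar_len hf

section pt

variable {α : Type} [Enc α] {q a b n : α → ℕ} {l m : α → List ℕ}

@[fun_prop] theorem pt_addm (hq : PT q) (ha : PT a) (hb : PT b) :
    PT fun x => addm (q x) (a x) (b x) := by
  exact pt_mod (ha.add hb) hq
@[fun_prop] theorem pt_subm (hq : PT q) (ha : PT a) (hb : PT b) :
    PT fun x => subm (q x) (a x) (b x) := by
  exact pt_mod (ha.add (hq.sub (pt_mod hb hq))) hq
@[fun_prop] theorem pt_mulm (hq : PT q) (ha : PT a) (hb : PT b) :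
    PT fun x => mulm (q x) (a x) (b x) := by
  exact pt_mod (ha.mul hb) hq
@[fun_prop] theorem pt_summ (hq : PT q) (hl : PT l) : PT fun x => summ (q x) (l x) := by
  exact pt_mod (pt_sum hl) hq
@[fun_prop] theorem pt_prodm (hq : PT q) (hl : PT l) : PT fun x => prodm (q x) (l x) := by
  have e : ∀ (p : ℕ) (l : List ℕ) (s j : ℕ), s < 2 ^ j → l.foldl (mulm p) s < 2 ^ (j + sz l) := by
    intro p l
    induction l with
    | nil => exact fun s j h => h.trans_le (Nat.pow_le_pow_right (by omega) (by omega))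
    | cons a l ih =>
      intro s j h
      refine (ih _ (j + sz a) ((Nat.mod_le _ _).trans_lt ?_)).trans_le
        (Nat.pow_le_pow_right (by omega) (by rw [sz_cons]; omega))
      rw [pow_add]
      exact Nat.mul_lt_mul'' h (lt_two_pow_sz a)
  obtain ⟨L, hL⟩ := hl.size_le
  refine PT.foldl (f := fun x s a => mulm (q x) s a)
    (pt_mulm (hq.comp PT.fst') PT.snd'.fst PT.snd'.snd) hl (pt_mod (PT.const 1) hq)
    ⟨4 * L + 5, fun x k => ?_⟩
  have h1 := sz_nat_le (e (q x) ((l x).take k) (1 % q x) 1 ((Nat.mod_le _ _).trans_lt (by omega)))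
  have h2 := sz_sublist (List.take_sublist k (l x))
  have h3 := hL x
  simp only [Polynomial.eval_add, Polynomial.eval_mul, Polynomial.eval_ofNat]
  refine h1.trans ?_
  omega
theorem pt_powm (hq : PT q) (ha : PT a) (hn : PT n) (h0 : ∀ x, 0 < q x) :
    PT fun x => powm (q x) (a x) (n x) := by
  have e : ∀ (p a : ℕ), 0 < p → ∀ (l : List Bool) (s : ℕ), s < p →
      l.foldl (fun x b => if b then mulm p (mulm p x x) a else mulm p x x) s < p := by
    intro p a hp l
    induction l with
    | nil => exact fun s h => h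
    | cons b l ih =>
      refine fun s _ => ih _ ?_
      cases b <;> exact mulm_lt hp _ _
  obtain ⟨Q, hQ⟩ := hq.size_le
  have h1 : PT fun z : α × ℕ × Bool => mulm (q z.1) z.2.1 z.2.1 :=
    pt_mulm (hq.comp PT.fst') PT.snd'.fst PT.snd'.fst
  refine PT.foldl (f := fun x s (b : Bool) => if b then mulm (q x) (mulm (q x) s s) (a x)
    else mulm (q x) s s) ?_ hn.bits.reverse (pt_mod (PT.const 1) hq) ⟨4 * Q + 1, fun x k => ?_⟩
  · refine (PT.cond PT.snd'.snd (pt_mulm (hq.comp PT.fst') h1 (ha.comp PT.fst')) h1).congr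
      fun z => ?_
    cases z.2.2 <;> rfl
  · have h2 := sz_nat_le ((e (q x) (a x) (h0 x) ((n x).bits.reverse.take k) _
      (Nat.mod_lt 1 (h0 x))).trans (lt_two_pow_sz (q x)))
    have h3 := hQ x
    simp only [Polynomial.eval_add, Polynomial.eval_mul, Polynomial.eval_ofNat, Polynomial.eval_one]
    refine h2.trans ?_
    omega
@[fun_prop] theorem pt_invm (hq : PT q) (ha : PT a) : PT fun x => invm (q x) (a x) := by
  refine (pt_ite (pt_decEq hq (PT.const 0)) (PT.const 1) (pt_powm (pt_max hq (PT.const 1)) ha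
    (hq.sub (PT.const 2)) fun x => by omega)).congr fun x => ?_
  split_ifs with h
  · rw [h]
    rfl
  · rw [max_eq_left (by omega), invm]
@[fun_prop] theorem pt_divm (hq : PT q) (ha : PT a) (hb : PT b) :
    PT fun x => divm (q x) (a x) (b x) := by
  exact pt_mulm hq ha (pt_invm hq hb)
@[fun_prop] theorem pt_sgm (hq : PT q) (hb : PT b) : PT fun x => sgm (q x) (b x) := by
  exact pt_ite (pt_decEq (pt_mod hb (PT.const 2)) (PT.const 1)) (hq.sub (PT.const 1)) (PT.const 1)
@[fun_prop] theorem pt_eqN (hl : PT l) (hm : PT m) : PT fun x => eqN (l x) (m x) := by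
  refine ((PT.eqb hl.length hm.length).and (PT.all (f := fun _ (z : ℕ × ℕ) => eqb z.1 z.2)
    (PT.eqb PT.snd'.fst PT.snd'.snd) (hl.zip hm))).congr fun x => ?_
  generalize l x = u
  generalize m x = v
  induction u generalizing v with
  | nil => cases v <;> simp [eqN, eqb]
  | cons c u ih =>
    cases v with
    | nil => simp [eqN, eqb]
    | cons d v =>
      have := ih v
      rw [Bool.eq_iff_iff] at this ⊢
      simp only [eqN, eqb, decide_eq_true_eq, Bool.and_eq_true] at this
      simp only [eqN, eqb, decide_eq_true_eq, Bool.and_eq_true, List.cons.injEq,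
        List.length_cons, List.zip_cons_cons, List.all_cons, this, Nat.add_right_cancel_iff]
      exact and_left_comm
theorem pt_tb (hl : PT l) (ha : PT a) (hn : PU n) : PT fun x => tb (l x) (a x) (n x) := by
  exact PT.map (f := fun x i => (l x).getD (a x + i) 0)
    (PT.getD (hl.comp PT.fst') ((ha.comp PT.fst').add PT.snd') (PT.const 0)) hn.range

end pt

end Vale.Agent.P330Q
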