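import Vale.Agent.P330Q.Net

/-! Uniform circuits for polynomial time functions (task CL).
Plan. Let `pr l = l.map fun b => (b, !b)`. The code of `pr l` has a fixed layout: six symbols
`1 1 b (not b) 0 0` for every entry and a final `0`. Apply `PT` to
`F (l', x) = pr (f (l'.map Prod.fst, x))` and get `c : Cmd`, `P`; `Runs` allows an arbitrary rest `r`
below the input, so the machine may start with the main stack `1 :: ser (pr l) ++ labBits ..`
(fixed length `6 D + 2 + l`), and output bit `i` is symbol `6 i + 2` of the main stack at the end.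
Small steps: `exec_rch` with `table c` (as in `compile_outputs`); every label does at most one push
or pop and then jumps (describe `code` by a function `Lab c → Act`); the state `none` idles, so the
run may be continued to exactly `T = (n + 2) ^ e` steps (`eval_le_pow`, `eval_mono`). Wires of layer
`t`: one bit for every label (one-hot, `Fintype.equivFin`), and for each stack and position
`i < H = n + T + 1` the bits `nonempty`, `value`. Every gate reads all label bits and at most eight
cell bits (the four tops, or the cells `i - 1, i, i + 1` of its stack): `W = card + 8`. Layer 0 copies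
or negates an input wire or is constant (unused inputs of a gate point to wire 0, which exists
because `v ≠ []`). Number the gates `t * B + j`; the gate function depends on
finitely many cases (kind, stack, `i = 0`, `i + 1 = H`), use `pt_ofFin`, `pt_mk`, `pt_pi`. Prove by
induction on `t` that the wires of layer `t` describe the configuration after `t` steps (a general
lemma on `GC.wires` as `wires_spec` in `P330/HardSample.lean`). `out i` is the value wire of cell
`min (6 i + 2) (H - 1)` of the main stack in the last layer. -/

namespace Vale.Agent.P330Q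

open Vale.Agent.Lib.H23 Vale.Agent.P333 Vale.Agent.P325 Vale.Agent.P330 Vale.Agent.P330.Amp Finset

namespace CL

/-! ### wires -/

theorem wires_spec {W : ℕ} (C : GC W) (x : List Bool) :
    (C.wires x).length = x.length + C.length ∧ (C.wires x).take x.length = x ∧
      ∀ j (hj : j < C.length), (C.wires x).getD (x.length + j) false =
        C[j].2.val fun i => ((C.wires x).take (x.length + j)).getD (C[j].1 i) false := by
  induction C generalizing x with
  | nil => simp [GC.wires]
  | cons g l ih =>
    generalize hb : (g.2.val fun i => x.getD (g.1 i) false) = b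
    obtain ⟨h1, h2, h3⟩ := ih (x ++ [b])
    have e : GC.wires (g :: l) x = GC.wires l (x ++ [b]) := by rw [← hb]; rfl
    simp only [List.length_append, List.length_singleton] at h1 h2 h3
    have h4 : (GC.wires l (x ++ [b])).take x.length = x := by
      have := congrArg (List.take x.length) h2
      rwa [List.take_take, min_eq_left (by omega), List.take_left' rfl] at this
    rw [e]
    refine ⟨by rw [h1, List.length_cons]; omega, h4, fun j hj => ?_⟩
    cases j with
    | zero =>
      have := congrArg (fun w => w.getD x.length false) h2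
      simp only [List.getD_eq_getElem?_getD, List.getElem?_take, Nat.lt_succ_self, if_true] at this
      simp only [Nat.add_zero, h4, List.getElem_cons_zero, hb]
      rw [List.getD_eq_getElem?_getD, this]
      simp
    | succ j =>
      have := h3 j (by simpa using hj)
      rw [show x.length + (j + 1) = x.length + 1 + j by omega]
      simpa using this

theorem getD_take' (w : List Bool) {i a : ℕ} (h : a < i) :
    (w.take i).getD a false = w.getD a false := by
  simp only [List.getD_eq_getElem?_getD, List.getElem?_take, h, if_true]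

theorem wires_in {W : ℕ} (C : GC W) (x : List Bool) {j : ℕ} (hj : j < x.length) :
    (C.wires x).getD j false = x.getD j false := by
  rw [← getD_take' _ hj, (wires_spec C x).2.1]

theorem wires_gate {W : ℕ} (C : GC W) (x : List Bool) (h : C.Ok x.length) (j : ℕ)
    (hj : j < C.length) : (C.wires x).getD (x.length + j) false =
      C[j].2.val fun i => (C.wires x).getD (C[j].1 i) false := by
  rw [(wires_spec C x).2.2 j hj]
  exact congrArg _ (funext fun i => getD_take' _ (h j hj i))

/-! ### circuits for cellular rules -/

section ca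

variable (A : Type) [Fintype A] [DecidableEq A]

/-- number of wires of a cell -/
def mm : ℕ := Fintype.card (A → Bool)

/-- the fan-in -/
def ww : ℕ := Fintype.card (Fin 4 × (A → Bool))

theorem mm_pos : 0 < mm A := Fintype.card_pos

noncomputable def eW : Fin 4 × (A → Bool) ≃ Fin (ww A) := Fintype.equivFin _

noncomputable def eM : (A → Bool) ≃ Fin (mm A) := Fintype.equivFin _

def md (n : ℕ) : Fin (mm A) := ⟨n % mm A, Nat.mod_lt _ (mm_pos A)⟩

def pos (H i : ℕ) : Fin 4 → ℕ := ![0, i - 1, i, min (i + 1) (H - 1)]

abbrev Sp : Type := ℕ × Code (Bool → Option Bool)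

def sp0 : Sp := (0, ⟨fun _ => none⟩)

variable {A} [Nonempty A]

noncomputable def dec (x : (A → Bool) → Bool) : A := Function.invFun (fun (a : A) q => q a) x

omit [Fintype A] in
theorem dec_eq (a : A) : dec (fun q => q a) = a := by
  refine Function.leftInverse_invFun (f := fun (a : A) (q : A → Bool) => q a) ?_ a
  intro a b h
  simpa using (congrFun h fun c => decide (c = b))

variable (Φ : Bool → (Fin 4 → A) → A) (ini : Option Bool → A)

noncomputable def f0 (κ : Bool → Option Bool) (r : Fin (mm A)) (x : Fin (ww A) → Bool) : Bool :=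
  (eM A).symm r (ini (κ (x (eW A (0, fun _ => false)))))

noncomputable def f1 (b : Bool) (r : Fin (mm A)) (x : Fin (ww A) → Bool) : Bool :=
  (eM A).symm r (Φ b fun d => dec fun q => x (eW A (d, q)))

noncomputable def gate (N H : ℕ) (sp : List Sp) (n : ℕ) :
    (Fin (ww A) → ℕ) × Code ((Fin (ww A) → Bool) → Bool) :=
  if n / mm A < H then
    (fun _ => (sp.getD (n / mm A) sp0).1, ⟨f0 ini (sp.getD (n / mm A) sp0).2.val (md A n)⟩)
  else
    (fun w => N + (n / mm A - n / mm A % H - H + pos H (n / mm A % H) ((eW A).symm w).1) * mm A +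
      eM A ((eW A).symm w).2, ⟨f1 Φ (decide (n / mm A % H = 0)) (md A n)⟩)

noncomputable def circ (N H T : ℕ) (sp : List Sp) : GC (ww A) :=
  (List.range ((T + 1) * H * mm A)).map (gate Φ ini N H sp)

theorem pos_lt {H i : ℕ} (h : i < H) (d : Fin 4) : pos H i d < H := by
  fin_cases d <;> simp [pos] <;> omega

theorem sp_lt {N : ℕ} (hN : 0 < N) {sp : List Sp} (h : ∀ s ∈ sp, s.1 < N) (i : ℕ) :
    (sp.getD i sp0).1 < N := by
  by_cases hi : i < sp.length
  · rw [List.getD_eq_getElem _ _ hi]
    exact h _ (List.getElem_mem _)
  · rw [List.getD_eq_default _ _ (not_lt.1 hi)]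
    exact hN

theorem circ_ok {N H : ℕ} (T : ℕ) (hN : 0 < N) (hH : 0 < H) {sp : List Sp}
    (h : ∀ s ∈ sp, s.1 < N) : (circ Φ ini N H T sp).Ok N := by
  intro g hg w
  simp only [circ, List.getElem_map, List.getElem_range, gate]
  split_ifs with h1
  · have := sp_lt hN h (g / mm A)
    simp only
    omega
  · have h2 := pos_lt (Nat.mod_lt (g / mm A) hH) ((eW A).symm w).1
    have h3 := (eM A ((eW A).symm w).2).2
    have h4 := Nat.div_mul_le_self g (mm A)
    have h5 : (g / mm A - g / mm A % H - H + pos H (g / mm A % H) ((eW A).symm w).1 + 1) * mm A ≤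
        g / mm A * mm A := Nat.mul_le_mul_right _ (by omega)
    rw [Nat.add_mul, Nat.one_mul] at h5
    simp only
    omega

theorem circ_val {H T : ℕ} {x : List Bool} (hN : 0 < x.length) {sp : List Sp}
    (h : ∀ s ∈ sp, s.1 < x.length) (z : ℕ → ℕ → A)
    (h0 : ∀ i, z 0 i = ini ((sp.getD i sp0).2.val (x.getD (sp.getD i sp0).1 false)))
    (h1 : ∀ t i, i + 1 < H → z (t + 1) i = Φ (decide (i = 0)) fun d => z t (pos H i d)) :
    ∀ t ≤ T, ∀ i, i + t < H → ∀ q, ((circ Φ ini x.length H T sp).wires x).getD
      (x.length + (t * H + i) * mm A + eM A q) false = q (z t i) := by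
  intro t
  induction t with
  | zero =>
    intro _ i hi q
    have hq := (eM A q).2
    have a1 : ((0 * H + i) * mm A + eM A q) / mm A = i := by
      rw [Nat.zero_mul, Nat.zero_add, Nat.mul_comm, Nat.mul_add_div (mm_pos A),
        Nat.div_eq_of_lt hq, Nat.add_zero]
    have a2 : md A ((0 * H + i) * mm A + eM A q) = eM A q := by
      apply Fin.ext
      simp only [md]
      rw [Nat.mul_comm, Nat.mul_add_mod, Nat.mod_eq_of_lt hq]
    have a3 : (0 * H + i) * mm A + eM A q < (circ Φ ini x.length H T sp).length := by
      simp only [circ, List.length_map, List.length_range]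
      have : (0 * H + i + 1) * mm A ≤ (T + 1) * H * mm A :=
        Nat.mul_le_mul_right _ (by nlinarith)
      rw [Nat.add_mul _ 1, Nat.one_mul] at this
      omega
    rw [Nat.add_assoc, wires_gate _ x (circ_ok Φ ini T hN (by omega) h) _ a3]
    generalize hw : (circ Φ ini x.length H T sp).wires x = w
    simp only [circ, List.getElem_map, List.getElem_range, gate, a1, a2,
      if_pos (show i < H by omega), f0, Equiv.symm_apply_apply]
    rw [← hw, wires_in _ _ (sp_lt hN h i), h0]
  | succ t ih =>
    intro ht i hi q
    have hq := (eM A q).2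
    have a1 : (((t + 1) * H + i) * mm A + eM A q) / mm A = (t + 1) * H + i := by
      rw [Nat.mul_comm, Nat.mul_add_div (mm_pos A), Nat.div_eq_of_lt hq, Nat.add_zero]
    have a2 : md A (((t + 1) * H + i) * mm A + eM A q) = eM A q := by
      apply Fin.ext
      simp only [md]
      rw [Nat.mul_comm, Nat.mul_add_mod, Nat.mod_eq_of_lt hq]
    have a3 : ((t + 1) * H + i) * mm A + eM A q < (circ Φ ini x.length H T sp).length := by
      simp only [circ, List.length_map, List.length_range]
      have : ((t + 1) * H + i + 1) * mm A ≤ (T + 1) * H * mm A :=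
        Nat.mul_le_mul_right _ (by nlinarith)
      rw [Nat.add_mul _ 1, Nat.one_mul] at this
      omega
    have a4 : ((t + 1) * H + i) % H = i := by
      rw [Nat.mul_comm, Nat.mul_add_mod, Nat.mod_eq_of_lt (by omega)]
    have a5 : (t + 1) * H + i - i - H = t * H := by
      rw [Nat.add_mul]
      omega
    have a6 : ¬ (t + 1) * H + i < H := by
      rw [Nat.add_mul]
      omega
    have a7 : ∀ d, pos H i d + t < H := fun d => by
      fin_cases d <;> simp [pos] <;> omega
    rw [Nat.add_assoc, wires_gate _ x (circ_ok Φ ini T hN (by omega) h) _ a3]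
    generalize (circ Φ ini x.length H T sp).wires x = w at ih ⊢
    simp only [circ, List.getElem_map, List.getElem_range, gate, a1, a2, a4, a5,
      if_neg a6, f1, Equiv.symm_apply_apply, ih (by omega) _ (a7 _), dec_eq]
    rw [h1 t i (by omega)]

theorem pt_circ {α : Type} [Enc α] {N H T : α → ℕ} {sp : α → List Sp} (hN : PT N) (hH : PU H)
    (hT : PU T) (hsp : PT sp) : PT fun a => circ Φ ini (N a) (H a) (T a) (sp a) := by
  have hH' := hH.pt
  refine PT.map (f := fun a n => gate Φ ini (N a) (H a) (sp a) n) ?_
    (((hT.add (PU.const 1)).mul hH).mul (PU.const _)).range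
  have hm : PT fun p : α × ℕ => (⟨md A p.2⟩ : Code (Fin (mm A))) :=
    pt_codeFin (by simp only [md]; fun_prop)
  refine pt_ite (pt_decLt (by fun_prop) (by fun_prop)) (PT.pair (pt_pi fun _ => by fun_prop) ?_)
    (PT.pair (pt_pi fun w => ?_) ?_)
  · exact pt_mk2 (f0 ini) (c := fun p : α × ℕ => ((sp p.1).getD (p.2 / mm A) sp0).2)
      (by fun_prop) hm
  · generalize ((eW A).symm w).1 = d
    have : PT fun p : α × ℕ => pos (H p.1) (p.2 / mm A % H p.1) d := by
      fin_cases d <;> simp only [pos] <;> simp <;> fun_prop
    fun_prop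
  · exact pt_mk2 (f1 Φ) (pt_codeBool (pt_decEq (f := fun p : α × ℕ => p.2 / mm A % H p.1)
      (by fun_prop) (PT.const 0))) hm

end ca

/-! ### the machine -/

open Turing Turing.TM2

/-- keep, pop or push -/
def app : Option (Option Bool) → List Bool → List Bool
  | none, l => l
  | some none, l => l.tail
  | some (some b), l => b :: l

def Desc {Λ : Type} (q : Stmt (fun _ : K => Bool) Λ (Option Bool)) (nx : (K → Option Bool) → Λ)
    (op : K → Option (Option Bool)) : Prop :=
  ∀ v S, ∃ v', stepAux q v S = ⟨some (nx fun k => (S k)[0]?), v', fun k => app (op k) (S k)⟩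

theorem desc_pop {Λ : Type} (k : K) (x y z : Λ) : ∃ nx op,
    Desc (Stmt.pop k (fun _ o => o) (Stmt.goto (jump x y z))) nx op := by
  refine ⟨fun τ => jump x y z (τ k), fun k' => if k' = k then some none else none,
    fun v S => ⟨(S k).head?, ?_⟩⟩
  simp only [stepAux, List.head?_eq_getElem?]
  congr 1
  funext k'
  by_cases h : k' = k
  · subst h
    simp [app]
  · simp [app, h]

theorem desc_code {Λ : Type} (c : Cmd) : ∀ (ι : Lab c → Λ) (e : Λ) (l : Lab c), ∃ nx op,
    Desc (code c ι e l) nx op := by
  induction c with
  | skip => exact fun ι e l => ⟨fun _ => e, fun _ => none, fun v S => ⟨v, rfl⟩⟩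
  | push k x =>
    refine fun ι e l => ⟨fun _ => e, fun k' => if k' = k then some (some x) else none,
      fun v S => ⟨v, ?_⟩⟩
    simp only [code, stepAux]
    congr 1
    funext k'
    by_cases h : k' = k
    · subst h
      simp [app]
    · simp [app, h]
  | seq c d ihc ihd =>
    rintro ι e (l | l)
    · exact ihc _ _ l
    · exact ihd _ _ l
  | br k c0 cf ct ih0 ihf iht =>
    rintro ι e (l | l | l | l)
    · exact desc_pop _ _ _ _
    · exact ih0 _ _ l
    · exact ihf _ _ l
    · exact iht _ _ l
  | loop k cf ct ihf iht =>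
    rintro ι e (l | l | l)
    · exact desc_pop _ _ _ _
    · exact ihf _ _ l
    · exact iht _ _ l

def st {Λ : Type} (nx : Λ → (K → Option Bool) → Λ) (op : Λ → K → Option (Option Bool))
    (s : Λ × (K → List Bool)) : Λ × (K → List Bool) :=
  (nx s.1 fun k => (s.2 k)[0]?, fun k => app (op s.1 k) (s.2 k))

theorem iter_st {Λ : Type} (M : Λ → Stmt (fun _ : K => Bool) Λ (Option Bool))
    (nx : Λ → (K → Option Bool) → Λ) (op : Λ → K → Option (Option Bool))
    (h : ∀ l, Desc (M l) (nx l) (op l)) (t : ℕ) : ∀ (s : Λ × (K → List Bool)) v, ∃ v',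
      (flip bind (TM2.step M))^[t] (some ⟨some s.1, v, s.2⟩) =
        some (⟨some ((st nx op)^[t] s).1, v', ((st nx op)^[t] s).2⟩ :
          Cfg (fun _ : K => Bool) Λ (Option Bool)) := by
  induction t with
  | zero => exact fun s v => ⟨v, rfl⟩
  | succ t ih =>
    intro s v
    obtain ⟨v', e⟩ := h s.1 v s.2
    obtain ⟨v'', e'⟩ := ih (st nx op s) v'
    refine ⟨v'', ?_⟩
    rw [Function.iterate_succ_apply, Function.iterate_succ_apply, ← e']
    simp only [flip, bind, Option.bind, TM2.step, e]
    rfl

theorem machine (c : Cmd) : ∃ (Λ : Type) (_ : Fintype Λ) (l0 : Λ)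
    (nx : Λ → (K → Option Bool) → Λ) (op : Λ → K → Option (Option Bool)),
    ∀ S S' t T, Exec c S S' t → t ≤ T → ((st nx op)^[T] (l0, S.get)).2 = S'.get := by
  let M : Option (Lab c) → Stmt (fun _ : K => Bool) (Option (Lab c)) (Option Bool) :=
    fun l => l.elim (Stmt.goto fun _ => none) (code c some none)
  choose nx op h using desc_code c some none
  let nx' : Option (Lab c) → (K → Option Bool) → Option (Lab c) :=
    fun l => l.elim (fun _ => none) nx
  let op' : Option (Lab c) → K → Option (Option Bool) := fun l => l.elim (fun _ => none) op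
  have h' : ∀ l, Desc (M l) (nx' l) (op' l) := by
    rintro (_ | l)
    · exact fun v S => ⟨v, rfl⟩
    · exact h l
  refine ⟨Option (Lab c), @instFintypeOption _ (labFintype c), some (entry c), nx', op',
    fun S S' t T hx ht => ?_⟩
  obtain ⟨v', s, hs, e⟩ := exec_rch hx M some none (fun _ => rfl) none
  obtain ⟨v'', e'⟩ := iter_st M nx' op' h' s (some (entry c), S.get) none
  have e2 := e.symm.trans e'
  simp only [Option.some.injEq, Cfg.mk.injEq] at e2
  have e3 : (st nx' op')^[s] (some (entry c), S.get) = (none, S'.get) :=
    Prod.ext e2.1.symm e2.2.2.symm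
  obtain ⟨r, rfl⟩ := Nat.exists_eq_add_of_le (hs.trans ht)
  rw [Nat.add_comm, Function.iterate_add_apply, e3,
    Function.iterate_fixed (show st nx' op' (none, S'.get) = (none, S'.get) from rfl)]

/-- the cellular rule of the machine -/
def rule {Λ : Type} (nx : Λ → (K → Option Bool) → Λ) (op : Λ → K → Option (Option Bool))
    (b : Bool) (y : Fin 4 → Λ × (K → Option Bool)) : Λ × (K → Option Bool) :=
  (nx (y 0).1 (y 0).2, fun k => match op (y 0).1 k with
    | none => (y 2).2 k
    | some none => (y 3).2 k
    | some (some x) => bif b then some x else (y 1).2 k)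

def cell {Λ : Type} (s : Λ × (K → List Bool)) (i : ℕ) : Λ × (K → Option Bool) :=
  (s.1, fun k => (s.2 k)[i]?)

theorem cell_st {Λ : Type} (nx : Λ → (K → Option Bool) → Λ) (op : Λ → K → Option (Option Bool))
    (s : Λ × (K → List Bool)) {H i : ℕ} (h : i + 1 < H) :
    cell (st nx op s) i = rule nx op (decide (i = 0)) fun d => cell s (pos H i d) := by
  refine Prod.ext rfl (funext fun k => ?_)
  have e : min (i + 1) (H - 1) = i + 1 := by omega
  simp only [cell, st, rule, pos, e, Matrix.cons_val]
  rcases op s.1 k with _ | _ | x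
  · rfl
  · simp [app]
  · cases i <;> simp [app]

/-! ### input and output -/

def pr (l : List Bool) : List (Bool × Bool) := l.map fun b => (b, !b)

def six (b : Bool) : List Bool := [true, true, b, !b, false, false]

theorem ser_pr (l : List Bool) : ser (Enc.enc (pr l)) = l.flatMap six ++ [false] := by
  induction l with
  | nil => rfl
  | cons b l ih =>
    have e : ser (Enc.enc (pr (b :: l))) = six b ++ ser (Enc.enc (pr l)) := by
      cases b <;> rfl
    rw [e, ih, List.flatMap_cons, List.append_assoc]

theorem sz_pr (l : List Bool) : sz (pr l) = 6 * l.length + 1 := by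
  induction l with
  | nil => rfl
  | cons b l ih =>
    have e : sz (b, !b) = 5 := by cases b <;> rfl
    have e' : pr (b :: l) = (b, !b) :: pr l := rfl
    rw [e', sz_cons, ih, e, List.length_cons]
    omega

theorem six_get (l r : List Bool) : ∀ i < l.length,
    (l.flatMap six ++ r)[6 * i + 2]? = some (l.getD i false) := by
  induction l with
  | nil => intro i hi; simp at hi
  | cons b l ih =>
    intro i hi
    cases i with
    | zero => simp [six]
    | succ i =>
      have := ih i (by simpa using hi)
      rw [show 6 * (i + 1) + 2 = 6 * i + 2 + 1 + 1 + 1 + 1 + 1 + 1 by omega]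
      simpa [six] using this

def cT : Code (Bool → Option Bool) := ⟨fun _ => some true⟩
def cF : Code (Bool → Option Bool) := ⟨fun _ => some false⟩
def cI : Code (Bool → Option Bool) := ⟨fun b => some b⟩
def cN : Code (Bool → Option Bool) := ⟨fun b => some (!b)⟩

/-- the description of the first layer -/
def spec (u v : List Unit) : List Sp :=
  (0, cT) :: ((List.range u.length).flatMap
      (fun j => [(0, cT), (0, cT), (j, cI), (j, cN), (0, cF), (0, cF)]) ++
    (0, cF) :: (List.range v.length).map fun j => (u.length + j, cI))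

theorem pt_spec : PT fun p : List Unit × List Unit => spec p.1 p.2 := by
  unfold spec
  fun_prop

theorem spec_lt (u v : List Unit) (hv : 0 < v.length) :
    ∀ s ∈ spec u v, s.1 < u.length + v.length := by
  intro s hs
  simp only [spec, List.mem_cons, List.mem_append, List.mem_flatMap, List.mem_range, List.mem_map,
    List.not_mem_nil, or_false] at hs
  rcases hs with rfl | ⟨j, hj, rfl | rfl | rfl | rfl | rfl | rfl⟩ | rfl | ⟨j, hj, rfl⟩ <;>
    simp only <;> omega

theorem range_getD (l : List Bool) : (List.range l.length).map (fun j => l.getD j false) = l := by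
  apply List.ext_getElem (by simp)
  intro i h1 h2
  simp [h2]

theorem spec_map (u v : List Unit) (l m : List Bool) (hl : l.length = u.length)
    (hm : m.length = v.length) :
    (spec u v).map (fun s => s.2.val ((l ++ m).getD s.1 false)) =
      (true :: (l.flatMap six ++ [false] ++ m)).map some := by
  conv_rhs => rw [← range_getD l, ← range_getD m]
  simp only [spec, List.map_cons, List.map_append, List.map_flatMap, List.map_map, List.map_nil,
    List.flatMap_map, List.append_assoc, List.cons_append, List.nil_append, ← hl, ← hm, six]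
  congr 2
  · refine List.flatMap_congr fun j hj => ?_
    rw [List.getD_append _ _ _ _ (List.mem_range.1 hj)]
    rfl
  · congr 1
    refine List.map_congr_left fun j _ => ?_
    simp only [Function.comp_apply]
    rw [List.getD_append_right _ _ _ _ (Nat.le_add_right _ _), Nat.add_sub_cancel_left]
    rfl

theorem spec_getD (sp : List Sp) (x L : List Bool)
    (h : sp.map (fun s => s.2.val (x.getD s.1 false)) = L.map some) (i : ℕ) :
    L[i]? = (sp.getD i sp0).2.val (x.getD (sp.getD i sp0).1 false) := by
  have h1 := congrArg (fun w => w.getD i none) h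
  have h2 := List.getD_map (l := sp) (d := sp0) (n := i) fun s => s.2.val (x.getD s.1 false)
  refine Eq.trans ?_ (h1.symm.trans h2)
  simp only [List.getD_eq_getElem?_getD, List.getElem?_map]
  cases L[i]? <;> rfl

theorem labBits_eq {X : Type} [Enc X] (n : ℕ) (x : X) (h : sz x ≤ n) :
    ∃ r, labBits n x = ser (Enc.enc x) ++ r := by
  obtain ⟨d, rfl⟩ := Nat.exists_eq_add_of_le h
  rw [labBits, List.range_add, List.map_append]
  exact ⟨_, congrArg (· ++ _) (range_getD _)⟩

end CL

open CL in
theorem cl : CLStmt := by
  classical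
  intro X _ f hf
  have hF : PT fun p : List (Bool × Bool) × X => pr (f (p.1.map Prod.fst, p.2)) := by
    have h1 : PT fun p : List (Bool × Bool) × X => f (p.1.map Prod.fst, p.2) :=
      hf.comp (PT.pair (PT.map (f := fun _ (a : Bool × Bool) => a.1) (by fun_prop) PT.fst') PT.snd')
    exact PT.map (f := fun _ b => (b, !b)) (by fun_prop) h1
  obtain ⟨c, P, hc⟩ := hF
  obtain ⟨k, hk⟩ := eval_le_pow P
  obtain ⟨Λ, _, l0, nx, op, hM⟩ := machine c
  have : Nonempty Λ := ⟨l0⟩
  let A := Λ × (K → Option Bool)
  let ini : Option Bool → A := fun o => (l0, fun k => if k = K.m then o else none)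
  let q0 : A → Bool := fun a => (a.2 K.m).getD false
  let T : List Unit × List Unit → ℕ := fun p => (p.1.length + p.2.length + 2) ^ (3 * k + 3)
  have hT : PU T := (((PU.len (by fun_prop)).add (PU.len (by fun_prop))).add (PU.const 2)).pow _
  have hT' := hT.pt
  have hO : ∀ a b : ℕ, PT fun p : (List Unit × List Unit) × ℕ => p.1.1.length + p.1.2.length +
      (T p.1 * (3 * T p.1) + min (6 * p.2 + 2) (3 * T p.1 - 1)) * a + b := by
    clear_value T
    intro a b
    fun_prop
  refine ⟨ww A, 6 * mm A + 2 * (3 * k + 3),
    fun p => circ (rule nx op) ini (p.1.length + p.2.length) (3 * T p) (T p) (spec p.1 p.2),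
    fun p => p.1.1.length + p.1.2.length +
      (T p.1 * (3 * T p.1) + min (6 * p.2 + 2) (3 * T p.1 - 1)) * mm A + eM A q0, ?_,
    pt_circ _ _ (by fun_prop) ((PU.const 3).mul hT) hT pt_spec, hO _ _, fun u v => ?_⟩
  · have := mm_pos A
    simp only [ww, mm, Fintype.card_prod, Fintype.card_fin] at *
    omega
  have hT1 : 1 ≤ T (u, v) := Nat.one_le_pow _ _ (by omega)
  have hlen : (circ (rule nx op) ini (u.length + v.length) (3 * T (u, v)) (T (u, v))
      (spec u v)).length = (T (u, v) + 1) * (3 * T (u, v)) * mm A := by
    simp only [circ, List.length_map, List.length_range]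
    rfl
  refine ⟨?_, fun hv => ?_⟩
  · have h1 : 6 * mm A ≤ (u.length + v.length + 2) ^ (6 * mm A) :=
      Nat.lt_two_pow_self.le.trans (Nat.pow_le_pow_left (by omega) _)
    have h2 : (u.length + v.length + 2) ^ (2 * (3 * k + 3)) = T (u, v) * T (u, v) := by
      rw [two_mul, pow_add]
    rw [hlen, pow_add, h2]
    calc (T (u, v) + 1) * (3 * T (u, v)) * mm A ≤ (2 * T (u, v)) * (3 * T (u, v)) * mm A := by
          gcongr; omega
      _ = 6 * mm A * (T (u, v) * T (u, v)) := by ring
      _ ≤ _ := Nat.mul_le_mul_right _ h1
  have hv' : 0 < v.length := List.length_pos_iff.2 hv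
  refine ⟨circ_ok _ _ _ (Nat.add_pos_right _ hv') (by omega) (spec_lt u v hv'), fun i => ?_, ?_⟩
  · have h1 : (T (u, v) * (3 * T (u, v)) + min (6 * i + 2) (3 * T (u, v) - 1) + 1) * mm A ≤
        (T (u, v) + 1) * (3 * T (u, v)) * mm A :=
      Nat.mul_le_mul_right _ (by rw [Nat.add_mul]; omega)
    have h2 := (eM A q0).2
    rw [Nat.add_mul _ 1, Nat.one_mul] at h1
    simp only [hlen]
    omega
  intro l x hl hx i hi
  obtain ⟨r, hr⟩ := labBits_eq _ x hx
  have hm : (labBits v.length x).length = v.length := by simp [labBits]
  have hN : (l ++ labBits v.length x).length = u.length + v.length := by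
    rw [List.length_append, hl, hm]
  have hrun := hc (pr l, x)
  have e1 : (pr l).map Prod.fst = l := by simp [pr, Function.comp_def]
  simp only [e1] at hrun
  have hsz : sz (pr l, x) + 2 ≤ (u.length + v.length + 2) ^ 3 := by
    rw [sz_pair, sz_pr, hl]
    nlinarith [Nat.zero_le ((u.length + v.length) ^ 3), Nat.zero_le ((u.length + v.length) ^ 2)]
  have ht : P.eval (sz (pr l, x)) ≤ T (u, v) :=
    (hk _).trans ((Nat.pow_le_pow_left hsz k).trans (by
      rw [← pow_mul]
      exact Nat.pow_le_pow_right (by omega) (by omega)))
  have hs3 : (u.length + v.length + 2) ^ 3 ≤ T (u, v) := Nat.pow_le_pow_right (by omega) (by omega)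
  have hout : sz (pr (f (l, x))) ≤ sz (pr l, x) + P.eval (sz (pr l, x)) := hrun.size_le
  rw [sz_pr] at hout
  have hfin := hM _ _ _ _ (hrun r) ht
  have e2 : ser (Enc.enc (pr l, x)) ++ r = true :: (l.flatMap six ++ [false] ++
      labBits v.length x) := by
    rw [hr, ← ser_pr, enc_pair, ser, List.cons_append, List.append_assoc]
  rw [e2] at hfin
  have key := circ_val (rule nx op) ini (H := 3 * T (u, v)) (T := T (u, v))
    (x := l ++ labBits v.length x) (sp := spec u v) (by omega) (by rw [hN]; exact spec_lt u v hv')
    (fun t i => cell ((st nx op)^[t] (l0, (⟨true :: (l.flatMap six ++ [false] ++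
      labBits v.length x), [], [], []⟩ : St).get)) i)
    (fun i => by
      refine Prod.ext rfl (funext fun k => ?_)
      cases k
      · exact spec_getD _ _ _ (spec_map u v l _ hl hm) i
      all_goals rfl)
    (fun t i hi => by rw [Function.iterate_succ_apply']; exact cell_st nx op _ hi)
    (T (u, v)) le_rfl (6 * i + 2) (by omega) q0
  rw [hN] at key
  simp only
  rw [min_eq_left (by omega), key]
  simp only [q0, cell, hfin, St.get]
  rw [ser_pr, List.append_assoc, six_get _ _ i hi]
  rfl

end Vale.Agent.P330Q
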