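import Vale.Agent.P330Q.Top
import Vale.Agent.P330.Unit
import Vale.Agent.P330.Init

/-! Samplers on the cube from lists of small bias (task Samp).
Plan. `var_le`: Fourier analysis on `Vec k` (`perf_dot`, `Perf.parseval`, `hatB_shift`, and
`UnitA.var_eq_sum`, `UnitA.cheb` of `P330/Unit.lean`). `exists_bias`: let `m = size ((k + 1) n)`; take
`β = k0`, `g = gens 1` from `P330/Init.lean` (e.g. apply `init` to a trivial instance with `b = 0`
and a list of length `m`; or use `InitA` directly), `b = k / β + 1`, and the numbers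
`idx (Lv b g m a j, 0) % 2 ^ k` for `a < 2 ^ m`, `j : Vec β`. A nonzero character of `Vec k` extends
by zero to a nonzero `χ : Big b β`; Jensen and `UnitA.expect_psi_sq` give the bias `b / 2 ^ m`.
Polynomial time: matrices as tables (`gtab`, `ip_mulVec`, `ip_parity` in `P330/InstPT.lean`); or
compute in numbers: multiplication by `X` modulo `X ^ β + X ^ (β / 2) + 1` is a shift and a xor. -/

namespace Vale.Agent.P330Q

open Vale.Agent.Lib.H23 Vale.Agent.P333 Vale.Agent.P325 Vale.Agent.P330 Vale.Agent.P330.Amp Finset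
open Matrix
open scoped BigOperators

variable {k : ℕ}

/-- the translation number `i` -/
def nb (k : ℕ) (S : List ℕ) (i : ℕ) : Vec k := ofN k (S.getD i 0)

/-- the squared bias is at most `e` -/
def Bias (k : ℕ) (S : List ℕ) (e : ℝ) : Prop :=
  S ≠ [] ∧ ∀ ψ : Vec k, ψ ≠ 0 → (𝔼 i : Fin S.length, chi (ψ ⬝ᵥ nb k S i)) ^ 2 ≤ e

/-- average over the neighbours -/
noncomputable def avS (S : List ℕ) (φ : Vec k → ℝ) (a : Vec k) : ℝ :=
  𝔼 i : Fin S.length, φ (a + nb k S i)

variable {S : List ℕ} {e : ℝ}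

theorem Bias.mono (h : Bias k S e) {e' : ℝ} (he : e ≤ e') : Bias k S e' :=
  ⟨h.1, fun ψ hψ => (h.2 ψ hψ).trans he⟩

open Classical in
theorem avS_ind (hS : S ≠ []) (P : Vec k → Prop) (a : Vec k) : avS S (fun b => ind (P b)) a =
    (((range S.length).filter fun i => P (a + nb k S i)).card : ℝ) / S.length := by
  have _ := hS
  rw [avS, expect_eq_sum_div_card, card_univ, Fintype.card_fin,
    Fin.sum_univ_eq_sum_range (fun i => ind (P (a + nb k S i)))]
  simp only [ind_eq_ite, sum_boole]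

theorem var_le (h : Bias k S e) (he : 0 ≤ e) (φ : Vec k → ℝ) :
    (𝔼 a, (avS S φ a - 𝔼 b, φ b) ^ 2) ≤ e * 𝔼 b, φ b ^ 2 := by
  classical
  have : Nonempty (Fin S.length) := ⟨⟨0, List.length_pos_iff.2 h.1⟩⟩
  have hmean : (𝔼 a, avS S φ a) = 𝔼 b, φ b := by
    unfold avS
    rw [expect_comm]
    simp only [expect_add_right' φ]
    exact Fintype.expect_const _
  have hhat : ∀ ψ : Vec k, hatB dotProduct (avS S φ) ψ =
      hatB dotProduct φ ψ * 𝔼 i : Fin S.length, chi (ψ ⬝ᵥ nb k S i) := by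
    intro ψ
    simp only [mul_expect, ← perf_dot.hatB_shift]
    simp only [hatB, avS, expect_mul]
    rw [expect_comm]
  rw [← hmean, UnitA.var_eq_sum perf_dot]
  calc ∑ ψ ∈ univ.erase 0, hatB dotProduct (avS S φ) ψ ^ 2
      ≤ ∑ ψ ∈ univ.erase 0, e * hatB dotProduct φ ψ ^ 2 := by
        refine sum_le_sum fun ψ hψ => ?_
        rw [hhat, mul_pow, mul_comm]
        exact mul_le_mul_of_nonneg_right (h.2 ψ (ne_of_mem_erase hψ)) (sq_nonneg _)
    _ ≤ ∑ ψ, e * hatB dotProduct φ ψ ^ 2 :=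
        sum_le_sum_of_subset_of_nonneg (erase_subset _ _) fun ψ _ _ => mul_nonneg he (sq_nonneg _)
    _ = _ := by rw [← mul_sum, perf_dot.parseval]

theorem tail1 (h : Bias k S e) (he : 0 ≤ e) {φ : Vec k → ℝ} (hφ : ∀ a, 0 ≤ φ a ∧ φ a ≤ 1) {s : ℝ}
    (hs : 0 < s) (hm : (𝔼 b, φ b) ≤ s / 2) :
    (𝔼 a, ind (s ≤ avS S φ a)) ≤ 4 * e * (𝔼 b, φ b) / s ^ 2 := by
  have hvar : (𝔼 a, (avS S φ a - 𝔼 b, φ b) ^ 2) ≤ e * 𝔼 b, φ b := by
    refine (var_le h he φ).trans (mul_le_mul_of_nonneg_left (expect_le_expect fun b _ => ?_) he)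
    have := hφ b
    nlinarith [this.1, this.2]
  have h1 := UnitA.cheb (fun a => avS S φ a - 𝔼 b, φ b) (fun a => s ≤ avS S φ a) (half_pos hs)
    (fun y hy => le_trans (by linarith) (le_abs_self _))
  refine h1.trans ((div_le_div_of_nonneg_right hvar (by positivity)).trans (le_of_eq ?_))
  field_simp
  norm_num

theorem tail2 (h : Bias k S e) (he : 0 ≤ e) {φ : Vec k → ℝ} (hφ : ∀ a, 0 ≤ φ a ∧ φ a ≤ 1) {s : ℝ}
    (hs : 0 < s) : (𝔼 a, ind (s ≤ |avS S φ a - 𝔼 b, φ b|)) ≤ e / s ^ 2 := by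
  have hvar : (𝔼 a, (avS S φ a - 𝔼 b, φ b) ^ 2) ≤ e := by
    refine (var_le h he φ).trans (mul_le_of_le_one_right he (expect_le univ_nonempty fun b _ => ?_))
    have := hφ b
    nlinarith [this.1, this.2]
  have h1 := UnitA.cheb (fun a => avS S φ a - 𝔼 b, φ b) (fun a => s ≤ |avS S φ a - 𝔼 b, φ b|) hs
    (fun y hy => hy)
  exact h1.trans (div_le_div_of_nonneg_right hvar (by positivity))

/-- union bound for densities -/
theorem dens_le {P Q R : Vec k → Prop} (h : ∀ a, P a → Q a ∨ R a) :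
    (𝔼 a, ind (P a)) ≤ (𝔼 a, ind (Q a)) + 𝔼 a, ind (R a) := by
  rw [← expect_add_distrib]
  exact expect_le_expect fun a _ => (ind_mono (h a)).trans (ind_or_le _ _)

theorem dens_shift (P : Vec k → Prop) (v : Vec k) : (𝔼 a, ind (P (a + v))) = 𝔼 a, ind (P a) := by
  exact expect_add_right' (fun a => ind (P a)) v

theorem dens_ex {n : ℕ} {P : ℕ → Vec k → Prop} {x : ℝ} (h : ∀ i < n, (𝔼 a, ind (P i a)) ≤ x) :
    (𝔼 a, ind (∃ i < n, P i a)) ≤ n * x := by
  have h1 : ∀ a, ind (∃ i < n, P i a) ≤ ∑ i ∈ range n, ind (P i a) := by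
    intro a
    by_cases c : ∃ i < n, P i a
    · obtain ⟨i, hi, hP⟩ := c
      refine (ind_le_one _).trans ?_
      rw [← ind_of hP]
      exact single_le_sum (f := fun i => ind (P i a)) (fun j _ => ind_nonneg _) (mem_range.2 hi)
    · rw [ind_of_not c]
      exact sum_nonneg fun j _ => ind_nonneg _
  refine (expect_le_expect fun a _ => h1 a).trans ?_
  rw [expect_sum_comm]
  refine (sum_le_sum fun i hi => h i (mem_range.1 hi)).trans (le_of_eq ?_)
  rw [sum_const, card_range, nsmul_eq_mul]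

theorem dens_zero {P : Vec k → Prop} (h : (𝔼 a, ind (P a)) * 2 ^ k < 1) (a : Vec k) : ¬ P a := by
  intro hP
  have h1 : (1 : ℝ) ≤ ∑ a, ind (P a) := by
    rw [← ind_of hP]
    exact single_le_sum (f := fun a => ind (P a)) (fun j _ => ind_nonneg _) (mem_univ a)
  have h2 : ((univ : Finset (Vec k)).card : ℝ) = 2 ^ k := by
    rw [card_univ, Fintype.card_fun, ZMod.card, Fintype.card_fin]
    norm_num
  rw [expect_eq_sum_div_card, h2, div_mul_cancel₀ _ (by positivity)] at h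
  linarith

theorem dens_ne {P : Vec k → Prop} (h : (𝔼 a, ind (P a)) < 1) : ∃ a, ¬ P a := by
  by_contra c
  have h1 : ∀ a, ind (P a) = 1 := fun a => ind_of (by_contra fun hc => c ⟨a, hc⟩)
  simp only [h1] at h
  rw [Fintype.expect_const] at h
  exact lt_irrefl _ h

/-- the number of `β` bits whose bit `i` is the parity of `p i j` over `j < n` -/
def spPar (β n : ℕ) (p : ℕ → ℕ → Bool) : ℕ :=
  Nat.ofBits fun i : Fin β => ((List.range n).countP (p i)).bodd

theorem spPar_lt (β n : ℕ) (p : ℕ → ℕ → Bool) : spPar β n p < 2 ^ β := Nat.ofBits_lt_two_pow _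

theorem ofN_spPar (β n : ℕ) (p : ℕ → ℕ → Bool) (i : Fin β) :
    ofN β (spPar β n p) i = ∑ j ∈ range n, b2 (p i j) := by
  rw [ofN, spPar, Nat.testBit_ofBits_lt _ _ i.2, ip_parity]

/-- iteration -/
def spIt (f : ℕ → ℕ) (n x : ℕ) : ℕ := (List.range n).foldl (fun y _ => f y) x

theorem spIt_succ (f : ℕ → ℕ) (n x : ℕ) : spIt f (n + 1) x = f (spIt f n x) := by
  rw [spIt, List.range_succ, List.foldl_append]
  rfl

theorem ofN_spIt {β : ℕ} {f : ℕ → ℕ} {A : Mat β} (hf : ∀ y, ofN β (f y) = A *ᵥ ofN β y)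
    (n x : ℕ) : ofN β (spIt f n x) = (A ^ n) *ᵥ ofN β x := by
  induction n with
  | zero => rw [pow_zero, one_mulVec]; rfl
  | succ n ih => rw [spIt_succ, hf, ih, pow_succ', mulVec_mulVec]

theorem sp_b2_and (x y : Bool) : b2 (x && y) = b2 x * b2 y := by cases x <;> cases y <;> decide

/-- multiplication by the generator -/
def spMv (h y : ℕ) : ℕ := spPar (2 * h) (2 * h) fun i j => InitA.ent 1 h i j && y.testBit j

theorem ofN_spMv (h y : ℕ) : ofN (2 * h) (spMv h y) = InitA.gn h 1 *ᵥ ofN (2 * h) y := by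
  funext i
  rw [spMv, ofN_spPar, Finset.sum_range]
  exact sum_congr rfl fun j _ => sp_b2_and _ _

/-- multiplication by a ring element -/
def spAl (h m a y : ℕ) : ℕ :=
  spPar (2 * h) m fun i s => a.testBit s && (spIt (spMv h) (min s m) y).testBit i

theorem ofN_spAl (h m a y : ℕ) :
    ofN (2 * h) (spAl h m a y) = alpha (InitA.gn h 1) m a *ᵥ ofN (2 * h) y := by
  funext i
  rw [spAl, ofN_spPar, alpha, sum_mulVec, Finset.sum_apply]
  refine sum_congr rfl fun s hs => ?_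
  rw [min_eq_left (mem_range.1 hs).le]
  cases a.testBit s
  · simp [b2]
  · rw [if_pos rfl, Bool.true_and, ← ofN_spIt (ofN_spMv h)]
    rfl

/-- the sample point -/
def spNum (h m k a j : ℕ) : ℕ :=
  Nat.ofBits fun l : Fin k => (spIt (spAl h m a) (min (l : ℕ) k + 1) j).testBit 0

theorem ofN_spNum {h : ℕ} (h0 : 0 < 2 * h) (m k a j : ℕ) (l : Fin k) :
    ofN k (spNum h m k a j) l = Lv k (InitA.gn h 1) m a (ofN (2 * h) j) l ⟨0, h0⟩ := by
  rw [ofN, spNum, Nat.testBit_ofBits_lt _ _ l.2, Lv, ← ofN_spIt (ofN_spAl h m a)]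
  have e : min (l : ℕ) k = l := min_eq_left l.2.le
  simp only [e]
  rfl

/-- the list of all sample points -/
def spList (h m k : ℕ) : List ℕ :=
  (List.range (2 ^ (2 * h) * 2 ^ m)).map fun t => spNum h m k (t % 2 ^ m) (t / 2 ^ m)

theorem sp_alpha {β m m' a : ℕ} (g : Mat β) (hm : m ≤ m') (ha : a < 2 ^ m) :
    alpha g m a = alpha g m' a := by
  refine sum_subset (range_mono hm) fun s _ hs => ?_
  rw [Nat.testBit_lt_two_pow (ha.trans_le (Nat.pow_le_pow_right (by norm_num)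
    (not_lt.1 fun c => hs (mem_range.2 c))))]
  rfl

theorem spList_bias {l m : ℕ} (hm : m ≤ 2 * 3 ^ l) (k : ℕ) :
    Bias k (spList (3 ^ l) m k) (k / 2 ^ m) := by
  have h0 : 0 < 2 * 3 ^ l := by positivity
  have hlen : (spList (3 ^ l) m k).length = 2 ^ (2 * 3 ^ l) * 2 ^ m := by simp [spList]
  refine ⟨List.length_pos_iff.1 (by rw [hlen]; positivity), fun ψ hψ => ?_⟩
  have hu : ∀ a, 0 < a → a < 2 ^ m → IsUnit (alpha (InitA.gn (3 ^ l) 1) m a) := by
    intro a h1 h2
    rw [sp_alpha _ hm h2]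
    exact (InitA.good l).unit a h1 (h2.trans_le (Nat.pow_le_pow_right (by norm_num) hm))
  let χ : Big k (2 * 3 ^ l) := fun i => Pi.single ⟨0, h0⟩ (ψ i)
  have hχ : χ ≠ 0 := by
    intro c
    apply hψ
    funext i
    have := congrFun (congrFun c i) ⟨0, h0⟩
    simpa [χ] using this
  have h1 : ∀ a j, UnitA.bb χ (Lv k (InitA.gn (3 ^ l) 1) m a (ofN _ j)) =
      ψ ⬝ᵥ ofN k (spNum (3 ^ l) m k a j) := by
    intro a j
    refine sum_congr rfl fun i _ => ?_
    rw [ofN_spNum h0, single_dotProduct]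
  have h2 : (𝔼 i : Fin (spList (3 ^ l) m k).length, chi (ψ ⬝ᵥ nb k (spList (3 ^ l) m k) i)) =
      𝔼 j, 𝔼 a : Fin (2 ^ m), chi (UnitA.bb χ (Lv k (InitA.gn (3 ^ l) 1) m a j)) := by
    rw [expect_vec]
    simp only [h1]
    rw [ib_expect2 _ _ fun j a => chi (ψ ⬝ᵥ ofN k (spNum (3 ^ l) m k a j)), expect_eq_sum_div_card,
      card_univ, Fintype.card_fin,
      Fin.sum_univ_eq_sum_range (fun i => chi (ψ ⬝ᵥ nb k (spList (3 ^ l) m k) i)), hlen]
    congr 1
    refine sum_congr rfl fun t ht => ?_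
    rw [nb, List.getD_eq_getElem _ _ (by rw [hlen]; exact mem_range.1 ht)]
    simp only [spList, List.getElem_map, List.getElem_range]
  rw [h2]
  refine le_trans ?_ (UnitA.expect_psi_sq hu hχ)
  have h3 := expect_mul_sq_le_sq_mul_sq univ
    (fun j => 𝔼 a : Fin (2 ^ m), chi (UnitA.bb χ (Lv k (InitA.gn (3 ^ l) 1) m a j))) fun _ => 1
  simpa using h3

section pt

variable {X : Type} [Enc X]

theorem pt_spPar {β n : X → ℕ} {p : X → ℕ → ℕ → Bool} (hβ : PU β) (hn : PU n)
    (hp : PT fun q : (X × ℕ) × ℕ => p q.1.1 q.1.2 q.2) : PT fun x => spPar (β x) (n x) (p x) :=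
  pt_ofBits (f := fun x i => ((List.range (n x)).countP (p x i)).bodd) hβ
    (PT.bodd (pt_countP (f := fun q : X × ℕ => p q.1 q.2) hp (hn.range.comp PT.fst')))

theorem pt_spIt {f : X → ℕ → ℕ} {n i β : X → ℕ} (hf : PT fun p : X × ℕ => f p.1 p.2) (hn : PU n)
    (hi : PT i) (hβ : PU β) (h : ∀ x y, f x y < 2 ^ β x) : PT fun x => spIt (f x) (n x) (i x) := by
  refine pt_fold (f := fun x y (_ : ℕ) => f x y) (fun q => List.range (4 * β q.1 + 1))
    (hf.comp (PT.pair PT.fst' PT.snd'.fst)) hn.range hi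
    ((((PU.const 4).mul hβ).add (PU.const 1)).range.comp PT.fst') fun x s a => ?_
  have h1 := sz_nat_le (h x s)
  have h2 := length_lt_sz (List.range (4 * β x + 1))
  rw [List.length_range] at h2
  change _ ≤ sz s + sz (List.range (4 * β x + 1))
  omega

theorem pt_spMv {h y : X → ℕ} (hh : PU h) (hy : PT y) : PT fun x => spMv (h x) (y x) :=
  pt_spPar (p := fun x i j => InitA.ent 1 (h x) i j && (y x).testBit j)
    ((PU.const 2).mul hh) ((PU.const 2).mul hh)
    ((InitA.pt_ent 1 (hh.pt.comp PT.fst'.fst) PT.fst'.snd PT.snd').and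
      (pt_testBit (hy.comp PT.fst'.fst) PT.snd'))

theorem pt_spAl {h m a y : X → ℕ} (hh : PU h) (hm : PU m) (ha : PT a) (hy : PT y) :
    PT fun x => spAl (h x) (m x) (a x) (y x) := by
  have hm' : PU fun q : (X × ℕ) × ℕ => m q.1.1 := hm.comp PT.fst'.fst
  have hh' : PU fun q : (X × ℕ) × ℕ => h q.1.1 := hh.comp PT.fst'.fst
  have h1 : PT fun q : (X × ℕ) × ℕ => spIt (spMv (h q.1.1)) (min q.2 (m q.1.1)) (y q.1.1) :=
    pt_spIt (f := fun q : (X × ℕ) × ℕ => spMv (h q.1.1)) (pt_spMv (hh'.comp PT.fst') PT.snd')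
      (hm'.of_le (pt_min PT.snd' hm'.pt) fun _ => min_le_right _ _) (hy.comp PT.fst'.fst)
      ((PU.const 2).mul hh') fun _ _ => spPar_lt _ _ _
  exact pt_spPar
    (p := fun x i s => (a x).testBit s && (spIt (spMv (h x)) (min s (m x)) (y x)).testBit i)
    ((PU.const 2).mul hh) hm
    ((pt_testBit (ha.comp PT.fst'.fst) PT.snd').and (pt_testBit h1 PT.fst'.snd))

theorem pt_spNum {h m n a j : X → ℕ} (hh : PU h) (hm : PU m) (hn : PU n) (ha : PT a) (hj : PT j) :
    PT fun x => spNum (h x) (m x) (n x) (a x) (j x) := by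
  have hn' : PU fun q : X × ℕ => n q.1 := hn.comp PT.fst'
  have h1 : PT fun q : X × ℕ =>
      spIt (spAl (h q.1) (m q.1) (a q.1)) (min q.2 (n q.1) + 1) (j q.1) :=
    pt_spIt (f := fun q : X × ℕ => spAl (h q.1) (m q.1) (a q.1))
      (pt_spAl (hh.comp PT.fst'.fst) (hm.comp PT.fst'.fst) (ha.comp PT.fst'.fst) PT.snd')
      ((hn'.of_le (pt_min PT.snd' hn'.pt) fun _ => min_le_right _ _).add (PU.const 1))
      (hj.comp PT.fst') ((PU.const 2).mul (hh.comp PT.fst')) fun _ _ => spPar_lt _ _ _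
  exact pt_ofBits
    (f := fun x l => (spIt (spAl (h x) (m x) (a x)) (min l (n x) + 1) (j x)).testBit 0) hn
    (pt_testBit h1 (PT.const 0))

theorem pt_spList {h m n : X → ℕ} (hh : PU h) (hm : PU m) (hn : PU n)
    (hL : PU fun x => 2 ^ (2 * h x) * 2 ^ m x) : PT fun x => spList (h x) (m x) (n x) := by
  have h2 : PT fun q : X × ℕ => 2 ^ m q.1 := pt_two_pow (hm.comp PT.fst')
  exact PT.map (f := fun x t => spNum (h x) (m x) (n x) (t % 2 ^ m x) (t / 2 ^ m x))
    (pt_spNum (hh.comp PT.fst') (hm.comp PT.fst') (hn.comp PT.fst') (pt_mod PT.snd' h2)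
      (PT.div PT.snd' h2)) hL.range

end pt

/-- the number of bits of `N` in unary -/
def spW (N : ℕ) : List Unit := (List.range N.size).map fun _ => ()

theorem spW_length (N : ℕ) : (spW N).length = N.size := by simp [spW]

theorem sp_len_le {N : ℕ} (hN : 0 < N) :
    2 ^ (2 * InitA.hh (spW N)) * 2 ^ N.size ≤ 64 * N ^ 4 := by
  have h1 := (InitA.hh_spec (spW N)).2.1
  rw [spW_length] at h1
  obtain ⟨r, hr⟩ : ∃ r, N.size = r + 1 := ⟨N.size - 1, by have := Nat.size_pos.2 hN; omega⟩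
  have h2 : 2 ^ r ≤ N := Nat.lt_size.1 (by omega)
  calc 2 ^ (2 * InitA.hh (spW N)) * 2 ^ N.size ≤ 2 ^ (3 * N.size + 2) * 2 ^ N.size :=
        Nat.mul_le_mul_right _ (Nat.pow_le_pow_right (by norm_num) h1)
    _ = 64 * (2 ^ r) ^ 4 := by rw [hr]; ring
    _ ≤ 64 * N ^ 4 := Nat.mul_le_mul_left _ (Nat.pow_le_pow_left h2 4)

theorem sp_len_le' (N : ℕ) : 2 ^ (2 * InitA.hh (spW N)) * 2 ^ N.size ≤ 64 * N ^ 4 + 4 := by
  rcases Nat.eq_zero_or_pos N with rfl | hN
  · decide
  · exact (sp_len_le hN).trans (Nat.le_add_right _ _)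

theorem exists_bias : ∃ B : List Unit × List Unit → List ℕ, PT B ∧ ∀ u v : List Unit, v ≠ [] →
    v.length ≤ (B (u, v)).length ∧ (B (u, v)).length ≤ 64 * ((u.length + 1) * v.length) ^ 4 ∧
      (∀ s ∈ B (u, v), s < 2 ^ u.length) ∧ Bias u.length (B (u, v)) (1 / v.length) := by
  refine ⟨fun p => spList (InitA.hh (spW ((p.1.length + 1) * p.2.length)))
    ((p.1.length + 1) * p.2.length).size p.1.length, ?_, fun u v hv => ?_⟩
  · have hN : PU fun p : List Unit × List Unit => (p.1.length + 1) * p.2.length :=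
      ((PU.len PT.fst').add (PU.const 1)).mul (PU.len PT.snd')
    have hm := pu_size hN.pt
    have hW : PT fun p : List Unit × List Unit => spW ((p.1.length + 1) * p.2.length) :=
      PT.map (f := fun _ _ => ()) (PT.const _) hm.range
    have hβ := InitA.pu_hh.comp hW
    have hh : PU fun p : List Unit × List Unit => InitA.hh (spW ((p.1.length + 1) * p.2.length)) :=
      hβ.of_le (InitA.pt_hh.comp hW) fun _ => by omega
    exact pt_spList hh hm (PU.len PT.fst')
      ((((PU.const 64).mul (hN.pow 4)).add (PU.const 4)).of_le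
        ((pt_two_pow hβ).mul (pt_two_pow hm)) fun _ => sp_len_le' _)
  · have hn : 0 < v.length := List.length_pos_iff.2 hv
    set N := (u.length + 1) * v.length with hN
    have hN0 : 0 < N := by positivity
    have h1 : N < 2 ^ N.size := Nat.lt_size_self N
    have hlen : (spList (InitA.hh (spW N)) N.size u.length).length =
        2 ^ (2 * InitA.hh (spW N)) * 2 ^ N.size := by simp [spList]
    refine ⟨?_, ?_, fun s hs => ?_, ?_⟩
    · rw [hlen]
      calc v.length ≤ N := Nat.le_mul_of_pos_left _ (Nat.succ_pos _)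
        _ ≤ 2 ^ N.size := h1.le
        _ ≤ _ := Nat.le_mul_of_pos_left _ (by positivity)
    · rw [hlen]
      exact sp_len_le hN0
    · obtain ⟨t, -, rfl⟩ := List.mem_map.1 hs
      exact Nat.ofBits_lt_two_pow _
    · obtain ⟨⟨l, hl⟩, -, h2⟩ := InitA.hh_spec (spW N)
      rw [spW_length, hl] at h2
      change Bias u.length (spList (InitA.hh (spW N)) N.size u.length) _
      rw [hl]
      refine (spList_bias h2 u.length).mono ?_
      rw [div_le_div_iff₀ (by positivity) (by exact_mod_cast hn), one_mul]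
      have h3 : u.length * v.length ≤ 2 ^ N.size :=
        (Nat.mul_le_mul_right _ (Nat.le_succ _)).trans h1.le
      exact_mod_cast h3

end Vale.Agent.P330Q
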