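import Vale.Agent.P330Q.Ar
import Vale.Agent.P330Q.Samp

/-! The storage code: every processor `a` of the cube holds a polynomial in two variables of
bidegree at most `(d, d')`; neighbours along `S` share rows, neighbours along `S'` share columns
(up to signs). Every character of the cube carries exactly one codeword. -/

namespace Vale.Agent.P330Q

open Vale.Agent.Lib.H23 Vale.Agent.P325 Vale.Agent.P330 Vale.Agent.P330.Amp Finset
open Matrix Polynomial
open scoped BigOperators

/-- parameters of the code -/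
structure CP where
  p : ℕ
  k : ℕ
  S : List ℕ
  S' : List ℕ

instance encCP : Enc CP := ⟨fun c => Enc.enc (c.p, List.range c.k, c.S, c.S')⟩

namespace CP

variable (c : CP)

abbrev d : ℕ := c.S.length
abbrev d' : ℕ := c.S'.length
/-- size of a table -/
def ts : ℕ := (c.d + 1) * (c.d' + 1)

structure Ok : Prop where
  hd : 3 * c.d + 3 < c.p
  hd' : 3 * c.d' + 3 < c.p
  d16 : 16 ≤ c.d
  d16' : 16 ≤ c.d'
  bias : Bias c.k c.S (1 / (2 ^ 17 * (1 + c.d')))
  bias' : Bias c.k c.S' (1 / 2 ^ 17)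

end CP

section defs

variable {p k : ℕ}

/-- signs -/
def sg (b : ZMod 2) : ZMod p := if b = 1 then -1 else 1

/-- bit number `j` of a processor -/
def bt (a : Vec k) (j : ℕ) : Bool := (toN a).testBit j

def ej (k j : ℕ) : Vec k := ofN k (2 ^ j)

/-- polynomial functions of degree at most `d` -/
def Lo (d : ℕ) (f : ZMod p → ZMod p) : Prop :=
  ∃ q : (ZMod p)[X], q.natDegree ≤ d ∧ ∀ x, f x = q.eval x

abbrev View (p : ℕ) : Type := ZMod p → ZMod p → ZMod p

def Bi (d d' : ℕ) (ω : View p) : Prop := (∀ y, Lo d fun x => ω x y) ∧ ∀ x, Lo d' (ω x)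

/-- the point of the edge `e < 2 d` (generator `e / 2`, sign `e % 2`) -/
def zp (p d e : ℕ) : ZMod p := ((d + 1 + e : ℕ) : ZMod p)

/-- the edge of the generator `i` on which the component `ψ` vanishes -/
def root (S : List ℕ) (ε : ℕ → ZMod 2) (ψ : Vec k) (i : ℕ) : ℕ :=
  2 * i + (ψ ⬝ᵥ nb k S i + ε i + 1).val

variable [Fact p.Prime]

def mu (S : List ℕ) (ε : ℕ → ZMod 2) (ψ : Vec k) (x : ZMod p) : ZMod p :=
  ∏ i ∈ range S.length, (1 - x / zp p S.length (root S ε ψ i))

def hat (y : Vec k → ZMod p) (ψ : Vec k) : ZMod p := (∑ a, y a * sg (ψ ⬝ᵥ a)) / 2 ^ k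

/-- Lagrange basis for the points `0, …, d` -/
def lb (d β : ℕ) (x : ZMod p) : ZMod p :=
  ∏ γ ∈ (range (d + 1)).erase β, (x - γ) / ((β : ZMod p) - γ)

end defs

namespace CP

variable (c : CP) [Fact c.p.Prime]

/-- the codeword of `y` in the code with the twists `ε`, `ε'` -/
def encV (ε ε' : ℕ → ZMod 2) (y : Vec c.k → ZMod c.p) (a : Vec c.k) : View c.p :=
  fun x x' => ∑ ψ : Vec c.k, hat y ψ * sg (ψ ⬝ᵥ a) * mu c.S ε ψ x * mu c.S' ε' ψ x'

def RowOk (ε : ℕ → ZMod 2) (W : Vec c.k → View c.p) (a : Vec c.k) (e : ℕ) : Prop :=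
  ∀ y, W (a + nb c.k c.S (e / 2)) (zp c.p c.d e) y = sg (ε (e / 2) + e) * W a (zp c.p c.d e) y

def ColOk (ε' : ℕ → ZMod 2) (W : Vec c.k → View c.p) (a : Vec c.k) (e : ℕ) : Prop :=
  ∀ x, W (a + nb c.k c.S' (e / 2)) x (zp c.p c.d' e) = sg (ε' (e / 2) + e) * W a x (zp c.p c.d' e)

/-- no dispute at `a` (untwisted code) -/
def Calm (W : Vec c.k → View c.p) (a : Vec c.k) : Prop :=
  (∀ e < 2 * c.d, c.RowOk 0 W a e) ∧ ∀ e < 2 * c.d', c.ColOk 0 W a e

/-- the polynomial with the given values on the grid -/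
def toView (t : List ℕ) : View c.p := fun x x' =>
  ∑ β ∈ range (c.d + 1), ∑ β' ∈ range (c.d' + 1),
    (t.getD (β * (c.d' + 1) + β') 0 : ℕ) * lb c.d β x * lb c.d' β' x'

/-- the values on the grid -/
def toTab (ω : View c.p) : List ℕ :=
  (List.range c.ts).map fun i => (ω (i / (c.d' + 1) : ℕ) (i % (c.d' + 1) : ℕ)).val

/-- twists given as lists -/
def twF (l : List ℕ) (i : ℕ) : ZMod 2 := (l.getD i 0 : ℕ)

def encT (ε ε' : List ℕ) (y : Vec c.k → ZMod c.p) (a : Vec c.k) : List ℕ :=
  c.toTab (c.encV (twF ε) (twF ε') y a)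

end CP

/-! ### computations -/

def lbN (p d β x : ℕ) : ℕ :=
  prodm p (((List.range (d + 1)).filter fun γ => decide (γ ≠ β)).map fun γ =>
    divm p (subm p x γ) (subm p β γ))

namespace CP

variable (c : CP)

def evN (t : List ℕ) (x x' : ℕ) : ℕ :=
  summ c.p ((List.range c.ts).map fun i => mulm c.p (mulm c.p (t.getD i 0)
    (lbN c.p c.d (i / (c.d' + 1)) x)) (lbN c.p c.d' (i % (c.d' + 1)) x'))

/-- the row proposed by the edge `e` -/
def rowv (ε : List ℕ) (rows : List (List ℕ)) (e y : ℕ) : ℕ :=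
  mulm c.p (sgm c.p (ε.getD (e / 2) 0 + e)) (c.evN (rows.getD (e / 2) []) (c.d + 1 + e) y)

/-- the column proposed by the edge `e` -/
def colv (ε' : List ℕ) (cols : List (List ℕ)) (e x : ℕ) : ℕ :=
  mulm c.p (sgm c.p (ε'.getD (e / 2) 0 + e)) (c.evN (cols.getD (e / 2) []) x (c.d' + 1 + e))

def trust (ε ε' : List ℕ) (rows cols : List (List ℕ)) (e : ℕ) : Bool :=
  decide (3 * c.d' ≤ 2 * (List.range (2 * c.d')).countP fun e' =>
    decide (c.rowv ε rows e (c.d' + 1 + e') = c.colv ε' cols e' (c.d + 1 + e)))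

/-- the table decoded from the tables of the neighbours -/
def decT (ε ε' : List ℕ) (rows cols : List (List ℕ)) : List ℕ :=
  (List.range c.ts).map fun i => summ c.p
    ((((List.range (2 * c.d)).filter (c.trust ε ε' rows cols)).take (c.d + 1)).map fun e =>
      mulm c.p (c.rowv ε rows e (i % (c.d' + 1))) (prodm c.p
        (((((List.range (2 * c.d)).filter (c.trust ε ε' rows cols)).take (c.d + 1)).filter
          fun e2 => decide (e2 ≠ e)).map fun e2 =>
            divm c.p (subm c.p (i / (c.d' + 1)) (c.d + 1 + e2)) (subm c.p e e2))))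

/-- test for disputes -/
def calmT (t : List ℕ) (rows cols : List (List ℕ)) : Bool :=
  ((List.range (2 * c.d)).all fun e => (List.range (c.d' + 1)).all fun y =>
    decide (c.rowv [] rows e y = c.evN t (c.d + 1 + e) y)) &&
  (List.range (2 * c.d')).all fun e => (List.range (c.d + 1)).all fun x =>
    decide (c.colv [] cols e x = c.evN t x (c.d' + 1 + e))

/-- the factor of an edge at a point -/
def ell (d e x : ℕ) : ℕ := subm c.p 1 (divm c.p x (d + 1 + e))

/-- one entry of the removal of the twist at the generator `i`: `d` is the number of generators,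
`x` the coordinate, `v0`, `v1` the entries at the processor and at its neighbour -/
def flipN (d i x v0 v1 : ℕ) : ℕ :=
  divm c.p (addm c.p
    (mulm c.p (divm c.p (c.ell d (2 * i + 1) x) (c.ell d (2 * i) x)) (addm c.p v0 v1))
    (mulm c.p (divm c.p (c.ell d (2 * i) x) (c.ell d (2 * i + 1) x)) (subm c.p v0 v1))) 2

def flipR (i : ℕ) (t0 t1 : List ℕ) : List ℕ :=
  (List.range c.ts).map fun n => c.flipN c.d i (n / (c.d' + 1)) (t0.getD n 0) (t1.getD n 0)

def flipC (i : ℕ) (t0 t1 : List ℕ) : List ℕ :=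
  (List.range c.ts).map fun n => c.flipN c.d' i (n % (c.d' + 1)) (t0.getD n 0) (t1.getD n 0)

/-- the encoder; `y` lists the values at the processors `0, …, 2 ^ k - 1` -/
def encN (y : List ℕ) (a : ℕ) : List ℕ :=
  (List.range c.ts).map fun n => summ c.p ((List.range (2 ^ c.k)).map fun ψ =>
    mulm c.p (mulm c.p (divm c.p (summ c.p ((List.range (2 ^ c.k)).map fun b =>
      mulm c.p (y.getD b 0) (sgm c.p ((List.range c.k).countP fun j => (ψ &&& b).testBit j))))
        (2 ^ c.k)) (sgm c.p ((List.range c.k).countP fun j => (ψ &&& a).testBit j)))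
      (mulm c.p
        (prodm c.p ((List.range c.d).map fun i => c.ell c.d (2 * i + (((List.range c.k).countP
          fun j => (ψ &&& c.S.getD i 0).testBit j) + 1) % 2) (n / (c.d' + 1))))
        (prodm c.p ((List.range c.d').map fun i => c.ell c.d' (2 * i + (((List.range c.k).countP
          fun j => (ψ &&& c.S'.getD i 0).testBit j) + 1) % 2) (n % (c.d' + 1))))))

end CP

end Vale.Agent.P330Q
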