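import Vale.Agent.P330Q.Code

/-! Polynomial functions, tables and views (task CodeA). -/

namespace Vale.Agent.P330Q

open Vale.Agent.Lib.H23 Vale.Agent.P325 Vale.Agent.P330 Vale.Agent.P330.Amp Finset
open Matrix Polynomial
open scoped BigOperators

section lo

variable {p d : ℕ} {f g : ZMod p → ZMod p}

theorem sg_zero : (sg 0 : ZMod p) = 1 := by
  rw [sg, if_neg (by decide)]
theorem sg_one : (sg 1 : ZMod p) = -1 := by
  rw [sg, if_pos rfl]
theorem codea_two (a : ZMod 2) : a = 0 ∨ a = 1 := by revert a; decide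
theorem sg_add (a b : ZMod 2) : (sg (a + b) : ZMod p) = sg a * sg b := by
  have h11 : (1 + 1 : ZMod 2) = 0 := by decide
  rcases codea_two a with rfl | rfl <;> rcases codea_two b with rfl | rfl <;>
    simp [sg_zero, sg_one, h11]
theorem sg_mul_self (a : ZMod 2) : (sg a : ZMod p) * sg a = 1 := by
  rcases codea_two a with rfl | rfl <;> simp [sg_zero, sg_one]
theorem cast_sgm_sg (hp : 0 < p) (b : ℕ) : ((sgm p b : ℕ) : ZMod p) = sg (b : ZMod 2) := by
  rw [cast_sgm hp, ← ZMod.natCast_mod b 2]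
  rcases Nat.mod_two_eq_zero_or_one b with h | h <;> simp [h, sg_zero, sg_one]

theorem Lo.const (x : ZMod p) : Lo d fun _ => x := ⟨C x, by simp, fun _ => by simp⟩
theorem Lo.add (hf : Lo d f) (hg : Lo d g) : Lo d fun x => f x + g x := by
  obtain ⟨q, hq, e⟩ := hf
  obtain ⟨r, hr, e'⟩ := hg
  exact ⟨q + r, (natDegree_add_le _ _).trans (max_le hq hr), fun x => by simp [e, e']⟩
theorem Lo.sub (hf : Lo d f) (hg : Lo d g) : Lo d fun x => f x - g x := by
  obtain ⟨q, hq, e⟩ := hf
  obtain ⟨r, hr, e'⟩ := hg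
  exact ⟨q - r, (natDegree_sub_le _ _).trans (max_le hq hr), fun x => by simp [e, e']⟩
theorem Lo.cmul (hf : Lo d f) (a : ZMod p) : Lo d fun x => a * f x := by
  obtain ⟨q, hq, e⟩ := hf
  exact ⟨C a * q, (natDegree_C_mul_le _ _).trans hq, fun x => by simp [e]⟩
theorem Lo.mulc (hf : Lo d f) (a : ZMod p) : Lo d fun x => f x * a := by
  simpa only [mul_comm] using hf.cmul a
theorem Lo.sum {ι : Type} (s : Finset ι) {F : ι → ZMod p → ZMod p} (h : ∀ i ∈ s, Lo d (F i)) :
    Lo d fun x => ∑ i ∈ s, F i x := by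
  classical
  induction s using Finset.induction_on with
  | empty => simpa using Lo.const 0
  | insert i s hi ih =>
    simp only [sum_insert hi]
    exact (h i (mem_insert_self _ _)).add (ih fun j hj => h j (mem_insert_of_mem hj))
/-- products of affine functions -/
theorem Lo.prod {ι : Type} (s : Finset ι) (hs : s.card ≤ d) (a b : ι → ZMod p) :
    Lo d fun x => ∏ i ∈ s, (a i * x + b i) := by
  refine ⟨∏ i ∈ s, (C (a i) * X + C (b i)), (natDegree_prod_le _ _).trans ?_,
    fun x => by simp [eval_prod]⟩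
  refine (sum_le_card_nsmul _ _ 1 fun i _ => natDegree_linear_le).trans ?_
  simpa using hs

variable [Fact p.Prime]

theorem Lo.eq_of_agree (hf : Lo d f) (hg : Lo d g) (s : Finset (ZMod p)) (hs : d < s.card)
    (h : ∀ x ∈ s, f x = g x) : f = g := by
  obtain ⟨q, hq, e⟩ := hf
  obtain ⟨r, hr, e'⟩ := hg
  have : q = r := by
    refine eq_of_natDegree_lt_card_of_eval_eq' q r s (fun x hx => ?_) (by omega)
    rw [← e, ← e', h x hx]
  funext x
  rw [e, e', this]

/-- the same with numbered points -/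
theorem Lo.eq_of_agree' (hf : Lo d f) (hg : Lo d g) (s : Finset ℕ) (hs : d < s.card)
    {z : ℕ → ZMod p} (hz : Set.InjOn z s) (h : ∀ e ∈ s, f (z e) = g (z e)) : f = g := by
  classical
  refine hf.eq_of_agree hg (s.image z) (by rwa [card_image_of_injOn hz]) fun x hx => ?_
  obtain ⟨e, he, rfl⟩ := mem_image.1 hx
  exact h e he

theorem lo_basis (s : Finset ℕ) (hs : s.card = d + 1) (z : ℕ → ZMod p) {e : ℕ} (he : e ∈ s) :
    Lo d fun x => ∏ e2 ∈ s.erase e, (x - z e2) / (z e - z e2) := by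
  have h := Lo.prod (d := d) (s.erase e) (by rw [card_erase_of_mem he]; omega)
    (fun e2 => (z e - z e2)⁻¹) fun e2 => -(z e2) * (z e - z e2)⁻¹
  convert h using 2 with x
  exact prod_congr rfl fun e2 _ => by ring

theorem basis_at (s : Finset ℕ) {z : ℕ → ZMod p} (hz : Set.InjOn z s) {e e' : ℕ} (he : e ∈ s)
    (he' : e' ∈ s) :
    ∏ e2 ∈ s.erase e, (z e' - z e2) / (z e - z e2) = if e = e' then 1 else 0 := by
  split_ifs with h
  · subst h
    refine prod_eq_one fun e2 h2 => div_self (sub_ne_zero.2 fun h3 => ?_)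
    exact (ne_of_mem_erase h2) (hz (mem_of_mem_erase h2) he h3.symm)
  · exact prod_eq_zero (mem_erase.2 ⟨fun h' => h h'.symm, he'⟩) (by simp)

/-- interpolation through `d + 1` numbered points -/
theorem Lo.interp' (hf : Lo d f) (s : Finset ℕ) (hs : s.card = d + 1) {z : ℕ → ZMod p}
    (hz : Set.InjOn z s) (x : ZMod p) :
    f x = ∑ e ∈ s, f (z e) * ∏ e2 ∈ s.erase e, (x - z e2) / (z e - z e2) := by
  have h := hf.eq_of_agree' (Lo.sum s fun e he => (lo_basis s hs z he).cmul (f (z e))) s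
    (by omega) hz fun e' he' => by
      rw [sum_congr rfl fun e he => by rw [basis_at s hz he he']]
      simp [he']
  exact congrFun h x

theorem codea_inj {n : ℕ} (hn : n ≤ p) :
    Set.InjOn (fun e : ℕ => (e : ZMod p)) (range n : Finset ℕ) := by
  intro a ha b hb h
  have ha' : a < p := (mem_range.1 (mem_coe.1 ha)).trans_le hn
  have hb' : b < p := (mem_range.1 (mem_coe.1 hb)).trans_le hn
  have := congrArg ZMod.val h
  simpa only [ZMod.val_cast_of_lt ha', ZMod.val_cast_of_lt hb'] using this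

theorem lo_lb (β : ℕ) (hβ : β ≤ d) : Lo d (lb d β : ZMod p → ZMod p) :=
  lo_basis (range (d + 1)) (card_range _) (fun e : ℕ => (e : ZMod p)) (mem_range.2 (by omega))

theorem lb_nat (hp : d < p) {β γ : ℕ} (hβ : β ≤ d) (hγ : γ ≤ d) :
    lb d β (γ : ZMod p) = if β = γ then 1 else 0 :=
  basis_at (range (d + 1)) (codea_inj hp) (mem_range.2 (by omega)) (mem_range.2 (by omega))

theorem Lo.interp (hf : Lo d f) (hp : d < p) (x : ZMod p) :
    f x = ∑ β ∈ range (d + 1), f β * lb d β x :=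
  hf.interp' (range (d + 1)) (card_range _) (codea_inj hp) x

theorem zp_inj (hp : 3 * d + 3 < p) : Set.InjOn (zp p d) (range (2 * d) : Finset ℕ) := by
  intro a ha b hb h
  have ha' := mem_range.1 (mem_coe.1 ha)
  have hb' := mem_range.1 (mem_coe.1 hb)
  have := codea_inj (p := p) le_rfl (mem_coe.2 (mem_range.2 (show d + 1 + a < p by omega)))
    (mem_coe.2 (mem_range.2 (show d + 1 + b < p by omega))) h
  omega
theorem zp_ne (hp : 3 * d + 3 < p) {e β : ℕ} (he : e < 2 * d) (hβ : β ≤ d) :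
    zp p d e ≠ (β : ZMod p) := by
  intro h
  have := codea_inj (p := p) le_rfl (mem_coe.2 (mem_range.2 (show d + 1 + e < p by omega)))
    (mem_coe.2 (mem_range.2 (show β < p by omega))) h
  omega
theorem two_ne (hp : 3 * d + 3 < p) : (2 : ZMod p) ≠ 0 := by
  intro h
  have := codea_inj (p := p) le_rfl (mem_coe.2 (mem_range.2 (show 2 < p by omega)))
    (mem_coe.2 (mem_range.2 (show 0 < p by omega))) (by simpa using h)
  omega

theorem cast_lbN (hp : 2 < p) (β x : ℕ) : ((lbN p d β x : ℕ) : ZMod p) = lb d β (x : ZMod p) := by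
  have hp0 : 0 < p := by omega
  rw [lbN, cast_prodm, List.map_map, ← List.prod_toFinset _ (List.nodup_range.filter _), lb]
  refine prod_congr ?_ fun γ _ => ?_
  · ext γ; simp [and_comm]
  · simp [cast_divm hp, cast_subm hp0]

theorem codea_sum {M : Type} [AddCommMonoid M] (m n : ℕ) (F : ℕ → M) :
    ∑ i ∈ range (m * n), F i = ∑ β ∈ range m, ∑ β' ∈ range n, F (β * n + β') := by
  induction m with
  | zero => simp
  | succ m ih => rw [Nat.succ_mul, sum_range_add, ih, sum_range_succ]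

theorem codea_div {n β' : ℕ} (β : ℕ) (h : β' < n) : (β * n + β') / n = β := by
  rw [add_comm, Nat.add_mul_div_right _ _ (by omega), Nat.div_eq_of_lt h, zero_add]

theorem codea_mod {n β' : ℕ} (β : ℕ) (h : β' < n) : (β * n + β') % n = β' := by
  rw [add_comm, Nat.add_mul_mod_self_right, Nat.mod_eq_of_lt h]

theorem codea_lt {m n β β' : ℕ} (hβ : β < m) (h : β' < n) : β * n + β' < m * n := by
  have := Nat.mul_le_mul_right n (show β + 1 ≤ m from hβ)
  rw [Nat.succ_mul] at this
  omega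

end lo

namespace CP

variable {c : CP} [Fact c.p.Prime]

theorem bi_toView (t : List ℕ) : Bi c.d c.d' (c.toView t) :=
  ⟨fun _ => Lo.sum _ fun β hβ => Lo.sum _ fun _ _ =>
      ((lo_lb β (Nat.le_of_lt_succ (mem_range.1 hβ))).cmul _).mulc _,
    fun _ => Lo.sum _ fun _ _ => Lo.sum _ fun β' hβ' =>
      (lo_lb β' (Nat.le_of_lt_succ (mem_range.1 hβ'))).cmul _⟩
theorem codea_getD (ω : View c.p) {i : ℕ} (hi : i < c.ts) : (c.toTab ω).getD i 0 =
    (ω (i / (c.d' + 1) : ℕ) (i % (c.d' + 1) : ℕ)).val := by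
  simp [toTab, List.getD_eq_getElem?_getD, hi]
theorem cast_toTab (ω : View c.p) {i : ℕ} (hi : i < c.ts) : (((c.toTab ω).getD i 0 : ℕ) : ZMod c.p) =
    ω (i / (c.d' + 1) : ℕ) (i % (c.d' + 1) : ℕ) := by
  rw [codea_getD ω hi, ZMod.natCast_zmod_val]
theorem toView_toTab (h : c.Ok) {ω : View c.p} (hω : Bi c.d c.d' ω) : c.toView (c.toTab ω) = ω := by
  have hd := h.hd
  have hd' := h.hd'
  funext x x'
  rw [(hω.1 x').interp (by omega) x, toView]
  refine sum_congr rfl fun β hβ => ?_
  rw [(hω.2 β).interp (by omega) x', sum_mul]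
  refine sum_congr rfl fun β' hβ' => ?_
  rw [cast_toTab ω (codea_lt (mem_range.1 hβ) (mem_range.1 hβ')), codea_div β (mem_range.1 hβ'),
    codea_mod β (mem_range.1 hβ')]
  ring
theorem toTab_inj (h : c.Ok) {ω ω' : View c.p} (hω : Bi c.d c.d' ω) (hω' : Bi c.d c.d' ω')
    (e : c.toTab ω = c.toTab ω') : ω = ω' := by
  rw [← toView_toTab h hω, e, toView_toTab h hω']
theorem length_toTab (ω : View c.p) : (c.toTab ω).length = c.ts := by simp [toTab]
theorem toTab_lt (ω : View c.p) (i : ℕ) : (c.toTab ω).getD i 0 < c.p := by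
  by_cases hi : i < c.ts
  · rw [codea_getD ω hi]; exact ZMod.val_lt _
  · rw [List.getD_eq_default _ _ (by rw [length_toTab]; omega)]
    exact (Fact.out : c.p.Prime).pos
theorem cast_toTab_zero (ω : View c.p) : (((c.toTab ω).getD 0 0 : ℕ) : ZMod c.p) = ω 0 0 := by
  rw [cast_toTab ω (by unfold ts; positivity)]
  simp
/-- a reduced list with the right classes is the table -/
theorem eq_toTab {ω : View c.p} {f : ℕ → ℕ} (h1 : ∀ i < c.ts, f i < c.p)
    (h2 : ∀ i < c.ts, (f i : ZMod c.p) = ω (i / (c.d' + 1) : ℕ) (i % (c.d' + 1) : ℕ)) :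
    (List.range c.ts).map f = c.toTab ω :=
  List.map_congr_left fun i hi => eq_val (h1 i (List.mem_range.1 hi)) (h2 i (List.mem_range.1 hi))
theorem codea_grid (h : c.Ok) (t : List ℕ) {β β' : ℕ} (hβ : β ≤ c.d) (hβ' : β' ≤ c.d') :
    c.toView t β β' = (t.getD (β * (c.d' + 1) + β') 0 : ℕ) := by
  have hd := h.hd
  have hd' := h.hd'
  rw [toView, sum_eq_single_of_mem β (mem_range.2 (by omega)),
    sum_eq_single_of_mem β' (mem_range.2 (by omega)), lb_nat (by omega) hβ hβ,
    lb_nat (by omega) hβ' hβ']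
  · simp
  · intro γ hγ hne
    rw [lb_nat (by omega) (Nat.le_of_lt_succ (mem_range.1 hγ)) hβ', if_neg hne, mul_zero]
  · intro γ hγ hne
    refine sum_eq_zero fun γ' _ => ?_
    rw [lb_nat (by omega) (Nat.le_of_lt_succ (mem_range.1 hγ)) hβ, if_neg hne, mul_zero, zero_mul]
theorem toTab_toView (h : c.Ok) {t : List ℕ} (h1 : t.length = c.ts) (h2 : ∀ n ∈ t, n < c.p) :
    c.toTab (c.toView t) = t := by
  rw [← eq_toTab (f := fun i => t.getD i 0)]
  · refine List.ext_getElem (by simp [h1]) fun i hi hi' => ?_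
    simp [List.getD_eq_getElem?_getD, hi']
  · intro i hi
    rw [List.getD_eq_getElem _ _ (by omega)]
    exact h2 _ (List.getElem_mem _)
  · intro i hi
    rw [codea_grid h t (Nat.le_of_lt_succ (Nat.div_lt_of_lt_mul (by rwa [mul_comm])))
      (Nat.le_of_lt_succ (Nat.mod_lt _ (by omega))), Nat.div_add_mod']
theorem cast_evN (h : c.Ok) (t : List ℕ) (x x' : ℕ) :
    ((c.evN t x x' : ℕ) : ZMod c.p) = c.toView t x x' := by
  have hp : 2 < c.p := by have := h.hd; omega
  rw [evN, cast_summ_range, ts, codea_sum, toView]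
  refine sum_congr rfl fun β _ => sum_congr rfl fun β' hβ' => ?_
  rw [cast_mulm, cast_mulm, cast_lbN hp, cast_lbN hp, codea_div β (mem_range.1 hβ'),
    codea_mod β (mem_range.1 hβ')]
theorem cast_rowv (h : c.Ok) (ε : List ℕ) (rows : List (List ℕ)) (e y : ℕ) :
    ((c.rowv ε rows e y : ℕ) : ZMod c.p) =
      sg (twF ε (e / 2) + e) * c.toView (rows.getD (e / 2) []) (zp c.p c.d e) y := by
  rw [rowv, cast_mulm, cast_sgm_sg (by have := h.hd; omega), cast_evN h, Nat.cast_add]
  rfl
theorem cast_colv (h : c.Ok) (ε' : List ℕ) (cols : List (List ℕ)) (e x : ℕ) :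
    ((c.colv ε' cols e x : ℕ) : ZMod c.p) =
      sg (twF ε' (e / 2) + e) * c.toView (cols.getD (e / 2) []) x (zp c.p c.d' e) := by
  rw [colv, cast_mulm, cast_sgm_sg (by have := h.hd; omega), cast_evN h, Nat.cast_add]
  rfl

theorem codea_eq {m n : ℕ} (hm : m < c.p) (hn : n < c.p) : m = n ↔ (m : ZMod c.p) = n :=
  ⟨fun h => by rw [h], fun h => codea_inj (p := c.p) le_rfl (mem_coe.2 (mem_range.2 hm))
    (mem_coe.2 (mem_range.2 hn)) h⟩

theorem codea_flip {s : ZMod 2} {u v : ZMod c.p} : sg s * u = v ↔ u = sg s * v :=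
  ⟨fun h => by rw [← h, ← mul_assoc, sg_mul_self, one_mul],
    fun h => by rw [h, ← mul_assoc, sg_mul_self, one_mul]⟩

/-- the test for disputes is exact -/
theorem calmT_iff (h : c.Ok) (Y : Vec c.k → List ℕ) (a : Vec c.k) {rows cols : List (List ℕ)}
    (hr : ∀ i < c.d, rows.getD i [] = Y (a + nb c.k c.S i))
    (hc : ∀ i < c.d', cols.getD i [] = Y (a + nb c.k c.S' i)) :
    c.calmT (Y a) rows cols = true ↔ c.Calm (fun b => c.toView (Y b)) a := by
  have hd := h.hd
  have hd' := h.hd'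
  have hp : 0 < c.p := by omega
  have tw : ∀ i, twF [] i = 0 := fun i => by simp [twF]
  simp only [calmT, Bool.and_eq_true, List.all_eq_true, List.mem_range, decide_eq_true_eq, Calm,
    RowOk, ColOk, Pi.zero_apply]
  refine and_congr (forall₂_congr fun e he => ?_) (forall₂_congr fun e he => ?_)
  · have key : ∀ y : ℕ, c.rowv [] rows e y = c.evN (Y a) (c.d + 1 + e) y ↔
        c.toView (Y (a + nb c.k c.S (e / 2))) (zp c.p c.d e) y =
          sg (0 + e) * c.toView (Y a) (zp c.p c.d e) y := fun y => by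
      rw [codea_eq (m := c.rowv [] rows e y) (n := c.evN (Y a) (c.d + 1 + e) y) (mulm_lt hp _ _)
        (summ_lt hp _), cast_rowv h, cast_evN h, tw,
        hr _ (by omega), codea_flip]
      rfl
    simp only [key]
    refine ⟨fun H => congrFun (Lo.eq_of_agree' ((bi_toView _).2 _) (((bi_toView _).2 _).cmul _)
      (range (c.d' + 1)) (by simp) (codea_inj (by omega)) fun y hy => H y (mem_range.1 hy)),
      fun H y _ => H y⟩
  · have key : ∀ x : ℕ, c.colv [] cols e x = c.evN (Y a) x (c.d' + 1 + e) ↔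
        c.toView (Y (a + nb c.k c.S' (e / 2))) x (zp c.p c.d' e) =
          sg (0 + e) * c.toView (Y a) x (zp c.p c.d' e) := fun x => by
      rw [codea_eq (m := c.colv [] cols e x) (n := c.evN (Y a) x (c.d' + 1 + e)) (mulm_lt hp _ _)
        (summ_lt hp _), cast_colv h, cast_evN h, tw,
        hc _ (by omega), codea_flip]
      rfl
    simp only [key]
    refine ⟨fun H => congrFun (Lo.eq_of_agree' ((bi_toView _).1 _) (((bi_toView _).1 _).cmul _)
      (range (c.d + 1)) (by simp) (codea_inj (by omega)) fun y hy => H y (mem_range.1 hy)),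
      fun H y _ => H y⟩

end CP

end Vale.Agent.P330Q
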