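import Vale.Agent.P330Q.CodeA

/-! Codewords (task CodeB).
Plan. Orthogonality `∑ ψ, sg (ψ ⬝ᵥ a) = if a = 0 then 2 ^ k else 0` in `ZMod p`. `mu S ε ψ` vanishes at
the points of the edges `root S ε ψ i`, is `1` at `0`; on the other edge of the generator `i` the sign
`sg (ψ ⬝ᵥ nb i)` equals `sg (ε i + e)`. `struct`: the Fourier coefficient
`(∑ a, W a x x' * sg (ψ ⬝ᵥ a)) / 2 ^ k` has low degree in `x` and vanishes at the `d` roots of `mu`, so
it agrees with (its value at `0`) times `mu` on `d + 1` points. `enc_twist`: reindex `ψ ↦ ψ + ej k j`.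
`enc_flip`: only the factor `i` of `mu` changes; `(1 ± shift) / 2` are the projections to
`ψ ⬝ᵥ nb i = 0, 1`. `dist`: if the view at `a` is nonzero then at least half of the neighbours along
`S` have a nonzero view (a nonzero column polynomial has at most `d` roots among the `2 d` points),
which contradicts `tail1` with `s = 1/2` if the density is below `1/4`. -/

namespace Vale.Agent.P330Q

open Vale.Agent.Lib.H23 Vale.Agent.P325 Vale.Agent.P330 Vale.Agent.P330.Amp Finset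
open Matrix Polynomial
open scoped BigOperators

section four

variable {p k : ℕ}

theorem cb_sg_dot_add (ψ a b : Vec k) :
    (sg (ψ ⬝ᵥ (a + b)) : ZMod p) = sg (ψ ⬝ᵥ a) * sg (ψ ⬝ᵥ b) := by
  rw [dotProduct_add, sg_add]

theorem cb_sg_add_dot (ψ φ a : Vec k) :
    (sg ((ψ + φ) ⬝ᵥ a) : ZMod p) = sg (ψ ⬝ᵥ a) * sg (φ ⬝ᵥ a) := by
  rw [add_dotProduct, sg_add]

theorem cb_add_add (a v : Vec k) : a + v + v = a := by rw [add_assoc, vec_add_self, add_zero]

theorem cb_ej_dot (j : ℕ) (b : Vec k) : ej k j ⬝ᵥ b = b2 (bt b j) := by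
  rcases lt_or_ge j k with hj | hj
  · have e := InitA.ofN_two_pow (n := k) ⟨j, hj⟩
    have e2 := testBit_toN b ⟨j, hj⟩
    dsimp only at e e2
    rw [ej, e, single_one_dotProduct, bt, e2, b2_decide]
  · have e : ej k j = 0 := by
      funext i
      have hi : j ≠ (i : ℕ) := by have := i.2; omega
      rw [ej, ofN, Nat.testBit_two_pow_of_ne hi]
      rfl
    rw [e, zero_dotProduct, bt,
      Nat.testBit_eq_false_of_lt ((toN_lt b).trans_le (Nat.pow_le_pow_right two_pos hj))]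
    rfl

theorem cb_sum_vec {M : Type} [AddCommMonoid M] (f : ℕ → M) :
    ∑ n ∈ range (2 ^ k), f n = ∑ v : Vec k, f (toN v) := by
  rw [Finset.sum_range]
  exact (Fintype.sum_equiv (vecEquiv k) _ _ fun _ => rfl).symm

theorem cb_cast_countP (q : ℕ → Bool) (n : ℕ) :
    (((List.range n).countP q : ℕ) : ZMod 2) = ∑ j ∈ range n, b2 (q j) := by
  induction n with
  | zero => simp
  | succ n ih =>
    rw [sum_range_succ, ← ih, List.range_succ, List.countP_append, Nat.cast_add]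
    cases hq : q n <;> simp [hq, b2]

theorem cb_parity (ψ : Vec k) (b : ℕ) :
    (((List.range k).countP (fun j => (toN ψ &&& b).testBit j) : ℕ) : ZMod 2) = ψ ⬝ᵥ ofN k b := by
  rw [cb_cast_countP, Finset.sum_range, dotProduct]
  refine Finset.sum_congr rfl fun j _ => ?_
  rw [Nat.testBit_and, testBit_toN, ofN]
  conv_rhs => rw [← b2_decide (ψ j)]
  cases decide (ψ j = 1) <;> cases b.testBit j <;> simp [b2]

theorem cb_root_lt {S : List ℕ} (ε : ℕ → ZMod 2) (ψ : Vec k) {i : ℕ} (hi : i < S.length) :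
    root S ε ψ i < 2 * S.length := by
  have := ZMod.val_lt (ψ ⬝ᵥ nb k S i + ε i + 1)
  unfold root
  omega

theorem cb_root_div (S : List ℕ) (ε : ℕ → ZMod 2) (ψ : Vec k) (i : ℕ) : root S ε ψ i / 2 = i := by
  have := ZMod.val_lt (ψ ⬝ᵥ nb k S i + ε i + 1)
  unfold root
  omega

theorem cb_root_cast (S : List ℕ) (ε : ℕ → ZMod 2) (ψ : Vec k) (i : ℕ) :
    ψ ⬝ᵥ nb k S i = ε i + (root S ε ψ i : ℕ) + 1 := by
  have h : ∀ u v : ZMod 2, u = v + (u + v + 1) + 1 := by decide
  have h2 : ((2 : ℕ) : ZMod 2) = 0 := rfl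
  rw [root, Nat.cast_add, Nat.cast_mul, h2, zero_mul, zero_add, ZMod.natCast_zmod_val]
  exact h _ _

theorem cb_root_cases (S : List ℕ) (ε : ℕ → ZMod 2) (ψ : Vec k) (e : ℕ) :
    root S ε ψ (e / 2) = e ∨ ψ ⬝ᵥ nb k S (e / 2) = ε (e / 2) + e := by
  have h : ∀ u v : ZMod 2, ((u + v + 1).val = 0 ∨ u = v + ((0 : ℕ) : ZMod 2)) ∧
      ((u + v + 1).val = 1 ∨ u = v + ((1 : ℕ) : ZMod 2)) := by decide
  rw [← ZMod.natCast_mod e 2, root]
  rcases Nat.mod_two_eq_zero_or_one e with he | he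
  · rw [he]
    exact (h _ _).1.imp (fun h1 => by omega) id
  · rw [he]
    exact (h _ _).2.imp (fun h1 => by omega) id

variable [Fact p.Prime] {S : List ℕ}

theorem cb_orth (h2 : (2 : ZMod p) ≠ 0) (a : Vec k) :
    ∑ ψ : Vec k, (sg (ψ ⬝ᵥ a) : ZMod p) = if a = 0 then 2 ^ k else 0 := by
  split_ifs with ha
  · subst ha
    simp [sg_zero]
  · obtain ⟨i, hi⟩ := Function.ne_iff.1 ha
    have h1 : a i = 1 := by
      have : ∀ u : ZMod 2, u ≠ 0 → u = 1 := by decide
      exact this _ hi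
    have h3 := Fintype.sum_equiv (Equiv.addRight (Pi.single i 1 : Vec k))
      (fun ψ => -(sg (ψ ⬝ᵥ a) : ZMod p)) (fun ψ => sg (ψ ⬝ᵥ a)) fun ψ => by
        rw [Equiv.coe_addRight, cb_sg_add_dot, single_one_dotProduct, h1, sg_one, mul_neg_one]
    rw [Finset.sum_neg_distrib] at h3
    refine (mul_eq_zero.1 ?_).resolve_left h2
    linear_combination -h3

theorem cb_inv (h2 : (2 : ZMod p) ≠ 0) (y : Vec k → ZMod p) (a : Vec k) :
    ∑ ψ : Vec k, hat y ψ * sg (ψ ⬝ᵥ a) = y a := by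
  have h1 : ∀ ψ : Vec k, hat y ψ * sg (ψ ⬝ᵥ a) = ∑ b, y b / 2 ^ k * sg (ψ ⬝ᵥ (b + a)) := by
    intro ψ
    rw [hat, Finset.sum_div, Finset.sum_mul]
    refine Finset.sum_congr rfl fun b _ => ?_
    rw [cb_sg_dot_add]
    ring
  simp only [h1]
  rw [Finset.sum_comm]
  simp only [← Finset.mul_sum, cb_orth h2]
  rw [Finset.sum_eq_single a]
  · rw [if_pos (vec_add_self a), div_mul_cancel₀ _ (pow_ne_zero _ h2)]
  · intro b _ hb
    rw [if_neg fun h => hb (by rw [← cb_add_add b a, h, zero_add]), mul_zero]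
  · simp

theorem cb_hat_add (y y' : Vec k → ZMod p) (ψ : Vec k) :
    hat (fun b => y b + y' b) ψ = hat y ψ + hat y' ψ := by
  simp only [hat, add_mul, Finset.sum_add_distrib, add_div]

theorem cb_hat_cmul (t : ZMod p) (y : Vec k → ZMod p) (ψ : Vec k) :
    hat (fun b => t * y b) ψ = t * hat y ψ := by
  simp only [hat, mul_assoc, ← Finset.mul_sum, mul_div_assoc]

theorem cb_hat_shift (y : Vec k → ZMod p) (v ψ : Vec k) :
    hat (fun b => y (b + v)) ψ = hat y ψ * sg (ψ ⬝ᵥ v) := by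
  rw [hat, hat, div_mul_eq_mul_div, Finset.sum_mul]
  congr 1
  refine Fintype.sum_equiv (Equiv.addRight v) _ _ fun b => ?_
  rw [Equiv.coe_addRight, mul_assoc, ← cb_sg_dot_add, cb_add_add]

theorem cb_hat_twist (y : Vec k → ZMod p) (φ ψ : Vec k) :
    hat (fun b => sg (φ ⬝ᵥ b) * y b) ψ = hat y (ψ + φ) := by
  rw [hat, hat]
  congr 1
  refine Finset.sum_congr rfl fun b _ => ?_
  rw [cb_sg_add_dot]
  ring

theorem cb_lo_mu (ε : ℕ → ZMod 2) (ψ : Vec k) : Lo S.length (mu S ε ψ : ZMod p → ZMod p) := by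
  have h := Lo.prod (d := S.length) (range S.length) (card_range _).le
    (fun i => -(zp p S.length (root S ε ψ i))⁻¹) fun _ => 1
  have e : (mu S ε ψ : ZMod p → ZMod p) = fun x => ∏ i ∈ range S.length,
      (-(zp p S.length (root S ε ψ i))⁻¹ * x + 1) := by
    funext x
    refine Finset.prod_congr rfl fun i _ => ?_
    ring
  rw [e]
  exact h

theorem cb_mu_zero (ε : ℕ → ZMod 2) (ψ : Vec k) : mu S ε ψ (0 : ZMod p) = 1 := by simp [mu]

theorem cb_zp_ne {d e : ℕ} (hp : 3 * d + 3 < p) (he : e < 2 * d) : zp p d e ≠ 0 := by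
  simpa using zp_ne hp he (Nat.zero_le d)

theorem cb_mu_root (hp : 3 * S.length + 3 < p) (ε : ℕ → ZMod 2) (ψ : Vec k) {i : ℕ}
    (hi : i < S.length) : mu S ε ψ (zp p S.length (root S ε ψ i)) = 0 :=
  Finset.prod_eq_zero (mem_range.2 hi)
    (by rw [div_self (cb_zp_ne hp (cb_root_lt ε ψ hi)), sub_self])

theorem cb_mu_edge (hp : 3 * S.length + 3 < p) (ε : ℕ → ZMod 2) (ψ : Vec k) {e : ℕ}
    (he : e < 2 * S.length) : sg (ψ ⬝ᵥ nb k S (e / 2)) * mu S ε ψ (zp p S.length e) =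
      sg (ε (e / 2) + e) * mu S ε ψ (zp p S.length e) := by
  rcases cb_root_cases S ε ψ e with h | h
  · have h1 := cb_mu_root hp ε ψ (i := e / 2) (by omega)
    rw [h] at h1
    rw [h1, mul_zero, mul_zero]
  · rw [h]

theorem cb_mu_congr {ε δ : ℕ → ZMod 2} (h : ∀ i < S.length, ε i = δ i) (ψ : Vec k) (x : ZMod p) :
    mu S ε ψ x = mu S δ ψ x :=
  Finset.prod_congr rfl fun i hi => by rw [root, root, h i (mem_range.1 hi)]

theorem cb_mu_twist (φ ψ : Vec k) (x : ZMod p) :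
    mu S (fun i => φ ⬝ᵥ nb k S i) ψ x = mu S 0 (ψ + φ) x :=
  Finset.prod_congr rfl fun i _ => by rw [root, root, add_dotProduct, Pi.zero_apply, add_zero]

/-- the Fourier coefficients of a consistent family of polynomials -/
theorem cb_struct (hp : 3 * S.length + 3 < p) (ε : ℕ → ZMod 2) {F : Vec k → ZMod p → ZMod p}
    (hF : ∀ a, Lo S.length (F a)) (hc : ∀ a, ∀ e < 2 * S.length,
      F (a + nb k S (e / 2)) (zp p S.length e) = sg (ε (e / 2) + e) * F a (zp p S.length e))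
    (ψ : Vec k) (x : ZMod p) :
    hat (fun a => F a x) ψ = hat (fun a => F a 0) ψ * mu S ε ψ x := by
  classical
  have h1 : Lo S.length fun x => hat (fun a => F a x) ψ := by
    simp only [hat, div_eq_mul_inv]
    exact (Lo.sum univ fun a _ => (hF a).mulc _).mulc _
  have h2 : Lo S.length fun x => hat (fun a => F a 0) ψ * mu S ε ψ x := (cb_lo_mu ε ψ).cmul _
  have hinj : Set.InjOn (fun i => zp p S.length (root S ε ψ i)) (range S.length : Finset ℕ) := by
    intro i hi j hj h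
    have h3 := zp_inj hp (mem_coe.2 (mem_range.2 (cb_root_lt ε ψ (mem_range.1 hi))))
      (mem_coe.2 (mem_range.2 (cb_root_lt ε ψ (mem_range.1 hj)))) h
    rw [← cb_root_div S ε ψ i, h3, cb_root_div]
  refine congrFun (h1.eq_of_agree h2
    (insert 0 ((range S.length).image fun i => zp p S.length (root S ε ψ i))) ?_ ?_) x
  · rw [card_insert_of_notMem, card_image_of_injOn hinj, card_range]
    · exact Nat.lt_succ_self _
    · intro h
      obtain ⟨i, hi, h⟩ := mem_image.1 h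
      exact cb_zp_ne hp (cb_root_lt ε ψ (mem_range.1 hi)) h
  · intro z hz
    rcases mem_insert.1 hz with rfl | hz
    · rw [cb_mu_zero, mul_one]
    · obtain ⟨i, hi, rfl⟩ := mem_image.1 hz
      rw [cb_mu_root hp ε ψ (mem_range.1 hi), mul_zero]
      have h3 := cb_hat_shift (fun a => F a (zp p S.length (root S ε ψ i))) (nb k S i) ψ
      have h4 := fun a => hc a _ (cb_root_lt ε ψ (mem_range.1 hi))
      simp only [cb_root_div] at h4
      simp only [h4] at h3
      rw [cb_hat_cmul, cb_root_cast S ε ψ i, sg_add _ 1, sg_one] at h3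
      have h5 := sg_mul_self (p := p) (ε i + (root S ε ψ i : ℕ))
      refine (mul_eq_zero.1 ?_).resolve_left (two_ne hp)
      linear_combination sg (ε i + (root S ε ψ i : ℕ)) * h3 -
        2 * hat (fun a => F a (zp p S.length (root S ε ψ i))) ψ * h5

theorem cb_flip_mu (hp : 3 * S.length + 3 < p) {ε ε1 : ℕ → ZMod 2} {i : ℕ} (hi : i < S.length)
    (h1 : ε i = 1) (h2 : ε1 i = 0) (h3 : ∀ j < S.length, j ≠ i → ε1 j = ε j) (ψ : Vec k) {β : ℕ}
    (hβ : β ≤ S.length) :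
    ((1 - (β : ZMod p) / zp p S.length (2 * i + 1)) /
        (1 - (β : ZMod p) / zp p S.length (2 * i)) * (1 + sg (ψ ⬝ᵥ nb k S i)) +
      (1 - (β : ZMod p) / zp p S.length (2 * i)) /
        (1 - (β : ZMod p) / zp p S.length (2 * i + 1)) * (1 - sg (ψ ⬝ᵥ nb k S i))) / 2 *
      mu S ε ψ (β : ZMod p) =
      mu S ε1 ψ (β : ZMod p) := by
  have hL : ∀ e < 2 * S.length, 1 - (β : ZMod p) / zp p S.length e ≠ 0 := by
    intro e he h
    rw [sub_eq_zero, eq_div_iff (cb_zp_ne hp he), one_mul] at h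
    exact zp_ne hp he hβ h
  have l0 := hL (2 * i) (by omega)
  have l1 := hL (2 * i + 1) (by omega)
  have t := two_ne hp
  have hR : ∏ j ∈ (range S.length).erase i, (1 - (β : ZMod p) / zp p S.length (root S ε1 ψ j)) =
      ∏ j ∈ (range S.length).erase i, (1 - (β : ZMod p) / zp p S.length (root S ε ψ j)) :=
    Finset.prod_congr rfl fun j hj => by
      rw [root, root, h3 j (mem_range.1 (mem_of_mem_erase hj)) (ne_of_mem_erase hj)]
  rw [mu, mu, ← mul_prod_erase _ _ (mem_range.2 hi), ← mul_prod_erase _ _ (mem_range.2 hi), hR,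
    ← mul_assoc]
  congr 1
  rw [root, root, h1, h2]
  have hu : ∀ u : ZMod 2, u = 0 ∨ u = 1 := by decide
  rcases hu (ψ ⬝ᵥ nb k S i) with e | e
  · rw [e, sg_zero, show ((0 : ZMod 2) + 1 + 1).val = 0 from rfl,
      show ((0 : ZMod 2) + 0 + 1).val = 1 from rfl, add_zero]
    generalize (1 : ZMod p) - β / zp p S.length (2 * i) = L0 at l0 ⊢
    generalize (1 : ZMod p) - β / zp p S.length (2 * i + 1) = L1 at l1 ⊢
    field_simp
    ring
  · rw [e, sg_one, show ((1 : ZMod 2) + 1 + 1).val = 1 from rfl,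
      show ((1 : ZMod 2) + 0 + 1).val = 0 from rfl, add_zero]
    generalize (1 : ZMod p) - β / zp p S.length (2 * i) = L0 at l0 ⊢
    generalize (1 : ZMod p) - β / zp p S.length (2 * i + 1) = L1 at l1 ⊢
    field_simp
    ring

theorem cb_flip_sum (hp : 3 * S.length + 3 < p) {ε ε1 : ℕ → ZMod 2} {i : ℕ} (hi : i < S.length)
    (h1 : ε i = 1) (h2 : ε1 i = 0) (h3 : ∀ j < S.length, j ≠ i → ε1 j = ε j) {β : ℕ}
    (hβ : β ≤ S.length) (g : Vec k → ZMod p) {v0 v1 : ZMod p}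
    (e0 : v0 = ∑ ψ, g ψ * mu S ε ψ β) (e1 : v1 = ∑ ψ, g ψ * sg (ψ ⬝ᵥ nb k S i) * mu S ε ψ β) :
    ((1 - β / zp p S.length (2 * i + 1)) / (1 - β / zp p S.length (2 * i)) * (v0 + v1) +
      (1 - β / zp p S.length (2 * i)) / (1 - β / zp p S.length (2 * i + 1)) * (v0 - v1)) / 2 =
      ∑ ψ, g ψ * mu S ε1 ψ β := by
  rw [e0, e1, ← Finset.sum_add_distrib, ← Finset.sum_sub_distrib, Finset.mul_sum, Finset.mul_sum,
    ← Finset.sum_add_distrib, Finset.sum_div]
  refine Finset.sum_congr rfl fun ψ _ => ?_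
  rw [← cb_flip_mu hp hi h1 h2 h3 ψ hβ]
  ring

omit [Fact p.Prime] in
theorem cb_avS (hS : S ≠ []) (P : Vec k → Prop) (a : Vec k) (N : Finset ℕ)
    (h : ∀ i < S.length, i ∉ N → P (a + nb k S i)) (hN : N.card * 2 ≤ S.length) :
    1 / 2 ≤ avS S (fun b => ind (P b)) a := by
  classical
  have hd : (0 : ℝ) < S.length := by exact_mod_cast List.length_pos_iff.2 hS
  rw [avS_ind hS, le_div_iff₀ hd]
  have h1 : range S.length ⊆ ((range S.length).filter fun i => P (a + nb k S i)) ∪ N := by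
    intro i hi
    by_cases hiN : i ∈ N
    · exact mem_union_right _ hiN
    · exact mem_union_left _ (mem_filter.2 ⟨hi, h i (mem_range.1 hi) hiN⟩)
  have h2 := (card_le_card h1).trans (card_union_le _ _)
  rw [card_range] at h2
  have h3 : S.length ≤ 2 * ((range S.length).filter fun i => P (a + nb k S i)).card := by omega
  have h4 := (Nat.cast_le (α := ℝ)).2 h3
  rw [Nat.cast_mul, Nat.cast_ofNat] at h4
  linarith

end four

namespace CP

variable {c : CP} [Fact c.p.Prime] {ε ε' : ℕ → ZMod 2} {y y' : Vec c.k → ZMod c.p}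

theorem bi_enc (a : Vec c.k) : Bi c.d c.d' (c.encV ε ε' y a) :=
  ⟨fun _ => Lo.sum univ fun ψ _ => ((cb_lo_mu ε ψ).cmul _).mulc _,
    fun _ => Lo.sum univ fun ψ _ => (cb_lo_mu ε' ψ).cmul _⟩
theorem row_enc (h : c.Ok) (a : Vec c.k) {e : ℕ} (he : e < 2 * c.d) :
    c.RowOk ε (c.encV ε ε' y) a e := by
  intro x'
  simp only [encV]
  rw [Finset.mul_sum]
  refine Finset.sum_congr rfl fun ψ _ => ?_
  rw [cb_sg_dot_add]
  linear_combination hat y ψ * sg (ψ ⬝ᵥ a) * mu c.S' ε' ψ x' * cb_mu_edge h.hd ε ψ he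
theorem col_enc (h : c.Ok) (a : Vec c.k) {e : ℕ} (he : e < 2 * c.d') :
    c.ColOk ε' (c.encV ε ε' y) a e := by
  intro x
  simp only [encV]
  rw [Finset.mul_sum]
  refine Finset.sum_congr rfl fun ψ _ => ?_
  rw [cb_sg_dot_add]
  linear_combination hat y ψ * sg (ψ ⬝ᵥ a) * mu c.S ε ψ x * cb_mu_edge h.hd' ε' ψ he
theorem enc_zero_zero (h : c.Ok) (a : Vec c.k) : c.encV ε ε' y a 0 0 = y a := by
  simp only [encV, cb_mu_zero, mul_one]
  exact cb_inv (two_ne h.hd) y a
theorem enc_add (a : Vec c.k) (x x' : ZMod c.p) :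
    c.encV ε ε' (fun b => y b + y' b) a x x' = c.encV ε ε' y a x x' + c.encV ε ε' y' a x x' := by
  simp only [encV, cb_hat_add, add_mul, Finset.sum_add_distrib]
theorem enc_cmul (t : ZMod c.p) (a : Vec c.k) (x x' : ZMod c.p) :
    c.encV ε ε' (fun b => t * y b) a x x' = t * c.encV ε ε' y a x x' := by
  simp only [encV, cb_hat_cmul, Finset.mul_sum, mul_assoc]
theorem enc_nil (a : Vec c.k) : c.encV ε ε' (fun _ => 0) a = 0 := by
  funext x x'
  simp [encV, hat]
theorem enc_list {ι : Type} (l : List ι) (f : ι → Vec c.k → ZMod c.p) (a : Vec c.k)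
    (x x' : ZMod c.p) : c.encV ε ε' (fun b => (l.map fun i => f i b).sum) a x x' =
      (l.map fun i => c.encV ε ε' (f i) a x x').sum := by
  induction l with
  | nil => exact congrFun (congrFun (enc_nil a) x) x'
  | cons i l ih =>
    simp only [List.map_cons, List.sum_cons]
    rw [enc_add, ih]
theorem enc_shift (a v : Vec c.k) :
    c.encV ε ε' (fun b => y (b + v)) a = c.encV ε ε' y (a + v) := by
  funext x x'
  refine Finset.sum_congr rfl fun ψ _ => ?_
  rw [cb_hat_shift, cb_sg_dot_add]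
  ring
theorem enc_congr {δ δ' : ℕ → ZMod 2} (h : ∀ i < c.d, ε i = δ i) (h' : ∀ i < c.d', ε' i = δ' i) :
    c.encV ε ε' y = c.encV δ δ' y := by
  funext a x x'
  refine Finset.sum_congr rfl fun ψ _ => ?_
  rw [cb_mu_congr h, cb_mu_congr h']
theorem enc_twist (j : ℕ) (a : Vec c.k) (x x' : ZMod c.p) :
    c.encV (fun i => b2 (bt (nb c.k c.S i) j)) (fun i => b2 (bt (nb c.k c.S' i) j))
      (fun b => sg (b2 (bt b j)) * y b) a x x' = sg (b2 (bt a j)) * c.encV 0 0 y a x x' := by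
  simp only [← cb_ej_dot, encV]
  rw [Finset.mul_sum]
  refine Fintype.sum_equiv (Equiv.addRight (ej c.k j)) _ _ fun ψ => ?_
  rw [Equiv.coe_addRight, cb_hat_twist, cb_mu_twist, cb_mu_twist, cb_sg_add_dot]
  linear_combination (-(hat y (ψ + ej c.k j) * sg (ψ ⬝ᵥ a) * mu c.S 0 (ψ + ej c.k j) x *
    mu c.S' 0 (ψ + ej c.k j) x')) * sg_mul_self (p := c.p) (ej c.k j ⬝ᵥ a)
theorem struct (h : c.Ok) {W : Vec c.k → View c.p} (hW : ∀ a, Bi c.d c.d' (W a))
    (hc : ∀ a, c.Calm W a) : W = c.encV 0 0 fun a => W a 0 0 := by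
  funext a x x'
  rw [← cb_inv (two_ne h.hd) (fun a => W a x x') a]
  refine Finset.sum_congr rfl fun ψ _ => ?_
  rw [cb_struct h.hd 0 (F := fun a x => W a x x') (fun a => (hW a).1 x')
      (fun a e he => (hc a).1 e he x') ψ x,
    cb_struct h.hd' 0 (F := fun a => W a 0) (fun a => (hW a).2 0)
      (fun a e he => (hc a).2 e he 0) ψ x']
  ring

theorem cb_half (h : c.Ok) {a : Vec c.k} (ha : c.encT [] [] y a ≠ c.encT [] [] y' a) :
    1 / 2 ≤ avS c.S (fun b => ind (c.encT [] [] y b ≠ c.encT [] [] y' b)) a := by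
  have hne : c.encV (twF []) (twF []) y a ≠ c.encV (twF []) (twF []) y' a := fun e =>
    ha (congrArg c.toTab e)
  obtain ⟨x, hx⟩ := Function.ne_iff.1 hne
  obtain ⟨x', hx'⟩ := Function.ne_iff.1 hx
  set N := (range c.S.length).filter fun i =>
    c.encT [] [] y (a + nb c.k c.S i) = c.encT [] [] y' (a + nb c.k c.S i) with hN
  have hcard : ((N ×ˢ range 2).image fun q => 2 * q.1 + q.2).card = N.card * 2 := by
    rw [card_image_of_injOn, card_product, card_range]
    rintro ⟨i, r⟩ hi ⟨j, s⟩ hj e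
    have h1 := mem_range.1 (mem_product.1 hi).2
    have h2 := mem_range.1 (mem_product.1 hj).2
    dsimp only at e h1 h2
    exact Prod.ext (by dsimp only; omega) (by dsimp only; omega)
  have hmem : ∀ e ∈ (N ×ˢ range 2).image fun q => 2 * q.1 + q.2, e < 2 * c.d ∧ e / 2 ∈ N := by
    intro e he
    obtain ⟨⟨i, r⟩, hq, rfl⟩ := mem_image.1 he
    obtain ⟨h1, h2⟩ := mem_product.1 hq
    have h3 := mem_range.1 h2
    have h4 : i < c.d := mem_range.1 (mem_filter.1 h1).1
    dsimp only at h1 h3 ⊢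
    rw [show (2 * i + r) / 2 = i by omega]
    exact ⟨by omega, h1⟩
  have hle : N.card * 2 ≤ c.d := by
    by_contra hlt
    refine hx' (congrFun (((bi_enc a).1 x').eq_of_agree' ((bi_enc a).1 x') _
      (by rw [hcard]; omega) ((zp_inj h.hd).mono fun e he =>
        mem_coe.2 (mem_range.2 (hmem e he).1)) fun e he => ?_) x)
    obtain ⟨h1, h2⟩ := hmem e he
    have h3 := toTab_inj h (bi_enc _) (bi_enc _) (mem_filter.1 h2).2
    have h4 := row_enc (ε := twF []) (ε' := twF []) (y := y) h a h1 x'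
    have h5 := row_enc (ε := twF []) (ε' := twF []) (y := y') h a h1 x'
    rw [h3, h5] at h4
    have h6 := sg_mul_self (p := c.p) (twF [] (e / 2) + e)
    exact (mul_left_cancel₀ (left_ne_zero_of_mul_eq_one h6) h4).symm
  exact cb_avS h.bias.1 (fun b => c.encT [] [] y b ≠ c.encT [] [] y' b) a N
    (fun i hi hiN e => hiN (mem_filter.2 ⟨mem_range.2 hi, e⟩)) hle

theorem dist (h : c.Ok) (hy : y ≠ y') :
    1 / 4 ≤ 𝔼 a, ind (c.encT [] [] y a ≠ c.encT [] [] y' a) := by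
  by_contra hlt
  rw [not_le] at hlt
  have hd : (0 : ℝ) ≤ c.d' := Nat.cast_nonneg _
  have h1 := tail1 h.bias (by positivity)
    (φ := fun a => ind (c.encT [] [] y a ≠ c.encT [] [] y' a))
    (fun a => ⟨ind_nonneg _, ind_le_one _⟩) (s := 1 / 2) (by norm_num) (by linarith)
  have h2 : (𝔼 a, ind (c.encT [] [] y a ≠ c.encT [] [] y' a)) ≤
      𝔼 a, ind (1 / 2 ≤ avS c.S (fun b => ind (c.encT [] [] y b ≠ c.encT [] [] y' b)) a) :=
    expect_le_expect fun a _ => ind_mono (cb_half h)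
  have h3 : 0 ≤ 𝔼 a, ind (c.encT [] [] y a ≠ c.encT [] [] y' a) :=
    expect_nonneg fun a _ => ind_nonneg _
  have h4 : (1 : ℝ) / (2 ^ 17 * (1 + c.d')) ≤ 1 / 32 :=
    one_div_le_one_div_of_le (by norm_num) (by nlinarith)
  generalize (1 : ℝ) / (2 ^ 17 * (1 + c.d')) = e at h1 h4
  have h5 : (𝔼 a, ind (c.encT [] [] y a ≠ c.encT [] [] y' a)) = 0 := by
    have h6 := h2.trans h1
    have h7 := mul_le_mul_of_nonneg_right h4 h3
    refine le_antisymm ?_ h3
    generalize (𝔼 a, ind (c.encT [] [] y a ≠ c.encT [] [] y' a)) = m at h6 h7 ⊢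
    rw [show 4 * e * m / (1 / 2) ^ 2 = 16 * (e * m) by ring] at h6
    linarith
  obtain ⟨a, ha⟩ := Function.ne_iff.1 hy
  refine dens_zero (P := fun a => c.encT [] [] y a ≠ c.encT [] [] y' a)
    (by rw [h5, zero_mul]; exact one_pos) a fun e => ha ?_
  have h8 := toTab_inj h (bi_enc _) (bi_enc _) e
  rw [← enc_zero_zero (ε := twF []) (ε' := twF []) (y := y) h a, h8, enc_zero_zero h]

theorem twF_nil : twF [] = 0 := funext fun _ => by simp [twF]

theorem cb_cast_ell (hp : 2 < c.p) (d e x : ℕ) :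
    ((c.ell d e x : ℕ) : ZMod c.p) = 1 - x / zp c.p d e := by
  rw [ell, cast_subm (by omega), cast_divm hp, Nat.cast_one, zp]

theorem cb_cast_flipN (hp : 2 < c.p) (d i x v0 v1 : ℕ) :
    ((c.flipN d i x v0 v1 : ℕ) : ZMod c.p) =
      ((1 - x / zp c.p d (2 * i + 1)) / (1 - x / zp c.p d (2 * i)) * (v0 + v1) +
        (1 - x / zp c.p d (2 * i)) / (1 - x / zp c.p d (2 * i + 1)) * (v0 - v1)) / 2 := by
  rw [flipN, cast_divm hp, cast_addm, cast_mulm, cast_mulm, cast_divm hp, cast_divm hp, cast_addm,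
    cast_subm (by omega), cb_cast_ell hp, cb_cast_ell hp, Nat.cast_ofNat]

theorem flipR_enc (h : c.Ok) {l l1 l' : List ℕ} {i : ℕ} (hi : i < c.d) (h1 : twF l i = 1)
    (h2 : twF l1 i = 0) (h3 : ∀ j < c.d, j ≠ i → twF l1 j = twF l j) (a : Vec c.k) :
    c.flipR i (c.encT l l' y a) (c.encT l l' y (a + nb c.k c.S i)) = c.encT l1 l' y a := by
  have hp : 2 < c.p := by have := h.hd; omega
  refine eq_toTab (fun n _ => divm_lt (by omega) _ _) fun n hn => ?_
  have hβ : n / (c.d' + 1) ≤ c.d :=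
    Nat.le_of_lt_succ ((Nat.div_lt_iff_lt_mul (Nat.succ_pos _)).2 hn)
  rw [cb_cast_flipN hp, encT, encT, cast_toTab _ hn, cast_toTab _ hn]
  refine (cb_flip_sum h.hd hi h1 h2 h3 hβ (fun ψ => hat y ψ * sg (ψ ⬝ᵥ a) *
    mu c.S' (twF l') ψ (n % (c.d' + 1) : ℕ)) ?_ ?_).trans ?_
  · exact Finset.sum_congr rfl fun ψ _ => by ring
  · exact Finset.sum_congr rfl fun ψ _ => by rw [cb_sg_dot_add]; ring
  · exact Finset.sum_congr rfl fun ψ _ => by ring
theorem flipC_enc (h : c.Ok) {l l' l1 : List ℕ} {i : ℕ} (hi : i < c.d') (h1 : twF l' i = 1)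
    (h2 : twF l1 i = 0) (h3 : ∀ j < c.d', j ≠ i → twF l1 j = twF l' j) (a : Vec c.k) :
    c.flipC i (c.encT l l' y a) (c.encT l l' y (a + nb c.k c.S' i)) = c.encT l l1 y a := by
  have hp : 2 < c.p := by have := h.hd; omega
  refine eq_toTab (fun n _ => divm_lt (by omega) _ _) fun n hn => ?_
  have hβ : n % (c.d' + 1) ≤ c.d' := Nat.le_of_lt_succ (Nat.mod_lt _ (Nat.succ_pos _))
  rw [cb_cast_flipN hp, encT, encT, cast_toTab _ hn, cast_toTab _ hn]
  refine (cb_flip_sum h.hd' hi h1 h2 h3 hβ (fun ψ => hat y ψ * sg (ψ ⬝ᵥ a) *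
    mu c.S (twF l) ψ (n / (c.d' + 1) : ℕ)) ?_ ?_).trans ?_
  · exact Finset.sum_congr rfl fun ψ _ => by ring
  · exact Finset.sum_congr rfl fun ψ _ => by rw [cb_sg_dot_add]; ring
  · exact Finset.sum_congr rfl fun ψ _ => by ring

theorem cb_cast_mu (hp : 2 < c.p) (S : List ℕ) (ψ : Vec c.k) (x : ℕ) :
    ((prodm c.p ((List.range S.length).map fun i => c.ell S.length (2 * i + (((List.range c.k).countP
      fun j => (toN ψ &&& S.getD i 0).testBit j) + 1) % 2) x) : ℕ) : ZMod c.p) =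
      mu S (twF []) ψ x := by
  rw [cast_prodm_range]
  refine Finset.prod_congr rfl fun i _ => ?_
  rw [cb_cast_ell hp, root, twF_nil, Pi.zero_apply, add_zero, nb, ← cb_parity, ← Nat.cast_succ,
    ZMod.val_natCast]

theorem encN_eq (h : c.Ok) (l : List ℕ) (a : Vec c.k) :
    c.encN l (toN a) = c.encT [] [] (fun b => (l.getD (toN b) 0 : ℕ)) a := by
  have hp : 2 < c.p := by have := h.hd; omega
  have hp0 : 0 < c.p := by omega
  refine eq_toTab (fun n _ => summ_lt hp0 _) fun n _ => ?_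
  rw [cast_summ_range, cb_sum_vec]
  refine Finset.sum_congr rfl fun ψ _ => ?_
  rw [cast_mulm, cast_mulm, cast_mulm, cb_cast_mu hp, cb_cast_mu hp, cast_sgm_sg hp0, cb_parity,
    ofN_toN, cast_divm hp, cast_summ_range, cb_sum_vec, ← mul_assoc, hat, Nat.cast_pow,
    Nat.cast_ofNat]
  simp only [cast_mulm, cast_sgm_sg hp0, cb_parity, ofN_toN]

end CP

end Vale.Agent.P330Q
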