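import Vale.Agent.P330Q.CodeB

/-! The local decoder and polynomial time of the table functions (task Dec).
Plan for `dec_spec`. Let `W = encV ..`. If `rows` is right at `e / 2` then `rowv e` is the row
`W a (zp e)` (`cast_rowv`, `toView_toTab`, `row_enc`, `sg_mul_self`), the same for columns. A right row
agrees with all right columns (at least `7/8` of the `2 d'` edges), so it is trusted. A trusted row
agrees with the true row at more than `d'` points (`3/4 - 1/8` of `2 d'`), so it is the true row
(`Lo.eq_of_agree'`, `bi_toView`). At least `d + 1` edges are trusted; `Lo.interp'`, `eq_toTab`. -/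

namespace Vale.Agent.P330Q

open Vale.Agent.Lib.H23 Vale.Agent.P333 Vale.Agent.P325 Vale.Agent.P330 Vale.Agent.P330.Amp Finset
open scoped BigOperators

namespace CP

private theorem dec_half (d : ℕ) (P : ℕ → Prop) [DecidablePred P] :
    ((range (2 * d)).filter fun e => P (e / 2)).card ≤ 2 * ((range d).filter P).card := by
  refine Finset.card_le_mul_card_image_of_maps_to (f := fun e => e / 2) (fun e he => ?_) 2
    fun b _ => ?_
  · simp only [mem_filter, mem_range] at he ⊢
    exact ⟨by omega, he.2⟩
  · refine le_trans (card_le_card (t := {2 * b, 2 * b + 1}) fun e he => ?_) card_le_two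
    simp only [mem_filter] at he
    simp only [mem_insert, mem_singleton]
    omega

private theorem dec_count (n : ℕ) (P : ℕ → Prop) [DecidablePred P] :
    (List.range n).countP (fun e => decide (P e)) = ((range n).filter P).card :=
  Nat.count_eq_card_filter_range P n

/-- outside a bad set -/
private theorem dec_cover {n : ℕ} {P Q : ℕ → Prop} [DecidablePred P] [DecidablePred Q]
    {s : Finset ℕ} (hs : s ⊆ range n) (h : ∀ e ∈ s, ¬ Q e → P e) :
    s.card ≤ (s.filter P).card + ((range n).filter Q).card := by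
  refine le_trans (card_le_card (t := s.filter P ∪ (range n).filter Q) fun e he => ?_)
    (card_union_le _ _)
  simp only [mem_union, mem_filter]
  by_cases hq : Q e
  · exact Or.inr ⟨hs he, hq⟩
  · exact Or.inl ⟨he, h e he hq⟩

theorem dec_spec {c : CP} [Fact c.p.Prime] (h : c.Ok) (ε ε' : List ℕ) (y : Vec c.k → ZMod c.p)
    (a : Vec c.k) {rows cols : List (List ℕ)}
    (hr : 8 * ((range c.d).filter fun i =>
      rows.getD i [] ≠ c.encT ε ε' y (a + nb c.k c.S i)).card ≤ c.d)
    (hc : 8 * ((range c.d').filter fun i =>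
      cols.getD i [] ≠ c.encT ε ε' y (a + nb c.k c.S' i)).card ≤ c.d') :
    c.decT ε ε' rows cols = c.encT ε ε' y a := by
  have hp0 : 0 < c.p := by have := h.hd; omega
  have hp2 : 2 < c.p := by have := h.hd; omega
  have hd16 := h.d16
  have hd16' := h.d16'
  obtain ⟨W, hW⟩ : ∃ W, W = c.encV (twF ε) (twF ε') y := ⟨_, rfl⟩
  have hbi : ∀ b, Bi c.d c.d' (W b) := fun b => hW ▸ bi_enc b
  have hT : ∀ b, c.encT ε ε' y b = c.toTab (W b) := fun b => by rw [hW]; rfl
  simp only [hT] at hr hc ⊢
  have hR : ∀ e < 2 * c.d, ¬ rows.getD (e / 2) [] ≠ c.toTab (W (a + nb c.k c.S (e / 2))) →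
      ∀ v : ℕ, ((c.rowv ε rows e v : ℕ) : ZMod c.p) = W a (zp c.p c.d e) v := by
    intro e he hg v
    have h1 : c.RowOk (twF ε) W a e := hW ▸ row_enc h a he
    rw [cast_rowv h, not_not.1 hg, toView_toTab h (hbi _), h1, ← mul_assoc, sg_mul_self, one_mul]
  have hC : ∀ e < 2 * c.d', ¬ cols.getD (e / 2) [] ≠ c.toTab (W (a + nb c.k c.S' (e / 2))) →
      ∀ v : ℕ, ((c.colv ε' cols e v : ℕ) : ZMod c.p) = W a v (zp c.p c.d' e) := by
    intro e he hg v
    have h1 : c.ColOk (twF ε') W a e := hW ▸ col_enc h a he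
    rw [cast_colv h, not_not.1 hg, toView_toTab h (hbi _), h1, ← mul_assoc, sg_mul_self, one_mul]
  have bR := dec_half c.d fun i => rows.getD i [] ≠ c.toTab (W (a + nb c.k c.S i))
  have bC := dec_half c.d' fun i => cols.getD i [] ≠ c.toTab (W (a + nb c.k c.S' i))
  have htr : ∀ e, c.trust ε ε' rows cols e = true ↔ 3 * c.d' ≤ 2 * ((range (2 * c.d')).filter fun e' =>
      c.rowv ε rows e (c.d' + 1 + e') = c.colv ε' cols e' (c.d + 1 + e)).card := by
    intro e
    rw [trust, decide_eq_true_iff, dec_count]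
  have hgood : ∀ e ∈ range (2 * c.d),
      ¬ rows.getD (e / 2) [] ≠ c.toTab (W (a + nb c.k c.S (e / 2))) →
      c.trust ε ε' rows cols e = true := by
    intro e he hg
    rw [htr]
    have h1 := dec_cover (n := 2 * c.d') (s := range (2 * c.d'))
      (P := fun e' => c.rowv ε rows e (c.d' + 1 + e') = c.colv ε' cols e' (c.d + 1 + e))
      (Q := fun e' => cols.getD (e' / 2) [] ≠ c.toTab (W (a + nb c.k c.S' (e' / 2)))) subset_rfl
      (fun e' he' hg' => by
        rw [eq_val (n := c.rowv ε rows e (c.d' + 1 + e')) (mulm_lt hp0 _ _)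
          (hR e (mem_range.1 he) hg _),
          eq_val (n := c.colv ε' cols e' (c.d + 1 + e)) (mulm_lt hp0 _ _)
          (hC e' (mem_range.1 he') hg' _)]
        rfl)
    rw [card_range] at h1
    omega
  have htrue : ∀ e < 2 * c.d, c.trust ε ε' rows cols e = true →
      ∀ v : ℕ, ((c.rowv ε rows e v : ℕ) : ZMod c.p) = W a (zp c.p c.d e) v := by
    intro e he ht v
    rw [htr] at ht
    have h1 := dec_cover (n := 2 * c.d') (s := (range (2 * c.d')).filter fun e' =>
        c.rowv ε rows e (c.d' + 1 + e') = c.colv ε' cols e' (c.d + 1 + e))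
      (P := fun e' => ((c.rowv ε rows e (c.d' + 1 + e') : ℕ) : ZMod c.p) =
        W a (zp c.p c.d e) (zp c.p c.d' e'))
      (Q := fun e' => cols.getD (e' / 2) [] ≠ c.toTab (W (a + nb c.k c.S' (e' / 2))))
      (filter_subset _ _) (fun e' he' hg' => by
        rw [mem_filter, mem_range] at he'
        rw [he'.2, hC e' he'.1 hg']
        rfl)
    have h2 := Lo.eq_of_agree' (d := c.d')
      (((bi_toView (c := c) (rows.getD (e / 2) [])).2 (zp c.p c.d e)).cmul (sg (twF ε (e / 2) + e)))
      ((hbi a).2 (zp c.p c.d e)) (((range (2 * c.d')).filter fun e' =>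
        c.rowv ε rows e (c.d' + 1 + e') = c.colv ε' cols e' (c.d + 1 + e)).filter fun e' =>
          ((c.rowv ε rows e (c.d' + 1 + e') : ℕ) : ZMod c.p) = W a (zp c.p c.d e) (zp c.p c.d' e'))
      (by omega)
      ((zp_inj h.hd').mono (coe_subset.2 ((filter_subset _ _).trans (filter_subset _ _))))
      (fun e' he' => by
        have h3 := (mem_filter.1 he').2
        rw [cast_rowv h] at h3
        exact h3)
    rw [cast_rowv h]
    exact congrFun h2 _
  obtain ⟨L, hL⟩ : ∃ L, L = ((List.range (2 * c.d)).filter (c.trust ε ε' rows cols)).take (c.d + 1) :=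
    ⟨_, rfl⟩
  have hnd : L.Nodup := hL ▸ (List.nodup_range.filter _).sublist (List.take_sublist _ _)
  have hmem : ∀ e ∈ L, e < 2 * c.d ∧ c.trust ε ε' rows cols e = true := by
    intro e he
    rw [hL] at he
    have := List.mem_filter.1 (List.mem_of_mem_take he)
    exact ⟨List.mem_range.1 this.1, this.2⟩
  have hlen : L.toFinset.card = c.d + 1 := by
    have h1 := dec_cover (n := 2 * c.d) (s := range (2 * c.d))
      (P := fun e => c.trust ε ε' rows cols e = true)
      (Q := fun e => rows.getD (e / 2) [] ≠ c.toTab (W (a + nb c.k c.S (e / 2)))) subset_rfl hgood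
    rw [card_range, ← dec_count, List.countP_eq_length_filter] at h1
    simp only [Bool.decide_eq_true] at h1
    rw [List.toFinset_card_of_nodup hnd, hL, List.length_take]
    refine min_eq_left ?_
    have h2 : (List.filter (fun e => c.trust ε ε' rows cols e) (List.range (2 * c.d))).length =
        (List.filter (c.trust ε ε' rows cols) (List.range (2 * c.d))).length := rfl
    omega
  have hinj : Set.InjOn (zp c.p c.d) (L.toFinset : Set ℕ) := by
    refine (zp_inj h.hd).mono (coe_subset.2 fun e he => ?_)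
    exact mem_range.2 (hmem e (List.mem_toFinset.1 he)).1
  unfold decT
  rw [← hL]
  refine eq_toTab (fun i _ => summ_lt hp0 _) fun i _ => ?_
  rw [Lo.interp' ((hbi a).1 _) L.toFinset hlen hinj, cast_summ, List.map_map,
    ← List.sum_toFinset _ hnd]
  refine sum_congr rfl fun e he => ?_
  have hm := hmem e (List.mem_toFinset.1 he)
  have h4 : (L.filter fun e2 => decide (e2 ≠ e)).toFinset = L.toFinset.erase e := by
    ext e2
    simp [and_comm]
  rw [Function.comp_apply, cast_mulm, htrue e hm.1 hm.2, cast_prodm, List.map_map,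
    ← List.prod_toFinset _ (hnd.filter _), h4]
  congr 1
  refine prod_congr rfl fun e2 _ => ?_
  rw [Function.comp_apply, cast_divm hp2, cast_subm hp0, cast_subm hp0]
  congr 1
  simp [zp]

theorem length_decT (c : CP) (ε ε' : List ℕ) (rows cols : List (List ℕ)) :
    (c.decT ε ε' rows cols).length = c.ts := by simp [decT]

theorem decT_lt {c : CP} (hp : 0 < c.p) (ε ε' : List ℕ) (rows cols : List (List ℕ)) :
    ∀ n ∈ c.decT ε ε' rows cols, n < c.p := by
  intro n hn
  obtain ⟨i, -, rfl⟩ := List.mem_map.1 hn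
  exact summ_lt hp _

section pt

variable {α : Type} [Enc α] {c : α → CP} {t t' ε ε' : α → List ℕ} {rows cols : α → List (List ℕ)}
  {i x y : α → ℕ}

private theorem dec_tab (hc : PT c) :
    PT fun z => ((c z).p, List.range (c z).k, (c z).S, (c z).S') := hc.of_enc fun _ => rfl

@[fun_prop] theorem pt_p (hc : PT c) : PT fun z => (c z).p := (dec_tab hc).fst
theorem pu_k (hc : PT c) : PU fun z => (c z).k := (dec_tab hc).snd.fst
@[fun_prop] theorem pt_k (hc : PT c) : PT fun z => (c z).k := (pu_k hc).pt
@[fun_prop] theorem pt_S (hc : PT c) : PT fun z => (c z).S := (dec_tab hc).snd.snd.fst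
@[fun_prop] theorem pt_S' (hc : PT c) : PT fun z => (c z).S' := (dec_tab hc).snd.snd.snd
theorem pu_d (hc : PT c) : PU fun z => (c z).d := PU.len (pt_S hc)
theorem pu_d' (hc : PT c) : PU fun z => (c z).d' := PU.len (pt_S' hc)
theorem pu_ts (hc : PT c) : PU fun z => (c z).ts :=
  ((pu_d hc).add (PU.const 1)).mul ((pu_d' hc).add (PU.const 1))
@[fun_prop] theorem pt_ts (hc : PT c) : PT fun z => (c z).ts := (pu_ts hc).pt
theorem pt_mk {p k : α → ℕ} {S S' : α → List ℕ} (hp : PT p) (hk : PU k) (hS : PT S) (hS' : PT S') :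
    PT fun z => (⟨p z, k z, S z, S' z⟩ : CP) :=
  (hp.pair (hk.range.pair (hS.pair hS'))).of_enc fun _ => rfl

@[fun_prop] private theorem dec_rts (hc : PT c) : PT fun z => List.range (c z).ts := (pu_ts hc).range
@[fun_prop] private theorem dec_rk (hc : PT c) : PT fun z => List.range (c z).k := (pu_k hc).range
@[fun_prop] private theorem dec_r1 (ht : PT t) : PT fun z => List.range ((t z).length + 1) :=
  ((PU.len ht).add (PU.const 1)).range
@[fun_prop] private theorem dec_r2 (ht : PT t) : PT fun z => List.range (2 * (t z).length) :=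
  ((PU.const 2).mul (PU.len ht)).range
@[fun_prop] private theorem dec_eq (hx : PT x) (hy : PT y) : PT fun z => decide (x z = y z) :=
  pt_decEq hx hy
@[fun_prop] private theorem dec_le (hx : PT x) (hy : PT y) : PT fun z => decide (x z ≤ y z) :=
  pt_decLe hx hy
@[fun_prop] private theorem dec_ne (hx : PT x) (hy : PT y) : PT fun z => decide (x z ≠ y z) :=
  (pt_decEq hx hy).not.congr fun z => by simp
@[fun_prop] private theorem dec_countP {β : Type} [Enc β] {f : α → β → Bool} {l : α → List β}
    (hf : PT fun p : α × β => f p.1 p.2) (hl : PT l) : PT fun x => (l x).countP (f x) :=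
  pt_countP hf hl

@[fun_prop] private theorem dec_lbN (hi : PT i) (ht : PT t) (hx : PT x) (hy : PT y) :
    PT fun z => lbN (i z) (t z).length (x z) (y z) := by
  unfold lbN
  refine pt_prodm hi (PT.map (by fun_prop) (pt_filter ?_ (dec_r1 ht)))
  exact dec_ne (by fun_prop) (by fun_prop)

@[fun_prop] theorem pt_evN (hc : PT c) (ht : PT t) (hx : PT x) (hy : PT y) :
    PT fun z => (c z).evN (t z) (x z) (y z) := by
  unfold evN
  refine pt_summ (pt_p hc) (PT.map ?_ (dec_rts hc))
  fun_prop

@[fun_prop] private theorem dec_rowv (hc : PT c) (h1 : PT ε) (h3 : PT rows) (hx : PT x) (hy : PT y) :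
    PT fun z => (c z).rowv (ε z) (rows z) (x z) (y z) := by
  unfold rowv
  fun_prop

@[fun_prop] private theorem dec_colv (hc : PT c) (h1 : PT ε) (h3 : PT rows) (hx : PT x) (hy : PT y) :
    PT fun z => (c z).colv (ε z) (rows z) (x z) (y z) := by
  unfold colv
  fun_prop

@[fun_prop] private theorem dec_trust (hc : PT c) (h1 : PT ε) (h2 : PT ε') (h3 : PT rows) (h4 : PT cols)
    (hx : PT x) : PT fun z => (c z).trust (ε z) (ε' z) (rows z) (cols z) (x z) := by
  unfold trust
  refine dec_le (by fun_prop) (PT.mul (PT.const 2) (pt_countP ?_ (dec_r2 (pt_S' hc))))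
  exact dec_eq (by fun_prop) (by fun_prop)

@[fun_prop] theorem pt_decT (hc : PT c) (h1 : PT ε) (h2 : PT ε') (h3 : PT rows) (h4 : PT cols) :
    PT fun z => (c z).decT (ε z) (ε' z) (rows z) (cols z) := by
  have hL : PT fun z => ((List.range (2 * (c z).d)).filter
      ((c z).trust (ε z) (ε' z) (rows z) (cols z))).take ((c z).d + 1) :=
    pt_take (by fun_prop) (pt_filter (by fun_prop) (dec_r2 (pt_S hc)))
  unfold decT
  refine PT.map (pt_summ (by fun_prop) (PT.map ?_ (hL.comp PT.fst'))) (dec_rts hc)
  refine pt_mulm (by fun_prop) (by fun_prop) (pt_prodm (by fun_prop) (PT.map (by fun_prop)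
    (pt_filter ?_ (hL.comp (PT.fst PT.fst')))))
  exact dec_ne (by fun_prop) (by fun_prop)

@[fun_prop] theorem pt_calmT (hc : PT c) (ht : PT t) (h3 : PT rows) (h4 : PT cols) :
    PT fun z => (c z).calmT (t z) (rows z) (cols z) := by
  unfold calmT
  refine PT.and (PT.all (PT.all ?_ (dec_r1 (by fun_prop))) (dec_r2 (pt_S hc)))
    (PT.all (PT.all ?_ (dec_r1 (by fun_prop))) (dec_r2 (pt_S' hc)))
  · exact dec_eq (by fun_prop) (by fun_prop)
  · exact dec_eq (by fun_prop) (by fun_prop)

@[fun_prop] private theorem dec_ell (hc : PT c) (hi : PT i) (hx : PT x) (hy : PT y) :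
    PT fun z => (c z).ell (i z) (x z) (y z) := by
  unfold ell
  fun_prop

@[fun_prop] private theorem dec_flipN {u v : α → ℕ} (hc : PT c) (hi : PT i) (hx : PT x) (hy : PT y)
    (hu : PT u) (hv : PT v) : PT fun z => (c z).flipN (i z) (x z) (y z) (u z) (v z) := by
  unfold flipN
  fun_prop

@[fun_prop] theorem pt_flipR (hc : PT c) (hi : PT i) (ht : PT t) (ht' : PT t') :
    PT fun z => (c z).flipR (i z) (t z) (t' z) := by
  unfold flipR
  exact PT.map (by fun_prop) (dec_rts hc)
@[fun_prop] theorem pt_flipC (hc : PT c) (hi : PT i) (ht : PT t) (ht' : PT t') :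
    PT fun z => (c z).flipC (i z) (t z) (t' z) := by
  unfold flipC
  exact PT.map (by fun_prop) (dec_rts hc)

/-- number of common bits -/
private def par (c : CP) (a b : ℕ) : ℕ := (List.range c.k).countP fun j => (a &&& b).testBit j

@[fun_prop] private theorem dec_par (hc : PT c) (hx : PT x) (hy : PT y) :
    PT fun z => par (c z) (x z) (y z) := by
  unfold par
  simp only [Nat.testBit_and]
  exact pt_countP (by fun_prop) (dec_rk hc)

theorem pt_encN (hc : PT c) (hk : PU fun z => 2 ^ (c z).k) (ht : PT t) (hi : PT i) :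
    PT fun z => (c z).encN (t z) (i z) := by
  have h2 := hk.pt
  change PT fun z => (List.range (c z).ts).map fun n => summ (c z).p ((List.range (2 ^ (c z).k)).map fun ψ =>
    mulm (c z).p (mulm (c z).p (divm (c z).p (summ (c z).p ((List.range (2 ^ (c z).k)).map fun b =>
      mulm (c z).p ((t z).getD b 0) (sgm (c z).p (par (c z) ψ b))))
        (2 ^ (c z).k)) (sgm (c z).p (par (c z) ψ (i z))))
      (mulm (c z).p
        (prodm (c z).p ((List.range (c z).d).map fun j => (c z).ell (c z).d
          (2 * j + (par (c z) ψ ((c z).S.getD j 0) + 1) % 2) (n / ((c z).d' + 1))))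
        (prodm (c z).p ((List.range (c z).d').map fun j => (c z).ell (c z).d'
          (2 * j + (par (c z) ψ ((c z).S'.getD j 0) + 1) % 2) (n % ((c z).d' + 1))))))
  refine PT.map (pt_summ (by fun_prop) (PT.map ?_ (hk.range.comp PT.fst'))) (dec_rts hc)
  refine pt_mulm (by fun_prop) (pt_mulm (by fun_prop) (pt_divm (by fun_prop) (pt_summ (by fun_prop)
    (PT.map (by fun_prop) (hk.range.comp (PT.fst PT.fst')))) (h2.comp (PT.fst PT.fst'))) (by fun_prop))
    (pt_mulm (by fun_prop) (pt_prodm (by fun_prop) (PT.map (by fun_prop) (by fun_prop)))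
      (pt_prodm (by fun_prop) (PT.map (by fun_prop) (by fun_prop))))

end pt

end CP

end Vale.Agent.P330Q
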