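import Vale.Agent.P330Q.LTCb

/-! Local testability of the storage code (task LTC).
Plan. `RD V a i`: one of the edges `2 i`, `2 i + 1` is not `RowOk` (symmetric: `RD V (a + nb i) i`);
`CD` for columns. `Φ V = d' * card {(a, i) | RD} + d * card {(a, j) | CD}`. Among all families `V` of
views of bidegree `(d, d')` minimize `Φ V + card {a | V a ≠ W a}` (a natural number); the minimum is
at most `Φ W ≤ 2 d d' η 2 ^ k`. It suffices to show that `V` has no dispute (`struct`).
Heavy: `d' * card (RD at a) + d * card (CD at a) ≥ d d' / 8`; `H` has density `≤ 16 η`.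
(1) Closure: a set `Z ⊇ H` with `card Z ≤ 2 card H` such that no point outside `Z` has a fraction
`≥ 1/64` of its neighbours along `S` or along `S'` in `Z`: take a largest `Z ⊇ H` with
`card Z ≤ 2 card H` in which every point outside `H` has such a fraction; `tail1` gives
`card (Z \ H) ≤ card Z / 4`, so a further point could be added. (If `H` is empty, `Z` is empty.)
(2) Every dispute has an end in `Z`: for a row dispute `(a, i)` the difference of the rows is a
nonzero polynomial of degree `≤ d'`, so for at least half of the `j` the square `a, a + s i,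
a + s' j, a + s i + s' j` has a second dispute. Hence the set `Y` of `a` with `RD V a i`, `a ∉ Z`,
`a + s i ∉ Z` (density `≤ 2 d η ≤ 1/10`) has every point with a fraction `≥ 1/2 - 2/8 - 2/64 ≥ 1/5` of
its neighbours along `S'` in `Y`; `tail1` makes it empty. The same for columns.
(3) If `H` is not empty, `tail1` for `Z ∪ ⋃ j, (Z + s' j)` along `S` and for `Z` along `S'` gives
`a ∈ H` with all but `1/64` of the `i` in `I0 = {i | a + s i ∉ Z, ∀ j, a + s i + s' j ∉ Z}` and all but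
`1/64` of the `j` in `J0 = {j | a + s' j ∉ Z}`. On `I0 × J0` the proposed rows and columns agree by
(2). Interpolate through `d + 1` proposed rows (`Lo.interp'`, `lo_basis`, `basis_at`): the new view
agrees with the columns in `J0`, then with the rows in `I0`. These neighbours differ from `a`
(as `a ∈ Z`), so replacing `V a` leaves at most `2 (1/64 + 1/64) d d'` weight of disputes at `a` and
its mirror images, less than `d d' / 8 - 1`: contradiction. -/

namespace Vale.Agent.P330Q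

open Vale.Agent.Lib.H23 Vale.Agent.P325 Vale.Agent.P330 Vale.Agent.P330.Amp Finset
open scoped BigOperators

namespace CP

variable {c : CP} [Fact c.p.Prime]

/-- weight of the disputes at `a` -/
noncomputable def wt (V : Vec c.k → View c.p) (a : Vec c.k) : ℕ :=
  c.d' * lcN c.d (RD V a) + c.d * lcN c.d' (CD V a)

variable {V : Vec c.k → View c.p}

theorem sum_wt (V : Vec c.k → View c.p) : ∑ a, wt V a =
    c.d' * ∑ a, lcN c.d (RD V a) + c.d * ∑ a, lcN c.d' (CD V a) := by
  simp only [wt, sum_add_distrib, mul_sum]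

theorem wt_update (V : Vec c.k → View c.p) (a : Vec c.k) (ω : View c.p) :
    ∑ b, wt (Function.update V a ω) b + wt V a ≤
      ∑ b, wt V b + 2 * wt (Function.update V a ω) a := by
  have h1 := upd_total (n := c.d) (R := RD V) (R' := RD (Function.update V a ω)) (a := a)
    (v := nb c.k c.S) (fun _ => RD.symm) fun i b h1 h2 ⟨e, he, hn⟩ => ⟨e, he, fun h3 => hn fun y => by
      rw [he, Function.update_of_ne h1, Function.update_of_ne h2, ← he]
      exact h3 y⟩
  have h2 := upd_total (n := c.d') (R := CD V) (R' := CD (Function.update V a ω)) (a := a)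
    (v := nb c.k c.S') (fun _ => CD.symm) fun i b h1 h2 ⟨e, he, hn⟩ => ⟨e, he, fun h3 => hn fun y => by
      rw [he, Function.update_of_ne h1, Function.update_of_ne h2, ← he]
      exact h3 y⟩
  rw [sum_wt, sum_wt, wt, wt]
  have h3 := Nat.mul_le_mul_left c.d' h1
  have h4 := Nat.mul_le_mul_left c.d h2
  simp only [mul_add] at h3 h4 ⊢
  rw [mul_left_comm c.d' 2] at h3
  rw [mul_left_comm c.d 2] at h4
  omega

omit [Fact c.p.Prime] in
theorem bias_weak (h : c.Ok) : Bias c.k c.S (1 / 2 ^ 17) :=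
  h.bias.mono (one_div_le_one_div_of_le (by positivity)
    (le_mul_of_one_le_right (by positivity) (le_add_of_nonneg_right (Nat.cast_nonneg _))))

theorem ends (h : c.Ok) (hV : ∀ a, Bi c.d c.d' (V a)) (hs : 2 ^ 12 * ∑ a, wt V a ≤ 2 ^ c.k)
    {Z : Finset (Vec c.k)} (hl : ∀ a, a ∉ Z → 8 * wt V a ≤ c.d * c.d')
    (hc : ∀ a, a ∉ Z → ¬ Near c.S 64 (· ∈ Z) a ∧ ¬ Near c.S' 64 (· ∈ Z) a) (a : Vec c.k) :
    (∀ i < c.d, RD V a i → a ∈ Z ∨ a + nb c.k c.S i ∈ Z) ∧
      ∀ j < c.d', CD V a j → a ∈ Z ∨ a + nb c.k c.S' j ∈ Z := by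
  have d1 := h.d16
  have d2 := h.d16'
  rw [sum_wt, sum_lcN, sum_lcN] at hs
  refine ⟨fun i hi => ?_, fun j hj => ?_⟩
  · refine end_in h.bias' (Z := (· ∈ Z)) (R := fun b => RD V b i) (C := CD V)
      (fun b hb => row_square h hV hb) (fun b hb => ?_) (fun b hb => (hc b hb).2) ?_ a
    · have h1 := hl b hb
      rw [wt] at h1
      refine Nat.le_of_mul_le_mul_left ?_ (show 0 < c.d by omega)
      change c.d * (8 * lcN c.d' (CD V b)) ≤ c.d * c.d'
      rw [mul_left_comm]
      omega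
    · have h1 := single_le_sum (f := fun i => lcV fun a => RD V a i) (fun _ _ => Nat.zero_le _)
        (mem_range.2 hi)
      have h2 := Nat.mul_le_mul d2 h1
      omega
  · refine end_in (bias_weak h) (Z := (· ∈ Z)) (R := fun b => CD V b j) (C := RD V)
      (fun b hb => col_square h hV hb) (fun b hb => ?_) (fun b hb => (hc b hb).1) ?_ a
    · have h1 := hl b hb
      rw [wt, mul_comm c.d c.d'] at h1
      refine Nat.le_of_mul_le_mul_left ?_ (show 0 < c.d' by omega)
      change c.d' * (8 * lcN c.d (RD V b)) ≤ c.d' * c.d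
      rw [mul_left_comm]
      omega
    · have h1 := single_le_sum (f := fun i => lcV fun a => CD V a i) (fun _ _ => Nat.zero_le _)
        (mem_range.2 hj)
      have h2 := Nat.mul_le_mul d1 h1
      omega

theorem better (h : c.Ok) (hV : ∀ a, Bi c.d c.d' (V a)) {Z : Finset (Vec c.k)}
    (he : ∀ a, (∀ i < c.d, RD V a i → a ∈ Z ∨ a + nb c.k c.S i ∈ Z) ∧
      ∀ j < c.d', CD V a j → a ∈ Z ∨ a + nb c.k c.S' j ∈ Z) {a : Vec c.k} (ha : a ∈ Z)
    (h1 : ¬ Near c.S 64 (fun b => b ∈ Z ∨ ∃ j < c.d', b + nb c.k c.S' j ∈ Z) a)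
    (h2 : ¬ Near c.S' 64 (· ∈ Z) a) :
    ∃ ω, Bi c.d c.d' ω ∧ 32 * wt (Function.update V a ω) a ≤ c.d * c.d' := by
  have d1 := h.d16
  have d2 := h.d16'
  change ¬ c.d ≤ 64 * lcN c.d (fun i => a + nb c.k c.S i ∈ Z ∨
    ∃ j < c.d', a + nb c.k c.S i + nb c.k c.S' j ∈ Z) at h1
  change ¬ c.d' ≤ 64 * lcN c.d' (fun j => a + nb c.k c.S' j ∈ Z) at h2
  have e1 := lcN_add_not c.d fun i => a + nb c.k c.S i ∈ Z ∨
    ∃ j < c.d', a + nb c.k c.S i + nb c.k c.S' j ∈ Z
  have e2 := lcN_add_not c.d' fun j => a + nb c.k c.S' j ∈ Z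
  obtain ⟨ω, hω, r1, r2⟩ := improve h hV a
    (I := fun i => ¬ (a + nb c.k c.S i ∈ Z ∨ ∃ j < c.d', a + nb c.k c.S i + nb c.k c.S' j ∈ Z))
    (J := fun j => ¬ a + nb c.k c.S' j ∈ Z) (by omega) (by omega) fun i hi j hj hI hJ => by
      refine ⟨fun h3 => ?_, fun h3 => ?_⟩
      · rcases (he _).1 i hi h3 with h4 | h4
        · exact hJ h4
        · exact hI (Or.inr ⟨j, hj, by rw [add_right_comm]; exact h4⟩)
      · rcases (he _).2 j hj h3 with h4 | h4
        · exact hI (Or.inl h4)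
        · exact hI (Or.inr ⟨j, hj, h4⟩)
  refine ⟨ω, hω, ?_⟩
  have f1 : lcN c.d (RD (Function.update V a ω) a) ≤ lcN c.d fun i => a + nb c.k c.S i ∈ Z ∨
      ∃ j < c.d', a + nb c.k c.S i + nb c.k c.S' j ∈ Z := by
    refine lcN_mono fun i hi ⟨e, h3, h4⟩ => by_contra fun h5 => h4 fun y => ?_
    subst h3
    have h6 : a + nb c.k c.S (e / 2) ≠ a := fun h6 => h5 (Or.inl (by rw [h6]; exact ha))
    rw [Function.update_self, Function.update_of_ne h6]
    exact r1 e (by omega) h5 y
  have f2 : lcN c.d' (CD (Function.update V a ω) a) ≤ lcN c.d' fun j => a + nb c.k c.S' j ∈ Z := by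
    refine lcN_mono fun i hi ⟨e, h3, h4⟩ => by_contra fun h5 => h4 fun y => ?_
    subst h3
    have h6 : a + nb c.k c.S' (e / 2) ≠ a := fun h6 => h5 (by rw [h6]; exact ha)
    rw [Function.update_self, Function.update_of_ne h6]
    exact r2 e (by omega) h5 y
  have g1 : 64 * lcN c.d (RD (Function.update V a ω) a) ≤ c.d := by omega
  have g2 : 64 * lcN c.d' (CD (Function.update V a ω) a) ≤ c.d' := by omega
  have g3 := Nat.mul_le_mul_left c.d' g1
  have g4 := Nat.mul_le_mul_left c.d g2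
  rw [mul_left_comm, mul_comm c.d' c.d] at g3
  rw [mul_left_comm] at g4
  rw [wt]
  omega

theorem calm_of_min (h : c.Ok) (hV : ∀ a, Bi c.d c.d' (V a)) (hs : 2 ^ 12 * ∑ a, wt V a ≤ 2 ^ c.k)
    (hmin : ∀ a ω, Bi c.d c.d' ω → ∑ b, wt V b ≤ ∑ b, wt (Function.update V a ω) b + 1)
    (a : Vec c.k) : c.Calm V a := by
  have d1 := h.d16
  have d2 := h.d16'
  obtain ⟨H, hH⟩ : ∃ H : Finset (Vec c.k), H = univ.filter fun b => c.d * c.d' ≤ 8 * wt V b :=
    ⟨_, rfl⟩
  have hm : ∀ b, b ∈ H ↔ c.d * c.d' ≤ 8 * wt V b := fun b => by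
    rw [hH, mem_filter]
    exact and_iff_right (mem_univ _)
  have h1 : H.card * (c.d * c.d') ≤ 8 * ∑ b, wt V b := by
    rw [mul_sum]
    exact (card_nsmul_le_sum H _ _ fun b hb => (hm b).1 hb).trans
      (sum_le_sum_of_subset (subset_univ _))
  have h2 : (1 + c.d') * H.card ≤ H.card * (c.d * c.d') := by
    rw [mul_comm]
    exact Nat.mul_le_mul_left _ (by nlinarith)
  have h3 : H.card ≤ (1 + c.d') * H.card := Nat.le_mul_of_pos_left _ (by omega)
  obtain ⟨Z, z1, z2, z3⟩ := exists_closure (bias_weak h) h.bias' H (by omega)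
  have he := ends h hV hs (fun b hb => le_of_not_ge fun h4 => hb (z1 ((hm b).2 h4))) z3
  rcases Nat.eq_zero_or_pos H.card with h0 | h0
  · have h4 : Z = ∅ := card_eq_zero.1 (by omega)
    subst h4
    exact calm_iff.2 ⟨fun i hi h5 => by simpa using (he a).1 i hi h5,
      fun i hi h5 => by simpa using (he a).2 i hi h5⟩
  · obtain ⟨b, b1, b2, b3⟩ := exists_good h.bias h.bias' h0
      (by change 256 * ((1 + c.d') * _) ≤ _; omega) z2
    obtain ⟨ω, w1, w2⟩ := better h hV he (z1 b1) b2 b3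
    have w3 := hmin b ω w1
    have w4 := wt_update V b ω
    have w5 := (hm b).1 b1
    have w6 := Nat.mul_le_mul d1 d2
    omega

theorem sum_wt_le (W : Vec c.k → View c.p) :
    ∑ a, wt W a ≤ 2 * (c.d * c.d') * lcV fun a => ¬ c.Calm W a := by
  classical
  rw [lcV_eq_sum, mul_sum]
  refine sum_le_sum fun a _ => ?_
  split_ifs with h
  · rw [calm_iff] at h
    rw [wt, lcN_zero h.1, lcN_zero h.2]
    simp
  · have h1 := Nat.mul_le_mul_left c.d' (lcN_le c.d (RD W a))
    have h2 := Nat.mul_le_mul_left c.d (lcN_le c.d' (CD W a))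
    rw [mul_comm c.d' c.d] at h1
    rw [wt]
    omega

end CP

theorem CP.ltc {c : CP} [Fact c.p.Prime] (h : c.Ok) {W : Vec c.k → View c.p}
    (hW : ∀ a, Bi c.d c.d' (W a)) {η : ℝ} (h1 : (𝔼 a, ind (¬ c.Calm W a)) ≤ η)
    (h2 : 2 ^ 13 * c.d * c.d' * η ≤ 1) :
    ∃ y, (𝔼 a, ind (W a ≠ c.encV 0 0 y a)) ≤ 2 * c.d * c.d' * η := by
  obtain ⟨V, hV, hmin⟩ := (InvImage.wf (fun V : Vec c.k → View c.p =>
    ∑ a, CP.wt V a + lcV fun a => W a ≠ V a) Nat.lt_wfRel.wf).has_min
      {V | ∀ a, Bi c.d c.d' (V a)} ⟨W, hW⟩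
  have hm : ∀ V' : Vec c.k → View c.p, (∀ a, Bi c.d c.d' (V' a)) →
      ∑ a, CP.wt V a + lcV (fun a => W a ≠ V a) ≤ ∑ a, CP.wt V' a + lcV fun a => W a ≠ V' a :=
    fun V' hV' => le_of_not_gt (hmin V' hV')
  have hN : (0 : ℝ) < 2 ^ c.k := by positivity
  have e1 := hm W hW
  rw [lcV_of_not (P := fun a => W a ≠ W a) fun a ha => ha rfl] at e1
  have e2 := CP.sum_wt_le W
  rw [dens_eq, div_le_iff₀ hN] at h1
  have e3 : ((∑ a, CP.wt V a : ℕ) : ℝ) + lcV (fun a => W a ≠ V a) ≤
      2 * c.d * c.d' * η * 2 ^ c.k := by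
    have e4 : ((∑ a, CP.wt V a : ℕ) : ℝ) + lcV (fun a => W a ≠ V a) ≤
        2 * (c.d * c.d') * lcV fun a => ¬ c.Calm W a := by exact_mod_cast e1.trans e2
    refine e4.trans ((mul_le_mul_of_nonneg_left h1 (by positivity)).trans (le_of_eq ?_))
    ring
  have e4 : 2 ^ 12 * ∑ a, CP.wt V a ≤ 2 ^ c.k := by
    have e5 : (2 : ℝ) ^ 12 * ((∑ a, CP.wt V a : ℕ) : ℝ) ≤ 2 ^ c.k := by
      have e6 := mul_le_mul_of_nonneg_right h2 hN.le
      have e7 : (0 : ℝ) ≤ lcV fun a => W a ≠ V a := Nat.cast_nonneg _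
      linarith
    exact_mod_cast e5
  have hc := CP.calm_of_min h hV e4 fun a ω hω => by
    have e5 := hm (Function.update V a ω) fun b => by
      by_cases hb : b = a
      · rw [hb, Function.update_self]
        exact hω
      · rw [Function.update_of_ne hb]
        exact hV b
    have e6 := lcV_or (P := fun b => W b ≠ Function.update V a ω b) (Q := fun b => W b ≠ V b)
      (R := fun b => b = a) fun b hb => by
        by_cases h3 : b = a
        · exact Or.inr h3
        · rw [Function.update_of_ne h3] at hb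
          exact Or.inl hb
    rw [lcV_eq_one] at e6
    omega
  refine ⟨fun a => V a 0 0, ?_⟩
  rw [← CP.struct h hV hc, dens_eq, div_le_iff₀ hN]
  have e5 : (0 : ℝ) ≤ ((∑ a, CP.wt V a : ℕ) : ℝ) := Nat.cast_nonneg _
  linarith

end Vale.Agent.P330Q
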