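import Vale.Agent.P330Q.PhysC
import Vale.Agent.P330Q.LTC

/-! The local tests of the round `0` (task FinA).
Plan. `sure_of_poss`: by `Sys.stab` (levels `0 < j < 4`) every reading agrees on the segment, at the
levels `1, 2, 3`, with the level `0` of the passing reading. `near_code`: let `W x b` be the view of
the table number `x` in the level `2` of a chosen reading at `b`. If `G b` and `Poss 1 3 b` then all
readings in the block have the same segment at the level `2` (`stab` with `1 < 2 < 3`), so `W x` is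
`Calm` at `b` (`calmT_iff`). Apply `CP.ltc` to every `x < nS` and use `toTab_toView` at the centre
(`locv_own`). `sure_of_hold`: `row_enc`, `col_enc`, `toView_toTab`, `calmT_iff`. -/

namespace Vale.Agent.P330Q

open Vale.Agent.Lib.H23 Vale.Agent.P325 Vale.Agent.P330 Vale.Agent.P330.Amp Finset
open scoped BigOperators

/-- two lists with the same blocks are equal -/
theorem fa_eq_of_tb {l l' : List ℕ} {n m : ℕ} (h1 : l.length = n * m) (h2 : l'.length = n * m)
    (h : ∀ x < n, tb l (x * m) m = tb l' (x * m) m) : l = l' := by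
  rw [← tb_self l, ← tb_self l', h1, h2]
  refine tb_congr fun i hi => ?_
  have hm : 0 < m := Nat.pos_of_ne_zero fun e => by simp [e] at hi
  have hx : i / m < n := by rwa [Nat.div_lt_iff_lt_mul hm]
  have e := congrArg (fun t : List ℕ => t.getD (i % m) 0) (h _ hx)
  simp only [getD_tb _ _ (Nat.mod_lt i hm), Nat.div_add_mod'] at e
  simpa only [Nat.zero_add] using e

theorem fa_mem_tb {l : List ℕ} {p o m : ℕ} (hp : 0 < p) (h : ∀ x ∈ l, x < p) :
    ∀ x ∈ tb l o m, x < p := by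
  intro x hx
  obtain ⟨i, -, rfl⟩ := List.mem_map.1 hx
  by_cases hi : o + i < l.length
  · rw [List.getD_eq_getElem _ _ hi]
    exact h _ (List.getElem_mem hi)
  · rwa [List.getD_eq_default _ _ (by omega)]

theorem fa_getD_map {α : Type} (f : ℕ → α) {n i : ℕ} (hi : i < n) (z : α) :
    ((List.range n).map f).getD i z = f i := by
  simp [List.getD_eq_getElem?_getD, hi]

namespace CP

variable {c : CP}

/-- the second half of the local test, for the segments `f h` -/
def faCalm (c : CP) (n : ℕ) (f : ℕ → List ℕ) : Prop :=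
  ∀ x < n, c.calmT (tb (f (c.d + c.d')) (x * c.ts) c.ts)
    ((List.range c.d).map fun h => tb (f h) (x * c.ts) c.ts)
    ((List.range c.d').map fun h => tb (f (c.d + h)) (x * c.ts) c.ts) = true

theorem fa_locB_iff {n : ℕ} {L : List Rd} {i j side : ℕ} : c.locB n L i j side = true ↔
    (∀ h < c.m, c.seg n (L.getD h []) i side = c.seg n (L.getD h []) j side ∧
      ∀ x ∈ c.seg n (L.getD h []) 2 side, x < c.p) ∧
    c.faCalm n fun h => c.seg n (L.getD h []) 2 side := by
  simp only [locB, faCalm, Bool.and_eq_true, List.all_eq_true, List.mem_range, eqN,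
    decide_eq_true_eq]

theorem fa_calmP_congr {n : ℕ} {f g : ℕ → List ℕ} (h : ∀ i < c.m, f i = g i) (hf : c.faCalm n f) :
    c.faCalm n g := by
  intro x hx
  have e := hf x hx
  have hm : c.m = c.d + c.d' + 1 := rfl
  rw [h _ (by omega), List.map_congr_left (g := fun h => tb (g h) (x * c.ts) c.ts)
    (fun i hi => by rw [h i (by have := List.mem_range.1 hi; omega)]),
    List.map_congr_left (l := List.range c.d') (g := fun h => tb (g (c.d + h)) (x * c.ts) c.ts)
    (fun i hi => by rw [h _ (by have := List.mem_range.1 hi; omega)])] at e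
  exact e

variable [Fact c.p.Prime]

theorem fa_calmP_iff (h : c.Ok) {n : ℕ} (T : Vec c.k → List ℕ) (b : Vec c.k) :
    c.faCalm n (fun i => T (b + c.locv i)) ↔
      ∀ x < n, c.Calm (fun e => c.toView (tb (T e) (x * c.ts) c.ts)) b := by
  refine forall₂_congr fun x _ => ?_
  rw [← calmT_iff h (fun e => tb (T e) (x * c.ts) c.ts) b
    (rows := (List.range c.d).map fun i => tb (T (b + c.locv i)) (x * c.ts) c.ts)
    (cols := (List.range c.d').map fun i => tb (T (b + c.locv (c.d + i))) (x * c.ts) c.ts)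
    (fun i hi => by rw [fa_getD_map _ hi, locv_row hi])
    (fun i hi => by rw [fa_getD_map _ hi, locv_col])]
  simp only [locv_own, add_zero]

theorem fa_toView_encT (h : c.Ok) (y : Vec c.k → ZMod c.p) (a : Vec c.k) :
    c.toView (c.encT [] [] y a) = c.encV 0 0 y a := by
  rw [encT, twF_nil, toView_toTab h (bi_enc a)]

omit [Fact c.p.Prime] in
theorem fa_length_seg (n : ℕ) (ρ : Rd) (j side : ℕ) : (c.seg n ρ j side).length = n * c.ts :=
  length_tb _ _ _

end CP

namespace FD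

variable {P : Type} {F : FD P} {M : LM P} [Fact F.c.p.Prime] (Y : F.Sys M)

/-- no fault in the block with the centre `b` -/
def G (b : Vec F.c.k) : Prop := ∀ h < F.c.m, Y.good (b + F.c.locv h)

/-- possible readings of the block with the centre `b` -/
def Blk (b : Vec F.c.k) (L : List Rd) : Prop := ∀ h < F.c.m, L.getD h [] ∈ Y.S 0 (b + F.c.locv h)

def Poss (i j side : ℕ) (b : Vec F.c.k) : Prop :=
  ∃ L, Blk Y b L ∧ F.c.locB (F.nS M) L i j side = true

def Sure (i j side : ℕ) (b : Vec F.c.k) : Prop :=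
  ∀ L, Blk Y b L → F.c.locB (F.nS M) L i j side = true

variable {Y} {side : ℕ} {b : Vec F.c.k}

theorem blk_adm {a : Vec F.c.k} {r : Inp} (h : (F.net M).Adm Y.S 0 a r) {l : ℕ} (hl : l < F.d2) :
    Blk Y (a + nb F.c.k F.S2 l) (F.c.blkR r (l + 2)) := by
  intro i hi
  have e := adm_mem h (s := 0) (β := l + 2) (by norm_num) (by omega) hi
  have e1 : (F.net M).src 0 0 = 0 := by simp
  have e2 : F.cenv M 0 (l + 2) = nb F.c.k F.S2 l := by simp [cenv]
  rw [e1, e2] at e
  rw [CP.blkR, fa_getD_map _ hi]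
  exact e

theorem dens_G : (𝔼 b, ind (¬ G Y b)) ≤ F.c.m * flt Y := by
  refine le_trans (expect_le_expect fun b _ => ind_mono (q := ∃ h < F.c.m,
    ¬ Y.good (b + F.c.locv h)) fun hb => ?_) (dens_ex fun i _ => ?_)
  · by_contra c
    exact hb fun i hi => by_contra fun hn => c ⟨i, hi, hn⟩
  · exact (dens_shift (fun a => ¬ Y.good a) _).le

/-- stability for segments -/
theorem fa_stab_seg (hs : side < 2) {a : Vec F.c.k} (ha : Y.good a) {i j l : ℕ} (hij : i < j)
    (hjl : j < l) (hl : l < 64) {ρ ρ' : Rd} (h1 : ρ ∈ Y.S 0 a) (h2 : ρ' ∈ Y.S 0 a)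
    (e : F.c.seg (F.nS M) ρ i side = F.c.seg (F.nS M) ρ l side) :
    F.c.seg (F.nS M) ρ' j side = F.c.seg (F.nS M) ρ i side := by
  refine tb_congr fun u hu => ?_
  have e1 := congrArg (fun t : List ℕ => t.getD u 0) e
  simp only [CP.seg, getD_tb _ _ hu] at e1
  refine Y.stab 0 (Nat.succ_pos _) a ha _ ?_ i j l hij hjl hl ρ h1 ρ' h2 e1
  have e2 : side * (F.nS M * F.c.ts) ≤ 1 * (F.nS M * F.c.ts) :=
    Nat.mul_le_mul_right _ (by omega)
  change _ < M.ns F.q + 2 * M.nR F.q * F.c.ts + 2 + 2 * (F.nS M * F.c.ts)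
  omega

theorem sure_of_poss (hs : side < 2) (hG : G Y b) (h : Poss Y 0 4 side b) : Sure Y 1 3 side b := by
  obtain ⟨L0, hB, hL⟩ := h
  obtain ⟨e1, e2⟩ := CP.fa_locB_iff.1 hL
  intro L hL'
  have key : ∀ i < F.c.m, ∀ j, 0 < j → j < 4 → F.c.seg (F.nS M) (L.getD i []) j side =
      F.c.seg (F.nS M) (L0.getD i []) 2 side := fun i hi j h0 h4 =>
    (fa_stab_seg hs (hG i hi) h0 h4 (by norm_num) (hB i hi) (hL' i hi) (e1 i hi).1).trans
      (fa_stab_seg hs (hG i hi) (j := 2) (by norm_num) (by norm_num) (by norm_num) (hB i hi) (hB i hi)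
        (e1 i hi).1).symm
  refine CP.fa_locB_iff.2 ⟨fun i hi => ⟨?_, ?_⟩,
    CP.fa_calmP_congr (fun i hi => (key i hi 2 (by norm_num) (by norm_num)).symm) e2⟩
  · rw [key i hi 1 (by norm_num) (by norm_num), key i hi 3 (by norm_num) (by norm_num)]
  · rw [key i hi 2 (by norm_num) (by norm_num)]
    exact (e1 i hi).2

/-- what a passed test tells about a choice of readings -/
theorem fa_poss_spec (h : F.Ok M) (hs : side < 2) {ρ : Vec F.c.k → Rd} (hρ : ∀ a, ρ a ∈ Y.S 0 a)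
    (hG : G Y b) (hP : Poss Y 1 3 side b) :
    (∀ x < F.nS M, F.c.Calm (fun e => F.c.toView
      (tb (F.c.seg (F.nS M) (ρ e) 2 side) (x * F.c.ts) F.c.ts)) b) ∧
    (∀ x ∈ F.c.seg (F.nS M) (ρ b) 2 side, x < F.c.p) ∧
    ∀ ρ' ∈ Y.S 0 b, F.c.seg (F.nS M) ρ' 2 side = F.c.seg (F.nS M) (ρ b) 2 side := by
  obtain ⟨L, hB, hL⟩ := hP
  obtain ⟨e1, e2⟩ := CP.fa_locB_iff.1 hL
  have key : ∀ i < F.c.m, ∀ ρ' ∈ Y.S 0 (b + F.c.locv i), F.c.seg (F.nS M) ρ' 2 side =
      F.c.seg (F.nS M) (L.getD i []) 2 side := fun i hi ρ' h' =>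
    (fa_stab_seg hs (hG i hi) (j := 2) (by norm_num) (by norm_num) (by norm_num) (hB i hi) h'
      (e1 i hi).1).trans
      (fa_stab_seg hs (hG i hi) (j := 2) (by norm_num) (by norm_num) (by norm_num) (hB i hi) (hB i hi)
        (e1 i hi).1).symm
  have hm : F.c.d + F.c.d' < F.c.m := Nat.lt_succ_self _
  have k0 := key _ hm
  rw [CP.locv_own, add_zero] at k0
  refine ⟨(CP.fa_calmP_iff h.c (fun e => F.c.seg (F.nS M) (ρ e) 2 side) b).1
    (CP.fa_calmP_congr (fun i hi => (key i hi _ (hρ _)).symm) e2), ?_, fun ρ' h' => ?_⟩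
  · rw [k0 _ (hρ b)]
    exact (e1 _ hm).2
  · rw [k0 _ h', k0 _ (hρ b)]

theorem near_code (h : F.Ok M) (hs : side < 2)
    (hd : (𝔼 b, ind (¬ (G Y b ∧ Poss Y 1 3 side b))) ≤ 3 / F.th) :
    ∃ A, (𝔼 b, ind (rawBad Y side A b)) ≤ 1 / 32 := by
  choose ρ hρ using fun a => Y.ne 0 a
  have d1 : (16 : ℝ) ≤ F.c.d := by exact_mod_cast h.c.d16
  have d2 : (16 : ℝ) ≤ F.c.d' := by exact_mod_cast h.c.d16'
  have t1 : (2 : ℝ) ^ 16 * (F.nS M + 1) * F.c.d * F.c.d' ≤ F.th := by exact_mod_cast h.th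
  have dd : (1 : ℝ) ≤ F.c.d * F.c.d' := by nlinarith
  have n0 : (0 : ℝ) ≤ F.nS M := Nat.cast_nonneg _
  have nd : (0 : ℝ) ≤ F.nS M * (F.c.d * F.c.d') := by positivity
  have t2 : (2 : ℝ) ^ 16 * (F.nS M * (F.c.d * F.c.d') + F.c.d * F.c.d') ≤ F.th := by
    refine le_trans (le_of_eq ?_) t1
    ring
  have t0 : (0 : ℝ) < F.th := by nlinarith
  have hy : ∀ x : Fin (F.nS M), ∃ y, (𝔼 a, ind (F.c.toView (tb (F.c.seg (F.nS M) (ρ a) 2 side)
      (x * F.c.ts) F.c.ts) ≠ F.c.encV 0 0 y a)) ≤ 2 * F.c.d * F.c.d' * (3 / F.th) := by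
    intro x
    refine CP.ltc h.c (fun a => CP.bi_toView _) (le_trans (expect_le_expect fun a _ =>
      ind_mono fun ha (hb : G Y a ∧ Poss Y 1 3 side a) =>
        ha ((fa_poss_spec h hs hρ hb.1 hb.2).1 x x.2)) hd) ?_
    rw [← mul_div_assoc, div_le_one t0]
    nlinarith
  choose A hA using hy
  refine ⟨A, ?_⟩
  have h1 := dens_ex (n := F.nS M) (P := fun x a => F.c.toView (tb (F.c.seg (F.nS M) (ρ a) 2 side)
    (x * F.c.ts) F.c.ts) ≠ F.c.encV 0 0 (St.get A x) a)
    (x := 2 * F.c.d * F.c.d' * (3 / F.th)) fun x hx => by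
      rw [St.get, dif_pos hx]
      exact hA ⟨x, hx⟩
  refine (dens_le (Q := fun b => ¬ (G Y b ∧ Poss Y 1 3 side b)) fun a ha => ?_).trans
    ((add_le_add hd h1).trans ?_)
  · by_contra c
    rw [not_or, not_not] at c
    obtain ⟨-, e2, e3⟩ := fa_poss_spec h hs hρ c.1.1 c.1.2
    refine ha fun ρ' h' => ?_
    rw [e3 ρ' h']
    refine fa_eq_of_tb (CP.fa_length_seg _ _ _ _) (CP.length_encs _ _) fun x hx => ?_
    have e4 : F.c.toView (tb (F.c.seg (F.nS M) (ρ a) 2 side) (x * F.c.ts) F.c.ts) =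
        F.c.encV 0 0 (St.get A x) a := by_contra fun hn => c.2 ⟨x, hx, hn⟩
    rw [CP.tb_encs _ _ hx, CP.encT, CP.twF_nil, ← e4,
      CP.toTab_toView h.c (length_tb _ _ _) (fa_mem_tb (Fact.out : F.c.p.Prime).pos e2)]
  · have e : (3 : ℝ) / F.th + F.nS M * (2 * F.c.d * F.c.d' * (3 / F.th)) =
        (3 + 6 * (F.nS M * (F.c.d * F.c.d'))) / F.th := by ring
    rw [e, div_le_iff₀ t0]
    nlinarith

theorem code_uniq (h : F.Ok M) {A B : F.St M} (hA : (𝔼 b, ind (rawBad Y side A b)) ≤ 1 / 32)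
    (hB : (𝔼 b, ind (rawBad Y side B b)) ≤ 1 / 32) : A = B := by
  by_contra hne
  have h1 := CP.encs_dist h.c hne
  have h2 := dens_le (P := fun a => F.c.encs A a ≠ F.c.encs B a) (Q := rawBad Y side A)
    (R := rawBad Y side B) fun a ha => by
      by_contra c
      rw [not_or, rawBad, rawBad, not_not, not_not] at c
      obtain ⟨ρ, hρ⟩ := Y.ne 0 a
      exact ha ((c.1 ρ hρ).symm.trans (c.2 ρ hρ))
  linarith

theorem sure_of_hold (h : F.Ok M) {A : F.St M}
    (hA : ∀ i < F.c.m, HoldR Y side A (b + F.c.locv i)) : Sure Y 0 4 side b := by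
  intro L hL
  have key : ∀ i < F.c.m, ∀ j < 64, F.c.seg (F.nS M) (L.getD i []) j side =
      F.c.encs A (b + F.c.locv i) := fun i hi => hA i hi _ (hL i hi)
  refine CP.fa_locB_iff.2 ⟨fun i hi => ⟨?_, ?_⟩,
    CP.fa_calmP_congr (fun i hi => (key i hi 2 (by norm_num)).symm)
      ((CP.fa_calmP_iff h.c (F.c.encs A) b).2 fun x hx => ?_)⟩
  · rw [key i hi 0 (by norm_num), key i hi 4 (by norm_num)]
  · rw [key i hi 2 (by norm_num)]
    exact CP.encs_lt _ _
  · simp only [CP.tb_encs _ _ hx, CP.fa_toView_encT h.c]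
    exact ⟨fun e he => CP.row_enc h.c b he, fun e he => CP.col_enc h.c b he⟩

end FD

end Vale.Agent.P330Q
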