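import Vale.Agent.P330Q.FinA

/-! The set `Om` of the processors at which all samples are accurate (task FinB).
Plan. `dens_om`: union bound; 16 uses of `tail2` with `s = 1 / (8 th)` (each at most
`64 th ^ 2 / (2 ^ 13 m th ^ 3)`), `thread` twice, `big`. The other lemmas: count the blocks `l < d2`
(`avS_ind`, `blk_adm`); a block that passes and has `G` has `Poss`; a block with `Sure` passes.
`lax_of_strict`: the density of `¬ (G ∧ Poss 0 4)` is at most `1/th + m f + 2 / (8 th)`.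
`eqF_spec`: a fraction below `1/32` of the centres fails `HoldT` for each thread. -/

namespace Vale.Agent.P330Q

open Vale.Agent.Lib.H23 Vale.Agent.P325 Vale.Agent.P330 Vale.Agent.P330.Amp Finset
open scoped BigOperators

namespace FD

variable {P : Type} {F : FD P} {M : LM P} [Fact F.c.p.Prime] (Y : F.Sys M)

abbrev oS (F : FD P) (M : LM P) : F.St M := stL F.c.p F.c.k _ F.o

def Has (side : ℕ) : Prop := ∃ A, (𝔼 b, ind (rawBad Y side A b)) ≤ 1 / 32

open Classical in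
/-- the state that most processors hold -/
noncomputable def star (side : ℕ) : F.St M := if h : Has Y side then h.choose else F.oS M

open Classical in
/-- the lower bound for the level of a control word -/
noncomputable def base (cc : ℕ) (b : Vec F.c.k) : ℝ :=
  if h : ∃ n : ℕ, ∀ ρ ∈ Y.S 0 b, n ≤ lev ρ cc ∧ lev ρ cc ≤ n + 1 then (h.choose : ℝ) / 64 else 0

/-- the pairs of states that are compared -/
noncomputable def pr (e : ℕ) : F.St M × F.St M :=
  if e = 0 then (star Y 0, star Y 1) else if e = 1 then (star Y 0, M.outp F.q F.cst 1 (star Y 1))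
  else if e = 2 then (star Y 1, M.outp F.q F.cst 2 (star Y 0))
  else if e = 3 then (star Y 0, F.oS M) else (star Y 1, F.oS M)

def Acc (F : FD P) (φ : Vec F.c.k → ℝ) (a : Vec F.c.k) : Prop :=
  |avS F.S2 φ a - 𝔼 b, φ b| < 1 / (8 * F.th)

structure Om (a : Vec F.c.k) : Prop where
  good : Y.good a
  hold : ∀ side < 2, Has Y side → HoldT Y side (star Y side) a
  g : F.Acc (fun b => ind (¬ G Y b)) a
  c0 : ∀ side < 2, F.Acc (fun b => ind (¬ ∀ i < F.c.m,
    HoldR Y side (star Y side) (b + F.c.locv i))) a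
  c1 : ∀ side < 2, F.Acc (fun b => ind (¬ (G Y b ∧ Poss Y 0 4 side b))) a
  c2 : ∀ side < 2, F.Acc (fun b => ind (¬ (G Y b ∧ Poss Y 1 3 side b))) a
  lv : ∀ cc < 2, F.Acc (base Y cc) a
  ht : ∀ side < 2, F.Acc (fun b => ind (Has Y side ∧ ¬ HoldT Y side (star Y side) b)) a
  eq : ∀ e < 5, F.Acc (fun b => ind (F.c.encs (pr Y e).1 b ≠ F.c.encs (pr Y e).2 b)) a

/-- few faults -/
def Small : Prop := 64 * F.c.m * F.th * flt Y ≤ 1

variable {Y} {Fnd : List (List ℕ) → Prop} {side : ℕ} {a a' : Vec F.c.k} {r r' : Inp}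

theorem star_spec (h : Has Y side) : (𝔼 b, ind (rawBad Y side (star Y side) b)) ≤ 1 / 32 := by
  rw [star, dif_pos h]
  exact h.choose_spec

theorem fb_sum {k : ℕ} {S : List ℕ} (hS : S ≠ []) (φ : Vec k → ℝ) (a : Vec k) :
    S.length * avS S φ a = ∑ l ∈ range S.length, φ (a + nb k S l) := by
  have h0 : (S.length : ℝ) ≠ 0 := by exact_mod_cast (List.length_pos_iff.2 hS).ne'
  rw [avS, expect_eq_sum_div_card, card_univ, Fintype.card_fin,
    Fin.sum_univ_eq_sum_range (fun i => φ (a + nb k S i)), mul_div_cancel₀ _ h0]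

theorem fb_cnt (p : ℕ → Bool) (n : ℕ) :
    (((List.range n).countP p : ℕ) : ℝ) = ∑ l ∈ range n, ind (p l = true) := by
  rw [← ib_countP]
  simp only [Bool.decide_eq_true]

theorem fb_lsum (f : ℕ → ℕ) (n : ℕ) :
    ((((List.range n).map f).sum : ℕ) : ℝ) = ∑ l ∈ range n, (f l : ℝ) := by
  induction n with
  | zero => simp
  | succ n ih => rw [List.range_succ, List.map_append, List.sum_append, sum_range_succ, ← ih]; simp

theorem fb_lev (ρ : Rd) (c : ℕ) : (lev ρ c : ℝ) = ∑ j ∈ range 64, ((wd ρ j c % 2 : ℕ) : ℝ) :=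
  fb_lsum _ _

theorem fb_lev_le (ρ : Rd) (c : ℕ) : (lev ρ c : ℝ) ≤ 64 := by
  rw [fb_lev]
  refine (sum_le_card_nsmul _ _ 1 fun j _ => ?_).trans (by simp)
  have : wd ρ j c % 2 ≤ 1 := by omega
  exact_mod_cast this

omit [Fact F.c.p.Prime] in
theorem fb_th (h : F.Ok M) : (2 : ℝ) ^ 24 ≤ F.th := by
  have h1 := h.th
  have h2 : 2 ^ 16 * 1 * 16 * 16 ≤ 2 ^ 16 * (F.nS M + 1) * F.c.d * F.c.d' :=
    Nat.mul_le_mul (Nat.mul_le_mul (Nat.mul_le_mul_left _ (Nat.le_add_left _ _)) h.c.d16) h.c.d16'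
  have h3 : 2 ^ 24 ≤ F.th := le_trans (by norm_num) (h2.trans h1)
  exact_mod_cast h3

omit [Fact F.c.p.Prime] in
theorem fb_m : (1 : ℝ) ≤ F.c.m := by
  have : 1 ≤ F.c.m := Nat.le_add_left _ _
  exact_mod_cast this

omit [Fact F.c.p.Prime] in
theorem fb_D (h : F.Ok M) : (0 : ℝ) < F.d2 := by exact_mod_cast List.length_pos_iff.2 h.bias.1

omit [Fact F.c.p.Prime] in
theorem fb_flt0 : 0 ≤ flt Y := expect_nonneg fun _ _ => ind_nonneg _

omit [Fact F.c.p.Prime] in
theorem fb_mf (h : F.Ok M) (hf : Small Y) : F.c.m * flt Y ≤ 1 / (64 * F.th) := by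
  have h1 := fb_th h
  rw [le_div_iff₀ (by linarith)]
  unfold Small at hf
  linarith

omit [Fact F.c.p.Prime] in
theorem fb_acc (h : F.Ok M) {φ : Vec F.c.k → ℝ} (hφ : ∀ a, 0 ≤ φ a ∧ φ a ≤ 1) :
    (𝔼 a, ind (¬ F.Acc φ a)) ≤ 1 / (128 * F.c.m * F.th) := by
  have h1 := fb_th h
  have h2 := fb_m (F := F)
  have h0 : (0 : ℝ) < F.th := by linarith
  have h3 := tail2 h.bias (by positivity) hφ (s := 1 / (8 * F.th)) (by positivity)
  simp only [Acc, not_lt]
  refine h3.trans (le_of_eq ?_)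
  field_simp
  norm_num

omit [Fact F.c.p.Prime] in
theorem fb_accI (h : F.Ok M) (Q : Vec F.c.k → Prop) :
    (𝔼 a, ind (¬ F.Acc (fun b => ind (Q b)) a)) ≤ 1 / (128 * F.c.m * F.th) :=
  fb_acc h fun _ => ⟨ind_nonneg _, ind_le_one _⟩

theorem fb_cast {n x : ℕ} (h : n ≤ x ∧ x ≤ n + 1) :
    64 * ((n : ℝ) / 64) ≤ x ∧ (x : ℝ) ≤ 64 * ((n : ℝ) / 64) + 1 ∧ 0 ≤ (n : ℝ) / 64 := by
  have h1 : (n : ℝ) ≤ x := by exact_mod_cast h.1
  have h2 : (x : ℝ) ≤ n + 1 := by exact_mod_cast h.2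
  exact ⟨by linarith, by linarith, by positivity⟩

omit [Fact F.c.p.Prime] in
theorem fb_bs {cc : ℕ} {b : Vec F.c.k}
    (c : ∃ n : ℕ, ∀ ρ ∈ Y.S 0 b, n ≤ lev ρ cc ∧ lev ρ cc ≤ n + 1) {ρ : Rd} (hρ : ρ ∈ Y.S 0 b) :
    64 * base Y cc b ≤ lev ρ cc ∧ (lev ρ cc : ℝ) ≤ 64 * base Y cc b + 1 ∧ 0 ≤ base Y cc b := by
  rw [base, dif_pos c]
  exact fb_cast (c.choose_spec ρ hρ)

omit [Fact F.c.p.Prime] in
theorem fb_base (cc : ℕ) (b : Vec F.c.k) : 0 ≤ base Y cc b ∧ base Y cc b ≤ 1 := by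
  by_cases c : ∃ n : ℕ, ∀ ρ ∈ Y.S 0 b, n ≤ lev ρ cc ∧ lev ρ cc ≤ n + 1
  · obtain ⟨ρ, hρ⟩ := Y.ne 0 b
    have h1 := fb_bs c hρ
    have h2 := fb_lev_le ρ cc
    exact ⟨h1.2.2, by linarith [h1.1]⟩
  · rw [base, dif_neg c]
    exact ⟨le_rfl, zero_le_one⟩

theorem fb_all {k n : ℕ} {Q : ℕ → Vec k → Prop} {x : ℝ} (h : ∀ i < n, (𝔼 a, ind (¬ Q i a)) ≤ x) :
    (𝔼 a, ind (¬ ∀ i < n, Q i a)) ≤ n * x := by
  refine le_trans (expect_le_expect fun a _ => ind_mono fun c => ?_)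
    (dens_ex (P := fun i a => ¬ Q i a) h)
  push Not at c
  exact c

theorem fb_and {k : ℕ} {Q R : Vec k → Prop} {x y : ℝ} (h1 : (𝔼 a, ind (¬ Q a)) ≤ x)
    (h2 : (𝔼 a, ind (¬ R a)) ≤ y) : (𝔼 a, ind (¬ (Q a ∧ R a))) ≤ x + y :=
  (dens_le fun _ c => not_and_or.1 c).trans (add_le_add h1 h2)

theorem dens_om (h : F.Ok M) (hG : F.Good M Fnd) (hf : Small Y) :
    (𝔼 a, ind (¬ Om Y a)) ≤ 1 / (2 * F.c.m * F.th) := by
  have h1 := fb_th h
  have h2 := fb_m (F := F)
  have h0 : (0 : ℝ) < F.th := by linarith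
  have h4 := fb_flt0 (Y := Y)
  have hu : (0 : ℝ) < F.c.m * F.th := by positivity
  have hf1 : flt Y ≤ 1 / (64 * (F.c.m * F.th)) := by
    rw [le_div_iff₀ (by positivity)]
    unfold Small at hf
    linarith
  have hf2 : flt Y ≤ 1 / 2 ^ 12 := by
    refine hf1.trans (one_div_le_one_div_of_le (by norm_num) ?_)
    nlinarith
  have hb : ((1 : ℝ) / 2) ^ (F.c.d + F.c.d') ≤ 1 / (16 * (F.c.m * F.th)) := by
    rw [one_div_pow]
    refine one_div_le_one_div_of_le (by positivity) ?_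
    have := h.big
    rw [mul_assoc] at this
    exact_mod_cast this
  have e2 : ∀ side < 2, (𝔼 a, ind (¬ (Has Y side → HoldT Y side (star Y side) a))) ≤
      (1 / 2) ^ (F.c.d + F.c.d') + 2 * flt Y := by
    intro side hs
    by_cases c : Has Y side
    · simp only [c, true_imp_iff]
      exact thread h hG hf2 hs (star_spec c)
    · simp only [c, false_imp_iff, not_true, ind_of_not not_false, Fintype.expect_const]
      positivity
  have key := fb_and (le_refl (flt Y)) (fb_and (fb_all e2) (fb_and (fb_accI h fun b => ¬ G Y b)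
    (fb_and (fb_all (n := 2) fun side _ => fb_accI h fun b => ¬ ∀ i < F.c.m,
      HoldR Y side (star Y side) (b + F.c.locv i))
    (fb_and (fb_all (n := 2) fun side _ => fb_accI h fun b => ¬ (G Y b ∧ Poss Y 0 4 side b))
    (fb_and (fb_all (n := 2) fun side _ => fb_accI h fun b => ¬ (G Y b ∧ Poss Y 1 3 side b))
    (fb_and (fb_all (n := 2) fun cc _ => fb_acc h (fb_base (Y := Y) cc))
    (fb_and (fb_all (n := 2) fun side _ => fb_accI h fun b =>
      Has Y side ∧ ¬ HoldT Y side (star Y side) b)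
    (fb_all (n := 5) fun e _ => fb_accI h fun b =>
      F.c.encs (pr Y e).1 b ≠ F.c.encs (pr Y e).2 b))))))))
  refine le_trans ?_ (key.trans ?_)
  · refine expect_le_expect fun a _ => ind_mono ?_
    rintro c ⟨a1, a2, a3, a4, a5, a6, a7, a8, a9⟩
    exact c ⟨a1, a2, a3, a4, a5, a6, a7, a8, a9⟩
  · have e3 : (1 : ℝ) / (128 * F.c.m * F.th) = 1 / 128 * (1 / (F.c.m * F.th)) := by field_simp
    have e4 : (1 : ℝ) / (2 * F.c.m * F.th) = 1 / 2 * (1 / (F.c.m * F.th)) := by field_simp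
    have e5 : (1 : ℝ) / (64 * (F.c.m * F.th)) = 1 / 64 * (1 / (F.c.m * F.th)) := by field_simp
    have e6 : (1 : ℝ) / (16 * (F.c.m * F.th)) = 1 / 16 * (1 / (F.c.m * F.th)) := by field_simp
    have e7 : (0 : ℝ) < 1 / (F.c.m * F.th) := by positivity
    rw [e3, e4]
    rw [e5] at hf1
    rw [e6] at hb
    push_cast
    linarith

theorem fb_fails (r : Inp) (i j side : ℕ) : (F.c.fails (F.nS M) F.d2 r i j side : ℝ) =
    ∑ l ∈ range F.d2, ind (¬ F.c.locB (F.nS M) (F.c.blkR r (l + 2)) i j side = true) := by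
  rw [CP.fails, fb_cnt]
  simp only [Bool.not_eq_true', Bool.not_eq_true]

theorem fb_g (h : F.Ok M) (hf : Small Y) (ha : Om Y a) :
    avS F.S2 (fun b => ind (¬ G Y b)) a ≤ (1 / 64 + 1 / 8) * (1 / F.th) := by
  have h1 := (abs_lt.1 ha.g).2
  have h2 := (dens_G (Y := Y)).trans (fb_mf h hf)
  have e1 : (1 : ℝ) / (64 * F.th) = 1 / 64 * (1 / F.th) := by ring
  have e2 : (1 : ℝ) / (8 * F.th) = 1 / 8 * (1 / F.th) := by ring
  linarith

theorem fb_poss (h : F.Ok M) (hf : Small Y) (ha : Om Y a) (hr : (F.net M).Adm Y.S 0 a r)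
    {i j c : ℕ} (hA : F.Acc (fun b => ind (¬ (G Y b ∧ Poss Y i j side b))) a)
    (h1 : F.th * F.c.fails (F.nS M) F.d2 r i j side ≤ c * F.d2) :
    (𝔼 b, ind (¬ (G Y b ∧ Poss Y i j side b))) ≤ (c + 1 / 64 + 1 / 4) * (1 / F.th) := by
  have hD := fb_D h
  have h0 : (0 : ℝ) < F.th := by linarith [fb_th h]
  have h2 : F.d2 * avS F.S2 (fun b => ind (¬ (G Y b ∧ Poss Y i j side b))) a ≤
      F.d2 * avS F.S2 (fun b => ind (¬ G Y b)) a + F.c.fails (F.nS M) F.d2 r i j side := by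
    rw [fb_sum h.bias.1, fb_sum h.bias.1, fb_fails, ← sum_add_distrib]
    refine sum_le_sum fun l hl => le_trans (ind_mono fun c => ?_) (ind_or_le _ _)
    by_contra c'
    rw [not_or, not_not, not_not] at c'
    exact c ⟨c'.1, _, blk_adm hr (mem_range.1 hl), c'.2⟩
  have h3 : (F.c.fails (F.nS M) F.d2 r i j side : ℝ) ≤ F.d2 * (c * (1 / F.th)) := by
    have h4 : (F.th : ℝ) * F.c.fails (F.nS M) F.d2 r i j side ≤ c * F.d2 := by exact_mod_cast h1
    rw [mul_one_div, ← mul_div_assoc, le_div_iff₀ h0]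
    linarith
  have h5 : avS F.S2 (fun b => ind (¬ (G Y b ∧ Poss Y i j side b))) a ≤
      avS F.S2 (fun b => ind (¬ G Y b)) a + c * (1 / F.th) :=
    le_of_mul_le_mul_left (by rw [mul_add]; linarith) hD
  have h6 := fb_g h hf ha
  have h7 := (abs_lt.1 hA).1
  have e2 : (1 : ℝ) / (8 * F.th) = 1 / 8 * (1 / F.th) := by ring
  linarith

theorem fb_few (h : F.Ok M) {Q : Vec F.c.k → Prop} (hA : F.Acc (fun b => ind (Q b)) a) {i j c : ℕ}
    (hQ : ∀ l < F.d2, ¬ Q (a + nb F.c.k F.S2 l) →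
      F.c.locB (F.nS M) (F.c.blkR r (l + 2)) i j side = true)
    (hd : (𝔼 b, ind (Q b)) ≤ (c - 1 / 8) * (1 / F.th)) :
    F.th * F.c.fails (F.nS M) F.d2 r i j side ≤ c * F.d2 := by
  have hD := fb_D h
  have h0 : (0 : ℝ) < F.th := by linarith [fb_th h]
  have h2 : (F.c.fails (F.nS M) F.d2 r i j side : ℝ) ≤ F.d2 * avS F.S2 (fun b => ind (Q b)) a := by
    rw [fb_sum h.bias.1, fb_fails]
    exact sum_le_sum fun l hl => ind_mono fun c => by_contra fun c' => c (hQ l (mem_range.1 hl) c')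
  have h7 := (abs_lt.1 hA).2
  have e2 : (1 : ℝ) / (8 * F.th) = 1 / 8 * (1 / F.th) := by ring
  have h3 : avS F.S2 (fun b => ind (Q b)) a ≤ c * (1 / F.th) := by linarith
  have h4 := h2.trans (mul_le_mul_of_nonneg_left h3 hD.le)
  rw [mul_one_div, ← mul_div_assoc, le_div_iff₀ h0] at h4
  have h5 : (F.th : ℝ) * F.c.fails (F.nS M) F.d2 r i j side ≤ c * F.d2 := by linarith
  exact_mod_cast h5

theorem lax_of_strict (h : F.Ok M) (hf : Small Y) (hs : side < 2) (ha : Om Y a) (ha' : Om Y a')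
    (hr : (F.net M).Adm Y.S 0 a r) (hr' : (F.net M).Adm Y.S 0 a' r')
    (h1 : F.c.strict (F.nS M) F.d2 F.th r side = true) :
    F.c.lax (F.nS M) F.d2 F.th r' side = true := by
  have h0 : (0 : ℝ) < F.th := by linarith [fb_th h]
  have h2 := fb_poss (c := 1) h hf ha hr (ha.c1 side hs)
    (by rw [one_mul]; exact of_decide_eq_true h1)
  refine decide_eq_true (fb_few (c := 2) h (ha'.c1 side hs) (fun l hl c => ?_)
    (h2.trans (mul_le_mul_of_nonneg_right (by norm_num) (by positivity))))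
  rw [not_not] at c
  exact sure_of_poss hs c.1 c.2 _ (blk_adm hr' hl)

theorem has_of_lax (h : F.Ok M) (hf : Small Y) (hs : side < 2) (ha : Om Y a)
    (hr : (F.net M).Adm Y.S 0 a r) (h1 : F.c.lax (F.nS M) F.d2 F.th r side = true) :
    Has Y side := by
  have h0 : (0 : ℝ) < F.th := by linarith [fb_th h]
  have h2 := fb_poss (c := 2) h hf ha hr (ha.c2 side hs) (of_decide_eq_true h1)
  refine near_code h hs (h2.trans ?_)
  rw [div_eq_mul_one_div 3]
  exact mul_le_mul_of_nonneg_right (by norm_num) (by positivity)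

theorem fb_om (h : F.Ok M) (hG : F.Good M Fnd) (hf : Small Y) :
    (𝔼 a, ind (¬ Om Y a)) ≤ 1 / 2 * (1 / F.th) := by
  have h0 : (0 : ℝ) < F.th := by linarith [fb_th h]
  have h2 := fb_m (F := F)
  refine (dens_om h hG hf).trans ?_
  rw [one_div_mul_one_div]
  exact one_div_le_one_div_of_le (by positivity) (by nlinarith)

omit [Fact F.c.p.Prime] in
theorem fb_inv (h : F.Ok M) : 0 < (1 : ℝ) / F.th ∧ (1 : ℝ) / F.th ≤ 1 / 1000 := by
  have h1 := fb_th h
  have h0 : (0 : ℝ) < F.th := by linarith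
  exact ⟨by positivity, one_div_le_one_div_of_le (by norm_num) (by linarith)⟩

theorem strict_of_hold (h : F.Ok M) (hG : F.Good M Fnd) (hf : Small Y) (hs : side < 2) {A : F.St M}
    (hA : ∀ a, Om Y a → HoldR Y side A a) : star Y side = A ∧ ∀ a r, Om Y a →
      (F.net M).Adm Y.S 0 a r → F.c.strict (F.nS M) F.d2 F.th r side = true := by
  have h0 : (0 : ℝ) < F.th := by linarith [fb_th h]
  have h2 := fb_m (F := F)
  have h3 : (𝔼 b, ind (rawBad Y side A b)) ≤ 1 / 32 := by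
    refine le_trans (expect_le_expect fun b _ => ind_mono fun c (c' : Om Y b) => c fun ρ hρ =>
      hA b c' ρ hρ 2 (by norm_num)) ((fb_om h hG hf).trans ?_)
    linarith [(fb_inv h).2]
  have h4 : star Y side = A := code_uniq h (star_spec ⟨A, h3⟩) h3
  refine ⟨h4, fun a r ha hr => decide_eq_true ?_⟩
  refine (fb_few (c := 1) h (ha.c0 side hs) (fun l hl c => ?_) ?_).trans_eq (one_mul _)
  · rw [not_not] at c
    exact sure_of_hold h c _ (blk_adm hr hl)
  · have h5 : ∀ i < F.c.m, (𝔼 b, ind (¬ HoldR Y side (star Y side) (b + F.c.locv i))) ≤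
        1 / (2 * F.c.m * F.th) := by
      intro i _
      rw [dens_shift (fun b => ¬ HoldR Y side (star Y side) b), h4]
      exact le_trans (expect_le_expect fun b _ => ind_mono fun c (c' : Om Y b) => c (hA b c'))
        (dens_om h hG hf)
    refine (fb_all h5).trans ?_
    have e1 : (F.c.m : ℝ) * (1 / (2 * F.c.m * F.th)) = 1 / 2 * (1 / F.th) := by field_simp
    rw [e1]
    exact mul_le_mul_of_nonneg_right (by norm_num) (by positivity)

theorem fb_mem (hr : (F.net M).Adm Y.S 0 a r) {s l : ℕ} (hs : s < 3) (hl : l < F.d2) :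
    rdg r s ((l + 2) * F.c.m + (F.c.d + F.c.d')) ∈ Y.S (s * F.R M) (a + nb F.c.k F.S2 l) := by
  have h1 := adm_mem hr hs (β := l + 2) (i := F.c.d + F.c.d') (by omega) (Nat.lt_succ_self _)
  rw [CP.locv_own, add_zero] at h1
  exact h1

/-- the mean level -/
noncomputable def fbY (F : FD P) (r : Inp) (cc : ℕ) : ℝ :=
  ((((List.range F.d2).map fun l =>
    lev (rdg r 0 ((l + 2) * F.c.m + (F.c.d + F.c.d'))) cc).sum : ℕ) : ℝ) / (64 * F.d2)

omit [Fact F.c.p.Prime] in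
theorem fb_cell (r : Inp) (cc : ℕ) : F.c.cell F.d2 r cc = min 22 ⌊23 * fbY F r cc⌋₊ := by
  rw [CP.cell, ← Nat.floor_div_eq_div (K := ℝ), fbY, ← mul_div_assoc]
  push_cast
  rfl

omit [Fact F.c.p.Prime] in
theorem fbY_nonneg (r : Inp) (cc : ℕ) : 0 ≤ fbY F r cc := by
  unfold fbY
  positivity

theorem fb_near (h : F.Ok M) (hf : Small Y) {cc : ℕ} (hc : cc < 2) (ha : Om Y a)
    (hr : (F.net M).Adm Y.S 0 a r) : (𝔼 b, base Y cc b) - 1 / 1000 ≤ fbY F r cc ∧
      fbY F r cc ≤ (𝔼 b, base Y cc b) + 1 / 64 + 1 / 1000 := by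
  have hD := fb_D h
  have h1 : ∀ l ∈ range F.d2,
      base Y cc (a + nb F.c.k F.S2 l) - ind (¬ G Y (a + nb F.c.k F.S2 l)) ≤
        (lev (rdg r 0 ((l + 2) * F.c.m + (F.c.d + F.c.d'))) cc : ℝ) / 64 ∧
      (lev (rdg r 0 ((l + 2) * F.c.m + (F.c.d + F.c.d'))) cc : ℝ) / 64 ≤
        base Y cc (a + nb F.c.k F.S2 l) + 1 / 64 + ind (¬ G Y (a + nb F.c.k F.S2 l)) := by
    intro l hl
    have hρ := fb_mem hr (s := 0) (by norm_num) (mem_range.1 hl)
    rw [zero_mul] at hρ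
    generalize rdg r 0 ((l + 2) * F.c.m + (F.c.d + F.c.d')) = ρ at hρ ⊢
    generalize a + nb F.c.k F.S2 l = b at hρ ⊢
    by_cases c : G Y b
    · have hg := c (F.c.d + F.c.d') (Nat.lt_succ_self _)
      rw [CP.locv_own, add_zero] at hg
      have hx := Y.lev 0 (Nat.succ_pos _) b hg cc (by change cc < _ + 2 + _; omega)
      have h2 := fb_bs hx hρ
      rw [ind_of_not (not_not.2 c)]
      constructor <;> linarith [h2.1, h2.2.1]
    · have h2 := fb_base (Y := Y) cc b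
      have h3 := fb_lev_le ρ cc
      have h4 : (0 : ℝ) ≤ lev ρ cc := Nat.cast_nonneg _
      rw [ind_of c]
      constructor <;> linarith [h2.1, h2.2]
  have e1 : F.d2 * fbY F r cc =
      ∑ l ∈ range F.d2, (lev (rdg r 0 ((l + 2) * F.c.m + (F.c.d + F.c.d'))) cc : ℝ) / 64 := by
    rw [fbY, fb_lsum, ← sum_div]
    generalize (∑ l ∈ range F.d2,
      (lev (rdg r 0 ((l + 2) * F.c.m + (F.c.d + F.c.d'))) cc : ℝ)) = x
    field_simp
  have h2 := sum_le_sum fun l hl => (h1 l hl).1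
  have h3 := sum_le_sum fun l hl => (h1 l hl).2
  rw [← e1, sum_sub_distrib, ← fb_sum h.bias.1 (base Y cc),
    ← fb_sum h.bias.1 fun b => ind (¬ G Y b), ← mul_sub] at h2
  rw [← e1, sum_add_distrib, sum_add_distrib, ← fb_sum h.bias.1 (base Y cc),
    ← fb_sum h.bias.1 fun b => ind (¬ G Y b), sum_const, card_range, nsmul_eq_mul, ← mul_add,
    ← mul_add] at h3
  have h4 := le_of_mul_le_mul_left h2 hD
  have h5 := le_of_mul_le_mul_left h3 hD
  have h6 := fb_g h hf ha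
  have h7 := abs_lt.1 (ha.lv cc hc)
  have h8 := fb_inv h
  have e2 : (1 : ℝ) / (8 * F.th) = 1 / 8 * (1 / F.th) := by ring
  constructor <;> linarith [h7.1, h7.2, h8.1, h8.2]

theorem cell_near (h : F.Ok M) (hf : Small Y) {cc : ℕ} (hc : cc < 2) : ∃ x < 22, ∀ a r, Om Y a →
    (F.net M).Adm Y.S 0 a r → ∃ i < 2, F.c.cell F.d2 r cc = x + i := by
  refine ⟨min 21 ⌊23 * ((𝔼 b, base Y cc b) - 1 / 1000)⌋₊, by omega, fun a r ha hr => ?_⟩
  obtain ⟨h1, h2⟩ := fb_near h hf hc ha hr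
  have h3 : ⌊23 * ((𝔼 b, base Y cc b) - 1 / 1000)⌋₊ ≤ ⌊23 * fbY F r cc⌋₊ :=
    Nat.floor_mono (by linarith)
  have h4 : ⌊23 * fbY F r cc⌋₊ < ⌊23 * ((𝔼 b, base Y cc b) - 1 / 1000)⌋₊ + 2 := by
    rw [Nat.floor_lt (mul_nonneg (by norm_num) (fbY_nonneg r cc))]
    have := Nat.lt_floor_add_one (23 * ((𝔼 b, base Y cc b) - 1 / 1000))
    push_cast
    linarith
  rw [fb_cell]
  refine ⟨min 22 ⌊23 * fbY F r cc⌋₊ - min 21 ⌊23 * ((𝔼 b, base Y cc b) - 1 / 1000)⌋₊, ?_, ?_⟩ <;>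
    omega

theorem cell_end (h : F.Ok M) (hG : F.Good M Fnd) (hf : Small Y) {cc : ℕ} (hc : cc < 2) {s : Bool}
    (hs : ∀ a, Om Y a → ∀ ρ ∈ Y.S 0 a, ∀ j < 64, wd ρ j cc = if s then 1 else 0) (ha : Om Y a)
    (hr : (F.net M).Adm Y.S 0 a r) : F.c.cell F.d2 r cc = if s then 22 else 0 := by
  obtain ⟨h1, h2⟩ := fb_near h hf hc ha hr
  have h3 := fb_om h hG hf
  have h4 := fb_inv h
  have h5 : ∀ b, Om Y b → ∀ ρ ∈ Y.S 0 b, lev ρ cc = if s then 64 else 0 := by
    intro b hb ρ hρ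
    have e : (lev ρ cc : ℝ) = ((if s then 64 else 0 : ℕ) : ℝ) := by
      rw [fb_lev, sum_congr rfl fun j hj => by rw [hs b hb ρ hρ j (mem_range.1 hj)]]
      cases s <;> simp
    exact_mod_cast e
  rw [fb_cell]
  cases s
  · have h6 : (𝔼 b, base Y cc b) ≤ 𝔼 b, ind (¬ Om Y b) := by
      refine expect_le_expect fun b _ => ?_
      by_cases c : Om Y b
      · obtain ⟨ρ, hρ⟩ := Y.ne 0 b
        have h7 := (fb_bs ⟨0, fun ρ hρ => by rw [h5 b c ρ hρ]; simp⟩ hρ).1
        rw [h5 b c ρ hρ, if_neg (by simp), Nat.cast_zero] at h7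
        rw [ind_of_not (not_not.2 c)]
        linarith
      · rw [ind_of c]
        exact (fb_base cc b).2
    have h7 : ⌊23 * fbY F r cc⌋₊ = 0 := Nat.floor_eq_zero.2 (by linarith [h4.2])
    rw [h7]
    rfl
  · have h6 : (𝔼 b : Vec F.c.k, (63 / 64 - ind (¬ Om Y b))) ≤ 𝔼 b, base Y cc b := by
      refine expect_le_expect fun b _ => ?_
      by_cases c : Om Y b
      · obtain ⟨ρ, hρ⟩ := Y.ne 0 b
        have h7 := (fb_bs ⟨64, fun ρ hρ => by rw [h5 b c ρ hρ]; simp⟩ hρ).2.1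
        rw [h5 b c ρ hρ, if_pos rfl, Nat.cast_ofNat] at h7
        rw [ind_of_not (not_not.2 c)]
        linarith
      · rw [ind_of c]
        linarith [(fb_base (Y := Y) cc b).1]
    rw [expect_sub_distrib, Fintype.expect_const] at h6
    have h7 : 22 ≤ ⌊23 * fbY F r cc⌋₊ := Nat.le_floor (by push_cast; linarith [h4.2])
    rw [min_eq_left h7]
    rfl

theorem fb_eqF (h : F.Ok M) (hG : F.Good M Fnd) (hf : Small Y) (ha : Om Y a) {A B : F.St M}
    (hA : F.Acc (fun b => ind (F.c.encs A b ≠ F.c.encs B b)) a) {f g : List (List ℕ)}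
    (hfg : ∀ l < F.d2, (Has Y 0 → HoldT Y 0 (star Y 0) (a + nb F.c.k F.S2 l)) →
      (Has Y 1 → HoldT Y 1 (star Y 1) (a + nb F.c.k F.S2 l)) →
      f.getD l [] = F.c.encs A (a + nb F.c.k F.S2 l) ∧
        g.getD l [] = F.c.encs B (a + nb F.c.k F.S2 l)) :
    eqF F.d2 f g = true ↔ A = B := by
  have hD := fb_D h
  have h4 := fb_inv h
  have e2 : (1 : ℝ) / (8 * F.th) = 1 / 8 * (1 / F.th) := by ring
  have h1 : ∀ side < 2, ∑ l ∈ range F.d2, ind (Has Y side ∧
      ¬ HoldT Y side (star Y side) (a + nb F.c.k F.S2 l)) ≤ F.d2 * (1 / 32) := by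
    intro side hs
    rw [← fb_sum h.bias.1 fun b => ind (Has Y side ∧ ¬ HoldT Y side (star Y side) b)]
    refine mul_le_mul_of_nonneg_left ?_ hD.le
    have h2 := (abs_lt.1 (ha.ht side hs)).2
    have h3 : (𝔼 b, ind (Has Y side ∧ ¬ HoldT Y side (star Y side) b)) ≤ 1 / 2 * (1 / F.th) :=
      le_trans (expect_le_expect fun b _ => ind_mono fun c (c' : Om Y b) =>
        c.2 (c'.hold side hs c.1))
        (fb_om h hG hf)
    linarith [h4.2]
  have h2 := h1 0 (by norm_num)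
  have h3 := h1 1 (by norm_num)
  have e1 := fb_cnt (fun l => !eqN (f.getD l []) (g.getD l [])) F.d2
  simp only [eqN, Bool.not_eq_true', decide_eq_false_iff_not] at e1
  have e3 : eqF F.d2 f g = true ↔
      8 * ∑ l ∈ range F.d2, ind (¬ f.getD l [] = g.getD l []) < F.d2 := by
    rw [eqF, decide_eq_true_iff, ← e1]
    simp only [eqN]
    exact_mod_cast Iff.rfl
  rw [e3]
  constructor
  · intro h5
    by_contra hne
    have h6 := CP.encs_dist h.c hne
    have h7 := (abs_lt.1 hA).1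
    have h8 : F.d2 * avS F.S2 (fun b => ind (F.c.encs A b ≠ F.c.encs B b)) a ≤
        ∑ l ∈ range F.d2, ind (¬ f.getD l [] = g.getD l []) + (∑ l ∈ range F.d2, ind (Has Y 0 ∧
          ¬ HoldT Y 0 (star Y 0) (a + nb F.c.k F.S2 l)) + ∑ l ∈ range F.d2, ind (Has Y 1 ∧
          ¬ HoldT Y 1 (star Y 1) (a + nb F.c.k F.S2 l))) := by
      rw [fb_sum h.bias.1, ← sum_add_distrib, ← sum_add_distrib]
      refine sum_le_sum fun l hl => le_trans (ind_mono fun c => ?_)
        ((ind_or_le _ _).trans (add_le_add le_rfl (ind_or_le _ _)))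
      by_contra c'
      simp only [not_or, not_and, not_not] at c'
      have h9 := hfg l (mem_range.1 hl) c'.2.1 c'.2.2
      exact c (h9.1.symm.trans (c'.1.trans h9.2))
    have h9 : F.d2 * (3 / 16 : ℝ) ≤
        F.d2 * avS F.S2 (fun b => ind (F.c.encs A b ≠ F.c.encs B b)) a :=
      mul_le_mul_of_nonneg_left (by linarith [h4.2]) hD.le
    linarith
  · rintro rfl
    have h8 : ∑ l ∈ range F.d2, ind (¬ f.getD l [] = g.getD l []) ≤
        ∑ l ∈ range F.d2, ind (Has Y 0 ∧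
          ¬ HoldT Y 0 (star Y 0) (a + nb F.c.k F.S2 l)) + ∑ l ∈ range F.d2, ind (Has Y 1 ∧
          ¬ HoldT Y 1 (star Y 1) (a + nb F.c.k F.S2 l)) := by
      rw [← sum_add_distrib]
      refine sum_le_sum fun l hl => le_trans (ind_mono fun c => ?_) (ind_or_le _ _)
      by_contra c'
      simp only [not_or, not_and, not_not] at c'
      have h9 := hfg l (mem_range.1 hl) c'.1 c'.2
      exact c (h9.1.trans h9.2.symm)
    linarith

theorem fb_outs (hr : (F.net M).Adm Y.S 0 a r) (hs : side < 2) {l e : ℕ} (hl : l < F.d2)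
    (he : e < 3) {A : F.St M} (hT : HoldT Y side A (a + nb F.c.k F.S2 l)) :
    (M.outs F.q F.c F.d2 r (side + 1) e).getD l [] =
      F.c.encs (M.outp F.q F.cst e A) (a + nb F.c.k F.S2 l) := by
  rw [← hT _ (fb_mem hr (s := side + 1) (by omega) hl) e he, LM.outs,
    List.getD_eq_getElem _ _ (by simpa using hl), List.getElem_map, List.getElem_range]
  rfl

theorem fb_drop (h : F.Ok M) {l : ℕ} (hl : l < F.d2) : ((F.labT M (toN a)).drop 3).getD l [] =
    F.c.encs (F.oS M) (a + nb F.c.k F.S2 l) := by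
  have e : (F.labT M (toN a)).drop 3 = F.S2.map fun s => F.c.tabs (F.nS M) F.o (toN a ^^^ s) := rfl
  rw [e, List.getD_eq_getElem _ _ (by simpa using hl), List.getElem_map, ← CP.tabs_eq h.c, toN_add,
    nb, toN_ofN, List.getD_eq_getElem _ _ hl, Nat.mod_eq_of_lt (h.lt2 _ (List.getElem_mem _))]

theorem eqs_spec (h : F.Ok M) (hG : F.Good M Fnd) (hf : Small Y) (ha : Om Y a)
    (hr : (F.net M).Adm Y.S 0 a r) {e : ℕ} (he : e < 5) (h0 : e ≠ 4 → Has Y 0)
    (h1 : e ≠ 3 → Has Y 1) :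
    (M.eqs F.q F.c (F.labT M (toN a)) r).getD e false = true ↔ (pr Y e).1 = (pr Y e).2 := by
  have eT : (F.labT M (toN a)).length - 3 = F.d2 := by simp [labT]
  have k0 : ∀ l < F.d2, ∀ side < 2, HoldT Y side (star Y side) (a + nb F.c.k F.S2 l) →
      (M.outs F.q F.c F.d2 r (side + 1) 0).getD l [] =
        F.c.encs (star Y side) (a + nb F.c.k F.S2 l) := fun l hl side hs hT => by
    rw [fb_outs hr hs hl (by norm_num) hT, hG.keep]
  have hA := ha.eq e he
  rw [LM.eqs, eT]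
  interval_cases e
  · exact fb_eqF h hG hf ha hA fun l hl c0 c1 =>
      ⟨k0 l hl 0 (by norm_num) (c0 (h0 (by norm_num))), k0 l hl 1 (by norm_num) (c1 (h1 (by norm_num)))⟩
  · exact fb_eqF h hG hf ha hA fun l hl c0 c1 =>
      ⟨k0 l hl 0 (by norm_num) (c0 (h0 (by norm_num))),
        fb_outs hr (side := 1) (by norm_num) hl (by norm_num) (c1 (h1 (by norm_num)))⟩
  · exact fb_eqF h hG hf ha hA fun l hl c0 c1 =>
      ⟨k0 l hl 1 (by norm_num) (c1 (h1 (by norm_num))),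
        fb_outs hr (side := 0) (by norm_num) hl (by norm_num) (c0 (h0 (by norm_num)))⟩
  · exact fb_eqF h hG hf ha hA fun l hl c0 _ =>
      ⟨k0 l hl 0 (by norm_num) (c0 (h0 (by norm_num))), fb_drop h hl⟩
  · exact fb_eqF h hG hf ha hA fun l hl _ c1 =>
      ⟨k0 l hl 1 (by norm_num) (c1 (h1 (by norm_num))), fb_drop h hl⟩

theorem own_spec (hs : side < 2) (ha : Om Y a) (hr : (F.net M).Adm Y.S 0 a r) (hH : Has Y side)
    {e : ℕ} (he : e < 3) : M.stT F.q F.c (F.c.nbw r (side + 1) 0 (F.c.d + F.c.d')) (e * F.nS M) =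
      F.c.encs (M.outp F.q F.cst e (star Y side)) a := by
  have h1 := adm_mem hr (s := side + 1) (β := 0) (i := F.c.d + F.c.d') (by omega) (by omega)
    (Nat.lt_succ_self _)
  rw [CP.locv_own, add_zero, cenv, if_pos rfl, add_zero] at h1
  exact ha.hold side hs hH _ h1 e he

end FD

end Vale.Agent.P330Q
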