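import Vale.Agent.P330Q.FinB

/-! The fixed point argument, and the decoder (task FinC).
Plan for `main`. Samples are the pairs `k = (a, r)` with `Om a` and `r` admissible (nonempty by
`dens_om`, `dens_ne`, `adm_ex`). Let `S = outp 1`, `P = outp 2`, `z k = zon`, `nA k`, `nB k` the strict
tests, `a k = if lax 0 then star 0 else o`, `b k = if lax 1 then star 1 else o`. The output of the
sample is `[ctl 0, ctl 1] ++ encs (tA ..) a ++ encs (tB ..) a` (`own_spec`, `has_of_lax`, `tabs_eq`,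
`keep`, `po`, `so1`, `selA_map`, `selB_map`), and its class is `cls` (`clsB_eq`, `eqs_spec`; strict
implies lax). If the claim fails then `na`, `nb` of `Grp.grp_const` hold (`fnd`); `sA`, `sB` by
`lax_of_strict`; `hA`, `hB` by `out_eq` and `strict_of_hold`. With `cell_near`, `Hard.blk_spec` all
samples give the same bit `s` to a control word; `out_eq`, `cell_end` and `Hard.rawl_bd` give a
contradiction. `decA_spec`: every round of `decIt` divides the density of wrong tables by `64`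
(`few_dens`, `dec_spec`), finish with `dens_zero` and `encT_head`. -/

namespace Vale.Agent.P330Q

open Vale.Agent.Lib.H23 Vale.Agent.P325 Vale.Agent.P330 Vale.Agent.P330.Amp Finset
open scoped BigOperators

theorem fc_tb_left {l m : List ℕ} {o n : ℕ} (h : o + n ≤ l.length) : tb (l ++ m) o n = tb l o n :=
  tb_congr fun i hi => List.getD_append _ _ _ _ (by omega)

theorem fc_tb_right (l m : List ℕ) {o : ℕ} (h : o = l.length) : tb (l ++ m) o m.length = m := by
  subst h
  refine Eq.trans (tb_congr (o' := 0) fun i _ => ?_) (tb_self m)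
  rw [List.getD_append_right _ _ _ _ (by omega)]
  congr 1
  omega

namespace FD

variable {P : Type} {F : FD P} {M : LM P} [Fact F.c.p.Prime] {Y : F.Sys M}

/-- the state that a sample uses -/
noncomputable def sv (Y : F.Sys M) (side : ℕ) (r : Inp) : F.St M :=
  if F.c.lax (F.nS M) F.d2 F.th r side then star Y side else F.oS M

omit [Fact F.c.p.Prime] in
theorem fc_len (a : ℕ) : (F.labT M a).length - 3 = F.d2 := by simp [labT]

section

variable (h : F.Ok M) {Fnd : List (List ℕ) → Prop} (hG : F.Good M Fnd) (hf : Small Y)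
  {a : Vec F.c.k} {r : Inp} (ha : Om Y a) (hr : (F.net M).Adm Y.S 0 a r)
include h hf ha hr

theorem fc_own {side e : ℕ} (hs : side < 2) (he : e < 3) {L : List ℕ}
    (hL : L = F.c.encs (M.outp F.q F.cst e (F.oS M)) a) :
    M.own F.q F.c F.th (F.labT M (toN a)) r side e L =
      F.c.encs (M.outp F.q F.cst e (sv Y side r)) a := by
  unfold LM.own sv
  rw [fc_len]
  split_ifs with hl
  · exact own_spec hs ha hr (has_of_lax h hf hs ha hr hl) he
  · exact hL

theorem fc_sv {side : ℕ} (hs : side < 2) {a' : Vec F.c.k} {r' : Inp} (ha' : Om Y a')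
    (hr' : (F.net M).Adm Y.S 0 a' r') (h1 : F.c.strict (F.nS M) F.d2 F.th r side = true) :
    sv Y side r' = star Y side :=
  if_pos (lax_of_strict h hf hs ha ha' hr hr' h1)

include hG

theorem fc_out : M.gT F.q F.c 0 (toN a) F.th (F.labT M (toN a)) r =
    [if M.ctl F.q F.c F.th (F.labT M (toN a)) r 0 then 1 else 0,
      if M.ctl F.q F.c F.th (F.labT M (toN a)) r 1 then 1 else 0] ++
    F.c.encs (Grp.tA (M.outp F.q F.cst 1) (F.oS M) (LM.zon F.c (F.labT M (toN a)) r)
      (sv Y 0 r) (sv Y 1 r)) a ++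
    F.c.encs (Grp.tB (M.outp F.q F.cst 2) (F.oS M) (LM.zon F.c (F.labT M (toN a)) r)
      (sv Y 0 r) (sv Y 1 r)) a := by
  have e1 : (F.labT M (toN a)).getD 1 [] = F.c.encs (F.oS M) a := CP.tabs_eq h.c _ _ a
  have e2 : (F.labT M (toN a)).getD 2 [] = F.c.encs (stL F.c.p F.c.k (F.nS M) F.so) a :=
    CP.tabs_eq h.c _ _ a
  rw [LM.gT, if_pos rfl, LM.gFin, fc_own h hf ha hr (side := 0) (e := 0) (by omega) (by omega)
      (by rw [e1, hG.keep]),
    fc_own h hf ha hr (side := 1) (e := 0) (by omega) (by omega) (by rw [e1, hG.keep]),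
    fc_own h hf ha hr (side := 1) (e := 1) (by omega) (by omega) (by rw [e2, hG.so1]),
    fc_own h hf ha hr (side := 0) (e := 2) (by omega) (by omega) (by rw [e1, hG.po]),
    hG.keep, hG.keep, e1, Grp.selA_map (fun A => F.c.encs A a), Grp.selB_map (fun A => F.c.encs A a)]

open Classical in
theorem fc_cls : Grp.clsB (LM.zon F.c (F.labT M (toN a)) r) (F.c.strict (F.nS M) F.d2 F.th r 0)
      (F.c.strict (F.nS M) F.d2 F.th r 1) (M.eqs F.q F.c (F.labT M (toN a)) r) =
    Grp.cls (M.outp F.q F.cst 1) (M.outp F.q F.cst 2) (F.oS M) (LM.zon F.c (F.labT M (toN a)) r)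
      (F.c.strict (F.nS M) F.d2 F.th r 0) (F.c.strict (F.nS M) F.d2 F.th r 1)
      (sv Y 0 r) (sv Y 1 r) := by
  have H : ∀ side < 2, F.c.strict (F.nS M) F.d2 F.th r side = true →
      Has Y side ∧ sv Y side r = star Y side := fun side hs h1 =>
    ⟨has_of_lax h hf hs ha hr (lax_of_strict h hf hs ha ha hr hr h1), fc_sv h hf ha hr hs ha hr h1⟩
  refine Grp.clsB_eq (fun x y => ?_) (fun x y => ?_) (fun x y => ?_) (fun x => ?_) (fun y => ?_)
  · rw [(H 0 (by omega) x).2, (H 1 (by omega) y).2]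
    exact eqs_spec h hG hf ha hr (e := 0) (by omega) (fun _ => (H 0 (by omega) x).1)
      fun _ => (H 1 (by omega) y).1
  · rw [(H 0 (by omega) x).2, (H 1 (by omega) y).2]
    exact eqs_spec h hG hf ha hr (e := 1) (by omega) (fun _ => (H 0 (by omega) x).1)
      fun _ => (H 1 (by omega) y).1
  · rw [(H 0 (by omega) x).2, (H 1 (by omega) y).2]
    exact eqs_spec h hG hf ha hr (e := 2) (by omega) (fun _ => (H 0 (by omega) x).1)
      fun _ => (H 1 (by omega) y).1
  · rw [(H 0 (by omega) x).2]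
    exact eqs_spec h hG hf ha hr (e := 3) (by omega) (fun _ => (H 0 (by omega) x).1)
      fun e => absurd rfl e
  · rw [(H 1 (by omega) y).2]
    exact eqs_spec h hG hf ha hr (e := 4) (by omega) (fun e => absurd rfl e)
      fun _ => (H 1 (by omega) y).1

end

theorem fc_hold {side : ℕ} (hs : side < 2) {u : F.St M} {a : Vec F.c.k} (ha : Om Y a)
    (h : ∀ r, (F.net M).Adm Y.S 0 a r → tb (M.gT F.q F.c 0 (toN a) F.th (F.labT M (toN a)) r)
      (2 + side * (F.nS M * F.c.ts)) (F.c.encs u a).length = F.c.encs u a) :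
    HoldR Y side u a := by
  intro ρ hρ j hj
  have := out_eq (Y := Y) (t := 0) (by omega) ha.good (by
    rw [CP.length_encs]
    have : side * (F.nS M * F.c.ts) ≤ 1 * (F.nS M * F.c.ts) := Nat.mul_le_mul_right _ (by omega)
    change _ ≤ M.ns F.q + 2 * M.nR F.q * F.c.ts + 2 + 2 * (F.nS M * F.c.ts)
    omega) (CP.encs_lt u a) h ρ hρ j hj
  rwa [CP.length_encs] at this

theorem main (h : F.Ok M) {Fnd : List (List ℕ) → Prop} (hG : F.Good M Fnd) (hf : Small Y) :
    ∃ side < 2, ∃ A, (𝔼 b, ind (rawBad Y side A b)) ≤ 1 / 32 ∧ Fnd (toL A) := by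
  classical
  by_contra hno
  have nf : ∀ side < 2, ∀ a r, Om Y a → (F.net M).Adm Y.S 0 a r → sv Y side r = F.oS M ∨
      (M.outp F.q F.cst 1 (M.outp F.q F.cst 2 (sv Y side r)) = sv Y side r ∧
        M.outp F.q F.cst 2 (M.outp F.q F.cst 1 (sv Y side r)) = sv Y side r) := by
    intro side hs a r ha hr
    by_contra c
    rw [not_or, not_and_or] at c
    refine hno ⟨side, hs, sv Y side r, ?_, hG.fnd _ c.1 c.2⟩
    by_cases hl : F.c.lax (F.nS M) F.d2 F.th r side = true
    · rw [sv, if_pos hl]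
      exact star_spec (has_of_lax h hf hs ha hr hl)
    · exact absurd (if_neg hl) c.1
  obtain ⟨x, hx, hcx⟩ := cell_near h hf (cc := 0) (by omega)
  obtain ⟨y, hy, hcy⟩ := cell_near h hf (cc := 1) (by omega)
  obtain ⟨t, ht, hz, hg⟩ := Hard.blk_spec hx hy
  have hold : ∀ side < 2, ∀ u, (∀ a, Om Y a → HoldR Y side u a) → ∀ a r, Om Y a →
      (F.net M).Adm Y.S 0 a r →
      F.c.strict (F.nS M) F.d2 F.th r side = true ∧ sv Y side r = u := by
    intro side hs u hu a r ha hr
    obtain ⟨h1, h2⟩ := strict_of_hold h hG hf hs hu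
    exact ⟨h2 a r ha hr, (fc_sv h hf ha hr hs ha hr (h2 a r ha hr)).trans h1⟩
  obtain ⟨g, hg3, hgr⟩ := Grp.grp_const
    (ι := {k : Vec F.c.k × Inp // Om Y k.1 ∧ (F.net M).Adm Y.S 0 k.1 k.2})
    (S := M.outp F.q F.cst 1) (P := M.outp F.q F.cst 2) (o := F.oS M)
    (z := fun k => LM.zon F.c (F.labT M (toN k.1.1)) k.1.2)
    (nA := fun k => F.c.strict (F.nS M) F.d2 F.th k.1.2 0)
    (nB := fun k => F.c.strict (F.nS M) F.d2 F.th k.1.2 1)
    (a := fun k => sv Y 0 k.1.2) (b := fun k => sv Y 1 k.1.2)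
    (fun k0 k h1 => (fc_sv h hf k0.2.1 k0.2.2 (by omega) k.2.1 k.2.2 h1).trans
      (fc_sv h hf k0.2.1 k0.2.2 (by omega) k0.2.1 k0.2.2 h1).symm)
    (fun k0 k h1 => (fc_sv h hf k0.2.1 k0.2.2 (by omega) k.2.1 k.2.2 h1).trans
      (fc_sv h hf k0.2.1 k0.2.2 (by omega) k0.2.1 k0.2.2 h1).symm)
    (fun u hu k => hold 0 (by omega) u (fun a ha => fc_hold (by omega) ha fun r hr => by
      rw [fc_out h hG hf ha hr, hu ⟨(a, r), ha, hr⟩, fc_tb_left (by simp; omega)]
      exact fc_tb_right _ _ (by simp)) _ _ k.2.1 k.2.2)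
    (fun u hu k => hold 1 (by omega) u (fun a ha => fc_hold (by omega) ha fun r hr => by
      rw [fc_out h hG hf ha hr, hu ⟨(a, r), ha, hr⟩]
      exact fc_tb_right _ _ (by simp [CP.length_encs, nS]; omega)) _ _ k.2.1 k.2.2)
    hG.po (by rw [hG.so1]; exact hG.sne) (by rw [hG.so1]; exact hG.pso)
    (fun k => (nf 0 (by omega) _ _ k.2.1 k.2.2).imp_right And.left)
    (fun k => (nf 1 (by omega) _ _ k.2.1 k.2.2).imp_right And.right) ht
    (fun k => by
      obtain ⟨i, hi, e1⟩ := hcx _ _ k.2.1 k.2.2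
      obtain ⟨j, hj, e2⟩ := hcy _ _ k.2.1 k.2.2
      simp only [LM.zon, fc_len, e1, e2]
      exact hz i hi j hj)
  obtain ⟨c, hc, s, hs⟩ := hg g hg3
  have hctl : ∀ a r, Om Y a → (F.net M).Adm Y.S 0 a r → ∃ k < 3,
      M.ctl F.q F.c F.th (F.labT M (toN a)) r c = s ∧
      Hard.rawl k c (F.c.cell F.d2 r 0) (F.c.cell F.d2 r 1) = s := by
    intro a r ha hr
    obtain ⟨i, hi, e1⟩ := hcx _ _ ha hr
    obtain ⟨j, hj, e2⟩ := hcy _ _ ha hr
    have e3 := hgr ⟨(a, r), ha, hr⟩
    have e4 : LM.zon F.c (F.labT M (toN a)) r = Hard.zone (x + i) (y + j) := by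
      simp only [LM.zon, fc_len, e1, e2]
    have e5 := hs i hi j hj _ (Grp.cls_lt _ _ _ _ _ _ _ _) (e4 ▸ e3)
    rw [← e1, ← e2] at e5
    refine ⟨_, Grp.cls_lt _ _ _ _ _ _ _ _, ?_, e5⟩
    rw [LM.ctl, fc_len, fc_cls h hG hf ha hr, e4, ← e1, ← e2]
    exact e5
  have hwd : ∀ a, Om Y a → ∀ ρ ∈ Y.S 0 a, ∀ j < 64, wd ρ j c = if s then 1 else 0 := by
    intro a ha ρ hρ j hj
    have p1 : 1 < F.c.p := (Fact.out : F.c.p.Prime).one_lt
    have := out_eq (Y := Y) (t := 0) (by omega) ha.good (off := c) (L := [if s then 1 else 0]) (by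
      change c + 1 ≤ M.ns F.q + 2 * M.nR F.q * F.c.ts + 2 + 2 * (F.nS M * F.c.ts)
      omega) (by intro x hx; rw [List.mem_singleton.1 hx]; split_ifs <;> omega) (fun r hr => by
        obtain ⟨_, _, e, _⟩ := hctl a r ha hr
        rw [fc_out h hG hf ha hr, ← e]
        interval_cases c <;> rfl) ρ hρ j hj
    simpa [tb, wd] using this
  obtain ⟨a, ha⟩ := dens_ne ((dens_om h hG hf).trans_lt (by
    have h1 : 1 ≤ F.c.m := by unfold CP.m; omega
    have h2 : 1 ≤ F.th := by
      refine le_trans ?_ h.th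
      have := h.c.d16
      have := h.c.d16'
      exact Nat.succ_le_of_lt (by positivity)
    have h3 : (1 : ℝ) ≤ F.c.m := by exact_mod_cast h1
    have h4 : (1 : ℝ) ≤ F.th := by exact_mod_cast h2
    rw [div_lt_one (by positivity)]
    nlinarith))
  rw [not_not] at ha
  obtain ⟨r, hr⟩ := adm_ex (Y := Y) 0 a
  have e1 := cell_end h hG hf hc hwd ha hr
  obtain ⟨k, hk, -, e2⟩ := hctl a r ha hr
  obtain ⟨i, hi, e3⟩ := hcx _ _ ha hr
  obtain ⟨j, hj, e4⟩ := hcy _ _ ha hr
  have hb := Hard.rawl_bd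
  simp only [List.all_eq_true, List.mem_range, Bool.and_eq_true, Bool.not_eq_true'] at hb
  have b1 := hb k hk (F.c.cell F.d2 r 0) (by omega)
  have b2 := hb k hk (F.c.cell F.d2 r 1) (by omega)
  interval_cases c <;> rw [e1] at e2 <;> cases s <;> simp [b1, b2] at e2

omit [Fact F.c.p.Prime] in
theorem decIt_succ (T : List (List ℕ)) (n : ℕ) (a : Vec F.c.k) :
    (F.decIt T (n + 1)).getD (toN a) [] = F.c.decT [] []
      (F.c.S.map fun s => (F.decIt T n).getD (toN a ^^^ s) [])
      (F.c.S'.map fun s => (F.decIt T n).getD (toN a ^^^ s) []) := by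
  unfold decIt
  rw [List.range_succ, List.foldl_append, List.foldl_cons, List.foldl_nil,
    List.getD_eq_getElem _ _ (by simpa using toN_lt a)]
  simp

theorem fc_row {k : ℕ} {S : List ℕ} (lt : ∀ s ∈ S, s < 2 ^ k) (U : List (List ℕ)) (a : Vec k) {i : ℕ}
    (hi : i < S.length) :
    (S.map fun s => U.getD (toN a ^^^ s) []).getD i [] = U.getD (toN (a + nb k S i)) [] := by
  rw [List.getD_eq_getElem _ _ (by simpa using hi), List.getElem_map, toN_add, nb, toN_ofN,
    List.getD_eq_getElem _ _ hi, Nat.mod_eq_of_lt (lt _ (List.getElem_mem hi))]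

theorem decIt_dens (h : F.Ok M) {T : List (List ℕ)} {y : Vec F.c.k → ZMod F.c.p}
    (hT : (𝔼 b, ind (T.getD (toN b) [] ≠ F.c.encT [] [] y b)) ≤ 1 / 32) (n : ℕ) :
    (𝔼 b, ind ((F.decIt T n).getD (toN b) [] ≠ F.c.encT [] [] y b)) ≤ 1 / 32 / 64 ^ n := by
  classical
  induction n with
  | zero => simpa [decIt] using hT
  | succ n ih =>
    have h1 := CP.few_dens h.c (ih.trans (div_le_self (by norm_num) (one_le_pow₀ (by norm_num))))
    refine le_trans (le_trans (expect_le_expect fun b _ => ind_mono (mt fun hF => ?_)) h1) ?_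
    · rw [decIt_succ]
      refine CP.dec_spec h.c [] [] y b ?_ ?_
      · rw [filter_congr fun i hi => by rw [fc_row h.lt _ _ (mem_range.1 hi)]]
        have := hF.1
        refine le_trans (Nat.mul_le_mul (by omega) (le_of_eq ?_)) this
        congr
      · rw [filter_congr fun i hi => by rw [fc_row h.lt' _ _ (mem_range.1 hi)]]
        have := hF.2
        refine le_trans (Nat.mul_le_mul (by omega) (le_of_eq ?_)) this
        congr
    · rw [pow_succ, ← div_div]
      exact div_le_div_of_nonneg_right ih (by norm_num)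

theorem decA_spec (h : F.Ok M) {side : ℕ} {A : F.St M}
    (hA : (𝔼 b, ind (rawBad Y side A b)) ≤ 1 / 32) {D : ℕ → Rd} (hD : ∀ a, D (toN a) ∈ Y.S 0 a) :
    F.decA M ((List.range (2 ^ F.c.k)).map D) side = toL A := by
  unfold decA toL
  refine List.ext_getElem (by simp) fun x h1 h2 => ?_
  have hx : x < F.nS M := by simpa using h1
  rw [List.getElem_map, List.getElem_range, List.getElem_ofFn]
  generalize hT : List.map (fun ρ => tb (F.c.seg (F.nS M) ρ 2 side) (x * F.c.ts) F.c.ts)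
    (List.map D (List.range (2 ^ F.c.k))) = T
  have h0 : ∀ b, T.getD (toN b) [] ≠ F.c.encT [] [] (A.get x) b → rawBad Y side A b := by
    intro b hb hF
    refine hb ?_
    rw [← hT, List.getD_eq_getElem _ _ (by simpa using toN_lt b), List.getElem_map,
      List.getElem_map, List.getElem_range, hF _ (hD b), CP.tb_encs A b hx]
  have h3 := decIt_dens h (T := T) (y := A.get x) (le_trans (expect_le_expect fun b _ =>
    ind_mono (h0 b)) hA) (F.c.k + 1)
  have h4 := dens_zero (lt_of_le_of_lt (mul_le_mul_of_nonneg_right h3 (by positivity)) (by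
    rw [div_mul_eq_mul_div, div_lt_one (by positivity), pow_succ]
    have : (2 : ℝ) ^ F.c.k ≤ 64 ^ F.c.k := pow_le_pow_left₀ (by norm_num) (by norm_num) _
    have : (0 : ℝ) < 2 ^ F.c.k := by positivity
    linarith))
  have hl : (F.decIt T (F.c.k + 1)).length = 2 ^ F.c.k := by
    unfold decIt
    rw [List.range_succ, List.foldl_append, List.foldl_cons, List.foldl_nil]
    simp
  refine List.ext_getElem (by simp [hl]) fun a h5 h6 => ?_
  have ha : a < 2 ^ F.c.k := by simpa using h6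
  have h7 := not_not.1 (h4 (ofN F.c.k a))
  rw [toN_ofN, Nat.mod_eq_of_lt ha, List.getD_eq_getElem _ _ (by omega)] at h7
  rw [List.getElem_map, List.getElem_map, List.getElem_range, h7, CP.encT_head h.c, St.get,
    dif_pos hx]

end FD

end Vale.Agent.P330Q
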