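import Vale.Agent.P330Q.PhysPTb

/-! Polynomial time of the local function, of the network and of the decoder (task PhysPT).
Prove a `PT` lemma for every definition of `Phys.lean` (`List.range (c.d)` by `CP.pu_d` etc.;
`T.length - 3` is unary by `PU.of_le`). For `decIt` use `PT.foldl`: after the first round every
table has `ts` entries below `p`. -/

namespace Vale.Agent.P330Q

open Vale.Agent.Lib.H23 Vale.Agent.P333 Vale.Agent.P325 Vale.Agent.P330 Vale.Agent.P330.Amp

variable {P : Type} [Enc P] {M : LM P} {X : Type} [Enc X]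

theorem LM.pt_gF (h : M.PTime) : PT M.gF := by
  have : Fact M.PTime := ⟨h⟩
  exact ph_gT (by fun_prop) (by fun_prop) (by fun_prop) (by fun_prop) (by fun_prop) (by fun_prop)
    (by fun_prop)

theorem FD.pt_mk {q : X → P} {c : X → CP} {S2 : X → List ℕ} {th l : X → ℕ}
    {cst o so : X → List (List ℕ)} (hq : PT q) (hc : PT c) (hS : PT S2) (ht : PT th) (hl : PU l)
    (h1 : PT cst) (h2 : PT o) (h3 : PT so) :
    PT fun x => (⟨q x, c x, S2 x, th x, l x, cst x, o x, so x⟩ : FD P) :=
  ((hq.pair (hc.pair (hS.pair ht))).pair (hl.range.pair (h1.pair (h2.pair h3)))).of_enc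
    fun _ => rfl

private theorem ph_tab {F : X → FD P} (hF : PT F) : PT fun x =>
    (((F x).q, (F x).c, (F x).S2, (F x).th), List.range (F x).l, (F x).cst, (F x).o, (F x).so) :=
  hF.of_enc fun _ => rfl

theorem FD.pt_net (h : M.PTime) {F : X → FD P} (hF : PT F) (hk : PU fun x => 2 ^ (F x).c.k) :
    PT fun x => (F x).net M := by
  have : Fact M.PTime := ⟨h⟩
  have hq : PT fun x => (F x).q := (ph_tab hF).fst.fst
  have hc : PT fun x => (F x).c := (ph_tab hF).fst.snd.fst
  have hS : PT fun x => (F x).S2 := (ph_tab hF).fst.snd.snd.fst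
  have ht : PT fun x => (F x).th := (ph_tab hF).fst.snd.snd.snd
  have hl : PT fun x => List.range (F x).l := (ph_tab hF).snd.fst
  have h1 : PT fun x => (F x).cst := (ph_tab hF).snd.snd.fst
  have h2 : PT fun x => (F x).o := (ph_tab hF).snd.snd.snd.fst
  have h3 : PT fun x => (F x).so := (ph_tab hF).snd.snd.snd.snd
  have hR : PU fun x => (F x).R M := ph_R hq hc
  have hT : PU fun x => ((F x).net M).T := ((PU.const 2).mul hR).add (PU.const 1)
  have hd : PU fun x => ((F x).net M).d := ((PU.len hS).add (PU.const 2)).mul (ph_m hc)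
  have hw : PU fun x => ((F x).net M).w :=
    (((ph_ns hq).add (((PU.const 2).mul (ph_nR hq)).mul (CP.pu_ts hc))).add (PU.const 2)).add
      ((PU.const 2).mul ((ph_nS hq).mul (CP.pu_ts hc)))
  have hlab : PT fun y : X × ℕ => (F y.1).labT M y.2 := by
    have hc' := hc.comp (PT.fst' (α := X) (β := ℕ))
    have hk' := hk.comp (PT.fst' (α := X) (β := ℕ))
    have hq' := hq.comp (PT.fst' (α := X) (β := ℕ))
    exact (ph_tabs hc' hk' (ph_nR hq') (h1.comp PT.fst') PT.snd').cons
      ((ph_tabs hc' hk' (ph_nS hq') (h2.comp PT.fst') PT.snd').cons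
        ((ph_tabs hc' hk' (ph_nS hq') (h3.comp PT.fst') PT.snd').cons
          (PT.map (f := fun (y : X × ℕ) s => (F y.1).c.tabs ((F y.1).nS M) (F y.1).o (y.2 ^^^ s))
            (ph_tabs (hc'.comp PT.fst') (hk'.comp PT.fst') (ph_nS (hq'.comp PT.fst'))
              (h2.comp PT.fst'.fst) (pt_xor PT.fst'.snd PT.snd')) (hS.comp PT.fst'))))
  have hsrc : PT fun y : (X × ℕ) × ℕ => ((F y.1.1).net M).src y.1.2 y.2 := by
    have hR' : PT fun y : (X × ℕ) × ℕ => (F y.1.1).R M := hR.pt.comp PT.fst'.fst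
    have h0 : PT fun y : (X × ℕ) × ℕ => y.1.2 - 1 := PT.fst'.snd.sub (PT.const 1)
    exact ph_ite (pt_decEq PT.fst'.snd (PT.const 0)) (PT.snd'.mul hR')
      (ph_ite (pt_decEq (pt_mod h0 hR') (PT.const 0)) (PT.const 0) h0)
  have hV : PT fun y : (X × ℕ) × ℕ => ((F y.1.1).net M).V y.1.2 y.2 := by
    have hc' : PT fun y : (X × ℕ) × ℕ => (F y.1.1).c := hc.comp PT.fst'.fst
    have hm := ph_m' hc'
    exact pt_xor (ph_ite (pt_decEq (PT.snd'.div hm) (PT.const 0)) (PT.const 0)
      (ph_ite (pt_decEq (PT.snd'.div hm) (PT.const 1))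
        (ph_cen (hq.comp PT.fst'.fst) hc' PT.fst'.snd)
        (PT.getD (hS.comp PT.fst'.fst) ((PT.snd'.div hm).sub (PT.const 2)) (PT.const 0))))
      (ph_loc hc' (pt_mod PT.snd' hm))
  have hlab' := hlab.comp (g := fun y : (X × ℕ) × ℕ => (y.1.1, y.2)) (PT.fst'.fst.pair PT.snd')
  have hL : PT fun y : (X × ℕ) × ℕ => ((F y.1.1).net M).lab y.1.2 y.2 :=
    (hq.comp PT.fst'.fst).pair ((hc.comp PT.fst'.fst).pair
      ((PT.fst'.snd.cons (PT.snd'.cons ((ht.comp PT.fst'.fst).cons (PT.const [])))).pair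
        hlab'))
  have a1 : PT fun x => (List.range ((F x).net M).T).map fun t =>
      ((List.range 3).map (((F x).net M).src t),
        (List.range ((F x).net M).d).map (((F x).net M).V t)) :=
    PT.map ((PT.map (f := fun (y : X × ℕ) s => ((F y.1).net M).src y.2 s) hsrc (PT.const _)).pair
      (PT.map (f := fun (y : X × ℕ) s => ((F y.1).net M).V y.2 s) hV (hd.range.comp PT.fst')))
      hT.range
  have a2 : PT fun x => (List.range ((F x).net M).T).map fun t =>
      (List.range (2 ^ ((F x).net M).k)).map (((F x).net M).lab t) :=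
    PT.map (PT.map (f := fun (y : X × ℕ) s => ((F y.1).net M).lab y.2 s) hL
      (hk.range.comp PT.fst')) hT.range
  exact (((CP.pu_k hc).range.pair (hw.range.pair ((pu_size (CP.pt_p hc)).range.pair
    (hd.range.pair hl)))).pair (a1.pair a2)).of_enc fun _ => rfl

private theorem ph_getD {β : Type} {p : β → Prop} {l : List β} {d : β} (h0 : p d)
    (h : ∀ a ∈ l, p a) (i : ℕ) : p (l.getD i d) := by
  rcases lt_or_ge i l.length with hi | hi
  · rw [List.getD_eq_getElem _ _ hi]
    exact h _ (List.getElem_mem hi)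
  · rw [List.getD_eq_default _ _ hi]
    exact h0

private theorem ph_summ (p : ℕ) {l : List ℕ} {B n : ℕ} (hn : l.length ≤ n) (h : ∀ a ∈ l, a ≤ B) :
    summ p l ≤ n * B :=
  (Nat.mod_le _ _).trans ((List.sum_le_card_nsmul l B h).trans (Nat.mul_le_mul_right B hn))

private theorem ph_prodm (p : ℕ) {l : List ℕ} {N n : ℕ} (hN : 0 < N) (hn : l.length ≤ n)
    (h : ∀ a ∈ l, a ≤ N) : prodm p l ≤ N ^ n := by
  have e : ∀ (l : List ℕ) (s : ℕ), (∀ a ∈ l, a ≤ N) → l.foldl (mulm p) s ≤ s * N ^ l.length := by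
    intro l
    induction l with
    | nil => intro s _; simp
    | cons a l ih =>
      intro s h
      refine (ih _ fun b hb => h b (List.mem_cons_of_mem _ hb)).trans ?_
      rw [List.length_cons, pow_succ', ← mul_assoc]
      exact Nat.mul_le_mul_right _ ((Nat.mod_le _ _).trans
        (Nat.mul_le_mul_left s (h a List.mem_cons_self)))
  exact (e l _ h).trans ((Nat.mul_le_mul (Nat.mod_le 1 p) (Nat.pow_le_pow_right hN hn)).trans
    (one_mul _).le)

private theorem ph_ds (a b e : ℕ) : divm 0 (subm 0 a b) e = a := by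
  simp [divm, subm, mulm, invm, powm]

private theorem ph_lbN {d β x N : ℕ} (hN : 0 < N) (hx : x ≤ N) : lbN 0 d β x ≤ N ^ (d + 1) := by
  refine ph_prodm 0 hN ?_ fun a ha => ?_
  · rw [List.length_map]
    exact (List.length_filter_le _ _).trans (List.length_range).le
  · obtain ⟨γ, -, rfl⟩ := List.mem_map.1 ha
    rw [ph_ds]
    exact hx

private theorem ph_decT (c : CP) {J : ℕ} {rows cols : List (List ℕ)}
    (h : ∀ j i, (rows.getD j []).getD i 0 < 2 ^ J) :
    ∀ v ∈ c.decT [] [] rows cols, v < 2 ^ (J + (2 * (3 * c.m * (3 * c.m)) + sz c.p)) := by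
  intro v hv
  obtain ⟨i, hi, rfl⟩ := List.mem_map.1 hv
  rcases Nat.eq_zero_or_pos c.p with hp | hp
  swap
  · exact ((Nat.mod_lt _ hp).trans (lt_two_pow_sz _)).trans_le
      (Nat.pow_le_pow_right (by omega) (by omega))
  set N := 3 * c.m with hN
  have hm : c.m = c.d + c.d' + 1 := rfl
  have N0 : 0 < N := by omega
  have hi1 : i / (c.d' + 1) ≤ N :=
    (Nat.div_lt_of_lt_mul (k := c.d + 1) (by
      rw [mul_comm]; exact List.mem_range.1 hi)).le.trans (by omega)
  have hi2 : i % (c.d' + 1) ≤ N := (Nat.mod_lt _ (by omega)).le.trans (by omega)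
  have hev : ∀ j x y, x ≤ N → y ≤ N →
      c.evN (rows.getD j []) x y ≤ N * N * (2 ^ J * N ^ (c.d + 1) * N ^ (c.d' + 1)) := by
    intro j x y hx hy
    refine ph_summ _ ?_ fun a ha => ?_
    · rw [List.length_map, List.length_range]
      exact Nat.mul_le_mul (by omega) (by omega)
    · obtain ⟨k, -, rfl⟩ := List.mem_map.1 ha
      rw [hp]
      exact (Nat.mod_le _ _).trans (Nat.mul_le_mul ((Nat.mod_le _ _).trans
        (Nat.mul_le_mul (h j k).le (ph_lbN N0 hx))) (ph_lbN N0 hy))
  refine lt_of_le_of_lt (ph_summ _ (n := N) (B := 1 *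
    (N * N * (2 ^ J * N ^ (c.d + 1) * N ^ (c.d' + 1))) * N ^ (c.d + 1)) ?_ fun a ha => ?_) ?_
  · rw [List.length_map]
    exact (List.length_take_le _ _).trans (by omega)
  · obtain ⟨e, he, rfl⟩ := List.mem_map.1 ha
    have he' : e < 2 * c.d := List.mem_range.1 (List.mem_filter.1 (List.mem_of_mem_take he)).1
    refine (Nat.mod_le _ _).trans (Nat.mul_le_mul ((Nat.mod_le _ _).trans
      (Nat.mul_le_mul ?_ (hev _ _ _ (by omega) hi2))) (ph_prodm _ N0 ?_ fun a ha => ?_))
    · rw [hp, sgm]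
      split_ifs <;> omega
    · rw [List.length_map]
      exact (List.length_filter_le _ _).trans (List.length_take_le _ _)
    · obtain ⟨e2, -, rfl⟩ := List.mem_map.1 ha
      rw [hp, ph_ds]
      exact hi1
  · have e1 : N * (1 * (N * N * (2 ^ J * N ^ (c.d + 1) * N ^ (c.d' + 1))) * N ^ (c.d + 1)) =
        2 ^ J * N ^ (2 * c.d + c.d' + 6) := by ring
    have e2 : N ^ (2 * c.d + c.d' + 6) ≤ 2 ^ (2 * (N * N)) := by
      refine (Nat.pow_le_pow_right N0 (show _ ≤ 2 * N by omega)).trans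
        ((Nat.pow_le_pow_left Nat.lt_two_pow_self.le _).trans (le_of_eq ?_))
      rw [← pow_mul]
      congr 1
      ring
    rw [e1, pow_add 2 J]
    exact Nat.mul_lt_mul_of_pos_left (e2.trans_lt (Nat.pow_lt_pow_right (by omega)
      (Nat.lt_add_of_pos_right (sz_pos c.p)))) (Nat.two_pow_pos J)

private theorem ph_decIt {F : X → FD P} (hF : PT F) (hk : PU fun x => 2 ^ (F x).c.k)
    {T : X → List (List ℕ)} (hT : PT T) {n : X → ℕ} (hn : PU n) :
    PT fun x => (F x).decIt (T x) (n x) := by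
  have hc : PT fun x => (F x).c := (ph_tab hF).fst.snd.fst
  have hK : PU fun x => 2 * (3 * (F x).c.m * (3 * (F x).c.m)) + sz (F x).c.p :=
    ((PU.const 2).mul (((PU.const 3).mul (ph_m hc)).mul ((PU.const 3).mul (ph_m hc)))).add
      (ph_sz (CP.pt_p hc))
  have hG : PU fun x => sz (T x) + (2 ^ (F x).c.k * ((F x).c.ts * (4 * (sz (T x) + 2 +
      n x * (2 * (3 * (F x).c.m * (3 * (F x).c.m)) + sz (F x).c.p)) + 1 + 1) + 1 + 1) + 1) :=
    (ph_sz hT).add ((hk.mul ((((CP.pu_ts hc).mul ((((PU.const 4).mul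
      (((ph_sz hT).add (PU.const 2)).add (hn.mul hK))).add (PU.const 1)).add (PU.const 1))).add
        (PU.const 1)).add (PU.const 1))).add (PU.const 1))
  obtain ⟨Q, hQ⟩ := hG.range.size_le
  unfold FD.decIt
  refine PT.foldl (f := fun x U (_ : ℕ) => (List.range (2 ^ (F x).c.k)).map fun a =>
    (F x).c.decT [] [] ((F x).c.S.map fun s => U.getD (a ^^^ s) [])
      ((F x).c.S'.map fun s => U.getD (a ^^^ s) [])) ?_ hn.range hT ⟨Q, fun x k => ?_⟩
  · have hc' : PT fun y : (X × List (List ℕ) × ℕ) × ℕ => (F y.1.1).c := hc.comp PT.fst'.fst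
    exact PT.map (CP.pt_decT hc' (PT.const _) (PT.const _)
      (PT.map (f := fun (y : (X × List (List ℕ) × ℕ) × ℕ) s => y.1.2.1.getD (y.2 ^^^ s) [])
        (by fun_prop) (CP.pt_S hc'))
      (PT.map (f := fun (y : (X × List (List ℕ) × ℕ) × ℕ) s => y.1.2.1.getD (y.2 ^^^ s) [])
        (by fun_prop) (CP.pt_S' hc'))) (hk.range.comp PT.fst')
  refine le_trans ?_ ((length_lt_sz _).le.trans (hQ x))
  rw [List.length_range]
  have hl : ((List.range (n x)).take k).length ≤ n x :=
    (List.length_take_le' _ _).trans List.length_range.le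
  generalize (List.range (n x)).take k = l at hl
  generalize n x = m at hl
  generalize (F x).c = c
  set K := 2 * (3 * c.m * (3 * c.m)) + sz c.p
  have key : ∀ (l : List ℕ) (U : List (List ℕ)) (J B : ℕ),
      (∀ j i, (U.getD j []).getD i 0 < 2 ^ J) → sz U ≤ B →
      2 ^ c.k * (c.ts * (4 * (J + l.length * K) + 1 + 1) + 1 + 1) + 1 ≤ B →
      sz (l.foldl (fun U (_ : ℕ) => (List.range (2 ^ c.k)).map fun a => c.decT [] []
        (c.S.map fun s => U.getD (a ^^^ s) []) (c.S'.map fun s => U.getD (a ^^^ s) [])) U) ≤ B := by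
    intro l
    induction l with
    | nil => exact fun U J B _ h _ => h
    | cons a l ih =>
      intro U J B h1 _ h3
      have h4 : ∀ b, ∀ v ∈ c.decT [] [] (c.S.map fun s => U.getD (b ^^^ s) [])
          (c.S'.map fun s => U.getD (b ^^^ s) []), v < 2 ^ (J + K) := fun b =>
        ph_decT c fun j => ph_getD (p := fun t : List ℕ => ∀ i, t.getD i 0 < 2 ^ J)
          (fun i => by simp) (fun t ht => by
            obtain ⟨s, -, rfl⟩ := List.mem_map.1 ht
            exact h1 _) j
      have e : J + (a :: l).length * K = J + K + l.length * K := by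
        rw [List.length_cons]; ring
      rw [e] at h3
      refine ih _ (J + K) B (fun j => ph_getD (p := fun t : List ℕ => ∀ i, t.getD i 0 < 2 ^ (J + K))
        (fun i => by simp) (fun t ht => ?_) j) (le_trans ?_ h3) h3
      · obtain ⟨b, -, rfl⟩ := List.mem_map.1 ht
        exact ph_getD (p := fun v => v < 2 ^ (J + K)) (by positivity) (h4 b)
      · refine ip_sz_list (by simp) fun t ht => ?_
        obtain ⟨b, -, rfl⟩ := List.mem_map.1 ht
        refine ip_sz_list (by simp [CP.decT]) fun v hv => (sz_nat_le (h4 b v hv)).trans ?_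
        omega
  refine key l (T x) (sz (T x) + 2) _ (fun j i => (lt_two_pow_sz _).trans_le
    (Nat.pow_le_pow_right (by omega) ?_)) (Nat.le_add_right _ _) (le_trans ?_ (Nat.le_add_left _ _))
  · have h1 := sz_getD_le ((T x).getD j []) i 0
    have h2 := sz_getD_le (T x) j []
    have h3 : sz (0 : ℕ) = 1 := rfl
    rw [sz_nil] at h2
    omega
  · gcongr

theorem FD.pt_decA (h : M.PTime) {F : X → FD P} (hF : PT F) (hk : PU fun x => 2 ^ (F x).c.k)
    {W : X → List Rd} (hW : PT W) (side : ℕ) : PT fun x => (F x).decA M (W x) side := by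
  have : Fact M.PTime := ⟨h⟩
  have hq : PT fun x => (F x).q := (ph_tab hF).fst.fst
  have hc : PT fun x => (F x).c := (ph_tab hF).fst.snd.fst
  have hc' : PT fun y : (X × ℕ) × Rd => (F y.1.1).c := hc.comp PT.fst'.fst
  have h1 : PT fun y : X × ℕ => (W y.1).map fun ρ =>
      tb ((F y.1).c.seg ((F y.1).nS M) ρ 2 side) (y.2 * (F y.1).c.ts) (F y.1).c.ts :=
    PT.map (pt_tb (ph_seg hc' (ph_nS (hq.comp PT.fst'.fst)) PT.snd' (PT.const 2) (PT.const side))
      (PT.fst'.snd.mul (CP.pt_ts hc')) (CP.pu_ts hc')) (hW.comp PT.fst')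
  have h2 := ph_decIt (hF.comp PT.fst') (hk.comp PT.fst') h1
    ((CP.pu_k (hc.comp PT.fst')).add (PU.const 1))
  unfold FD.decA
  exact PT.map (PT.map (f := fun _ (T : List ℕ) => T.getD 0 0) (by fun_prop) h2) (ph_nS hq).range

end Vale.Agent.P330Q
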