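import Vale.Agent.P330Q.FinC
import Vale.Agent.P330Q.PhysPT
import Vale.Agent.P330.Hard

/-! Choice of the parameters and the theorem `hardQ` (task FinP).
Plan. Let `k = (kk I).length`, `B` from `exists_bias`, `n0 = (k + 2) ^ C`. `S' = B (kk I, 2 ^ 17)`,
`S = B (kk I, 2 ^ 17 (1 + d') + n0 + 1)` (unary second arguments), the lower bound for
the prime is `3 (d + d') + 3`, `th = 2 ^ 16 (nS + 1) d d'`, `S2 = B (kk I, 2 ^ 13 m th ^ 3)`. All these
numbers are at most `(k + 2) ^ C'`. `big`: for `D = d + d' ≥ 2 ^ 17`, `D ≥ n0 + 1` the left side is at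
most `2 ^ 21 D ^ 4 ≤ 2 ^ D`. The bound `l` for the size of a label: a label has at most
`(nR + (d2 + 2) nS) ts` numbers below `p`, plus `sz q`, `sz c` and three numbers; take an explicit
polynomial in unary quantities (or the maximum of the sizes over all labels, `pt_maxL`, `PT.sz`).
`k ≤ size (sz I) + size C`. The decoder lists `dec (x, decA W 0) ++ dec (x, decA W 1)` and takes the
first entry with `Hard.solB`. The machine part is only known for valid `I`; the size bounds must hold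
for all `I`. -/

namespace Vale.Agent.P330Q

open Vale.Agent.Lib.H23 Vale.Agent.P333 Vale.Agent.P325 Vale.Agent.P330 Vale.Agent.P330.Amp Finset
open scoped BigOperators

/-- polylogarithmic in the size of the instance -/
def Sm (f : EOL → ℕ) : Prop := ∃ e, ∀ I, f I ≤ ((sz I).size + 2) ^ e

namespace Sm

variable {f g : EOL → ℕ}

theorem of_le (hf : Sm f) (h : ∀ I, g I ≤ f I) : Sm g :=
  let ⟨e, he⟩ := hf
  ⟨e, fun I => (h I).trans (he I)⟩

theorem const (c : ℕ) : Sm fun _ => c :=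
  ⟨c, fun _ => Nat.lt_two_pow_self.le.trans (Nat.pow_le_pow_left (by omega) c)⟩

theorem mul (hf : Sm f) (hg : Sm g) : Sm fun I => f I * g I :=
  let ⟨e, he⟩ := hf
  let ⟨e', he'⟩ := hg
  ⟨e + e', fun I => by rw [pow_add]; exact Nat.mul_le_mul (he I) (he' I)⟩

theorem add (hf : Sm f) (hg : Sm g) : Sm fun I => f I + g I := by
  obtain ⟨e, he⟩ := hf
  obtain ⟨e', he'⟩ := hg
  refine ⟨e + e' + 1, fun I => ?_⟩
  have h1 := (he I).trans (Nat.pow_le_pow_right (by omega) (Nat.le_add_right e e'))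
  have h2 := (he' I).trans (Nat.pow_le_pow_right (by omega) (Nat.le_add_left e' e))
  have h3 : ((sz I).size + 2) ^ (e + e') * 2 ≤ ((sz I).size + 2) ^ (e + e' + 1) :=
    Nat.mul_le_mul_left _ (by omega)
  change f I + g I ≤ _
  omega

theorem pow (hf : Sm f) (k : ℕ) : Sm fun I => f I ^ k :=
  let ⟨e, he⟩ := hf
  ⟨e * k, fun I => by rw [pow_mul]; exact Nat.pow_le_pow_left (he I) k⟩

theorem base : Sm fun I => (sz I).size := ⟨1, fun _ => by simp⟩

theorem size (hf : Sm f) : Sm fun I => (f I).size :=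
  hf.of_le fun _ => Nat.size_le.2 Nat.lt_two_pow_self

theorem pu (hf : Sm f) (h : PT f) : PU f :=
  let ⟨e, he⟩ := hf
  (((pu_size (PT.sz PT.id)).add (PU.const 2)).pow e).of_le h he

end Sm

/-- a number in unary -/
def fpUn (n : ℕ) : List Unit := (List.range n).map fun _ => ()

theorem fp_un_length (n : ℕ) : (fpUn n).length = n := by simp [fpUn]

theorem fp_pt_un {X : Type} [Enc X] {f : X → ℕ} (h : PU f) : PT fun x => fpUn (f x) :=
  PT.map (f := fun _ _ => ()) (PT.const _) h.range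

theorem fp_bias {kk : EOL → List Unit} (pk : PT kk) (sk : Sm fun I => (kk I).length) {n : EOL → ℕ}
    (pn : PT n) (sn : Sm n) (h0 : ∀ I, 0 < n I) : ∃ S : EOL → List ℕ, PT S ∧
      Sm (fun I => (S I).length) ∧ ∀ I, n I ≤ (S I).length ∧ (∀ s ∈ S I, s < 2 ^ (kk I).length) ∧
        Bias (kk I).length (S I) (1 / n I) := by
  obtain ⟨B, pB, hB⟩ := exists_bias
  have h := fun I => hB (kk I) (fpUn (n I))
    (List.ne_nil_of_length_pos (by rw [fp_un_length]; exact h0 I))
  simp only [fp_un_length] at h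
  exact ⟨fun I => B (kk I, fpUn (n I)), pB.comp (pk.pair (fp_pt_un (sn.pu pn))),
    ((Sm.const 64).mul (((sk.add (Sm.const 1)).mul sn).pow 4)).of_le fun I => (h I).2.1,
    fun I => ⟨(h I).1, (h I).2.2⟩⟩

theorem fp_big {D : ℕ} (h : 64 ≤ D) : 2 ^ 21 * D ^ 4 ≤ 2 ^ D := by
  induction D, h using Nat.le_induction with
  | base => norm_num
  | succ n hn ih =>
    have h1 : (n + 1) ^ 4 ≤ 2 * n ^ 4 := by
      have h2 : (8 * (n + 1)) ^ 4 ≤ (9 * n) ^ 4 := Nat.pow_le_pow_left (by omega) 4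
      rw [mul_pow, mul_pow] at h2
      omega
    rw [pow_succ 2 n]
    omega

theorem fp_big' {d d' n : ℕ} (h : 64 ≤ d') (hn : n + 1 ≤ d) :
    16 * (d + d' + 1) * (2 ^ 16 * (n + 1) * d * d') ≤ 2 ^ (d + d') := by
  refine le_trans ?_ (fp_big (by omega))
  calc 16 * (d + d' + 1) * (2 ^ 16 * (n + 1) * d * d')
      ≤ 16 * (2 * (d + d')) * (2 ^ 16 * (d + d') * (d + d') * (d + d')) := by gcongr <;> omega
    _ = _ := by ring

theorem sz_tabs (c : CP) (hp : 0 < c.p) {n N : ℕ} (hn : n ≤ N) (vals : List (List ℕ)) (a : ℕ) :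
    sz (c.tabs n vals a) ≤ N * c.ts * (4 * c.p.size + 1 + 1) + 1 := by
  refine ip_sz_list ?_ fun y hy => ?_
  · rw [CP.tabs, ar_len (m := c.ts) fun j _ => by simp [CP.encN]]
    exact Nat.mul_le_mul_right _ hn
  · obtain ⟨x, -, hx⟩ := List.mem_flatMap.1 hy
    obtain ⟨j, -, rfl⟩ := List.mem_map.1 hx
    exact sz_nat_le ((summ_lt hp _).trans (Nat.lt_size_self _))

variable {P : Type} [Enc P]

/-- the bound for the size of a label -/
def labB (F : FD P) (M : LM P) : ℕ :=
  sz F.q + (4 * F.c.p.size + (F.c.k + F.c.d + F.c.d') * (4 * F.c.k + 2)) +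
    4 * (2 * F.R M + F.c.k + F.th) +
    (F.d2 + 3) * ((M.nR F.q + M.nS F.q) * F.c.ts * (4 * F.c.p.size + 1 + 1) + 1 + 1) + 30

theorem sz_lab (F : FD P) (M : LM P) (hp : 0 < F.c.p) (h1 : ∀ s ∈ F.c.S, s < 2 ^ F.c.k)
    (h2 : ∀ s ∈ F.c.S', s < 2 ^ F.c.k) {t a : ℕ} (ht : t < (F.net M).T) (ha : a < 2 ^ F.c.k) :
    sz ((F.net M).lab t a) ≤ labB F M := by
  have e1 : sz F.c = sz (F.c.p, List.range F.c.k, F.c.S, F.c.S') := rfl
  have b1 := sz_nat_le (Nat.lt_size_self F.c.p)
  have b2 := ip_sz_range (le_refl F.c.k)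
  have b3 := sz_list_le fun s hs => sz_nat_le (h1 s hs)
  have b4 := sz_list_le fun s hs => sz_nat_le (h2 s hs)
  have b5 := ip_sz_nat (show t ≤ 2 * F.R M from Nat.lt_succ_iff.1 ht)
  have b6 := sz_nat_le ha
  have b7 := ip_sz_nat (le_refl F.th)
  have b8 : sz (F.labT M a) ≤ (F.d2 + 3) *
      ((M.nR F.q + M.nS F.q) * F.c.ts * (4 * F.c.p.size + 1 + 1) + 1 + 1) + 1 := by
    refine ip_sz_list (by simp [FD.labT]) fun T hT => ?_
    simp only [FD.labT, List.mem_cons, List.mem_map] at hT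
    rcases hT with rfl | rfl | rfl | ⟨s, -, rfl⟩ <;> exact sz_tabs _ hp (by simp) _ _
  have e2 : (F.c.k + F.c.d + F.c.d') * (4 * F.c.k + 2) = F.c.k * (4 * F.c.k + 1 + 1) +
      F.c.S.length * (4 * F.c.k + 1 + 1) + F.c.S'.length * (4 * F.c.k + 1 + 1) := by ring
  change sz (F.q, F.c, [t, a, F.th], F.labT M a) ≤ _
  simp only [sz_pair, sz_cons, sz_nil] at e1 ⊢
  rw [labB, e2]
  omega

theorem fp_net_wf (F : FD P) (M : LM P) (hp : 0 < F.c.p) (h1 : ∀ s ∈ F.c.S, s < 2 ^ F.c.k)
    (h2 : ∀ s ∈ F.c.S', s < 2 ^ F.c.k) (hl : labB F M ≤ F.l) : (F.net M).WF := by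
  refine fun t ht => ⟨fun s hs => ?_, fun a ha => (sz_lab F M hp h1 h2 ht ha).trans hl⟩
  change t < 2 * F.R M + 1 at ht
  change (if t = 0 then s * F.R M else if (t - 1) % F.R M = 0 then 0 else t - 1) < 2 * F.R M + 1
  split_ifs
  · exact Nat.lt_succ_of_le (Nat.mul_le_mul_right _ (by omega))
  · omega
  · omega

theorem fp_head {I : EOL} {l : List (List Bool)} (h : ∃ v ∈ l, I.Sol v) :
    I.Sol ((l.filter (Hard.solB I)).headD []) := by
  obtain ⟨v, hv, hs⟩ := h
  cases e : l.filter (Hard.solB I) with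
  | nil => exact absurd (List.mem_filter.2 ⟨hv, (Hard.solB_iff _ _).2 hs⟩) (by rw [e]; simp)
  | cons a t =>
    have : a ∈ l.filter (Hard.solB I) := by rw [e]; simp
    exact (Hard.solB_iff _ _).1 (List.mem_filter.1 this).2

/-- the parameters -/
theorem fp_par (hM : MachStmt) : ∃ (P : Type) (_ : Enc P) (M : LM P) (C : ℕ) (F : EOL → FD P)
    (dec : EOL × List (List ℕ) → List (List Bool)), M.PTime ∧ PT F ∧ PT dec ∧
      Sm (fun I => ((F I).net M).size) ∧ Sm (fun I => (F I).c.m * (F I).th) ∧ ∀ I,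
        2 ^ (F I).c.k ≤ C * sz I ∧ (F I).c.p.Prime ∧ (F I).Ok M ∧ ((F I).net M).WF ∧
          (I.Valid → (F I).Good M fun l => ∃ v ∈ dec (I, l), I.Sol v) := by
  obtain ⟨P, _, M, C, kk, pp, par, cst, o, so, dec, hT, pk, ppp, ppar, pcst, po, pso, pdec, h⟩ := hM
  have sk : Sm fun I => (kk I).length := (Sm.base.add (Sm.const C.size)).of_le fun I => by
    have h1 := ((h (I, [])).1.trans_lt
      (Nat.mul_lt_mul'' (Nat.lt_size_self C) (Nat.lt_size_self (sz I))))
    rw [← pow_add] at h1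
    have : (kk I).length < _ := (Nat.pow_lt_pow_iff_right one_lt_two).1 h1
    omega
  have s0 : Sm fun I => ((kk I).length + 2) ^ C := (sk.add (Sm.const 2)).pow C
  have p0 : PT fun I => ((kk I).length + 2) ^ C := pt_pow (pk.length.add (PT.const 2)) C
  obtain ⟨S', pS', sS', hS'⟩ := fp_bias pk sk (PT.const (2 ^ 17)) (Sm.const _) fun _ => by norm_num
  obtain ⟨S, pS, sS, hS⟩ := fp_bias pk sk
    (n := fun I => 2 ^ 17 * (1 + (S' I).length) + ((kk I).length + 2) ^ C + 1)
    ((((PT.const _).mul ((PT.const 1).add pS'.length)).add p0).add (PT.const 1))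
    ((((Sm.const _).mul ((Sm.const 1).add sS')).add s0).add (Sm.const 1)) fun _ => by omega
  have sD := sS.add sS'
  have pD := pS.length.add pS'.length
  obtain ⟨x, px, hx1, hx2⟩ : ∃ x : EOL → MIn, PT x ∧ (∀ I, (x I).1 = I) ∧
      ∀ I, (x I).2.length = 3 * ((S I).length + (S' I).length) + 3 :=
    ⟨fun I => (I, fpUn (3 * ((S I).length + (S' I).length) + 3)),
      PT.id.pair (fp_pt_un ((((Sm.const 3).mul sD).add (Sm.const 3)).pu
        (((PT.const 3).mul pD).add (PT.const 3)))), fun _ => rfl, fun _ => fp_un_length _⟩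
  have hx := fun I => h (x I)
  simp only [hx1, hx2] at hx
  have s1 : Sm fun I => (pp (x I)).size + sz (par (x I)) :=
    (((sk.add (((Sm.const 3).mul sD).add (Sm.const 3)).size).add (Sm.const 2)).pow C).of_le
      fun I => (hx I).2.2.2.1
  have sp : Sm fun I => (pp (x I)).size := s1.of_le fun _ => by omega
  have sq : Sm fun I => sz (par (x I)) := s1.of_le fun _ => by omega
  have slen : Sm fun I => M.len (par (x I)) :=
    s0.of_le fun I => by have := (hx I).2.2.2.2.1; omega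
  have snR : Sm fun I => M.nR (par (x I)) := s0.of_le fun I => by have := (hx I).2.2.2.2.1; omega
  have snS : Sm fun I => M.nS (par (x I)) := s0.of_le fun I => by have := (hx I).2.2.2.2.1; omega
  have sns : Sm fun I => M.ns (par (x I)) := s0.of_le fun I => by have := (hx I).2.2.2.2.1; omega
  obtain ⟨th, pth, sth, hth⟩ : ∃ th : EOL → ℕ, PT th ∧ Sm th ∧
      ∀ I, th I = 2 ^ 16 * (M.nS (par (x I)) + 1) * (S I).length * (S' I).length :=
    ⟨_, (((PT.const _).mul ((hT.nS.pt.comp (ppar.comp px)).add (PT.const 1))).mul pS.length).mul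
      pS'.length, (((Sm.const _).mul (snS.add (Sm.const 1))).mul sS).mul sS', fun _ => rfl⟩
  have h0 : ∀ I, 0 < th I := fun I => by
    have h1 : 0 < (S I).length := by have := (hS I).1; omega
    have h2 : 0 < (S' I).length := by have := (hS' I).1; omega
    rw [hth]
    positivity
  obtain ⟨S2, pS2, sS2, hS2⟩ := fp_bias pk sk
    (n := fun I => 2 ^ 13 * ((S I).length + (S' I).length + 1) * th I ^ 3)
    (((PT.const _).mul (pD.add (PT.const 1))).mul (pt_pow pth 3))
    (((Sm.const _).mul (sD.add (Sm.const 1))).mul (sth.pow 3)) fun I => by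
      have := h0 I
      positivity
  let G : EOL → ℕ → FD P := fun I l => ⟨par (x I), ⟨pp (x I), (kk I).length, S I, S' I⟩, S2 I, th I,
    l, cst (x I), o (x I), so (x I)⟩
  obtain ⟨e, he⟩ : Sm fun I => labB (G I 0) M := by
    simp only [labB, G, FD.R, LM.R, CP.m, CP.ts, FD.d2, CP.d, CP.d']
    repeat' with_reducible
      first | assumption | exact Sm.const _ | apply Sm.add | apply Sm.mul
  have sl : Sm fun I => ((sz I).size + 2) ^ e := ⟨e, fun _ => le_rfl⟩
  refine ⟨P, _, M, C, fun I => G I (((sz I).size + 2) ^ e), fun z => dec (x z.1, z.2), hT,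
    FD.pt_mk (ppar.comp px) (((ppp.comp px).pair ((PU.len pk).range.pair (pS.pair pS'))).of_enc
      fun _ => rfl) pS2 pth (((pu_size (PT.sz PT.id)).add (PU.const 2)).pow e) (pcst.comp px)
      (po.comp px) (pso.comp px), pdec.comp ((px.comp PT.fst').pair PT.snd'), ?_,
    (sD.add (Sm.const 1)).mul sth, fun I => ?_⟩
  · simp only [WN.size, G, FD.R, LM.R, CP.m, CP.ts, FD.d2, CP.d, CP.d', FD.nS]
    repeat' with_reducible
      first | assumption | exact Sm.const _ | apply Sm.add | apply Sm.mul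
  · obtain ⟨a1, a2, a3, -, a5, a6⟩ := hx I
    obtain ⟨b1, b2, b3⟩ := hS I
    obtain ⟨c1, c2, c3⟩ := hS' I
    obtain ⟨-, d2, d3⟩ := hS2 I
    refine ⟨a1, a2, ⟨⟨?_, ?_, ?_, ?_, b3.mono ?_, c3.mono ?_⟩, b2, c2, d2, d3.mono ?_, (hth I).ge,
      ?_⟩, fp_net_wf _ M a2.pos b2 c2 (he I), a6⟩
    · change 3 * (S I).length + 3 < pp (x I)
      omega
    · change 3 * (S' I).length + 3 < pp (x I)
      omega
    · change 16 ≤ (S I).length
      omega
    · change 16 ≤ (S' I).length
      omega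
    · refine one_div_le_one_div_of_le (by positivity) ?_
      change (2 : ℝ) ^ 17 * (1 + ((S' I).length : ℕ)) ≤ _
      exact_mod_cast (by omega : 2 ^ 17 * (1 + (S' I).length) ≤ _)
    · norm_num
    · change _ ≤ 1 / ((2 : ℝ) ^ 13 * ((S I).length + (S' I).length + 1 : ℕ) * (th I : ℕ) ^ 3)
      norm_num
    · change 16 * ((S I).length + (S' I).length + 1) * th I ≤ 2 ^ ((S I).length + (S' I).length)
      rw [hth]
      exact fp_big' (by omega) (by omega)

theorem hardQ (hW : WNStmt) (hM : MachStmt) : HardQ := by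
  obtain ⟨P, _, M, C, F, dec, hT, pF, pdec, s1, s2, h⟩ := fp_par hM
  obtain ⟨c, R, D, pR, pD, hN⟩ := hW (Lab P) M.gF (LM.pt_gF hT)
  obtain ⟨e, he⟩ := (((Sm.const C).add (Sm.const 1)).add ((Sm.const 64).mul s2)).mul (s1.pow c)
  have pc : PT fun I => (F I).c :=
    PT.fst (PT.snd (PT.fst (f := fun I => (((F I).q, (F I).c, (F I).S2, (F I).th),
      List.range (F I).l, (F I).cst, (F I).o, (F I).so)) (pF.of_enc fun _ => rfl)))
  have uk : PU fun I => (F I).c.k :=
    PT.fst (PT.snd (f := fun I => ((F I).c.p, List.range (F I).c.k, (F I).c.S, (F I).c.S'))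
      (pc.of_enc fun _ => rfl))
  have u2 : PU fun I => 2 ^ (F I).c.k :=
    ((PU.const C).mul (PU.of_len (PT.szUnary.comp (PT.retag (f := fun I : EOL => Enc.enc I)
      fun _ => rfl)) fun _ => List.length_replicate)).of_le (pt_two_pow uk) fun I => (h I).1
  have pN := FD.pt_net hT pF u2
  have pW : PT fun z : EOL × Asg => (List.range (2 ^ (F z.1).c.k)).map fun a =>
      D (((F z.1).net M, z.2), 0, a) :=
    PT.map (f := fun (z : EOL × Asg) a => D (((F z.1).net M, z.2), 0, a))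
      (pD.comp (((pN.comp PT.fst'.fst).pair PT.fst'.snd).pair ((PT.const 0).pair PT.snd')))
      (u2.comp PT.fst').range
  have pA := fun side => pdec.comp (PT.fst'.pair
    (FD.pt_decA hT (pF.comp PT.fst') (u2.comp PT.fst') pW side))
  refine ⟨e, fun I => R ((F I).net M), _, pR.comp pN, PT.headD (pt_filter
    (f := fun (z : EOL × Asg) v => Hard.solB z.1 v) (by unfold Hard.solB; fun_prop)
    ((pA 0).append (pA 1))) (PT.const []), fun I => ?_⟩
  obtain ⟨a1, a2, a3, a4, a5⟩ := h I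
  obtain ⟨b1, b2, b3, b4⟩ := hN ((F I).net M)
  have h1 := he I
  simp only [add_mul, one_mul] at h1
  refine ⟨b1, b2.trans ?_, b3.trans (by omega), fun hI s hs => fp_head ?_⟩
  · calc 2 ^ (F I).c.k * ((F I).net M).size ^ c ≤ C * sz I * ((F I).net M).size ^ c :=
          Nat.mul_le_mul_right _ a1
      _ = sz I * (C * ((F I).net M).size ^ c) := by ring
      _ ≤ _ := Nat.mul_le_mul_left _ (by omega)
  · obtain ⟨Y, y1, y2⟩ := b4 a4 s
    have := Fact.mk a2
    have hv : 0 ≤ (R ((F I).net M)).violA s := Inst.viol_nonneg _ _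
    have hf : FD.Small Y := by
      have h2 : (64 * ((F I).c.m * (F I).th) * ((F I).net M).size ^ c : ℕ) ≤
          ((((sz I).size + 2) ^ e : ℕ) : ℝ) := by exact_mod_cast (by omega)
      calc 64 * (F I).c.m * (F I).th * FD.flt Y ≤ 64 * (F I).c.m * (F I).th *
            ((((F I).net M).size ^ c : ℕ) * (R ((F I).net M)).violA s) :=
            mul_le_mul_of_nonneg_left y2 (by positivity)
        _ = (R ((F I).net M)).violA s *
            (64 * ((F I).c.m * (F I).th) * ((F I).net M).size ^ c : ℕ) := by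
            push_cast
            ring
        _ ≤ _ := (mul_le_mul_of_nonneg_left h2 hv).trans hs
    obtain ⟨side, hside, A, hA, v, hv1, hv2⟩ := FD.main a3 (a5 hI) hf
    rw [← FD.decA_spec a3 hA (D := fun a => D (((F I).net M, s), 0, a))
      (y1 0 (Nat.succ_pos _))] at hv1
    refine ⟨v, List.mem_append.2 ?_, hv2⟩
    obtain rfl | rfl : side = 0 ∨ side = 1 := by omega
    · exact Or.inl hv1
    · exact Or.inr hv1

end Vale.Agent.P330Q
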