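import Vale.Agent.P330Q.Top
import Vale.Agent.P330.Final

/-! The final assembly (task FinalQ); compare `final` in `P330/Final.lean`.
Plan. `N = sz I`, `L = N.size + 2`; the input of `AmpQ` is `(R I, replicate (L ^ C) ())`. `σ ≤ 2 ^ σ`
is too weak: use `σ < size (N * L ^ C) ≤ (C + 1) * L`-style bounds, so the pure circuit has at most
`N * L ^ C'` gates. `sz (toG C) ≤ c0 * length * (size length + 2)` for well formed `C` (`sz_list_le`,
`sz_nat_le`). For valid `I`, `N ≥ 4`, so `2 ≤ Nat.log 2 N` and `L ≤ (Nat.log 2 N) ^ 3`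
(`size N = log 2 N + 1`). -/

namespace Vale.Agent.P330Q

open Vale.Agent.Lib.H23 Vale.Agent.P333 Vale.Agent.P325 Vale.Agent.P330 Vale.Agent.P330.Amp Finset

theorem fq_sz : ∃ c : ℕ, ∀ C : PC, C.WF → ∀ K, 2 * C.length < 2 ^ K →
    sz (toG C) ≤ c * C.length * (K + 1) := by
  obtain ⟨c, hc⟩ : ∃ c, c = sz (0 : ℚ) + sz (1 / 4 : ℚ) + sz (3 / 4 : ℚ) := ⟨_, rfl⟩
  refine ⟨4 + 2 * (27 + c), fun C h K hK => ?_⟩
  have h1 : ∀ g ∈ (toG C).gates, sz g ≤ 12 * K + 26 + c := fun g hg => by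
    obtain ⟨-, -, g1, g2⟩ := (toG_valid h).2.1 g hg
    have e : sz g = sz g.data := rfl
    have b1 : sz g.data.1 ≤ 4 * 4 + 1 := sz_nat_le (by cases g <;> simp [GGate.data])
    have b2 := ip_sz_list (N := 2) (by cases g <;> simp [GGate.data])
      fun a ha => sz_nat_le ((g1 a ha).trans hK)
    have b3 := sz_nat_le (g2.trans hK)
    have b4 : sz g.data.2.1 ≤ c := by
      simp only [toG, List.mem_append, List.mem_map] at hg
      rcases hg with ⟨z, -, rfl⟩ | ⟨z, -, rfl⟩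
      · unfold gA
        split_ifs <;> simp only [GGate.data] <;> omega
      · unfold gB
        split_ifs <;> simp only [GGate.data] <;> omega
    rw [e, sz_prod, sz_prod, sz_prod]
    omega
  have h2 := sz_list_le h1
  have h3 : sz (toG C) = sz (2 * C.length) + sz (toG C).gates + 1 := sz_pair _ _
  have h4 := sz_nat_le hK
  have h5 := List.length_pos_iff.2 h.1
  rw [toG_length] at h2
  nlinarith [Nat.mul_le_mul_right (K + 1) h5, Nat.zero_le (C.length * K * c)]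

theorem fq_four (I : EOL) : 4 ≤ sz I := by
  have h1 : sz I = sz I.S + sz I.P + 1 := sz_pair I.S I.P
  have h2 : sz I.S = sz I.S.gates + sz I.S.outs + 1 := sz_pair I.S.gates I.S.outs
  have := sz_pos I.P
  have := sz_pos I.S.gates
  have := sz_pos I.S.outs
  omega

theorem fq_lt (N k : ℕ) : N * (N.size + 2) ^ k < 2 ^ ((N.size + 2) * (k + 1)) := by
  rw [pow_mul, pow_succ']
  exact Nat.mul_lt_mul_of_lt_of_le ((Nat.lt_size_self N).trans_le
    (Nat.pow_le_pow_right two_pos (by omega))) (Nat.pow_le_pow_left Nat.lt_two_pow_self.le _)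
    (by positivity)

theorem fq_len {N C C' σ T n : ℕ} (h1 : 2 ^ σ ≤ N * (N.size + 2) ^ C) (h2 : T ≤ (N.size + 2) ^ C)
    (h3 : n ≤ 2 ^ σ * (σ + T + (N.size + 2) ^ C + 2) ^ C') :
    n ≤ N * (N.size + 2) ^ (C + (C + 4) * C') := by
  have a1 := (Nat.pow_lt_pow_iff_right one_lt_two).1 (h1.trans_lt (fq_lt N C))
  have hL : 2 ≤ N.size + 2 := by omega
  generalize N.size + 2 = L at *
  have a2 : C + 1 ≤ L ^ (C + 1) := (Nat.lt_pow_self hL).le
  have a3 : σ ≤ L ^ (C + 2) := a1.le.trans ((Nat.mul_le_mul_left L a2).trans_eq (by ring))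
  have a4 : L ^ C ≤ L ^ (C + 2) := Nat.pow_le_pow_right (by omega) (by omega)
  have a5 : 2 ≤ L ^ (C + 2) := hL.trans (Nat.le_self_pow (by omega) L)
  have a6 : 2 ^ 2 * L ^ (C + 2) ≤ L ^ (C + 4) :=
    (Nat.mul_le_mul_right _ (Nat.pow_le_pow_left hL 2)).trans_eq (by ring)
  rw [pow_add, pow_mul, ← mul_assoc]
  exact h3.trans (Nat.mul_le_mul h1 (Nat.pow_le_pow_left (by omega) _))

theorem fq_fin {N k n c s : ℕ} (hN : 4 ≤ N) (h1 : n ≤ N * (N.size + 2) ^ k)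
    (h2 : ∀ K, 2 * n < 2 ^ K → s ≤ c * n * (K + 1)) :
    s ≤ (c * (k + 2) + 3 * (k + 1)) * N * Nat.log 2 N ^ (c * (k + 2) + 3 * (k + 1)) := by
  have a1 := h2 ((N.size + 2) * (k + 1) + 1) (by
    have := h1.trans_lt (fq_lt N k)
    rw [pow_succ]
    omega)
  have a2 : 2 ≤ Nat.log 2 N := Nat.le_log_of_pow_le one_lt_two hN
  have a3 : N.size ≤ Nat.log 2 N + 1 := Nat.size_le.2 (Nat.lt_pow_succ_log_self one_lt_two N)
  have hL : 2 ≤ N.size + 2 := by omega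
  generalize Nat.log 2 N = l at *
  have a4 : N.size + 2 ≤ l ^ 3 := by
    have : 2 ^ 2 * l ≤ l ^ 3 :=
      (Nat.mul_le_mul_right _ (Nat.pow_le_pow_left a2 2)).trans_eq (by ring)
    omega
  generalize N.size + 2 = L at *
  calc s ≤ c * (N * L ^ k) * (L * (k + 2)) :=
        a1.trans (Nat.mul_le_mul (Nat.mul_le_mul_left c h1) (by nlinarith))
    _ = c * (k + 2) * N * L ^ (k + 1) := by ring
    _ ≤ (c * (k + 2) + 3 * (k + 1)) * N * (l ^ 3) ^ (k + 1) := by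
        gcongr
        omega
    _ ≤ _ := by
        rw [← pow_mul]
        exact Nat.mul_le_mul_left _ (Nat.pow_le_pow_right (by omega) (by omega))

theorem finalQ (hE : ExistStmt) (hH : HardQ) (hA : AmpQ) : ResultQ := by
  obtain ⟨C, R₀, D₀, pR₀, pD₀, h₀⟩ := hH
  obtain ⟨d, C', R₁, D₁, hd, pR₁, pD₁, h₁⟩ := hA
  obtain ⟨p, hp⟩ := acc_exists hE
  obtain ⟨c0, hc0⟩ := fq_sz
  obtain ⟨X, pX, hX1, hX2⟩ : ∃ X : EOL → AmpIn, PT X ∧ (∀ I, (X I).1.1 = R₀ I) ∧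
      ∀ I, (X I).1.2.length = ((sz I).size + 2) ^ C :=
    ⟨fun I => ⟨(R₀ I, (List.range (((sz I).size + 2) ^ C)).map fun _ => ()), (h₀ I).1⟩,
      pt_sub (pR₀.pair (PT.map (f := fun _ _ => ()) (PT.const _)
        (((pu_size (PT.sz PT.id)).add (PU.const 2)).pow C).range)) _,
      fun _ => rfl, fun _ => by simp⟩
  have pR : PT fun I => toG (R₁ (X I)) := fin_pt_toG.comp (pR₁.comp pX)
  have pD : PT fun z : EOL × List ℚ => D₀ (z.1, D₁ (X z.1, back (R₁ (X z.1)) z.2)) :=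
    pD₀.comp (PT.fst'.pair (pD₁.comp ((pX.comp PT.fst').pair
      (fin_pt_back (pR₁.comp (pX.comp PT.fst')) PT.snd'))))
  obtain ⟨MR, hMR⟩ := fin_tm pR codeEOL codeGC fin_ser_eol fin_ser_gc
  obtain ⟨MD, hMD⟩ := fin_tm pD _ _
    (fin_ser_pair fin_ser_eol (fin_ser_list fin_ser_rat)) (fin_ser_list fin_ser_bool)
  have hd0 : (0 : ℚ) ≤ d := Nat.cast_nonneg _
  refine ⟨1 / 16, 1 / (2 * d + 2), p,
    c0 * (C + (C + 4) * C' + 2) + 3 * (C + (C + 4) * C' + 1), _, _, MR, MD, by norm_num,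
    by norm_num, by positivity, (div_lt_one (by positivity)).2 (by linarith), hMR, hMD,
    fun I hI => ?_⟩
  obtain ⟨-, a1, a2, s₀⟩ := h₀ I
  obtain ⟨w₁, a3, s₁⟩ := h₁ (X I)
  rw [hX1, hX2] at a3 s₁
  refine ⟨toG_valid w₁, ?_, hp _ _ (by positivity) (toG_valid w₁) (toG_length _).ge,
    fun x hx => s₀ hI _ (s₁ _ (bad_le w₁ hx))⟩
  rw [← fin_ser_gc, ← fin_ser_eol]
  exact fq_fin (fq_four I) (fq_len a1 a2 a3) (hc0 _ w₁)

end Vale.Agent.P330Q
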