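import Vale.Agent.P330.HardTab

/-! The case analysis on the two registers, for registers of any type. -/

namespace Vale.Agent.P330Q.Grp

open Vale.Agent.P330.Hard (zok grp zone rawl)

section abs

variable {α : Type} [DecidableEq α] (S P : α → α) (o : α)

/-- target of the register `A` -/
def tA (z : ℕ) (a b : α) : α :=
  if z = 1 ∨ z = 2 then b else if z = 3 ∨ z = 4 then S b else if z = 8 then o else a

/-- target of the register `B` -/
def tB (z : ℕ) (a b : α) : α :=
  if z = 5 ∨ z = 6 then P a else if z = 7 ∨ z = 0 then a else if z = 8 then o else b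

/-- validity of the registers -/
def vld (z : ℕ) (nA nB : Bool) (a b : α) : Prop :=
  if z = 0 ∨ z = 1 then nA ∧ nB ∧ a = b
  else if z = 2 ∨ z = 3 then nB
  else if z = 4 ∨ z = 5 then nA ∧ nB ∧ a = S b ∧ b = P a
  else if z = 6 ∨ z = 7 then nA else nA ∧ nB ∧ a = o ∧ b = o

/-- the registers are in the starting state -/
def strt (z : ℕ) (a b : α) : Prop :=
  if z = 2 then b = o else if z = 3 ∨ z = 4 ∨ z = 5 then False else a = o

instance (z : ℕ) (nA nB : Bool) (a b : α) : Decidable (vld S P o z nA nB a b) := by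
  unfold vld; infer_instance

instance (z : ℕ) (a b : α) : Decidable (strt o z a b) := by
  unfold strt; infer_instance

/-- class: `0` valid, `1` default, `2` start -/
def cls (z : ℕ) (nA nB : Bool) (a b : α) : ℕ :=
  if vld S P o z nA nB a b then (if strt o z a b then 2 else 0) else 1

theorem cls_eight (nA nB : Bool) (a b : α) : cls S P o 8 nA nB a b ≠ 0 := by
  by_cases h : nA ∧ nB ∧ a = o ∧ b = o
  · simp [cls, vld, strt, h]
  · have : ¬ vld S P o 8 nA nB a b := by simpa [vld] using h
    simp [cls, this]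

theorem cls_ne_two {z : ℕ} (h : z = 3 ∨ z = 4 ∨ z = 5) (nA nB : Bool) (a b : α) :
    cls S P o z nA nB a b ≠ 2 := by
  have : ¬ strt o z a b := by rcases h with rfl | rfl | rfl <;> simp [strt]
  unfold cls; rw [if_neg this]; split_ifs <;> omega

theorem cls_lt (z : ℕ) (nA nB : Bool) (a b : α) : cls S P o z nA nB a b < 3 := by
  unfold cls; split_ifs <;> omega

variable {S P o} {ι : Type} {z : ι → ℕ} {nA nB : ι → Bool} {a b : ι → α}

theorem grp_ring (sA : ∀ k0 k, nA k0 → a k = a k0) (sB : ∀ k0 k, nB k0 → b k = b k0)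
    (hA : ∀ u, (∀ k, tA S o (z k) (a k) (b k) = u) → ∀ k, nA k ∧ a k = u)
    (hB : ∀ u, (∀ k, tB P o (z k) (a k) (b k) = u) → ∀ k, nB k ∧ b k = u)
    (hP : P o = o) (hS : S o ≠ o) (hPS : P (S o) = o)
    (na : ∀ k, a k = o ∨ S (P (a k)) = a k) (nb : ∀ k, b k = o ∨ P (S (b k)) = b k)
    {t : ℕ} (h8 : t < 8) (hz : ∀ k, zok t (z k) = true) :
    ∃ g < 3, ∀ k, grp t (z k) (cls S P o (z k) (nA k) (nB k) (a k) (b k)) = g := by
  have all : ∀ u w, (∀ k, tA S o (z k) (a k) (b k) = u) → (∀ k, tB P o (z k) (a k) (b k) = w) →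
      ∀ k, nA k ∧ nB k ∧ a k = u ∧ b k = w :=
    fun u w h1 h2 k => ⟨(hA u h1 k).1, (hB w h2 k).1, (hA u h1 k).2, (hB w h2 k).2⟩
  by_cases hv : ∃ k0, vld S P o (z k0) (nA k0) (nB k0) (a k0) (b k0)
  swap
  · push Not at hv
    refine ⟨1, by omega, fun k => ?_⟩
    simp only [cls, hv k, if_false, grp]
    interval_cases t <;> simp
  obtain ⟨k0, hv⟩ := hv
  have z0 := hz k0
  interval_cases t <;> simp [zok] at hz z0
  · have h : nA k0 ∧ nB k0 ∧ a k0 = b k0 := by rcases z0 with e | e <;> simpa [vld, e] using hv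
    have h' := all (a k0) (a k0)
      (fun k => by rcases hz k with e | e <;> simp [tA, e, sA k0 k h.1, sB k0 k h.2.1, h.2.2])
      (fun k => by rcases hz k with e | e <;> simp [tB, e, sA k0 k h.1, sB k0 k h.2.1, h.2.2])
    refine ⟨if a k0 = o then 2 else 0, by split_ifs <;> omega, fun k => ?_⟩
    rcases hz k with e | e <;> by_cases h0 : a k0 = o <;> simp [grp, cls, vld, strt, e, h' k, h0]
  · have h : nB k0 := by rcases z0 with e | e <;> simp [vld, e] at hv <;> simp [hv]
    have h' := all (b k0) (b k0)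
      (fun k => by rcases hz k with e | e <;> simp [tA, e, sB k0 k h])
      (fun k => by rcases hz k with e | e <;> simp [tB, e, sB k0 k h])
    refine ⟨if b k0 = o then 2 else 0, by split_ifs <;> omega, fun k => ?_⟩
    rcases hz k with e | e <;> by_cases h0 : b k0 = o <;> simp [grp, cls, vld, strt, e, h' k, h0]
  · have h : nB k0 := by rcases z0 with e | e <;> simpa [vld, e] using hv
    have h' := hB (b k0) (fun k => by rcases hz k with e | e <;> simp [tB, e, sB k0 k h])
    refine ⟨0, by omega, fun k => ?_⟩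
    rcases hz k with e | e <;> by_cases h0 : b k0 = o <;> simp [grp, cls, vld, strt, e, h' k, h0]
  · have h : nB k0 := by rcases z0 with e | e <;> simp [vld, e] at hv <;> simp [hv]
    have h' := all (S (b k0)) (b k0)
      (fun k => by rcases hz k with e | e <;> simp [tA, e, sB k0 k h])
      (fun k => by rcases hz k with e | e <;> simp [tB, e, sB k0 k h])
    have h1 : b k0 = P (S (b k0)) := by
      rcases nb k0 with e | e
      · rw [e, hPS]
      · exact e.symm
    refine ⟨0, by omega, fun k => ?_⟩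
    rcases hz k with e | e <;> simp [grp, cls, vld, strt, e, h' k, ← h1]
  · have h : nA k0 ∧ nB k0 ∧ a k0 = S (b k0) ∧ b k0 = P (a k0) := by
      rcases z0 with e | e <;> simpa [vld, e] using hv
    have h' := all (a k0) (b k0)
      (fun k => by
        rcases hz k with e | e <;> simp [tA, e, sA k0 k h.1, sB k0 k h.2.1, ← h.2.2.1])
      (fun k => by
        rcases hz k with e | e <;> simp [tB, e, sA k0 k h.1, sB k0 k h.2.1, ← h.2.2.2])
    refine ⟨0, by omega, fun k => ?_⟩
    rcases hz k with e | e <;> simp [grp, cls, vld, strt, e, h' k, ← h.2.2.1, ← h.2.2.2]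
  · have h : nA k0 := by rcases z0 with e | e <;> simp [vld, e] at hv <;> simp [hv]
    have h' := all (a k0) (P (a k0))
      (fun k => by rcases hz k with e | e <;> simp [tA, e, sA k0 k h])
      (fun k => by rcases hz k with e | e <;> simp [tB, e, sA k0 k h])
    by_cases h0 : a k0 = o
    · refine ⟨1, by omega, fun k => ?_⟩
      rcases hz k with e | e <;> simp [grp, cls, vld, strt, e, h' k, h0, hP, hS.symm]
    · have h1 : a k0 = S (P (a k0)) := ((na k0).resolve_left h0).symm
      refine ⟨0, by omega, fun k => ?_⟩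
      rcases hz k with e | e <;> simp [grp, cls, vld, strt, e, h' k, h0, ← h1]
  · have h : nA k0 := by rcases z0 with e | e <;> simpa [vld, e] using hv
    have h' := hA (a k0) (fun k => by rcases hz k with e | e <;> simp [tA, e, sA k0 k h])
    refine ⟨if a k0 = o then 2 else 0, by split_ifs <;> omega, fun k => ?_⟩
    rcases hz k with e | e <;> by_cases h0 : a k0 = o <;> simp [grp, cls, vld, strt, e, h' k, h0]
  · have h : nA k0 := by rcases z0 with e | e <;> simp [vld, e] at hv <;> simp [hv]
    have h' := all (a k0) (a k0)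
      (fun k => by rcases hz k with e | e <;> simp [tA, e, sA k0 k h])
      (fun k => by rcases hz k with e | e <;> simp [tB, e, sA k0 k h])
    refine ⟨if a k0 = o then 2 else 0, by split_ifs <;> omega, fun k => ?_⟩
    rcases hz k with e | e <;> by_cases h0 : a k0 = o <;> simp [grp, cls, vld, strt, e, h' k, h0]

theorem grp_mid (sA : ∀ k0 k, nA k0 → a k = a k0) (sB : ∀ k0 k, nB k0 → b k = b k0)
    (hA : ∀ u, (∀ k, tA S o (z k) (a k) (b k) = u) → ∀ k, nA k ∧ a k = u)
    (hB : ∀ u, (∀ k, tB P o (z k) (a k) (b k) = u) → ∀ k, nB k ∧ b k = u)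
    (hP : P o = o)
    {t : ℕ} (h8 : 8 ≤ t ∧ t < 12) (hz : ∀ k, zok t (z k) = true) :
    ∃ g < 3, ∀ k, grp t (z k) (cls S P o (z k) (nA k) (nB k) (a k) (b k)) = g := by
  have all : ∀ u w, (∀ k, tA S o (z k) (a k) (b k) = u) → (∀ k, tB P o (z k) (a k) (b k) = w) →
      ∀ k, nA k ∧ nB k ∧ a k = u ∧ b k = w :=
    fun u w h1 h2 k => ⟨(hA u h1 k).1, (hB w h2 k).1, (hA u h1 k).2, (hB w h2 k).2⟩
  by_cases hv : ∃ k0, cls S P o (z k0) (nA k0) (nB k0) (a k0) (b k0) = 2
  swap
  · push Not at hv
    refine ⟨0, by omega, fun k => ?_⟩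
    have h1 := hv k
    have h2 : z k = 8 → cls S P o (z k) (nA k) (nB k) (a k) (b k) ≠ 0 := fun e => by
      rw [e]; exact cls_eight S P o _ _ _ _
    unfold grp
    rw [if_neg (fun h => h.elim (fun h => h2 h.2 h.1) fun h => h1 h.1), if_neg (by omega),
      if_neg (by omega), if_neg (by omega),
      if_pos h8.2, if_neg h1]
  obtain ⟨k0, hv⟩ := hv
  have hv : vld S P o (z k0) (nA k0) (nB k0) (a k0) (b k0) ∧ strt o (z k0) (a k0) (b k0) := by
    unfold cls at hv; split_ifs at hv with h1 h2 <;> first | exact ⟨h1, h2⟩ | omega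
  have z0 := hz k0
  obtain ⟨h8, h12⟩ := h8
  have h' : ∀ k, nA k ∧ nB k ∧ a k = o ∧ b k = o := by
    interval_cases t <;> simp [zok] at hz z0
    · have h : nA k0 ∧ a k0 = o := by
        rcases z0 with e | e | e <;> simp [vld, strt, e] at hv <;> grind
      exact all o o
        (fun k => by rcases hz k with e | e | e <;> simp [tA, e, sA k0 k h.1, h.2])
        (fun k => by rcases hz k with e | e | e <;> simp [tB, e, sA k0 k h.1, h.2, hP])
    · have h : nA k0 ∧ a k0 = o := by
        rcases z0 with e | e | e <;> simp [vld, strt, e] at hv <;> grind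
      exact all o o
        (fun k => by rcases hz k with e | e | e <;> simp [tA, e, sA k0 k h.1, h.2])
        (fun k => by rcases hz k with e | e | e <;> simp [tB, e, sA k0 k h.1, h.2])
    · have h : nA k0 ∧ a k0 = o ∧ nB k0 ∧ b k0 = o := by
        rcases z0 with e | e | e <;> simp [vld, strt, e] at hv <;> grind
      exact all o o
        (fun k => by
          rcases hz k with e | e | e <;> simp [tA, e, sA k0 k h.1, sB k0 k h.2.2.1, h.2])
        (fun k => by
          rcases hz k with e | e | e <;> simp [tB, e, sA k0 k h.1, sB k0 k h.2.2.1, h.2])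
    · have h : nB k0 ∧ b k0 = o := by
        rcases z0 with e | e | e <;> simp [vld, strt, e] at hv <;> grind
      exact all o o
        (fun k => by rcases hz k with e | e | e <;> simp [tA, e, sB k0 k h.1, h.2])
        (fun k => by rcases hz k with e | e | e <;> simp [tB, e, sB k0 k h.1, h.2])
  refine ⟨2, by omega, fun k => ?_⟩
  have hk := hz k
  interval_cases t <;> simp [zok] at hk <;>
    rcases hk with e | e | e <;> simp [grp, cls, vld, strt, e, h' k]

theorem grp_const (sA : ∀ k0 k, nA k0 → a k = a k0) (sB : ∀ k0 k, nB k0 → b k = b k0)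
    (hA : ∀ u, (∀ k, tA S o (z k) (a k) (b k) = u) → ∀ k, nA k ∧ a k = u)
    (hB : ∀ u, (∀ k, tB P o (z k) (a k) (b k) = u) → ∀ k, nB k ∧ b k = u)
    (hP : P o = o) (hS : S o ≠ o) (hPS : P (S o) = o)
    (na : ∀ k, a k = o ∨ S (P (a k)) = a k) (nb : ∀ k, b k = o ∨ P (S (b k)) = b k)
    {t : ℕ} (ht : t < 14) (hz : ∀ k, zok t (z k) = true) :
    ∃ g < 3, ∀ k, grp t (z k) (cls S P o (z k) (nA k) (nB k) (a k) (b k)) = g := by
  have all : ∀ u w, (∀ k, tA S o (z k) (a k) (b k) = u) → (∀ k, tB P o (z k) (a k) (b k) = w) →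
      ∀ k, nA k ∧ nB k ∧ a k = u ∧ b k = w :=
    fun u w h1 h2 k => ⟨(hA u h1 k).1, (hB w h2 k).1, (hA u h1 k).2, (hB w h2 k).2⟩
  rcases (by omega : t < 8 ∨ (8 ≤ t ∧ t < 12) ∨ t = 12 ∨ t = 13) with h8 | h8 | rfl | rfl
  · exact grp_ring sA sB hA hB hP hS hPS na nb h8 hz
  · exact grp_mid sA sB hA hB hP h8 hz
  · simp [zok] at hz
    have h' := all o o (fun k => by simp [tA, hz k]) (fun k => by simp [tB, hz k])
    exact ⟨2, by omega, fun k => by simp [grp, cls, vld, strt, hz k, h' k]⟩
  · refine ⟨0, by omega, fun k => ?_⟩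
    have h2 : z k = 8 → cls S P o (z k) (nA k) (nB k) (a k) (b k) ≠ 0 := fun e => by
      rw [e]; exact cls_eight S P o _ _ _ _
    have h3 : (z k = 3 ∨ z k = 4 ∨ z k = 5) → cls S P o (z k) (nA k) (nB k) (a k) (b k) ≠ 2 :=
      fun e => cls_ne_two S P o e _ _ _ _
    unfold grp
    rw [if_neg (fun h => h.elim (fun h => h2 h.2 h.1) fun h => h3 h.2 h.1)]
    simp

end abs

/-- the class, computed from the results `e 0, …, e 4` of the comparisons -/
def clsB (z : ℕ) (nA nB : Bool) (e : List Bool) : ℕ :=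
  if (if z = 0 ∨ z = 1 then nA && nB && e.getD 0 false
    else if z = 2 ∨ z = 3 then nB
    else if z = 4 ∨ z = 5 then nA && nB && e.getD 1 false && e.getD 2 false
    else if z = 6 ∨ z = 7 then nA else nA && nB && e.getD 3 false && e.getD 4 false) then
    (if (if z = 2 then e.getD 4 false else if z = 3 ∨ z = 4 ∨ z = 5 then false
      else e.getD 3 false) then 2 else 0) else 1

theorem clsB_eq {α : Type} [DecidableEq α] {S P : α → α} {o a b : α} {z : ℕ} {nA nB : Bool}
    {e : List Bool} (h0 : nA → nB → (e.getD 0 false ↔ a = b))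
    (h1 : nA → nB → (e.getD 1 false ↔ a = S b)) (h2 : nA → nB → (e.getD 2 false ↔ b = P a))
    (h3 : nA → (e.getD 3 false ↔ a = o)) (h4 : nB → (e.getD 4 false ↔ b = o)) :
    clsB z nA nB e = cls S P o z nA nB a b := by
  have hv : (if z = 0 ∨ z = 1 then nA && nB && e.getD 0 false
      else if z = 2 ∨ z = 3 then nB
      else if z = 4 ∨ z = 5 then nA && nB && e.getD 1 false && e.getD 2 false
      else if z = 6 ∨ z = 7 then nA else nA && nB && e.getD 3 false && e.getD 4 false) = true ↔
      vld S P o z nA nB a b := by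
    unfold vld
    split_ifs <;> simp only [Bool.and_eq_true, and_assoc, decide_eq_true_eq]
    · exact and_congr_right fun x => and_congr_right fun y => h0 x y
    · exact and_congr_right fun x => and_congr_right fun y => and_congr (h1 x y) (h2 x y)
    · exact and_congr_right fun x => and_congr_right fun y => and_congr (h3 x) (h4 y)
  have hs : vld S P o z nA nB a b → ((if z = 2 then e.getD 4 false
      else if z = 3 ∨ z = 4 ∨ z = 5 then false else e.getD 3 false) = true ↔ strt o z a b) := by
    unfold vld strt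
    intro h
    by_cases z2 : z = 2
    · subst z2; simp at h; simpa using h4 h
    · rw [if_neg z2, if_neg z2]
      by_cases z3 : z = 3 ∨ z = 4 ∨ z = 5
      · rw [if_pos z3, if_pos z3]; simp
      · rw [if_neg z3, if_neg z3]
        refine h3 ?_
        split_ifs at h with c1 c2 c3 c4
        exacts [h.1, by omega, by omega, h, (of_decide_eq_true h).1]
  unfold clsB cls
  by_cases h : vld S P o z nA nB a b
  · rw [if_pos (hv.2 h), if_pos h]
    by_cases h' : strt o z a b
    · rw [if_pos ((hs h).2 h'), if_pos h']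
    · rw [if_neg (mt (hs h).1 h'), if_neg h']
  · rw [if_neg (mt hv.1 h), if_neg h]

/-- choice of the targets -/
def selA {β : Type} (z : ℕ) (a b sb o : β) : β :=
  if z = 1 ∨ z = 2 then b else if z = 3 ∨ z = 4 then sb else if z = 8 then o else a

def selB {β : Type} (z : ℕ) (a b pa o : β) : β :=
  if z = 5 ∨ z = 6 then pa else if z = 7 ∨ z = 0 then a else if z = 8 then o else b

theorem selA_map {α β : Type} (f : α → β) (S : α → α) (o a b : α) (z : ℕ) :
    selA z (f a) (f b) (f (S b)) (f o) = f (tA S o z a b) := by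
  unfold selA tA; split_ifs <;> rfl

theorem selB_map {α β : Type} (f : α → β) (P : α → α) (o a b : α) (z : ℕ) :
    selB z (f a) (f b) (f (P a)) (f o) = f (tB P o z a b) := by
  unfold selB tB; split_ifs <;> rfl

end Vale.Agent.P330Q.Grp
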