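import Vale.Agent.P330Q.LayB

/-! The layout of the two circuits on the tape (task Lay).
Plan. `H` is a power of two with `8 (G + n + 1) ≤ H` for the numbers `G` of gates of both circuits
(`ko = size (8 (|S| + |P| + n + 1))`; for invalid `I` use `n = I.n` everywhere). For a circuit `C`
with the input region at `inp` (`0` or `2 H`), the gate region at `base` (`H` or `3 H`), the output
region at `base + H` and the spare zero region `z` (`6 H` or `7 H`): the slot `g < H / 8` has the cells
`base + 8 g + τ`. The use `u = 2 g + port` (cell `base + 8 g + port`) wants the wire `wire u`: for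
`g < G` the argument number `port` of the gate `g` if it exists and is `< n + g`; for `G ≤ g < G + n`
and `port = 0` the wire `outs[g - G]` if it is `< n + G`; otherwise no wire. A use without a wire
reads its own zero cell `base + 8 g + 5 + port`. A use with a wire reads the cell of the latest
earlier use with the same wire, or, if there is none, the producer (`inp + w` for `w < n`, else the
cell `base + 8 (w - n) + 2, 3, 4` for and, or, not). The output cell `base + H + i` reads
`base + 8 (G + i) + 3` for `i < n` and `z + i` otherwise. This map is injective on its domain; extend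
it to a permutation by matching the cells outside the domain with the cells outside the image in
increasing order (general lemma: a list of pairs with distinct first and distinct second entries
below `N` extends to a permutation, in polynomial time). `pS`, `pP`: strong induction on `u` (a use
holds the value of its wire), values of wires by `List.foldl` on prefixes of the gate list. -/

namespace Vale.Agent.P330Q

open Vale.Agent.Lib.H23 Vale.Agent.P333 Vale.Agent.P325 Vale.Agent.P330 Vale.Agent.P330.Amp

namespace Lay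

open Vale.Agent.P330.Hard

def tot (I : EOL) : ℕ := 8 * (I.S.gates.length + I.P.gates.length + I.n + 1)

def hh (I : EOL) : ℕ := 2 ^ (tot I).size

/-- the cell read by the cell `m` -/
def tg (I : EOL) (m : ℕ) : ℕ :=
  if m < hh I then 8 * hh I
  else if m < 3 * hh I then tc I.S I.n (hh I) 0 (6 * hh I) (m - hh I)
  else if m < 5 * hh I then tc I.P I.n (hh I) (2 * hh I) (7 * hh I) (m - 3 * hh I)
  else 8 * hh I

def tl (I : EOL) : List ℕ := (List.range (8 * hh I)).map (tg I)

def lay (I : EOL) : LD := ⟨(tot I).size, I.n, ext (tl I)⟩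

theorem pow_size (n : ℕ) : 2 ^ n.size ≤ 2 * n + 1 := by
  rcases h : n.size with _ | k
  · simp
  · have : 2 ^ k ≤ n := Nat.lt_size.1 (by omega)
    rw [pow_succ]; omega

theorem pu_tot : PU tot :=
  (PU.const 8).mul ((((PU.len (pt_gates (pt_S PT.id))).add
    (PU.len (pt_gates (pt_P PT.id)))).add pu_n).add (PU.const 1))

theorem pu_hh : PU hh :=
  PU.of_le (((PU.const 2).mul pu_tot).add (PU.const 1)) (pt_two_pow (pu_size pu_tot.pt))
    fun _ => pow_size _

theorem pt_tg {α : Type} [Enc α] {I : α → EOL} {m : α → ℕ} (hI : PT I) (hm : PT m) :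
    PT fun x => tg (I x) (m x) := by
  have hH : PU fun x => hh (I x) := pu_hh.comp hI
  have hc : ∀ c : ℕ, PT fun x => c * hh (I x) := fun c => (PT.const c).mul hH.pt
  exact ite_lt hm hH.pt (hc 8) (ite_lt hm (hc 3)
    (pt_tc (pt_S hI) (pt_n hI) hH (PT.const 0) (hc 6) (hm.sub hH.pt)) (ite_lt hm (hc 5)
      (pt_tc (pt_P hI) (pt_n hI) hH (hc 2) (hc 7) (hm.sub (hc 3))) (hc 8)))

theorem pt_tl : PT tl :=
  PT.map (f := fun I m => tg I m) (pt_tg PT.fst' PT.snd') ((PU.const 8).mul pu_hh).range

theorem pt_lay : PT lay :=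
  (PT.pair (pu_size pu_tot.pt).range (PT.pair pu_n.pt (PT.comp (f := ext) pt_ext pt_tl))).of_enc
    fun _ => rfl

variable (I : EOL)

theorem tot_lt : tot I < hh I := Nat.lt_size_self _

theorem ko_ge : 3 ≤ (tot I).size := by
  have : 2 < (tot I).size := Nat.lt_size.2 (by unfold tot; omega)
  omega

theorem hh8 : hh I % 8 = 0 :=
  Nat.mod_eq_zero_of_dvd (show 2 ^ 3 ∣ hh I from pow_dvd_pow 2 (ko_ge I))

theorem fitS : Fit I.S I.n (hh I) 0 (6 * hh I) := by
  have := tot_lt I
  unfold tot at this
  exact ⟨by omega, hh8 I, by omega, by omega⟩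

theorem fitP : Fit I.P I.n (hh I) (2 * hh I) (7 * hh I) := by
  have := tot_lt I
  unfold tot at this
  exact ⟨by omega, hh8 I, by omega, by omega⟩

theorem hh_le : hh I ≤ 64 * sz I := by
  have h1 := pow_size (tot I)
  have h2 : sz I = sz ((I.S.gates, I.S.outs), (I.P.gates, I.P.outs)) := rfl
  rw [sz_pair, sz_pair, sz_pair] at h2
  have := length_lt_sz I.S.gates
  have := length_lt_sz I.P.gates
  have := length_lt_sz I.S.outs
  unfold hh
  unfold tot EOL.n at *
  omega

theorem tl_len : (tl I).length = 8 * hh I := by simp [tl]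

theorem tl_getD {m : ℕ} (hm : m < 8 * hh I) : (tl I).getD m 0 = tg I m := by
  rw [List.getD_eq_getElem _ _ (by rwa [tl_len])]
  simp [tl]

theorem tg_inj {i j : ℕ} (hij : i < j) (h : tg I i < 8 * hh I) : tg I i ≠ tg I j := by
  unfold tg at *
  split_ifs at h ⊢ with h1 h2 h3 h4 h5 h6 h7 h8 <;> try omega
  · exact tc_inj (fitS I) (by omega) (by omega) h
  · have := tc_range' (r := i - hh I) (fitS I) (by omega)
    have := tc_range' (r := j - 3 * hh I) (fitP I) (by omega)
    omega
  · exact tc_inj (fitP I) (by omega) (by omega) h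

theorem lay_perm : (lay I).π.Perm (List.range (8 * hh I)) := by
  have := ext_perm (L := tl I) fun i j hij hj h => by
    rw [tl_len] at hj h
    rw [tl_getD I (hij.trans hj)] at h ⊢
    rw [tl_getD I hj]
    exact tg_inj I hij h
  rwa [tl_len] at this

theorem lay_pi {m : ℕ} (hm : m < 8 * hh I) (h : tg I m < 8 * hh I) : (lay I).pi m = tg I m := by
  rw [← tl_getD I hm] at h ⊢
  exact ext_getD (by rwa [tl_len]) (by rwa [tl_len])

theorem bit_iff (k ρ r : ℕ) (hr : r < 2 ^ k) :
    (ρ * 2 ^ k + r).testBit k = decide (ρ % 2 = 1) := by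
  rw [Nat.testBit_eq_decide_div_mod_eq, mul_comm, Nat.mul_add_div (by positivity),
    Nat.div_eq_of_lt hr, add_zero]

end Lay

open Lay in
/-- the common part for both circuits -/
theorem Lay.one (D : LD) (C : BCircuit) (ρ z : ℕ) (hρ : ρ % 2 = 0) (hρ' : ρ ≤ 2)
    (F : Fit C D.n D.H (ρ * D.H) z) (hz : 5 * D.H ≤ z)
    (hπ : ∀ r < 2 * D.H, tc C D.n D.H (ρ * D.H) z r < 8 * D.H →
      D.pi (ρ * D.H + D.H + r) = tc C D.n D.H (ρ * D.H) z r) :
    (∀ r < 2 * D.H, D.Uses (ρ * D.H + D.H + r) →
      (ρ * D.H ≤ D.pi (ρ * D.H + D.H + r) ∧ D.pi (ρ * D.H + D.H + r) < ρ * D.H + D.H + r) ∨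
        D.Zc (D.pi (ρ * D.H + D.H + r))) ∧
    (C.outs.length = D.n → ∀ y : Tape, (∀ m < 8 * D.H, D.Zc m → y m = false) →
      (∀ m, ρ * D.H + D.H ≤ m → m < ρ * D.H + 2 * D.H → y m = D.E0 y m) →
      ∀ i < D.H, y (D.pi (ρ * D.H + 2 * D.H + i)) = (C.eval (D.part y ρ)).getD i false) := by
  have hb : ∀ r < D.H, (ρ * D.H + D.H + r).testBit D.ko = true := fun r hr => by
    rw [← Nat.succ_mul, bit_iff _ _ _ hr]; simp; omega
  have h8 := F.h8
  have f3 := F.hz
  have f4 := F.hz'
  have hi8 : (ρ * D.H) % 8 = 0 := by rw [Nat.mul_mod, h8]; simp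
  have hρH : ρ * D.H ≤ 2 * D.H := Nat.mul_le_mul_right _ hρ'
  have hp : ∀ y : Tape, ∀ i < D.n, y (ρ * D.H + i) = (D.part y ρ).getD i false := fun y i hi => by
    rw [List.getD_eq_getElem _ _ (by simpa [LD.part] using hi)]
    simp [LD.part]
  generalize ρ * D.H = inp at *
  refine ⟨fun r hr hU => ?_, fun ho y hZ hE i hi => ?_⟩
  · rcases tc_range F hr with h | h | ⟨j, h1, h2, h3⟩ | ⟨j, h1, h2⟩
    · rcases hU with hU | hU
      · rw [hb r h.1] at hU; cases hU
      · omega
    · rw [hπ r hr h.1]; exact Or.inl h.2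
    · rw [hπ r hr (by omega), h3]
      exact Or.inr (Or.inr ⟨hb j h1, by omega⟩)
    · rw [hπ r hr (by omega), h2]
      exact Or.inr (Or.inl (by omega))
  · have hE' : ∀ r < D.H, y (inp + D.H + r) = D.E0 y (inp + D.H + r) := fun r hr =>
      hE _ (by omega) (by omega)
    have hx : ∀ g a b, a < 8 → b < 8 →
        (inp + D.H + 8 * g + a) ^^^ b = inp + D.H + 8 * g + (a ^^^ b) := fun g a b ha hb => by
      rw [show inp + D.H + 8 * g = 8 * ((inp + D.H) / 8 + g) by omega]
      exact xor8 _ _ _ ha hb
    have R : Run C D.n D.H inp z y (D.part y ρ) := by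
      refine ⟨by simp [LD.part], hp y, fun r hr h5 => hZ _ (by omega) (Or.inr ⟨hb r hr, by omega⟩),
        fun j hj => hZ _ (by omega) (Or.inl (by omega)), fun r hr h2 => ?_, fun g hg => ?_,
        fun g hg => ?_, fun g hg => ?_⟩
      · rw [hE' r hr, LD.E0, if_pos (hb r hr), if_pos (by omega), hπ r (by omega)]
        rcases tc_range F (r := r) (by omega) with h | h | ⟨j, h1, h2, h3⟩ | ⟨j, h1, h2⟩ <;> omega
      · have := hE' (8 * g + 2) (by omega)
        rw [LD.E0, if_pos (hb _ (by omega)), if_neg (by omega), if_pos (by omega), ← add_assoc,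
          hx g 2 2 (by omega) (by omega), hx g 2 3 (by omega) (by omega)] at this
        exact this
      · have := hE' (8 * g + 3) (by omega)
        rw [LD.E0, if_pos (hb _ (by omega)), if_neg (by omega), if_neg (by omega),
          if_pos (by omega), ← add_assoc,
          hx g 3 2 (by omega) (by omega), hx g 3 3 (by omega) (by omega)] at this
        exact this
      · have := hE' (8 * g + 4) (by omega)
        rw [LD.E0, if_pos (hb _ (by omega)), if_neg (by omega), if_neg (by omega),
          if_neg (by omega), if_pos (by omega), ← add_assoc,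
          hx g 4 4 (by omega) (by omega)] at this
        exact this
    rw [show inp + 2 * D.H + i = inp + D.H + (D.H + i) by omega, hπ _ (by omega), R.out F ho hi]
    rcases tc_range F (r := D.H + i) (by omega) with h | h | ⟨j, h1, h2, h3⟩ | ⟨j, h1, h2⟩ <;> omega

theorem layout : LayStmt := by
  refine ⟨Lay.lay, Lay.pt_lay, fun I => ⟨Lay.hh_le I, rfl, Lay.lay_perm I, fun hI => ?_⟩⟩
  have eH : (Lay.lay I).H = Lay.hh I := rfl
  have en : (Lay.lay I).n = I.n := rfl
  obtain ⟨s1, s2⟩ := Lay.one (Lay.lay I) I.S 0 (6 * Lay.hh I) rfl (by omega)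
    (by rw [zero_mul]; exact Lay.fitS I) (by rw [eH]; omega) fun r hr h => by
      rw [eH, en, zero_mul] at *
      have e : Lay.tg I (0 + Lay.hh I + r) = Lay.tc I.S I.n (Lay.hh I) 0 (6 * Lay.hh I) r := by
        rw [Lay.tg, if_neg (by omega), if_pos (by omega)]
        congr 1; omega
      rw [Lay.lay_pi I (by omega) (e ▸ h), e]
  obtain ⟨p1, p2⟩ := Lay.one (Lay.lay I) I.P 2 (7 * Lay.hh I) rfl le_rfl (Lay.fitP I)
    (by rw [eH]; omega) fun r hr h => by
      rw [eH, en] at *
      have e : Lay.tg I (2 * Lay.hh I + Lay.hh I + r) =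
          Lay.tc I.P I.n (Lay.hh I) (2 * Lay.hh I) (7 * Lay.hh I) r := by
        rw [Lay.tg, if_neg (by omega), if_neg (by omega), if_pos (by omega)]
        congr 1; omega
      rw [Lay.lay_pi I (by omega) (e ▸ h), e]
  have hp := Lay.lay_perm I
  have hb := (Lay.fitS I).big
  have hk := Lay.ko_ge I
  have ek : (Lay.lay I).ko = (Lay.tot I).size := rfl
  generalize Lay.lay I = D at *
  rw [← eH] at hp hb
  refine ⟨by omega, en, by omega, fun m hm => ?_, fun m h1 h2 hU => ?_, fun m h1 h2 hU => ?_,
    fun y hZ hE i hi => ?_, fun y hZ hE i hi => ?_⟩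
  · have hl : m < D.π.length := by rwa [hp.length_eq, List.length_range]
    rw [LD.pi, List.getD_eq_getElem _ _ hl]
    exact List.mem_range.1 (hp.subset (List.getElem_mem hl))
  · by_cases h : m < 3 * D.H
    · have := s1 (m - D.H) (by omega)
      rw [show 0 * D.H + D.H + (m - D.H) = m by omega] at this
      exact (this hU).imp_left fun h => h.2
    · have := p1 (m - 3 * D.H) (by omega)
      rw [show 2 * D.H + D.H + (m - 3 * D.H) = m by omega] at this
      exact (this hU).imp_left fun h => h.2
  · have := p1 (m - 3 * D.H) (by omega)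
    rw [show 2 * D.H + D.H + (m - 3 * D.H) = m by omega] at this
    exact (this hU).imp_left fun h => h.1
  · have := s2 en.symm y hZ (fun m h1 h2 => hE m (by omega) (by omega)) i hi
    rwa [zero_mul, zero_add] at this
  · have := p2 (hI.2.1.trans en.symm) y hZ (fun m h1 h2 => hE m (by omega) (by omega)) i hi
    rwa [show 2 * D.H + 2 * D.H = 4 * D.H by omega] at this

end Vale.Agent.P330Q
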