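import Vale.Agent.P330Q.Kum

/-! Algebra of the Kummer extension (task KumA).
Plan. `M_N`, `N_M`: `tens_tens`, `tens_congr`, `tens_id`. `M_eq`: `tens_closed` (reindex `v ↦ a + v`).
`cf_prod`: with `u = N 0 f`, `w = N 0 g` the product of `M x u` and `M x w` is `M x` of
`i ↦ ∑ v, u v * w (v + i) * ∏ j with both bits set, (ξ x - cc j)` (use `M_eq`, `rsq`); this is a
polynomial of degree at most `k` in `ξ x`. `ext_prod`: Lagrange interpolation of the coefficient
polynomials at `ξ 0, …, ξ k` (`Lagrange.eq_interpolate_of_eval_eq`, or `Lo.interp'` of CodeA). -/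

namespace Vale.Agent.P330Q

open Vale.Agent.Lib.H23 Vale.Agent.P333 Vale.Agent.P325 Vale.Agent.P330 Vale.Agent.P330.Amp Finset
open Polynomial
open scoped BigOperators

namespace KP

variable {K : KP} [Fact K.p.Prime] {k x : ℕ} {y z : Vec k → ZMod K.p} {U : ℕ → Vec k → ZMod K.p}

theorem kuma_pos : 0 < K.p := (Fact.out : K.p.Prime).pos

theorem kuma_two (h : K.Ok k) : (2 : ZMod K.p) ≠ 0 := fun e =>
  absurd (Nat.le_of_dvd two_pos ((ZMod.natCast_eq_zero_iff 2 K.p).1 (by exact_mod_cast e)))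
    (not_le.2 h.hp)

theorem kuma_nA (h : K.Ok k) (x j : ℕ) (b : Bool) : (cf (K.nA x) j b : ZMod K.p) =
    if b then -(2 * (K.r x j : ZMod K.p))⁻¹ else 2⁻¹ := by
  cases b <;> simp [cf, nA, cast_invm h.hp, cast_subm kuma_pos]

theorem kuma_nB (h : K.Ok k) (x j : ℕ) (b : Bool) : (cf (K.nB x) j b : ZMod K.p) =
    if b then (2 * (K.r x j : ZMod K.p))⁻¹ else 2⁻¹ := by
  cases b <;> simp [cf, nB, cast_invm h.hp]

theorem kuma_mA (x j : ℕ) (b : Bool) : (cf (K.mA x) j b : ZMod K.p) =
    if b then -(K.r x j : ZMod K.p) else 1 := by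
  cases b <;> simp [cf, mA, cast_subm kuma_pos]

theorem kuma_mB (x j : ℕ) (b : Bool) : (cf (K.mB x) j b : ZMod K.p) =
    if b then 1 else (K.r x j : ZMod K.p) := by
  cases b <;> simp [cf, mB]

theorem M_N (h : K.Ok k) (hx : x < nX k) : K.M x (K.N x y) = y := by
  rw [M, N, tens_tens]
  refine (tens_congr fun j hj b => ?_).trans tens_id
  have h1 := h.rne x hx j hj
  have h2 := kuma_two h
  simp only [kuma_nA h, kuma_nB h, kuma_mA, kuma_mB]
  cases b <;> constructor <;> simp <;> field_simp <;> ring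

theorem N_M (h : K.Ok k) (hx : x < nX k) : K.N x (K.M x y) = y := by
  rw [M, N, tens_tens]
  refine (tens_congr fun j hj b => ?_).trans tens_id
  have h1 := h.rne x hx j hj
  have h2 := kuma_two h
  simp only [kuma_nA h, kuma_nB h, kuma_mA, kuma_mB]
  cases b <;> constructor <;> simp <;> field_simp <;> ring

theorem kuma_re (a : Vec k) (f : Vec k → ZMod K.p) : ∑ v, f (a + v) = ∑ i, f i :=
  Equiv.sum_comp (Equiv.addLeft a) f

theorem M_eq (h : K.Ok k) (a : Vec k) : K.M x y a = ∑ i : Vec k, y i *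
    ∏ j ∈ range k, if bt i j then (if bt a j then -(K.r x j : ZMod K.p) else K.r x j) else 1 := by
  rw [M, tens_closed]
  refine Eq.trans ?_ (kuma_re a _)
  refine sum_congr rfl fun v _ => ?_
  rw [mul_comm]
  refine congrArg _ (prod_congr rfl fun j _ => ?_)
  rw [kuma_mA, kuma_mB, bt_add]
  cases bt a j <;> cases bt v j <;> rfl

theorem lde_zero (h : K.Ok k) : K.lde 0 y = y := M_N h (Nat.succ_pos _)

theorem lde_add_cmul (t : ZMod K.p) :
    K.lde x (fun a => y a + t * z a) = fun a => K.lde x y a + t * K.lde x z a := by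
  simp only [lde, M, N, tens_add, tens_cmul]

theorem lde_dlt (h : K.Ok k) (c : ℕ) (a : Vec k) :
    K.lde x (dlt c) a = ∏ j ∈ range k, cf (K.dl x c) j (bt a j) := by
  rw [lde, M, N, tens_tens, tens_dlt]
  refine prod_congr rfl fun j _ => ?_
  have e : (cf (K.dl x c) j (bt a j) : ZMod K.p) = (if bt a j = c.testBit j then
      1 + (K.r x j : ZMod K.p) / K.r 0 j else 1 - (K.r x j : ZMod K.p) / K.r 0 j) / 2 := by
    rw [cf, dl, cast_divm h.hp]
    split_ifs <;> simp [cast_addm, cast_subm kuma_pos, cast_divm h.hp]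
  rw [e]
  simp only [kuma_nA h, kuma_nB h, kuma_mA, kuma_mB]
  cases bt a j <;> cases c.testBit j <;> simp <;> ring

theorem cast_lam (h : K.Ok k) (x' x : ℕ) : (K.lam k x' x : ZMod K.p) =
    ∏ e ∈ (range (k + 1)).erase x', ((K.ξ x : ZMod K.p) - K.ξ e) / ((K.ξ x' : ZMod K.p) - K.ξ e) := by
  rw [lam, cast_prodm, List.map_map, ← List.prod_toFinset _ (List.nodup_range.filter _)]
  refine prod_congr (by ext e; simp [and_comm]) fun e _ => ?_
  simp only [Function.comp, cast_divm h.hp, cast_subm kuma_pos]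

theorem kuma_inj (h : K.Ok k) : Set.InjOn (fun e => (K.ξ e : ZMod K.p)) (range (k + 1)) :=
  fun a ha b hb e => h.xinj a (by have := mem_range.1 ha; unfold nX; omega) b
    (by have := mem_range.1 hb; unfold nX; omega) e

theorem kuma_int (h : K.Ok k) (w : ℕ → ZMod K.p) (x : ℕ) :
    ∑ x' ∈ range (k + 1), (K.lam k x' x : ZMod K.p) * w x' =
      (Lagrange.interpolate (range (k + 1)) (fun e => (K.ξ e : ZMod K.p)) w).eval
        (K.ξ x : ZMod K.p) := by
  rw [Lagrange.interpolate_apply, eval_finsetSum]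
  refine sum_congr rfl fun x' _ => ?_
  rw [cast_lam h, eval_mul, eval_C, mul_comm, Lagrange.basis, eval_prod]
  refine congrArg _ (prod_congr rfl fun e _ => ?_)
  simp [Lagrange.basisDivisor, div_eq_inv_mul]

theorem ext_le (h : K.Ok k) (hx : x ≤ k) : K.ext U x = U x := by
  rw [ext]
  simp only [kuma_int h,
    Lagrange.eval_interpolate_at_node _ (kuma_inj h) (mem_range.2 (Nat.lt_succ_of_le hx))]
  exact M_N h (by unfold nX; omega)

theorem ext_congr {U' : ℕ → Vec k → ZMod K.p} (e : ∀ x ≤ k, U x = U' x) :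
    K.ext U x = K.ext U' x := by
  refine congrArg (K.M x) (funext fun a => sum_congr rfl fun x' hx => ?_)
  rw [e x' (Nat.le_of_lt_succ (mem_range.1 hx))]

theorem cf_ext (h : K.Ok k) : K.Cf k (K.ext U) := by
  refine ⟨fun i => Lagrange.interpolate (range (k + 1)) (fun e => (K.ξ e : ZMod K.p))
    fun x' => K.N x' (U x') i, fun i => natDegree_le_of_degree_le ?_, fun x hx i => ?_⟩
  · simpa using Lagrange.degree_interpolate_le (fun x' => K.N x' (U x') i) (kuma_inj h)
  · rw [ext, N_M h hx, kuma_int h]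

theorem cf_prod (h : K.Ok k) : K.Cf k fun x a => K.lde x y a * K.lde x z a := by
  refine ⟨fun i => ∑ v : Vec k, C (K.N 0 y v * K.N 0 z (v + i)) * ∏ j ∈ range k,
    if bt v j && bt (v + i) j then X - C ((K.cc.getD j 0 : ℕ) : ZMod K.p) else 1,
    fun i => natDegree_sum_le_of_forall_le _ _ fun v _ => (natDegree_C_mul_le _ _).trans
      ((natDegree_prod_le _ _).trans ((sum_le_card_nsmul _ _ 1 fun j _ => ?_).trans (by simp))),
    fun x hx i => ?_⟩
  · split_ifs
    · exact natDegree_X_sub_C_le _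
    · simp
  have e : (fun a => K.lde x y a * K.lde x z a) = K.M x fun i =>
      (∑ v : Vec k, C (K.N 0 y v * K.N 0 z (v + i)) * ∏ j ∈ range k,
        if bt v j && bt (v + i) j then X - C ((K.cc.getD j 0 : ℕ) : ZMod K.p) else 1).eval
        (K.ξ x : ZMod K.p) := by
    funext a
    rw [lde, lde, M_eq h, M_eq h, M_eq h, sum_mul_sum]
    simp only [eval_finsetSum, sum_mul]
    refine Eq.trans ?_ sum_comm
    refine sum_congr rfl fun v _ => ?_
    refine (kuma_re v _).symm.trans ?_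
    refine sum_congr rfl fun i _ => ?_
    rw [mul_mul_mul_comm, eval_mul, eval_C, eval_prod, mul_assoc (_ * _),
      ← prod_mul_distrib, ← prod_mul_distrib]
    refine congrArg _ (prod_congr rfl fun j hj => ?_)
    have e := h.rsq x hx j (mem_range.1 hj)
    rw [bt_add]
    generalize ((K.cc.getD j 0 : ℕ) : ZMod K.p) = c at e ⊢
    cases bt v j <;> cases bt i j <;> cases bt a j <;> simp [← e, sq]
  change K.N x (fun a => K.lde x y a * K.lde x z a) i = _
  rw [e, N_M h hx]

theorem Cf.sub {D : ℕ} {U' : ℕ → Vec k → ZMod K.p} (h1 : K.Cf D U) (h2 : K.Cf D U') :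
    K.Cf D fun x a => U x a - U' x a := by
  obtain ⟨q, a1, a2⟩ := h1
  obtain ⟨q', b1, b2⟩ := h2
  refine ⟨fun i => q i - q' i, fun i => (natDegree_sub_le _ _).trans (max_le (a1 i) (b1 i)),
    fun x hx i => ?_⟩
  rw [eval_sub, ← a2 x hx, ← b2 x hx, N, tens_sub]
  rfl

theorem ext_of_cf (h : K.Ok k) (hU : K.Cf k U) (hx : x < nX k) : K.ext U x = U x := by
  obtain ⟨q, a1, a2⟩ := hU
  refine (congrArg (K.M x) (funext fun a => ?_)).trans (M_N h hx)
  rw [kuma_int h, a2 x hx, ← Lagrange.eq_interpolate_of_eval_eq _ (kuma_inj h) (f := q a)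
    (degree_le_natDegree.trans_lt (by rw [card_range]; exact_mod_cast Nat.lt_succ_of_le (a1 a)))
    fun i hi => (a2 i (by have := mem_range.1 hi; unfold nX; omega) a).symm]

theorem ext_prod (h : K.Ok k) (hx : x < nX k) :
    K.ext (fun x a => K.lde x y a * K.lde x z a) x = fun a => K.lde x y a * K.lde x z a :=
  ext_of_cf h (cf_prod h) hx

theorem fnL_ldeL (l : List ℕ) : fnL K.p k (K.ldeL k x l) = K.lde x (fnL K.p k l) := by
  rw [ldeL, fnL_tensL, fnL_tensL, lde, M, N]
  refine (tens_congr fun j hj b => ?_).trans (congrArg _ (tens_congr fun j hj b => ?_))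
  · cases b <;> simp [cf, tA, tB, mT, List.getD_eq_getElem?_getD, hj]
  · cases b <;> simp [cf, tA, tB, nT, List.getD_eq_getElem?_getD, hj]

end KP

section pt

variable {X : Type} [Enc X] {K : X → KP} {k x j c : X → ℕ} {b : X → Bool} {l : X → List ℕ}

theorem kuma_tup (hK : PT K) : PT fun z => ((K z).p, (K z).xi, (K z).cc, (K z).rt) :=
  hK.of_enc fun _ => rfl

theorem kuma_if {f g : X → ℕ} (hb : PT b) (hf : PT f) (hg : PT g) :
    PT fun z => if b z then f z else g z :=
  (PT.cond hb hf hg).congr fun z => by cases b z <;> rfl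

@[fun_prop] theorem KP.pt_p (hK : PT K) : PT fun z => (K z).p := (kuma_tup hK).fst
@[fun_prop] theorem KP.pt_ξ (hK : PT K) (hx : PT x) : PT fun z => (K z).ξ (x z) :=
  PT.getD (kuma_tup hK).snd.fst hx (PT.const 0)
@[fun_prop] theorem KP.pt_r (hK : PT K) (hx : PT x) (hj : PT j) :
    PT fun z => (K z).r (x z) (j z) :=
  PT.getD (PT.getD (kuma_tup hK).snd.snd.snd hx (PT.const [])) hj (PT.const 0)
@[fun_prop] theorem KP.pt_nA (hK : PT K) (hx : PT x) (hj : PT j) (hb : PT b) :
    PT fun z => (K z).nA (x z) (j z) (b z) :=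
  kuma_if hb (by fun_prop) (by fun_prop)
@[fun_prop] theorem KP.pt_nB (hK : PT K) (hx : PT x) (hj : PT j) (hb : PT b) :
    PT fun z => (K z).nB (x z) (j z) (b z) :=
  kuma_if hb (by fun_prop) (by fun_prop)
@[fun_prop] theorem KP.pt_mA (hK : PT K) (hx : PT x) (hj : PT j) (hb : PT b) :
    PT fun z => (K z).mA (x z) (j z) (b z) :=
  kuma_if hb (by fun_prop) (by fun_prop)
@[fun_prop] theorem KP.pt_mB (hK : PT K) (hx : PT x) (hj : PT j) (hb : PT b) :
    PT fun z => (K z).mB (x z) (j z) (b z) :=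
  kuma_if hb (by fun_prop) (by fun_prop)
@[fun_prop] theorem KP.pt_dl (hK : PT K) (hx : PT x) (hc : PT c) (hj : PT j) (hb : PT b) :
    PT fun z => (K z).dl (x z) (c z) (j z) (b z) := by
  refine pt_divm (KP.pt_p hK) (pt_ite (((hb.xor (pt_testBit hc hj)).not).congr fun z => ?_)
    (by fun_prop) (by fun_prop)) (PT.const 2)
  cases b z <;> cases (c z).testBit (j z) <;> rfl
theorem KP.pt_lam (hK : PT K) (hk : PU k) (hx : PT x) (hj : PT j) :
    PT fun z => (K z).lam (k z) (x z) (j z) := by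
  refine pt_prodm (KP.pt_p hK) (PT.map (by fun_prop) (pt_filter
    ((pt_decEq PT.snd' (hx.comp PT.fst')).not.congr fun z => by simp) (hk.add (PU.const 1)).range))
theorem KP.pt_ldeL (hK : PT K) (hk : PU fun z => 2 ^ k z) (hx : PT x) (hl : PT l) :
    PT fun z => (K z).ldeL (k z) (x z) (l z) := by
  have h1 : PU k := hk.of_le (((PU.of_len hk.pt.bits fun _ => Nat.size_eq_bits_len _).pt.sub
    (PT.const 1)).congr fun z => by
    rw [Nat.size_pow]; rfl) fun z => Nat.lt_two_pow_self.le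
  exact pt_tensL (KP.pt_p hK) hk (PT.map (by fun_prop) h1.range)
    (pt_tensL (KP.pt_p hK) hk (PT.map (by fun_prop) h1.range) hl)

end pt

end Vale.Agent.P330Q
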