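import Vale.Agent.P330Q.ProgPTa

/-! Polynomial time of the sweeps and of the finishing steps (helper file of task ProgPT). -/

namespace Vale.Agent.P330Q

open Vale.Agent.Lib.H23 Vale.Agent.P333 Vale.Agent.P325 Vale.Agent.P330 Vale.Agent.P330.Amp

variable {X : Type} [Enc X]

attribute [local fun_prop] PU

attribute [local fun_prop] pg_comp pg_const PU.add PU.mul PU.len PU.range PU.pt
  pg_ite pg_or pg_and pg_true pg_set pg_min pt_decEq pt_decLt pt_decLe pt_mkA pt_mkB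
  pg_eAct pg_ph pg_ee pg_fu pg_hi pg_mvp pg_bdy pg_fills pg_cel pg_keepT pg_two

namespace PP

attribute [local fun_prop] pg_K pg_ko pg_ko' pg_n pg_jj pg_p pg_k pg_k' pg_H pg_L pg_L' pg_Xn
  pg_Xn' pg_nS pg_nS' pg_Lb pg_Lb' pg_nm pg_rY pg_rT pg_r1 pg_m1 pg_thw pg_posG

variable {q : X → PP} {κ i x e c θ w j b f t r : X → ℕ} {σ v : X → List ℕ} {u : X → Bool}

@[local fun_prop] theorem pg_msk (hq : PT q) (h1 : PT i) : PT fun z => (q z).msk (i z) := by
  unfold msk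
  exact pt_ite (pt_decLt h1 (PT.const _)) (PT.const _) (pt_ite (pt_decEq h1 (PT.const _))
    ((pg_H hq).add (PT.const _)) (pt_ite (pt_decEq h1 (PT.const _)) (pg_H hq)
      ((pg_H hq).add (PT.const _))))
@[local fun_prop] theorem pg_mvl (hq : PT q) (h1 : PT i) : PT fun z => (q z).mvl (i z) := by
  unfold mvl; fun_prop
@[local fun_prop] theorem pg_msh (hq : PT q) (h1 : PT i) : PT fun z => (q z).msh (i z) := by
  unfold msh; fun_prop
@[local fun_prop] theorem pg_shT (hq : PT q) (h1 : PT i) (h2 : PT j) (hu : PT u) :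
    PT fun z => (q z).shT (i z) (j z) (u z) := by
  unfold shT; fun_prop
theorem pg_sw0 (hq : PT q) (hj : PT j) (h1 : PT κ) (h2 : PT i) (h3 : PT x) (hu : PT u) :
    PT fun z => (q z).sw0 (j z) (κ z) (i z) (x z) (u z) := by
  unfold sw0; fun_prop
theorem pg_sw1 (hq : PT q) (hj : PT j) (h1 : PT κ) (h2 : PT i) (h3 : PT x) :
    PT fun z => (q z).sw1 (j z) (κ z) (i z) (x z) := by
  have ha := pg_nm hq (PT.const 0) hj (PT.const 0)
  unfold sw1
  exact pt_ite (pg_and (pt_decEq h1 (PT.const _)) (pg_and (pt_decEq h3 (PT.const _))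
      (pg_and (pt_decEq h2 (hj.add (PT.const _))) (pt_decLt hj (pg_L' hq)))))
    (((PT.const _).pair ((pg_nm hq (PT.const _) hj (PT.const _)).pair (PT.const _))).cons
      (((pg_m1 hq).pair (ha.pair (PT.const _))).cons
        (((PT.const _).pair (ha.pair (PT.const _))).cons (PT.const _))))
    (pg_keepT (pg_nm hq h1 h2 h3))
@[local fun_prop] theorem pg_rdT (hq : PT q) (hσ : PT σ) (hj : PT j) (h1 : PT κ) (h2 : PT i)
    (h3 : PT x) (hu : PT u) : PT fun z => (q z).rdT (σ z) (j z) (κ z) (i z) (x z) (u z) := by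
  have h : PT fun z => cel (q z).H ((σ z).getD 0 0) (κ z - 13) := by fun_prop
  unfold rdT
  exact pg_two (pt_rdA h hj hu) (pt_rdB h hj hu) (pg_nm hq h1 h2 h3)
theorem pg_sw2 (hq : PT q) (hσ : PT σ) (hj : PT j) (h1 : PT κ) (h2 : PT i)
    (h3 : PT x) (hu : PT u) : PT fun z => (q z).sw2 (σ z) (j z) (κ z) (i z) (x z) (u z) := by
  unfold sw2; fun_prop
@[local fun_prop] theorem pg_thr (hq : PT q) (h1 : PT θ) (h2 : PT i) :
    PT fun z => (q z).thr (θ z) (i z) := by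
  unfold thr; fun_prop
theorem pg_sw3 (hq : PT q) (hσ : PT σ) (hj : PT j) (h1 : PT κ) (h2 : PT i)
    (h3 : PT x) (hu : PT u) : PT fun z => (q z).sw3 (σ z) (j z) (κ z) (i z) (x z) (u z) := by
  have ha : PT fun z => (q z).thw ((σ z).getD 0 0) (κ z - 10) := by fun_prop
  have hb := pg_thr hq ha h2
  have hc : PT fun z => i z / 2 := by fun_prop
  have hd : PT fun z => decide (i z % 2 = 1) := by fun_prop
  have he := pg_nm hq h1 h2 h3
  unfold sw3
  exact pt_ite (by fun_prop)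
    (pg_two (KP.pt_mA (pg_K hq) h3 hj hu) (KP.pt_mB (pg_K hq) h3 hj hu) he)
    (pt_ite (by fun_prop)
      (((pt_mkA (pg_ko hq) hb hd hj hu).pair ((pt_ite hd (pg_rY hq)
        (pg_nm hq (PT.const _) (pg_ee (pg_H hq) ha hc) (PT.const _))).pair (PT.const _))).cons
        (((pt_mkB (pg_ko hq) hc hb hj hu).pair (he.pair (PT.const _))).cons (PT.const _)))
      (pt_ite (by fun_prop) (pg_rdT hq hσ hj h1 h2 h3 hu) (pg_keepT he)))
theorem pg_fac (hq : PT q) (hσ : PT σ) (hw : PT w) (he : PT e) (h2 : PT i)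
    (h3 : PT x) (hj : PT j) (hu : PT u) :
    PT fun z => (q z).fac (σ z) (w z) (e z) (i z) (x z) (j z) (u z) := by
  have ha : PT fun z => cel (q z).H ((σ z).getD 0 0) (w z) := by fun_prop
  have hb := KP.pt_dl (pg_K hq) h3 (pg_posG hq hσ hw h2) hj hu
  have hc := KP.pt_dl (pg_K hq) h3 ha hj hu
  unfold fac
  exact pt_ite (pt_decEq he (PT.const _)) hb (pt_ite (pt_decEq he (PT.const _)) hc
    (pt_ite (pt_decEq he (PT.const _)) (pt_mulm (pg_p hq) hb hc) (pt_rdA ha hj hu)))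
theorem pg_sw4 (hq : PT q) (hσ : PT σ) (hj : PT j) (h1 : PT κ) (h2 : PT i)
    (h3 : PT x) (hu : PT u) : PT fun z => (q z).sw4 (σ z) (j z) (κ z) (i z) (x z) (u z) := by
  have he := pg_nm hq h1 h2 h3
  unfold sw4
  exact pt_ite (pt_decLe (PT.const _) h1)
    (pg_two (pg_fac hq hσ (by fun_prop) (by fun_prop) h2 h3 hj hu) (PT.const _) he) (pg_keepT he)
theorem pg_sweep (hq : PT q) (hb : PT b) (hσ : PT σ) (hj : PT j) (h1 : PT κ) (h2 : PT i)
    (h3 : PT x) (hu : PT u) :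
    PT fun z => (q z).sweep (b z) (σ z) (j z) (κ z) (i z) (x z) (u z) := by
  have he := pg_keepT (pg_nm hq h1 h2 h3)
  unfold sweep
  exact pt_ite (pt_decEq hb (PT.const _)) (pg_sw1 hq hj h1 h2 h3)
    (pt_ite (pt_decLe (pg_k' hq) hj) he
    (pt_ite (pt_decEq hb (PT.const _)) (pg_sw0 hq hj h1 h2 h3 hu)
    (pt_ite (pt_decEq hb (PT.const _)) (pg_sw2 hq hσ hj h1 h2 h3 hu)
    (pt_ite (pt_decEq hb (PT.const _)) (pg_sw3 hq hσ hj h1 h2 h3 hu)
    (pt_ite (pt_decEq hb (PT.const _)) (pg_sw4 hq hσ hj h1 h2 h3 hu) he)))))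
theorem pg_mv (hq : PT q) (hσ : PT σ) (hw : PT w) : PT fun z => (q z).mv (σ z) (w z) := by
  unfold mv; fun_prop
theorem pg_outT (hq : PT q) (hσ : PT σ) (hw : PT w) (h2 : PT i) (h3 : PT x) :
    PT fun z => (q z).outT (σ z) (w z) (i z) (x z) := by
  have ha : PT fun z => (σ z).getD (4 + w z) 0 := hσ.getD ((PT.const _).add hw) (PT.const _)
  have hn (c : ℕ) : PT fun z => c + 4 * w z := (PT.const _).add ((PT.const _).mul hw)
  have hL := pg_L' hq
  have hlt := pt_decLt h2 hL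
  have h0 : PT fun _ : X => false := PT.const _
  unfold outT
  exact pt_ite (pg_and (pt_decLt h2 (hL.add (PT.const _))) (pt_decLe h3 (pg_k' hq)))
    (((PT.const _).pair ((pg_nm hq (PT.const _) h2 h3).pair h0)).cons
      ((ha.pair ((pg_nm hq (hn 15) h2 h3).pair h0)).cons
      (((pt_ite hlt (PT.const _) ha).pair ((pg_nm hq (hn 16) h2 h3).pair h0)).cons
      (((pt_ite hlt (PT.const _) (pt_mulm (pg_p hq) ha ha)).pair
        ((pg_nm hq (hn 17) h2 h3).pair h0)).cons (PT.const _)))))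
    (pt_ite (pg_and (pt_decEq h2 (hL.add (PT.const _))) (pt_decEq h3 (PT.const _)))
      (((PT.const _).pair ((pg_rY hq).pair h0)).cons
        ((ha.pair ((pg_nm hq (hn 18) (PT.const _) (PT.const _)).pair h0)).cons (PT.const _)))
      (pt_ite (pg_and (pt_decEq h2 (hL.add (PT.const _))) (pt_decEq h3 (PT.const _)))
        (((pg_mvp (pg_H hq) (hσ.getD (PT.const _) (PT.const _)) hw).pair
          ((pg_r1 hq).pair h0)).cons (PT.const _)) (PT.const _)))
theorem pg_fin (hq : PT q) (hb : PT b) (hσ : PT σ) (hf : PT f) (h1 : PT κ) (h2 : PT i)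
    (h3 : PT x) : PT fun z => (q z).fin (b z) (σ z) (f z) (κ z) (i z) (x z) := by
  have ha := h1.sub (PT.const 1)
  unfold fin
  exact pt_ite (by fun_prop) (pt_ite (pg_true (pg_mv hq hσ ha)) (pg_outT hq hσ ha h2 h3)
    (pg_keepT (pg_nm hq (PT.const _) h2 h3))) (pg_keepT (pg_nm hq h1 h2 h3))
theorem pg_tm (hq : PT q) (ht : PT t) (hσ : PT σ) (hr : PT r) (hu : PT u) :
    PT fun z => (q z).tm (t z) (σ z) (r z) (u z) := by
  have h0 := pt_mod ht (pg_Lb' hq)
  have hb := ht.div (pg_Lb' hq)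
  have h1 := hr.div (pg_nS' hq)
  have h2 := (pt_mod hr (pg_nS' hq)).div (pg_Xn' hq)
  have h3 := pt_mod (pt_mod hr (pg_nS' hq)) (pg_Xn' hq)
  have h4 := (pg_L' hq).add (pg_k' hq)
  unfold tm
  exact pt_ite (pt_decEq h0 (PT.const _)) (pg_load hq hb hσ h1 h2 h3)
    (pt_ite (pt_decLe h0 h4) (pg_sweep hq hb hσ (h0.sub (PT.const _)) h1 h2 h3 hu)
      (pg_fin hq hb hσ (h0.sub (h4.add (PT.const _))) h1 h2 h3))

end PP

end Vale.Agent.P330Q
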