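import Vale.Agent.P330Q.Line

/-! Layers of switches (task RouteB; inductions on the number of layers). -/

namespace Vale.Agent.P330Q

open Vale.Agent.Lib.H23 Vale.Agent.P333 Vale.Agent.P325 Vale.Agent.P330 Vale.Agent.P330.Amp

variable {k l : ℕ} {jj π : List ℕ} {cs : List (List ℕ)}

private theorem rb_lt (h : ROk k jj cs π) (hl : l < jj.length) : jj.getD l 0 < k := by
  rw [List.getD_eq_getElem _ _ hl]
  exact h.lt _ (List.getElem_mem hl)

private theorem rb_pow (h : ROk k jj cs π) (hl : l < jj.length) : 2 ^ jj.getD l 0 < 2 ^ k :=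
  Nat.pow_lt_pow_right (by omega) (rb_lt h hl)

private theorem rb_pos (h : ROk k jj cs π) (hl : l < jj.length) (m : ℕ) :
    pos k jj cs (l + 1) m = if swc cs l (pos k jj cs l m) = 1 then
      pos k jj cs l m ^^^ 2 ^ jj.getD l 0 else pos k jj cs l m := by
  rw [pos, List.range_succ, List.foldl_append, List.foldl_cons, List.foldl_nil,
    min_eq_left (rb_lt h hl).le]
  rfl

private theorem rb_lyr {R : Type} (y : Vec k → R) (a : Vec k) :
    lyr jj cs (l + 1) y a = if swc cs l (toN a) = 1 then lyr jj cs l y (a + ej k (jj.getD l 0))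
      else lyr jj cs l y a := by
  rw [lyr, List.range_succ, List.foldl_append, List.foldl_cons, List.foldl_nil]
  rfl

private theorem rb_toN (h : ROk k jj cs π) (hl : l < jj.length) (a : Vec k) :
    toN (a + ej k (jj.getD l 0)) = toN a ^^^ 2 ^ jj.getD l 0 := by
  rw [toN_add, ej, toN_ofN, Nat.mod_eq_of_lt (rb_pow h hl)]

private theorem rb_sym (h : ROk k jj cs π) (hl : l < jj.length) (a : Vec k) :
    swc cs l (toN (a + ej k (jj.getD l 0))) = swc cs l (toN a) := by
  rw [rb_toN h hl, h.sym l hl _ (toN_lt a)]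

private theorem rb_of {x : ℕ} (hx : x < 2 ^ k) : toN (ofN k x) = x := by
  rw [toN_ofN, Nat.mod_eq_of_lt hx]

private theorem rb_xor (x j : ℕ) : ofN k (x ^^^ 2 ^ j) = ofN k x + ej k j := ofN_xor _ _ _

private theorem rb_add (a v : Vec k) : a + v + v = a := by
  rw [add_assoc, vec_add_self, add_zero]

theorem pos_lt (h : ROk k jj cs π) (hl : l ≤ jj.length) {m : ℕ} (hm : m < 2 ^ k) :
    pos k jj cs l m < 2 ^ k := by
  induction l with
  | zero => exact hm
  | succ l ih =>
    rw [rb_pos h hl]
    split_ifs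
    · exact Nat.xor_lt_two_pow (ih (by omega)) (rb_pow h hl)
    · exact ih (by omega)

theorem lyr_pos {R : Type} (h : ROk k jj cs π) (hl : l ≤ jj.length) (y : Vec k → R) {m : ℕ}
    (hm : m < 2 ^ k) : lyr jj cs l y (ofN k (pos k jj cs l m)) = y (ofN k m) := by
  induction l with
  | zero => rfl
  | succ l ih =>
    have hx := pos_lt h (show l ≤ jj.length by omega) hm
    rw [rb_lyr, rb_pos h hl, ← ih (by omega)]
    by_cases h1 : swc cs l (pos k jj cs l m) = 1
    · rw [if_pos h1, rb_xor, rb_sym h hl, rb_of hx, if_pos h1, rb_add]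
    · rw [if_neg h1, rb_of hx, if_neg h1]

theorem lyr_end {R : Type} (h : ROk k jj cs π) (y : Vec k → R) (a : Vec k) :
    lyr jj cs jj.length y a = y (ofN k (π.getD (toN a) 0)) := by
  obtain ⟨h1, h2⟩ := h.fin _ (toN_lt a)
  rw [← lyr_pos h le_rfl y h1, h2, ofN_toN]

theorem lyr_succ {p : ℕ} (h : ROk k jj cs π) (hl : l < jj.length) (y : Vec k → ZMod p) (a : Vec k) :
    lyr jj cs (l + 1) y a = lyr jj cs l y a - fnL p k (cs.getD l []) a * lyr jj cs l y a +
      fnL p k (cs.getD l []) (a + ej k (jj.getD l 0)) * lyr jj cs l y (a + ej k (jj.getD l 0)) := by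
  have e1 : fnL p k (cs.getD l []) a = (swc cs l (toN a) : ℕ) := rfl
  have e2 : fnL p k (cs.getD l []) (a + ej k (jj.getD l 0)) =
      (swc cs l (toN (a + ej k (jj.getD l 0))) : ℕ) := rfl
  rw [rb_lyr, e1, e2, rb_sym h hl]
  have h1 := h.bin l (toN a)
  split_ifs with h2
  · rw [h2]
    simp
  · rw [show swc cs l (toN a) = 0 by omega]
    simp

theorem lyr_dlt {p : ℕ} (h : ROk k jj cs π) (hl : l ≤ jj.length) (y : Vec k → ZMod p) (t : ZMod p)
    {m : ℕ} (hm : m < 2 ^ k) : lyr jj cs l (fun a => y a + t * dlt m a) =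
      fun a => lyr jj cs l y a + t * dlt (pos k jj cs l m) a := by
  induction l with
  | zero => rfl
  | succ l ih =>
    have hx := pos_lt h (show l ≤ jj.length by omega) hm
    funext a
    rw [rb_lyr, rb_lyr, ih (by omega), rb_pos h hl]
    obtain ⟨x, hx0⟩ : ∃ x, x = pos k jj cs l m := ⟨_, rfl⟩
    rw [← hx0] at hx ⊢
    have s1 : swc cs l (toN (ofN k x + ej k (jj.getD l 0))) = swc cs l x := by
      rw [rb_sym h hl, rb_of hx]
    by_cases h1 : swc cs l (toN a) = 1 <;> by_cases h2 : swc cs l x = 1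
    · simp only [if_pos h1, if_pos h2, dlt, rb_xor]
      congr 2
      refine if_congr ⟨fun e => ?_, fun e => ?_⟩ rfl rfl
      · rw [← e, rb_add]
      · rw [e, rb_add]
    · simp only [if_pos h1, if_neg h2, dlt]
      congr 2
      rw [if_neg, if_neg]
      · intro e
        rw [e, rb_of hx] at h1
        exact h2 h1
      · intro e
        rw [← rb_sym h hl, e, rb_of hx] at h1
        exact h2 h1
    · simp only [if_neg h1, if_pos h2, dlt, rb_xor]
      congr 2
      rw [if_neg, if_neg]
      · intro e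
        rw [e, s1] at h1
        exact h1 h2
      · intro e
        rw [e, rb_of hx] at h1
        exact h1 h2
    · simp only [if_neg h1, if_neg h2]

theorem fnL_lyrL {p : ℕ} (h : ROk k jj cs π) (hl : l ≤ jj.length) (y : List ℕ) :
    fnL p k (lyrL k jj cs l y) = lyr jj cs l (fnL p k y) := by
  induction l with
  | zero => rfl
  | succ l ih =>
    funext a
    rw [rb_lyr, ← ih (by omega), lyrL, List.range_succ, List.foldl_append, List.foldl_cons,
      List.foldl_nil, fnL_map, min_eq_left (rb_lt h hl).le, fnL, fnL, rb_toN h hl]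
    split_ifs <;> rfl

section pt

variable {X : Type} [Enc X] {k l m : X → ℕ} {jj y : X → List ℕ} {cs : X → List (List ℕ)}

theorem pt_pos (hk : PU k) (hj : PT jj) (hc : PT cs) (hl : PU l) (hm : PT m) :
    PT fun x => pos (k x) (jj x) (cs x) (l x) (m x) := by
  obtain ⟨M, hM⟩ := hm.size_le
  obtain ⟨K, hK⟩ := hk.range.size_le
  refine PT.foldl (f := fun x z i => if swc (cs x) i z = 1 then
    z ^^^ 2 ^ min ((jj x).getD i 0) (k x) else z) ?_ hl.range hm ⟨4 * (M + K) + 1, fun x n => ?_⟩
  · have h2 : PT fun q : X × ℕ × ℕ => 2 ^ min ((jj q.1).getD q.2.2 0) (k q.1) :=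
      pt_two_pow ((hk.comp PT.fst').of_le (pt_min (PT.getD (hj.comp PT.fst') PT.snd'.snd
        (PT.const _)) (hk.pt.comp PT.fst')) fun _ => min_le_right _ _)
    have h3 : PT fun q : X × ℕ × ℕ => swc (cs q.1) q.2.2 q.2.1 :=
      PT.getD (PT.getD (hc.comp PT.fst') PT.snd'.snd (PT.const _)) PT.snd'.fst (PT.const _)
    exact pt_ite (pt_decEq h3 (PT.const _)) (pt_xor PT.snd'.fst h2) PT.snd'.fst
  · have a1 := hM x
    have a2 := hK x
    have a5 := length_lt_sz (List.range (k x))
    rw [List.length_range] at a5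
    have key : ∀ (u : List ℕ) (z : ℕ), z < 2 ^ (M.eval (sz x) + K.eval (sz x)) →
        u.foldl (fun z i => if swc (cs x) i z = 1 then
          z ^^^ 2 ^ min ((jj x).getD i 0) (k x) else z) z < 2 ^ (M.eval (sz x) + K.eval (sz x)) := by
      intro u
      induction u with
      | nil => exact fun z hz => hz
      | cons i u ih =>
        intro z hz
        refine ih _ ?_
        have := min_le_right ((jj x).getD i 0) (k x)
        beta_reduce
        split_ifs
        · exact Nat.xor_lt_two_pow hz (Nat.pow_lt_pow_right (by omega) (by omega))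
        · exact hz
    refine (sz_nat_le (key _ _ ((lt_two_pow_sz _).trans_le
      (Nat.pow_le_pow_right (by omega) (by omega))))).trans (le_of_eq ?_)
    simp

theorem pt_lyrL (hk : PU fun x => 2 ^ k x) (hj : PT jj) (hc : PT cs) (hl : PU l) (hy : PT y) :
    PT fun x => lyrL (k x) (jj x) (cs x) (l x) (y x) := by
  have hk1 : PT k := ((PT.size hk.pt).sub (PT.const 1)).congr fun x => by simp [Nat.size_pow]
  have hk2 : PU k := hk.of_le hk1 fun x => Nat.lt_two_pow_self.le
  obtain ⟨L, hL⟩ := hy.size_le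
  obtain ⟨K, hK⟩ := hk.range.size_le
  refine PT.foldl (f := fun x z i => (List.range (2 ^ k x)).map fun a =>
    if swc (cs x) i a = 1 then z.getD (a ^^^ 2 ^ min ((jj x).getD i 0) (k x)) 0 else z.getD a 0)
    ?_ hl.range hy ⟨(L + K) * (L + 1 + 1) + 1, fun x n => ?_⟩
  · refine PT.map ?_ (hk.range.comp PT.fst')
    have h1 : PT fun q : (X × List ℕ × ℕ) × ℕ => q.1.1 := PT.fst'.fst
    have h4 : PT fun q : (X × List ℕ × ℕ) × ℕ => q.1.2.2 := PT.fst'.snd.snd
    have h5 : PT fun q : (X × List ℕ × ℕ) × ℕ => q.1.2.1 := PT.fst'.snd.fst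
    have h2 : PT fun q : (X × List ℕ × ℕ) × ℕ => 2 ^ min ((jj q.1.1).getD q.1.2.2 0) (k q.1.1) :=
      pt_two_pow ((hk2.comp h1).of_le (pt_min (PT.getD (hj.comp h1) h4
        (PT.const _)) (hk1.comp h1)) fun _ => min_le_right _ _)
    have h3 : PT fun q : (X × List ℕ × ℕ) × ℕ => swc (cs q.1.1) q.1.2.2 q.2 :=
      PT.getD (PT.getD (hc.comp h1) h4 (PT.const _)) PT.snd' (PT.const _)
    exact pt_ite (pt_decEq h3 (PT.const _)) (PT.getD h5 (pt_xor PT.snd' h2) (PT.const _))
      (PT.getD h5 PT.snd' (PT.const _))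
  · have a1 := hL x
    have a2 := hK x
    have a4 := length_lt_sz (y x)
    have a5 := length_lt_sz (List.range (2 ^ k x))
    rw [List.length_range] at a5
    have key : ∀ (u : List ℕ) (z : List ℕ), z.length ≤ L.eval (sz x) + K.eval (sz x) →
        (∀ a ∈ z, sz a ≤ L.eval (sz x) + 1) →
        (u.foldl (fun z i => (List.range (2 ^ k x)).map fun a =>
          if swc (cs x) i a = 1 then z.getD (a ^^^ 2 ^ min ((jj x).getD i 0) (k x)) 0
          else z.getD a 0) z).length ≤ L.eval (sz x) + K.eval (sz x) ∧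
        ∀ a ∈ u.foldl (fun z i => (List.range (2 ^ k x)).map fun a =>
          if swc (cs x) i a = 1 then z.getD (a ^^^ 2 ^ min ((jj x).getD i 0) (k x)) 0
          else z.getD a 0) z, sz a ≤ L.eval (sz x) + 1 := by
      intro u
      induction u with
      | nil => exact fun z h1 h2 => ⟨h1, h2⟩
      | cons i u ih =>
        intro z h1 h2
        have hg : ∀ j, sz (z.getD j 0) ≤ L.eval (sz x) + 1 := by
          intro j
          by_cases hi : j < z.length
          · rw [List.getD_eq_getElem _ _ hi]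
            exact h2 _ (List.getElem_mem hi)
          · rw [List.getD_eq_default _ _ (not_lt.1 hi)]
            have h3 : sz (0 : ℕ) = 1 := rfl
            omega
        refine ih _ ?_ ?_
        · rw [List.length_map, List.length_range]
          omega
        · intro a ha
          obtain ⟨j, -, rfl⟩ := List.mem_map.1 ha
          split_ifs
          · exact hg _
          · exact hg _
    obtain ⟨b1, b2⟩ := key ((List.range (l x)).take n) (y x) (by omega) fun a ha => by
      have := sz_lt_of_mem ha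
      omega
    refine (ip_sz_list b1 b2).trans (le_of_eq ?_)
    simp

end pt

end Vale.Agent.P330Q
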