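import Vale.Agent.P330Q.Prog
import Vale.Agent.P330Q.RouteB
import Vale.Agent.P330Q.KumA
import Vale.Agent.P330.Hard
import Vale.Agent.P330Q.ProgPTb

/-! Polynomial time of the program (task ProgPT). -/

namespace Vale.Agent.P330Q

open Vale.Agent.Lib.H23 Vale.Agent.P333 Vale.Agent.P325 Vale.Agent.P330 Vale.Agent.P330.Amp

namespace PP

section

variable {X : Type} [Enc X]

variable {q : X → PP} {κ i x θ w b f t a : X → ℕ} {σ v : X → List ℕ} {u : X → Bool}

theorem pg_bit (hq : PT q) (ht : PT t) : PT fun z => (q z).bit (t z) := by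
  have h := (pt_mod ht (pg_Lb' hq)).sub (PT.const 1)
  unfold bit
  exact pt_ite (pt_decEq (ht.div (pg_Lb' hq)) (PT.const _)) ((pg_jj hq).getD h (PT.const _)) h
theorem pg_tf (hq : PT q) (b f : ℕ) : PT fun z => (q z).tf b f :=
  (((PT.const b).mul (pg_Lb' hq)).add (((pg_L' hq).add (pg_k' hq)).add (PT.const 1))).add
    (PT.const f)
theorem pg_chg (hq : PT q) (hθ : PT θ) (hw : PT w) (ha : PT a) :
    PT fun z => (q z).chg (θ z) (w z) (a z) := by
  unfold chg
  exact pt_ite (pg_true (pg_bdy (pg_H hq) hθ hw)) (PT.const _)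
    (pt_ite (pg_true (pg_fills (pg_H hq) hθ hw)) ha ((pg_p hq).sub ha))
theorem pg_nmc (hq : PT q) (a b c : ℕ) : PT fun z => (q z).nm a b c :=
  pg_nm hq (PT.const _) (PT.const _) (PT.const _)
theorem pg_col (hq : PT q) (hv : PT v) (κ : ℕ) :
    PT fun z => (List.range (q z).L).map fun l => (v z).getD ((q z).nm κ l 0) 0 :=
  PT.map (f := fun z l => (v z).getD ((q z).nm κ l 0) 0)
    ((hv.comp PT.id.fst).getD (pg_nm (hq.comp PT.id.fst) (PT.const _) PT.id.snd (PT.const _))
      (PT.const _)) (pg_L hq).range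
theorem pg_upd (hq : PT q) (ht : PT t) (hσ : PT σ) (hv : PT v) (hu : PT u) :
    PT fun z => (q z).upd (t z) (σ z) (v z) (u z) := by
  have h0 : PT fun z => (σ z).getD 0 0 := hσ.getD (PT.const _) (PT.const _)
  have h1 : PT fun z => if u z then 0 else 1 := pt_ite (pg_true hu) (PT.const _) (PT.const _)
  unfold upd
  exact pt_ite (pt_decEq ht (pg_tf hq _ _))
      (pg_set hσ (PT.const _) (hv.getD (pg_nmc hq _ _ _) (PT.const _)))
    (pt_ite (pt_decEq ht (pg_tf hq _ _))
      (((pt_take (PT.const _) hσ).append (pg_col hq hv 13)).append (pg_col hq hv 14))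
    (pt_ite (pt_decEq ht (pg_tf hq _ _))
      (pg_set (pg_set (pg_set hσ (PT.const _) (pt_ite (pg_true (hu.not.and (pt_decLt h0
        ((PT.const _).mul ((pg_H hq).add (PT.const _)))))) (PT.const _) (PT.const _))) (PT.const _)
        (pg_chg hq h0 (PT.const _) (hv.getD (pg_nmc hq _ _ _) (PT.const _)))) (PT.const _)
        (pg_chg hq h0 (PT.const _) (hv.getD (pg_nmc hq _ _ _) (PT.const _))))
    (pt_ite (pt_decEq ht (pg_tf hq _ _)) (pg_set hσ (PT.const _) h1)
    (pt_ite (pt_decEq ht (pg_tf hq _ _)) (pg_set hσ (PT.const _) h1) hσ))))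
theorem pg_used (hq : PT q) (h2 : PT i) (h3 : PT x) : PT fun z => (q z).used (i z) (x z) := by
  unfold used
  exact (pg_and (pt_decLt h2 ((pg_L' hq).add (PT.const _))) (pt_decLe h3 (pg_k' hq))).or
    (pg_and (pg_or (pt_decEq h2 ((pg_L' hq).add (PT.const _)))
      (pt_decEq h2 ((pg_L' hq).add (PT.const _)))) (pt_decEq h3 (PT.const _)))
theorem pg_row (hq : PT q) (κ : ℕ) : PT fun z => (List.range 16).map fun i => (q z).nm κ i 0 :=
  PT.map (f := fun z i => (q z).nm κ i 0)
    (pg_nm (hq.comp PT.id.fst) (PT.const _) PT.id.snd (PT.const _)) (PT.const _)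
theorem pg_zs (hq : PT q) (ht : PT t) : PT fun z => (q z).zs (t z) := by
  have hq' : PT fun y : X × ℕ => q y.1 := hq.comp PT.id.fst
  unfold zs
  exact pt_ite (pt_decEq ht (pg_tf hq _ _))
      (((pg_row hq 10).append ((pg_nmc hq _ _ _).cons ((pg_nmc hq _ _ _).cons (PT.const _)))).append
        (pt_filter (f := fun z r => !(q z).used (r / (q z).Xn) (r % (q z).Xn))
          (pg_used hq' (PT.id.snd.div (pg_Xn' hq')) (pt_mod PT.id.snd (pg_Xn' hq'))).not
          (pg_nS hq).range))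
    (pt_ite (pt_decEq ht (pg_tf hq _ _)) (pg_row hq 11)
    (pt_ite (pt_decEq ht (pg_tf hq _ _)) (pg_row hq 12) (PT.const _)))
theorem pg_ts1 (hq : PT q) (hi : PT i) : PT fun z => (List.range (q z).Xn).map fun x =>
    ((q z).nm 9 (i z) x, (q z).nm 7 (i z) x, (q z).nm 8 (i z) x) := by
  have hq' : PT fun y : X × ℕ => q y.1 := hq.comp PT.id.fst
  have hi' : PT fun y : X × ℕ => i y.1 := hi.comp PT.id.fst
  exact PT.map (f := fun z x => ((q z).nm 9 (i z) x, (q z).nm 7 (i z) x, (q z).nm 8 (i z) x))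
    ((pg_nm hq' (PT.const _) hi' PT.id.snd).pair ((pg_nm hq' (PT.const _) hi' PT.id.snd).pair
      (pg_nm hq' (PT.const _) hi' PT.id.snd))) (pg_Xn hq).range
theorem pg_ts (hq : PT q) (ht : PT t) : PT fun z => (q z).ts (t z) := by
  unfold ts
  exact pt_ite (pt_decEq ht (pg_tf hq _ _))
    (pt_flatMap (f := fun z i => (List.range (q z).Xn).map fun x =>
      ((q z).nm 9 i x, (q z).nm 7 i x, (q z).nm 8 i x)) (pg_ts1 (hq.comp PT.id.fst) PT.id.snd)
      ((pg_L hq).add (PU.const 2)).range) (PT.const _)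

theorem pg_pw (hH : PU fun x => (q x).H) : PU fun x => 2 ^ (q x).k :=
  PT.congr (hH.mul (PU.const 8)) fun x => congrArg List.range (pow_add 2 (q x).ko 3)

end

end PP

theorem prog_pt : prog.PTime where
  len := (PU.const 5).mul (PP.pg_Lb PT.id)
  nR := (PU.const 23).mul (PP.pg_nS PT.id)
  nS := PP.pg_nS PT.id
  ns := PP.pg_ns PT.id
  bit := PP.pg_bit PT.id.fst PT.id.snd
  tm := PP.pg_tm PT.id.fst.fst PT.id.fst.snd.fst PT.id.fst.snd.snd PT.id.snd.fst PT.id.snd.snd
  upd := PP.pg_upd PT.id.fst.fst PT.id.fst.snd.fst PT.id.fst.snd.snd PT.id.snd.fst PT.id.snd.snd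
  zs := PP.pg_zs PT.id.fst PT.id.snd.fst
  ts := PP.pg_ts PT.id.fst PT.id.snd.fst

namespace PP

variable {X : Type} [Enc X] {q : X → PP} {cs l : X → List (List ℕ)} {θ : X → ℕ} {y : X → List Bool}

theorem pt_mk {K : X → KP} {ko n : X → ℕ} {jj : X → List ℕ} (hK : PT K) (hk : PU ko) (hn : PT n)
    (hj : PT jj) : PT fun x => (⟨K x, ko x, n x, jj x⟩ : PP) :=
  (hK.pair (hk.range.pair (hn.pair hj))).of_enc fun _ => rfl

theorem pg_cube {f : X → ℕ → ℕ} (hH : PU fun x => (q x).H) (hf : PT fun z : X × ℕ => f z.1 z.2) :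
    PT fun x => (List.range (2 ^ (q x).k)).map (f x) := PT.map hf (pg_pw hH).range

theorem pg_cst1 {r : X → ℕ} (hq : PT q) (hH : PU fun x => (q x).H) (hc : PT cs) (hr : PT r) :
    PT fun x => if r x / (q x).nS = 3 then
    (if r x % (q x).nS % (q x).Xn = 0 then (cs x).getD (r x % (q x).nS / (q x).Xn) []
    else if r x % (q x).nS % (q x).Xn = 1 then
      (List.range (2 ^ (q x).k)).map
        (pos (q x).k (q x).jj (cs x) (min (r x % (q x).nS / (q x).Xn) (q x).L))
    else (List.range (2 ^ (q x).k)).map fun _ => 1) else [] := by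
  have h1 := pt_mod (pt_mod hr (pg_nS' hq)) (pg_Xn' hq)
  have h2 := (pt_mod hr (pg_nS' hq)).div (pg_Xn' hq)
  have hq' : PT fun y : X × ℕ => q y.1 := hq.comp PT.id.fst
  have h3 : PU fun y : X × ℕ => min (r y.1 % (q y.1).nS / (q y.1).Xn) (q y.1).L :=
    PU.comp (g := fun y : X × ℕ => y.1) (pg_min h2 (pg_L hq)) PT.id.fst
  exact pt_ite (pt_decEq (hr.div (pg_nS' hq)) (PT.const _))
    (pt_ite (pt_decEq h1 (PT.const _)) (hc.getD h2 (PT.const _))
      (pt_ite (pt_decEq h1 (PT.const _))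
        (pg_cube hH (pt_pos (pg_k hq') (pg_jj hq') (hc.comp PT.id.fst) h3 PT.id.snd))
        (pg_cube (f := fun _ _ => 1) hH (PT.const _)))) (PT.const _)

theorem pt_cst (hq : PT q) (hH : PU fun x => (q x).H) (hc : PT cs) :
    PT fun x => (q x).cst (cs x) := by
  unfold cst
  exact PT.map (pg_cst1 (q := fun y : X × ℕ => q y.1) (cs := fun y => cs y.1) (r := fun y => y.2)
    (hq.comp PT.id.fst) (PU.comp (g := fun y : X × ℕ => y.1) hH PT.id.fst) (hc.comp PT.id.fst)
    PT.id.snd) ((PU.const 23).mul (pg_nS hq)).range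

theorem pg_can1 {r : X → ℕ} {Y : X → List ℕ} (hq : PT q) (hH : PU fun x => (q x).H) (hc : PT cs)
    (hθ : PT θ) (hY : PT Y) (hr : PT r) : PT fun x =>
    if r x / (q x).Xn < (q x).L + 2 ∧ r x % (q x).Xn ≤ (q x).k then
      (List.range (2 ^ (q x).k)).map fun a => mulm (q x).p
        (((q x).K.ldeL (q x).k (r x % (q x).Xn)
          (if r x / (q x).Xn < (q x).L then (cs x).getD (r x / (q x).Xn) [] else Y x)).getD a 0)
        (((q x).K.ldeL (q x).k (r x % (q x).Xn) (if r x / (q x).Xn < (q x).L then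
          lyrL (q x).k (q x).jj (cs x) (min (r x / (q x).Xn) (q x).L) (Y x)
          else if r x / (q x).Xn = (q x).L then
          (List.range (2 ^ (q x).k)).map fun a => (Y x).getD (a ^^^ 1) 0 else Y x)).getD a 0)
    else if r x / (q x).Xn = (q x).L + 2 ∧ r x % (q x).Xn = 0 then Y x
    else if r x / (q x).Xn = (q x).L + 3 ∧ r x % (q x).Xn = 0 then
      (List.range (2 ^ (q x).k)).map fun _ => θ x else [] := by
  have h1 := hr.div (pg_Xn' hq)
  have h2 := pt_mod hr (pg_Xn' hq)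
  have hL := pg_L' hq
  have hlt := pt_decLt h1 hL
  have hF := KP.pt_ldeL (pg_K hq) (pg_pw hH) h2 (pt_ite hlt (hc.getD h1 (PT.const [])) hY)
  have hs : PT fun x => (List.range (2 ^ (q x).k)).map fun a => (Y x).getD (a ^^^ 1) 0 :=
    pg_cube (f := fun x a => (Y x).getD (a ^^^ 1) 0) hH
      ((hY.comp PT.id.fst).getD (pt_xor PT.id.snd (PT.const _)) (PT.const _))
  have hG := KP.pt_ldeL (pg_K hq) (pg_pw hH) h2 (pt_ite hlt
    (pt_lyrL (pg_pw hH) (pg_jj hq) hc (pg_min h1 (pg_L hq)) hY) (pt_ite (pt_decEq h1 hL) hs hY))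
  refine pt_ite (pg_and (pt_decLt h1 (hL.add (PT.const _))) (pt_decLe h2 (pg_k' hq)))
    (pg_cube hH (pt_mulm (pg_p (hq.comp PT.id.fst)) ?_ ?_))
    (pt_ite (pg_and (pt_decEq h1 (hL.add (PT.const _))) (pt_decEq h2 (PT.const _))) hY
    (pt_ite (pg_and (pt_decEq h1 (hL.add (PT.const _))) (pt_decEq h2 (PT.const _)))
      (pg_cube (f := fun x _ => θ x) hH (hθ.comp PT.id.fst)) (PT.const _)))
  · exact (PT.comp (g := fun y : X × ℕ => y.1) hF PT.id.fst).getD PT.id.snd (PT.const _)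
  · exact (PT.comp (g := fun y : X × ℕ => y.1) hG PT.id.fst).getD PT.id.snd (PT.const _)

theorem pt_canL (hq : PT q) (hH : PU fun x => (q x).H) (hc : PT cs) (hθ : PT θ) (hy : PT y) :
    PT fun x => (q x).canL (cs x) (θ x) (y x) := by
  have hY : PT fun x => (List.range (2 ^ (q x).k)).map fun a =>
      if (y x).getD a false then 1 else 0 :=
    pg_cube (f := fun x a => if (y x).getD a false then 1 else 0) hH
      (pt_ite (pg_true ((hy.comp PT.id.fst).getD PT.id.snd (PT.const _))) (PT.const _) (PT.const _))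
  unfold canL
  exact PT.map (pg_can1 (q := fun z : X × ℕ => q z.1) (cs := fun z => cs z.1) (r := fun z => z.2)
    (θ := fun z => θ z.1) (Y := fun z => (List.range (2 ^ (q z.1).k)).map fun a =>
      if (y z.1).getD a false then 1 else 0)
    (hq.comp PT.id.fst) (PU.comp (g := fun y : X × ℕ => y.1) hH PT.id.fst) (hc.comp PT.id.fst)
    (hθ.comp PT.id.fst) (PT.comp (g := fun y : X × ℕ => y.1) hY PT.id.fst) PT.id.snd)
    (pg_nS hq).range

theorem pg_cand1 {ρ : X → ℕ} (hq : PT q) (hH : PU fun x => (q x).H) (hl : PT l) (hρ : PT ρ) :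
    PT fun x => (List.range (min (q x).n (q x).H)).map fun i =>
      decide (((l x).getD (q x).rY []).getD (ρ x * (q x).H + i) 0 = 1) := by
  have h1 : PT fun x => (l x).getD (q x).rY [] := hl.getD (pg_rY hq) (PT.const _)
  have h2 : PT fun x => ρ x * (q x).H := hρ.mul (pg_H hq)
  exact PT.map (f := fun x i => decide (((l x).getD (q x).rY []).getD (ρ x * (q x).H + i) 0 = 1))
    (pt_decEq ((PT.comp (g := fun y : X × ℕ => y.1) h1 PT.id.fst).getD
      ((PT.comp (g := fun y : X × ℕ => y.1) h2 PT.id.fst).add PT.id.snd) (PT.const _)) (PT.const _))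
    (pg_min (pg_n hq) hH).range

theorem pt_cands (hq : PT q) (hH : PU fun x => (q x).H) (hl : PT l) :
    PT fun x => (q x).cands (l x) :=
  (pg_cand1 hq hH hl (PT.const 0)).cons ((pg_cand1 hq hH hl (PT.const 2)).cons (PT.const []))

end PP

end Vale.Agent.P330Q
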