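import Vale.Agent.P330Q.ProgG
import Vale.Agent.P330Q.ProgPT

/-! The machine for End-of-Line (task Mach).
Plan. `D = D I` from `LayStmt`, `kk I` of length `D.ko + 3` (make this hold by `rfl` or `simp`, and
rewrite), `H` is unary since `D.π` has length `8 H`. `K` from `exists_kp` with a second argument of
length `x.2.length + 3 ^ k * nX k + 10 (H + 1)` (unary: `3 ^ k ≤ (2 ^ k) ^ 2`, `PU.of_le`),
`par x = ⟨K, D.ko, D.n, jj (kk I)⟩`, `cs = cs (kk I, D.π)`. Sizes: `L ≤ k ^ 2`, the entries of `jj` are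
below `k`; for the size of `n` in `sz (par x)` replace it by `min D.n H` (equal to `D.n` for valid
`I`). -/

namespace Vale.Agent.P330Q

open Vale.Agent.Lib.H23 Vale.Agent.P333 Vale.Agent.P325 Vale.Agent.P330 Vale.Agent.P330.Amp

theorem mach_pow {a N C : ℕ} (hN : 2 ≤ N) (h : a + 3 ≤ C) : a * N ^ 3 ≤ N ^ C :=
  calc a * N ^ 3 ≤ N ^ a * N ^ 3 :=
        Nat.mul_le_mul_right _ (Nat.lt_two_pow_self.le.trans (Nat.pow_le_pow_left hN a))
    _ ≤ N ^ C := by
        rw [← pow_add]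
        exact Nat.pow_le_pow_right (by omega) h

/-- a list of units -/
def machU (n : ℕ) : List Unit := (List.range n).map fun _ => ()

theorem machU_len (n : ℕ) : (machU n).length = n := by simp [machU]

theorem pt_machU {X : Type} [Enc X] {f : X → ℕ} (hf : PU f) : PT fun x => machU (f x) :=
  PT.map (f := fun _ _ => ()) (PT.const _) hf.range

/-- the lower bound for the prime -/
def machV (ko m : ℕ) : ℕ := m + (8 * 2 ^ ko) ^ 2 * nX (ko + 3) + 10 * (2 ^ ko + 1)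

theorem machV_ge (ko m : ℕ) : 3 ^ (ko + 3) * nX (ko + 3) ≤ machV ko m := by
  have h : 3 ^ (ko + 3) ≤ (8 * 2 ^ ko) ^ 2 := by
    rw [show 8 * 2 ^ ko = 2 ^ (ko + 3) by ring, ← pow_mul, mul_comm, pow_mul]
    exact Nat.pow_le_pow_left (by norm_num) _
  have := Nat.mul_le_mul_right (nX (ko + 3)) h
  unfold machV
  omega

theorem machV_lt (ko m : ℕ) : machV ko m < 2 ^ (m.size + 3 * (ko + 3) + 4) := by
  have h1 : m < 2 ^ m.size := Nat.lt_size_self m
  have h2 : ko < 2 ^ ko := Nat.lt_two_pow_self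
  have e : 2 ^ (m.size + 3 * (ko + 3) + 4) = 2 ^ m.size * (2 ^ ko) ^ 3 * 8192 := by ring
  rw [e, machV, nX]
  generalize 2 ^ m.size = S at *
  generalize 2 ^ ko = H at *
  have hH : 1 ≤ H := by omega
  have h3 : H ≤ H ^ 3 := Nat.le_self_pow (by norm_num) H
  have h4 : (8 * H) ^ 2 * (4 * (ko + 3) + 4) ≤ (8 * H) ^ 2 * (16 * H) :=
    Nat.mul_le_mul_left _ (by omega)
  have h5 : (8 * H) ^ 2 * (16 * H) = 1024 * H ^ 3 := by ring
  have h6 : S ≤ S * H ^ 3 := Nat.le_mul_of_pos_right _ (by omega)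
  have h7 : H ^ 3 ≤ S * H ^ 3 := Nat.le_mul_of_pos_left _ (by omega)
  omega

theorem mach_sz (q : PP) {C s V : ℕ} (hp : q.p ≤ 2 * V) (hV : V < 2 ^ (s + 3 * q.k + 4))
    (hK : sz q.K ≤ C * (q.k + 1) ^ 2 * (V.size + 2)) (hn : q.n ≤ q.H) (hL : q.L ≤ q.k ^ 2)
    (hj : ∀ j ∈ q.jj, j < q.k) : q.p.size + sz q ≤ (3 * C + 20) * (q.k + s + 2) ^ 3 := by
  have e : sz q = sz (q.K, List.range q.ko, q.n, q.jj) := rfl
  have h1 : q.p.size ≤ s + 3 * q.k + 5 := Nat.size_le.2 (by rw [pow_succ]; omega)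
  have h2 : V.size ≤ s + 3 * q.k + 4 := Nat.size_le.2 hV
  have b : ∀ j < q.k, sz j ≤ 4 * q.k + 1 := fun j h => sz_nat_le (h.trans Nat.lt_two_pow_self)
  have h3 := sz_list_le (l := List.range q.ko) fun j h =>
    b j ((List.mem_range.1 h).trans (Nat.lt_add_of_pos_right (by norm_num)))
  have h4 := sz_list_le fun j h => b j (hj j h)
  have h5 : sz q.n ≤ 4 * q.k + 1 := sz_nat_le (hn.trans_lt
    (Nat.pow_lt_pow_right (by norm_num) (Nat.lt_add_of_pos_right (by norm_num))))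
  rw [List.length_range] at h3
  rw [e, sz_pair, sz_pair, sz_pair]
  have hk : q.ko + 3 = q.k := rfl
  have hL' : q.jj.length ≤ q.k ^ 2 := hL
  generalize q.k = k at *
  obtain ⟨N, hN⟩ : ∃ N, N = k + s + 2 := ⟨_, rfl⟩
  rw [← hN]
  have k1 : C * (k + 1) ^ 2 * (V.size + 2) ≤ C * N ^ 2 * (3 * N) :=
    Nat.mul_le_mul (Nat.mul_le_mul_left _ (Nat.pow_le_pow_left (by omega) 2)) (by omega)
  have k2 : q.ko * (4 * k + 1 + 1) ≤ N ^ 2 * (4 * N) :=
    Nat.mul_le_mul ((by omega : q.ko ≤ N).trans (Nat.le_self_pow (by norm_num) N)) (by omega)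
  have k3 : q.jj.length * (4 * k + 1 + 1) ≤ N ^ 2 * (4 * N) :=
    Nat.mul_le_mul (hL'.trans (Nat.pow_le_pow_left (by omega) 2)) (by omega)
  have k4 : N ≤ N ^ 3 := Nat.le_self_pow (by norm_num) N
  have k5 : N ^ 2 * (4 * N) = 4 * N ^ 3 := by ring
  have k6 : C * N ^ 2 * (3 * N) + 20 * N ^ 3 = (3 * C + 20) * N ^ 3 := by ring
  omega

theorem mach_len (q : PP) (hL : q.L ≤ q.k ^ 2) :
    prog.len q + prog.nR q + prog.nS q + prog.ns q ≤ 400 * (q.k + 2) ^ 3 := by
  change 5 * (q.L + q.k + 4) + 23 * ((q.L + 16) * (4 * q.k + 4)) + (q.L + 16) * (4 * q.k + 4) +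
    (6 + 2 * q.L) ≤ _
  have hk : 3 ≤ q.k := Nat.le_add_left _ _
  generalize q.k = k at *
  generalize q.L = L at *
  obtain ⟨N, hN⟩ : ∃ N, N = k + 2 := ⟨_, rfl⟩
  rw [← hN]
  have k0 : L + 16 ≤ N ^ 2 := by
    rw [hN]
    nlinarith
  have k1 : (L + 16) * (4 * k + 4) ≤ N ^ 2 * (4 * N) := Nat.mul_le_mul k0 (by omega)
  have k2 : N ^ 2 ≤ N ^ 3 := Nat.pow_le_pow_right (by omega) (by norm_num)
  have k4 : N ≤ N ^ 3 := Nat.le_self_pow (by norm_num) N
  have k5 : N ^ 2 * (4 * N) = 4 * N ^ 3 := by ring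
  omega

theorem mach (hL : LayStmt) (hR : RouteStmt) : MachStmt := by
  obtain ⟨D, hD, HD⟩ := hL
  obtain ⟨jj, cs, hjj, hcs, HR⟩ := hR
  obtain ⟨C, K, hK, HK⟩ := exists_kp
  have hD' : PT fun I => (List.range (D I).ko, (D I).n, (D I).π) := hD.of_enc fun _ => rfl
  have hko : PU fun I => (D I).ko := hD'.fst
  have hlen : ∀ I, (D I).π.length = 8 * (D I).H := fun I => by
    rw [(HD I).2.2.1.length_eq, List.length_range]
  have hH : PU fun I => (D I).H :=
    PU.of_le (PU.len hD'.snd.snd) (pt_two_pow hko) fun I => by rw [hlen]; omega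
  have hk : PU fun I => (D I).ko + 3 := hko.add (PU.const 3)
  have hkk := pt_machU hk
  have hH' : PU fun x : MIn => (D x.1).H := hH.comp PT.fst'
  have hV : PU fun x : MIn => machV (D x.1).ko x.2.length :=
    ((PU.len PT.snd').add ((((PU.const 8).mul hH').pow 2).mul
      (((PU.const 4).mul (hk.comp PT.fst')).add (PU.const 4)))).add
      ((PU.const 10).mul (hH'.add (PU.const 1)))
  let Kx : MIn → KP := fun x => K (machU ((D x.1).ko + 3), machU (machV (D x.1).ko x.2.length))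
  have hKx : PT Kx := hK.comp ((hkk.comp PT.fst').pair (pt_machU hV))
  have hKx' : PT fun x => ((Kx x).p, (Kx x).xi, (Kx x).cc, (Kx x).rt) := hKx.of_enc fun _ => rfl
  let par : MIn → PP := fun x =>
    ⟨Kx x, (D x.1).ko, min (D x.1).n (D x.1).H, jj (machU ((D x.1).ko + 3))⟩
  have hpar : PT par := PP.pt_mk hKx (hko.comp PT.fst')
    (pt_min (hD'.snd.fst.comp PT.fst') hH'.pt) ((hjj.comp hkk).comp PT.fst')
  let c : MIn → List (List ℕ) := fun x => cs (machU ((D x.1).ko + 3), (D x.1).π)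
  have hc : PT c := (hcs.comp (hkk.pair hD'.snd.snd)).comp PT.fst'
  have hθ : PT fun x : MIn => (D x.1).oθ := (PT.const 4).mul (hH'.pt.add (PT.const 1))
  have hoL : PT fun x : MIn => (D x.1).oL := (LD.pt_oL hD hH).comp PT.fst'
  refine ⟨PP, inferInstance, prog, 3 * C + 512, fun I => machU ((D I).ko + 3), fun x => (Kx x).p,
    par, fun x => (par x).cst (c x), fun x => (par x).canL (c x) (D x.1).oθ (D x.1).oL,
    fun x => (par x).canL (c x) ((D x.1).oθ + 1) (D x.1).oL, fun z => (par z.1).cands z.2,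
    prog_pt, hkk, hKx'.fst, hpar, PP.pt_cst hpar hH' hc, PP.pt_canL hpar hH' hc hθ hoL,
    PP.pt_canL hpar hH' hc (hθ.add (PT.const 1)) hoL,
    PP.pt_cands (q := fun z : MIn × List (List ℕ) => par z.1) (hpar.comp PT.fst')
      (hH'.comp PT.fst') PT.snd', fun x => ?_⟩
  obtain ⟨d1, -, d3, d4⟩ := HD x.1
  obtain ⟨r1, r2, r3⟩ := HR (machU ((D x.1).ko + 3))
  obtain ⟨p1, p2, p3, p4, p5⟩ := HK (machU ((D x.1).ko + 3)) (machU (machV (D x.1).ko x.2.length))
    (by rw [machU_len, machU_len]; exact machV_ge _ _)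
  simp only [machU_len] at r1 r2 r3 p2 p3 p4 p5 ⊢
  have e8 : 2 ^ ((D x.1).ko + 3) = 8 * (D x.1).H := by rw [pow_add, mul_comm]; rfl
  have hv : x.2.length + 10 * ((D x.1).H + 1) ≤ machV (D x.1).ko x.2.length :=
    Nat.add_le_add_right (Nat.le_add_right _ _) _
  refine ⟨?_, p1, lt_of_le_of_lt (by omega) p2, ?_, ?_, fun hI => ?_⟩
  · rw [e8, add_mul]
    omega
  · exact (mach_sz (par x) p3 (machV_lt _ _) p5 (min_le_right _ _) r1 r2).trans
      (mach_pow (by omega) (by omega))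
  · exact (mach_len (par x) r1).trans (mach_pow (by omega) (by omega))
  · have ok := d4 hI
    have : Fact (par x).p.Prime := ⟨p1⟩
    have e : (par x).ld (D x.1).π = D x.1 := by
      change (⟨(D x.1).ko, min (D x.1).n (D x.1).H, (D x.1).π⟩ : LD) = _
      rw [min_eq_left ok.nH]
    have g := PP.good (q := par x) (cs := c x) (π := (D x.1).π) (I := x.1)
      ⟨p4, ok.ko, min_le_right _ _, le_trans (le_trans (Nat.le_add_left _ _) hv) p2.le,
        r3 _ (by rw [e8]; exact d3)⟩ (by rw [e]; exact ok) hI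
    rw [e] at g
    exact g

end Vale.Agent.P330Q
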