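import Vale.Agent.P330Q.Line
import Vale.Agent.P330.Bitonic

/-! Routing (task Route).
Plan for `route`. Run the bitonic sorting network (`stages`, `bitonic` of `P330/Bitonic.lean`, or a
direct proof on numbers) on the keys `key m = π.idxOf m`; `jj` lists the bits of the stages and
`cs l a = 1` iff the comparator at `a` swaps in the stage `l`. By the zero-one principle (apply
`bitonic` to the threshold functions `key < t`; they commute with the comparators) the keys end up
sorted, so the content of the cell `π a` ends at `a` (reverse the order of the keys if the network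
sorts downwards). For `PT`, keep the tables in `List.range π.length` and reduce everything modulo
bounds that hold for all inputs. -/

namespace Vale.Agent.P330Q

open Vale.Agent.Lib.H23 Vale.Agent.P333 Vale.Agent.P325 Vale.Agent.P330 Vale.Agent.P330.Amp

/-- the stages: the bit of the comparators and the bit that gives the direction -/
def rtSt (k : ℕ) : List (ℕ × ℕ) :=
  (List.range k).flatMap fun i => (List.range (i + 1)).reverse.map fun j => (j, i + 1)

def rtSw (k : ℕ) (T : List ℕ) (s : ℕ × ℕ) (a : ℕ) : Bool :=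
  bif xor (a.testBit s.1) (a.testBit s.2) then ltb (T.getD a 0) (T.getD (a ^^^ 2 ^ min s.1 k) 0)
  else ltb (T.getD (a ^^^ 2 ^ min s.1 k) 0) (T.getD a 0)

def rtNx (k N : ℕ) (T : List ℕ) (s : ℕ × ℕ) : List ℕ :=
  (List.range N).map fun a => bif rtSw k T s a then T.getD (a ^^^ 2 ^ min s.1 k) 0 else T.getD a 0

def rtK0 (π : List ℕ) : List ℕ := (List.range π.length).map fun m =>
  ((List.range π.length).filter fun a => eqb (π.getD a 0) m).headD 0

def rtKT (k : ℕ) (π : List ℕ) (l : ℕ) : List ℕ :=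
  ((rtSt k).take l).foldl (rtNx k π.length) (rtK0 π)

def rtCs (k : ℕ) (π : List ℕ) : List (List ℕ) := (List.range (rtSt k).length).map fun l =>
  (List.range π.length).map fun a =>
    bif rtSw k (rtKT k π l) ((rtSt k).getD l (0, 0)) a then 1 else 0

def rtF (k : ℕ) (s : ℕ × ℕ) : ℕ × Cond := (s.1, if s.2 < k then .eq s.2 1 1 else .ff)

def rtG (k : ℕ) (T : List ℕ) (t : ℕ) (z : Vec k) : Bool := decide (T.getD (toN z) 0 < t)

theorem rt_getD {β : Type} {N a : ℕ} (f : ℕ → β) (h : a < N) (d : β) :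
    ((List.range N).map f).getD a d = f a := by
  rw [List.getD_eq_getElem _ _ (by simpa using h), List.getElem_map, List.getElem_range]

theorem rt_mem {k : ℕ} {s : ℕ × ℕ} (h : s ∈ rtSt k) : s.1 < s.2 ∧ s.2 ≤ k := by
  obtain ⟨i, hi, hs⟩ := List.mem_flatMap.1 h
  obtain ⟨j, hj, rfl⟩ := List.mem_map.1 hs
  exact ⟨List.mem_range.1 (List.mem_reverse.1 hj), List.mem_range.1 hi⟩

theorem rt_len (k : ℕ) : (rtSt k).length ≤ k ^ 2 := by
  rw [rtSt, List.length_flatMap, sq]
  refine (List.sum_le_card_nsmul _ k fun x hx => ?_).trans (by simp)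
  obtain ⟨i, hi, rfl⟩ := List.mem_map.1 hx
  simpa using List.mem_range.1 hi

theorem rt_sym {k : ℕ} {s : ℕ × ℕ} (h : s ∈ rtSt k) (T : List ℕ) (a : ℕ) :
    rtSw k T s (a ^^^ 2 ^ s.1) = rtSw k T s a := by
  obtain ⟨h1, h2⟩ := rt_mem h
  rw [rtSw, rtSw, min_eq_left (by omega), Nat.xor_xor_cancel_right, Nat.testBit_xor,
    Nat.testBit_xor, Nat.testBit_two_pow_self, Nat.testBit_two_pow_of_ne h1.ne]
  cases a.testBit s.1 <;> cases a.testBit s.2 <;> rfl

theorem rt_put {k j : ℕ} (hj : j < k) (z : Vec k) (b : Bool) :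
    toN (put z j 1 (ofN 1 b.toNat)) =
      if b = (toN z).testBit j then toN z else toN z ^^^ 2 ^ j := by
  refine Nat.eq_of_testBit_eq fun i => ?_
  by_cases hi : i < k
  · rw [testBit_toN _ ⟨i, hi⟩]
    by_cases e : i = j
    · subst e
      rw [put_in (p := i) (w := 1) (j := ⟨i, hi⟩) _ ⟨le_rfl, Nat.lt_succ_self _⟩]
      simp only [ofN, Nat.sub_self, decide_b2]
      cases b <;> cases h : (toN z).testBit i <;> simp [h]
    · rw [put_out _ (by dsimp only; omega), ← testBit_toN]
      split_ifs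
      · rfl
      · rw [Nat.testBit_xor, Nat.testBit_two_pow_of_ne (Ne.symm e), Bool.xor_false]
  · have h : ∀ x < 2 ^ k, x.testBit i = false := fun x hx =>
      Nat.testBit_lt_two_pow (hx.trans_le (Nat.pow_le_pow_right two_pos (not_lt.1 hi)))
    rw [h _ (toN_lt _), h]
    split_ifs
    · exact toN_lt _
    · exact Nat.xor_lt_two_pow (toN_lt _) (Nat.pow_lt_pow_right one_lt_two hj)

theorem rt_bit {k : ℕ} (z : Vec k) (j : ℕ) : decide (fld z j 1 = 1) = (toN z).testBit j := by
  rw [fld_eq, pow_one, Nat.testBit_eq_decide_div_mod_eq]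

theorem rt_step {k : ℕ} (orc : ℕ → Vec k → Bool) {s : ℕ × ℕ} (hs : s.1 < k) (T : List ℕ) (t : ℕ) :
    cst orc (rtF k s) (rtG k T t) = rtG k (rtNx k (2 ^ k) T s) t := by
  funext z
  have h0 : toN (put z s.1 1 (ofN 1 0)) = _ := rt_put hs z false
  have h1 : toN (put z s.1 1 (ofN 1 1)) = _ := rt_put hs z true
  have h2 : (rtF k s).2.ev orc z = (toN z).testBit s.2 := by
    simp only [rtF]
    split_ifs with h
    · exact rt_bit z s.2
    · rw [Cond.ev_ff, Nat.testBit_lt_two_pow
        ((toN_lt z).trans_le (Nat.pow_le_pow_right two_pos (not_lt.1 h)))]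
  have h3 : (rtF k s).1 = s.1 := rfl
  simp only [cst, h2, h3, rt_bit, rtG, h0, h1, rtNx, rt_getD _ (toN_lt z), rtSw, min_eq_left hs.le,
    ltb_eq]
  cases (toN z).testBit s.1 <;> cases (toN z).testBit s.2 <;>
    simp only [Bool.xor_false, Bool.xor_true, Bool.not_false, Bool.not_true, Bool.false_eq_true,
      Bool.true_eq_false, if_false, if_true, cond_true, cond_false] <;>
    generalize T.getD (toN z) 0 = x <;> generalize T.getD (toN z ^^^ 2 ^ s.1) 0 = y <;>
    rw [Bool.eq_iff_iff, Bool.cond_decide] <;> split_ifs <;> simp <;> omega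

theorem rt_bitSt (k : ℕ) : bitSt (List.range' 0 k) .ff = (rtSt k).map (rtF k) := by
  rw [bitSt, rtSt, List.map_flatMap, List.length_range']
  refine List.flatMap_congr fun i hi => ?_
  rw [List.map_map]
  refine List.map_congr_left fun j hj => ?_
  have hi := List.mem_range.1 hi
  have hj := List.mem_range.1 (List.mem_reverse.1 hj)
  have h : ∀ a < k, (List.range' 0 k).getD a 0 = a := fun a ha => by
    rw [List.getD_eq_getElem _ _ (by simpa using ha), List.getElem_range']
    omega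
  simp only [Function.comp_apply, rtF]
  rw [h j (by omega)]
  split_ifs with h1
  · rw [h _ h1]
  · rfl

theorem rt_fold {k : ℕ} (orc : ℕ → Vec k → Bool) (t : ℕ) (m : List (ℕ × ℕ)) :
    (∀ s ∈ m, s.1 < k) → ∀ T, (m.map (rtF k)).foldl (fun g s => cst orc s g) (rtG k T t) =
      rtG k (m.foldl (rtNx k (2 ^ k)) T) t := by
  induction m with
  | nil => exact fun _ _ => rfl
  | cons s m ih =>
    intro h T
    rw [List.map_cons, List.foldl_cons, List.foldl_cons, rt_step orc (h s List.mem_cons_self),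
      ih fun s hs => h s (List.mem_cons_of_mem _ hs)]

theorem rt_mono {k : ℕ} (T : List ℕ) {a b : ℕ} (hab : a ≤ b) (hb : b < 2 ^ k) :
    ((rtSt k).foldl (rtNx k (2 ^ k)) T).getD a 0 ≤ ((rtSt k).foldl (rtNx k (2 ^ k)) T).getD b 0 := by
  obtain ⟨n, -, -, h⟩ := bit_sort (σ := k) (orc := fun _ _ => false) (List.range' 0 k)
    List.nodup_range' (fun j hj => by simpa using hj) .ff false
    (rtG k T (((rtSt k).foldl (rtNx k (2 ^ k)) T).getD b 0 + 1)) 0 fun y _ => Cond.ev_ff y
  rw [rt_bitSt, rt_fold _ _ _ fun s hs => by have := rt_mem hs; omega] at h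
  have h1 : ∀ c < 2 ^ k, (((rtSt k).foldl (rtNx k (2 ^ k)) T).getD c 0 <
      ((rtSt k).foldl (rtNx k (2 ^ k)) T).getD b 0 + 1 ↔ c < n) := by
    intro c hc
    have h2 := h (ofN k c) fun j hj => absurd (by simp) hj
    rw [if_neg (by simp), rank_range', fld_eq, rtG, toN_ofN, pow_zero, Nat.div_one, Nat.mod_mod,
      Nat.mod_eq_of_lt hc, decide_eq_true_iff] at h2
    exact h2
  exact Nat.lt_succ_iff.1 ((h1 a (by omega)).2 (hab.trans_lt ((h1 b hb).1 (Nat.lt_succ_self _))))

theorem rt_swc {k l a : ℕ} {π : List ℕ} (hl : l < (rtSt k).length) (ha : a < π.length) :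
    swc (rtCs k π) l a = bif rtSw k (rtKT k π l) (rtSt k)[l] a then 1 else 0 := by
  rw [swc, rtCs, rt_getD _ hl, rt_getD _ ha, List.getD_eq_getElem _ _ hl]

theorem rt_jj {k l : ℕ} (hl : l < (rtSt k).length) :
    ((rtSt k).map Prod.fst).getD l 0 = (rtSt k)[l].1 := by
  rw [List.getD_eq_getElem _ _ (by simpa using hl), List.getElem_map]

theorem rt_pos {k m : ℕ} {π : List ℕ} (hπ : π.length = 2 ^ k) (hm : m < 2 ^ k) (l : ℕ)
    (hl : l ≤ (rtSt k).length) : pos k ((rtSt k).map Prod.fst) (rtCs k π) l m < 2 ^ k ∧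
      (rtKT k π l).getD (pos k ((rtSt k).map Prod.fst) (rtCs k π) l m) 0 = (rtK0 π).getD m 0 := by
  induction l with
  | zero => exact ⟨hm, rfl⟩
  | succ l ih =>
    obtain ⟨h1, h2⟩ := ih (by omega)
    have hs := List.getElem_mem (show l < (rtSt k).length from hl)
    obtain ⟨h3, h4⟩ := rt_mem hs
    have e : rtKT k π (l + 1) = rtNx k (2 ^ k) (rtKT k π l) (rtSt k)[l] := by
      rw [rtKT, List.take_succ_eq_append_getElem hl, List.foldl_append, hπ]
      rw [rtKT, hπ]
      rfl
    rw [pos, List.range_succ, List.foldl_append, List.foldl_cons, List.foldl_nil, ← pos, e,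
      rt_swc hl (hπ ▸ h1), rt_jj hl, min_eq_left (by omega)]
    generalize pos k ((rtSt k).map Prod.fst) (rtCs k π) l m = x at h1 h2 ⊢
    have h5 : x ^^^ 2 ^ (rtSt k)[l].1 < 2 ^ k :=
      Nat.xor_lt_two_pow h1 (Nat.pow_lt_pow_right one_lt_two (by omega))
    cases h6 : rtSw k (rtKT k π l) (rtSt k)[l] x
    · rw [cond_false, if_neg zero_ne_one, rtNx, rt_getD _ h1, h6]
      exact ⟨h1, h2⟩
    · rw [cond_true, if_pos rfl, rtNx, rt_getD _ h5, rt_sym hs, h6, cond_true,
        min_eq_left (by omega), Nat.xor_xor_cancel_right]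
      exact ⟨h5, h2⟩

theorem rt_K0 {π : List ℕ} (hn : π.Nodup) {a : ℕ} (ha : a < π.length)
    (hb : π.getD a 0 < π.length) : (rtK0 π).getD (π.getD a 0) 0 = a := by
  rw [rtK0, rt_getD _ hb]
  have h1 : ∀ l : List ℕ, a ∈ l → l.headD 0 ∈ l := fun l h => by
    cases l with
    | nil => exact absurd h List.not_mem_nil
    | cons b t => exact List.mem_cons_self
  obtain ⟨h2, h3⟩ := List.mem_filter.1 (h1 ((List.range π.length).filter fun c =>
    eqb (π.getD c 0) (π.getD a 0)) (List.mem_filter.2 ⟨List.mem_range.2 ha, by simp⟩))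
  rw [eqb_eq, decide_eq_true_iff] at h3
  exact hn.getElem_inj_iff.1 ((List.getD_eq_getElem _ 0 (List.mem_range.1 h2)).symm.trans
    (h3.trans (List.getD_eq_getElem _ 0 ha)))

theorem rt_ok (k : ℕ) {π : List ℕ} (h : π.Perm (List.range (2 ^ k))) :
    ROk k ((rtSt k).map Prod.fst) (rtCs k π) π := by
  have hπ : π.length = 2 ^ k := by rw [h.length_eq, List.length_range]
  have hlt : ∀ a < 2 ^ k, π.getD a 0 < 2 ^ k := fun a ha => by
    rw [List.getD_eq_getElem _ _ (hπ ▸ ha)]
    exact List.mem_range.1 (h.subset (List.getElem_mem _))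
  refine ⟨fun j hj => ?_, fun l a => ?_, fun l hl a ha => ?_, fun a ha => ⟨hlt a ha, ?_⟩⟩
  · obtain ⟨s, hs, rfl⟩ := List.mem_map.1 hj
    have := rt_mem hs
    omega
  · by_cases hl : l < (rtSt k).length
    · by_cases ha : a < π.length
      · rw [rt_swc hl ha]
        cases rtSw k (rtKT k π l) (rtSt k)[l] a <;> simp
      · rw [swc, rtCs, rt_getD _ hl, List.getD_eq_default _ _ (by simpa using ha)]
        exact zero_le_one
    · rw [swc, List.getD_eq_default (rtCs k π) _ (by simpa [rtCs] using hl)]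
      exact zero_le_one
  · rw [List.length_map] at hl
    have hs := List.getElem_mem hl
    obtain ⟨h3, h4⟩ := rt_mem hs
    have h5 : a ^^^ 2 ^ (rtSt k)[l].1 < 2 ^ k :=
      Nat.xor_lt_two_pow ha (Nat.pow_lt_pow_right one_lt_two (by omega))
    rw [rt_jj hl, rt_swc hl (ha.trans_eq hπ.symm), rt_swc hl (h5.trans_eq hπ.symm), rt_sym hs]
  · rw [List.length_map]
    have h1 := fun c hc => rt_pos hπ (hlt c hc) _ le_rfl
    have h2 : StrictMono fun c : Fin (2 ^ k) => (⟨_, (h1 c c.2).1⟩ : Fin (2 ^ k)) := by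
      intro c d hcd
      by_contra hn
      have h3 := rt_mono (rtK0 π) (Fin.le_def.1 (not_lt.1 hn)) (h1 c c.2).1
      have h4 := (h1 c c.2).2
      have h5 := (h1 d d.2).2
      rw [rt_K0 (h.nodup_iff.2 List.nodup_range) ((Fin.is_lt _).trans_eq hπ.symm)
        ((hlt _ (Fin.is_lt _)).trans_eq hπ.symm), rtKT, List.take_length, hπ] at h4 h5
      rw [h4, h5] at h3
      exact absurd hcd (not_lt.2 h3)
    exact congrArg Fin.val (h2.apply_eq (x := ⟨a, ha⟩))

section pt

variable {X : Type} [Enc X] {k N l a : X → ℕ} {T π : X → List ℕ} {s : X → ℕ × ℕ}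

theorem pt_rtSt (hk : PU k) : PT fun x => rtSt (k x) := by
  have h1 : PT fun p : X × ℕ => List.range (k p.1) := hk.range.comp PT.fst'
  refine (pt_flatMap (f := fun x i => ((List.range (k x)).take (i + 1)).reverse.map
    fun j => (j, i + 1)) (PT.map (by fun_prop) (pt_take (by fun_prop) h1).reverse)
    hk.range).congr fun x => List.flatMap_congr fun i hi => ?_
  rw [List.take_range, min_eq_left (List.mem_range.1 hi)]

theorem pt_rtX (hk : PU k) (hs : PT s) (ha : PT a) : PT fun x => a x ^^^ 2 ^ min (s x).1 (k x) :=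
  pt_xor ha (pt_two_pow (hk.of_le (pt_min hs.fst hk.pt) fun _ => min_le_right _ _))

theorem pt_rtSw (hk : PU k) (hT : PT T) (hs : PT s) (ha : PT a) :
    PT fun x => rtSw (k x) (T x) (s x) (a x) :=
  PT.cond ((pt_testBit ha hs.fst).xor (pt_testBit ha hs.snd))
    (PT.ltb (PT.getD hT ha (PT.const 0)) (PT.getD hT (pt_rtX hk hs ha) (PT.const 0)))
    (PT.ltb (PT.getD hT (pt_rtX hk hs ha) (PT.const 0)) (PT.getD hT ha (PT.const 0)))

theorem pt_rtNx (hk : PU k) (hN : PU N) (hT : PT T) (hs : PT s) :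
    PT fun x => rtNx (k x) (N x) (T x) (s x) :=
  PT.map (PT.cond (pt_rtSw (hk.comp PT.fst') (hT.comp PT.fst') (hs.comp PT.fst') PT.snd')
    (PT.getD (hT.comp PT.fst') (pt_rtX (hk.comp PT.fst') (hs.comp PT.fst') PT.snd') (PT.const 0))
    (PT.getD (hT.comp PT.fst') PT.snd' (PT.const 0))) hN.range

theorem pt_rtK0 (hπ : PT π) : PT fun x => rtK0 (π x) := by
  unfold rtK0
  fun_prop

theorem rt_bd (k N : ℕ) (m : List (ℕ × ℕ)) : ∀ T : List ℕ, T.length = N → (∀ c ∈ T, c ≤ N) →
    (m.foldl (rtNx k N) T).length = N ∧ ∀ c ∈ m.foldl (rtNx k N) T, c ≤ N := by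
  induction m with
  | nil => exact fun T h1 h2 => ⟨h1, h2⟩
  | cons s m ih =>
    intro T _ h2
    have h3 : ∀ i, T.getD i 0 ≤ N := fun i => by
      by_cases hi : i < T.length
      · rw [List.getD_eq_getElem _ _ hi]
        exact h2 _ (List.getElem_mem hi)
      · rw [List.getD_eq_default _ _ (not_lt.1 hi)]
        exact Nat.zero_le _
    refine ih _ (by simp [rtNx]) fun c hc => ?_
    obtain ⟨i, -, rfl⟩ := List.mem_map.1 hc
    cases rtSw k T s i
    · exact h3 _
    · exact h3 _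

theorem pt_rtKT (hk : PU k) (hπ : PT π) (hl : PT l) : PT fun x => rtKT (k x) (π x) (l x) := by
  obtain ⟨Q, hQ⟩ := hπ.size_le
  refine PT.foldl (f := fun x T s => rtNx (k x) (π x).length T s)
    (pt_rtNx (hk.comp PT.fst') (PU.len (hπ.comp PT.fst')) (by fun_prop) (by fun_prop))
    (pt_take hl (pt_rtSt hk)) (pt_rtK0 hπ) ⟨Q * (4 * Q + 1 + 1) + 1, fun x n => ?_⟩
  obtain ⟨h1, h2⟩ := rt_bd (k x) (π x).length (((rtSt (k x)).take (l x)).take n) (rtK0 (π x))
    (by simp [rtK0]) fun c hc => by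
      obtain ⟨i, -, rfl⟩ := List.mem_map.1 hc
      rcases headD_mem ((List.range (π x).length).filter fun a => eqb ((π x).getD a 0) i) 0
        with h | h
      · rw [h]
        exact Nat.zero_le _
      · exact (List.mem_range.1 (List.mem_filter.1 h).1).le
  have h3 : (π x).length ≤ Q.eval (sz x) := (length_lt_sz _).le.trans (hQ x)
  refine (ip_sz_list (h1.le.trans h3) fun c hc => ip_sz_nat ((h2 c hc).trans h3)).trans
    (le_of_eq ?_)
  simp

theorem pt_rtCs (hk : PU k) (hπ : PT π) : PT fun x => rtCs (k x) (π x) := by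
  have h1 : PU fun q : (X × ℕ) × ℕ => k q.1.1 := hk.comp (PT.fst PT.fst')
  refine PT.map (PT.map (PT.cond (pt_rtSw h1 (pt_rtKT h1 (hπ.comp (PT.fst PT.fst'))
    (PT.snd PT.fst')) (PT.getD (pt_rtSt h1) (PT.snd PT.fst') (PT.const _)) PT.snd') (PT.const _)
    (PT.const _)) (pt_rangeLen (hπ.comp PT.fst'))) (pt_rangeLen (pt_rtSt hk))

end pt

theorem route : RouteStmt :=
  ⟨fun u => (rtSt u.length).map Prod.fst, fun x => rtCs x.1.length x.2,
    PT.map (f := fun _ s => s.1) (PT.fst PT.snd') (pt_rtSt (PU.len PT.id)),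
    pt_rtCs (PU.len PT.fst') PT.snd', fun u =>
      ⟨(List.length_map _).trans_le (rt_len _), fun j hj => by
        obtain ⟨s, hs, rfl⟩ := List.mem_map.1 hj
        have := rt_mem hs
        omega, fun _ h => rt_ok _ h⟩⟩

end Vale.Agent.P330Q
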