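import Vale.Agent.P330Q.Net
import Vale.Agent.P330.Seq

/-! Pure circuits on a cube as instances (task SC); compare `P330/Seq.lean`.
Plan. First an instance of fan-in `W + 1` with `b = β = k0 = 0`, `ω = size M + 2`, `σ = ω + k`,
`τ = size M + 1`; the address number is `a * 2 ^ ω + 4 z + ρ`. Input `0` is always `Tr 0` (low window)
and every register that is not written copies it. Time `2 z` (`z < M`): register `(z, 0)` applies
`lab z a` to the registers `(z', 1)` (low window of the old gate) or `(z', 2)` (high window) of the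
processors `a + v`, read through the low window: translation
`(v % 2 ^ k) * 2 ^ ω + (4 z xor (4 z' + ρ))`. Time `2 z + 1`: `(z, 1)` copies `(z, 0)` through the low
window, `(z, 2)` through the high window (if `W < 2` use fan-in `W + 3`). Decoder: the value of
`(z, 0)` at time `2 z`. Call a processor sound if all its nodes at all times are satisfied; a pure
value persists cyclically in a sound processor until the register is written. If `a` and all
`a + v` are sound then all old nodes at `a` are satisfied: union bound over `1 + M W` translations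
(`expect_add_right'`), and the density of unsound processors is at most `2 ^ (τ + ω) * viol`.
Then apply `CompileStmt`. -/

namespace Vale.Agent.P330Q

open Vale.Agent.Lib.H23 Vale.Agent.P333 Vale.Agent.P325 Vale.Agent.P330 Vale.Agent.P330.Amp Finset

open scoped BigOperators

namespace SCI

variable {W : ℕ}

/-- number of processor bits (none if there is no gate) -/
def kk (C : SC W) : ℕ := if C.M = 0 then 0 else C.k

/-- number of register bits -/
def om (C : SC W) : ℕ := C.M.size + 2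

noncomputable def row (C : SC W) (z : ℕ) : (Fin W → ℕ × ℕ) × (Fin W → Bool) :=
  C.tab.2.1.getD z (fun _ => (0, 0), fun _ => false)

noncomputable def lb (C : SC W) (z a : ℕ) : Code ((Fin W → Bool) → Bool) :=
  C.tab.2.2.getD (z * 2 ^ kk C + a) ⟨fun _ => false⟩

def rho (w : Bool) : ℕ := if w then 2 else 1

noncomputable def tr (C : SC W) (z : ℕ) (i : Fin W) : ℕ :=
  2 ^ om C * (((row C z).1 i).2 % 2 ^ kk C) +
    (4 * z ^^^ (4 * ((row C z).1 i).1 + rho ((row C z).2 i)))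

def sel (t m : ℕ) : ℕ :=
  if t % 2 = 0 then (if m = 2 * t then 3 else 0)
  else if m + 1 = 2 * t then 1 else if m = 2 * t then 2 else 0

def labF (k : ℕ) (f : Code ((Fin W → Bool) → Bool)) : Code ((Fin (3 + W) → Bool) → Bool) :=
  if k = 0 then ⟨fun r => r (Fin.castAdd W 0)⟩ else if k = 1 then ⟨fun r => r (Fin.castAdd W 1)⟩
  else if k = 2 then ⟨fun r => r (Fin.castAdd W 2)⟩ else ⟨fun r => f.val fun i => r (Fin.natAdd 3 i)⟩

noncomputable def R (C : SC W) : Inst (3 + W) where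
  b := 0
  β := 0
  σ := om C + kk C
  τ := C.M.size + 1
  k0 := 0
  gens := fun _ => 0
  op t := Fin.append (fun j : Fin 3 => Op.Tr j) fun i => Op.Tr (tr C (t / 2) i)
  win _ := Fin.append (fun j : Fin 3 => decide (j = 2)) fun _ => false
  lab t a := (labF (sel t (toN a.2 % 2 ^ om C)) (lb C (t / 2) (toN a.2 / 2 ^ om C))).val

def D (p : (SC W × Asg) × ℕ × ℕ) : ℕ :=
  p.1.2.getD (2 * p.2.1 * 2 ^ (om p.1.1 + kk p.1.1) + (2 ^ om p.1.1 * p.2.2 + 4 * p.2.1)) 0

section pt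

variable {X : Type} [Enc X] {C : X → SC W} (hC : PT C)
include hC

theorem pt_tab : PT fun x => (C x).tab := hC.of_enc fun _ => rfl

theorem pu_M : PU fun x => (C x).M := PU.of_len (pt_tab hC).snd.fst fun _ => by simp [SC.tab]

theorem pu_kk : PU fun x => kk (C x) :=
  have h : PU fun x => (C x).k := (pt_tab hC).fst
  h.of_le (pt_ite (pt_decEq (pu_M hC).pt (PT.const 0)) (PT.const 0) h.pt) fun x => by
    unfold kk
    split_ifs <;> omega

theorem pu_pk : PU fun x => 2 ^ kk (C x) :=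
  ((PU.len (pt_tab hC).snd.snd).add (PU.const 1)).of_le (pt_two_pow (pu_kk hC)) fun x => by
    simp only [SC.tab, List.length_map, List.length_range, kk]
    split_ifs with h
    · omega
    · exact (Nat.le_mul_of_pos_left _ (by omega)).trans (Nat.le_succ _)

theorem pu_sz (c : ℕ) : PU fun x => (C x).M.size + c := (pu_size (pu_M hC).pt).add (PU.const c)

theorem pu_pw (c : ℕ) : PU fun x => 2 ^ ((C x).M.size + c) :=
  PU.of_le ((((PU.const 2).mul (pu_M hC)).add (PU.const 1)).mul (PU.const (2 ^ c)))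
    (pt_two_pow (pu_sz hC c)) fun x => by
      rw [pow_add]
      exact Nat.mul_le_mul_right _ (Seq.two_pow_size _)

theorem pu_N : PU fun x => 2 ^ (om (C x) + kk (C x)) :=
  PT.congr ((pu_pw hC 2).mul (pu_pk hC)) fun _ => congrArg List.range (pow_add _ _ _)

theorem pt_tr {z : X → ℕ} (hz : PT z) (i : Fin W) : PT fun x => tr (C x) (z x) i := by
  have h : PT fun x => row (C x) (z x) := PT.getD (pt_tab hC).snd.fst hz (PT.const _)
  have h1 := pt_apply h.fst i
  have h2 : PT fun x => rho ((row (C x) (z x)).2 i) :=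
    (PT.cond (pt_apply h.snd i) (PT.const 2) (PT.const 1)).congr fun x => by
      unfold rho
      cases (row (C x) (z x)).2 i <;> rfl
  exact PT.add (PT.mul (pu_pw hC 2).pt (pt_mod h1.snd (pu_pk hC).pt))
    (pt_xor (PT.mul (PT.const 4) hz) (PT.add (PT.mul (PT.const 4) h1.fst) h2))

theorem pt_lb {z a : X → ℕ} (hz : PT z) (ha : PT a) : PT fun x => lb (C x) (z x) (a x) :=
  PT.getD (pt_tab hC).snd.snd (PT.add (PT.mul hz (pu_pk hC).pt) ha) (PT.const _)

omit hC

theorem pt_sel {t m : X → ℕ} (ht : PT t) (hm : PT m) : PT fun x => sel (t x) (m x) := by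
  have h2 : PT fun x => 2 * t x := PT.mul (PT.const 2) ht
  exact pt_ite (Seq.pt_even ht 0) (pt_ite (pt_decEq hm h2) (PT.const 3) (PT.const 0))
    (pt_ite (pt_decEq (PT.add hm (PT.const 1)) h2)
    (PT.const 1) (pt_ite (pt_decEq hm h2) (PT.const 2) (PT.const 0)))

theorem pt_labF {k : X → ℕ} {f : X → Code ((Fin W → Bool) → Bool)} (hk : PT k) (hf : PT f) :
    PT fun x => labF (k x) (f x) :=
  pt_ite (pt_decEq hk (PT.const 0)) (PT.const _) (pt_ite (pt_decEq hk (PT.const 1)) (PT.const _)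
    (pt_ite (pt_decEq hk (PT.const 2)) (PT.const _)
      (pt_mk (fun (g : (Fin W → Bool) → Bool) (r : Fin (3 + W) → Bool) =>
        g fun i => r (Fin.natAdd 3 i)) hf)))

end pt

theorem pt_R : PT (R : SC W → _) := by
  refine pt_inst (PU.const 0) (PU.const 0) ((pu_sz PT.id 2).add (pu_kk PT.id)) (pu_sz PT.id 1)
    (PT.const 0) (PT.const (R (W := W) ⟨0, 0, fun _ _ => (0, 0), fun _ _ => false,
      fun _ _ _ => false⟩).gtab)
    (pu_pw PT.id 1) (pu_N PT.id) (fun i => ?_) (fun i => PT.const _) ?_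
  · have h := pt_val (PT.id (α := {p : SC W × ℕ // p.2 < 2 ^ (R p.1).τ}))
    refine Fin.addCases (fun j => ?_) (fun j => ?_) i
    · exact (PT.const (Op.Tr j)).congr fun _ => by simp only [R, Fin.append_left]
    · exact (pt_opTr (pt_tr h.fst (PT.div h.snd (PT.const 2)) j)).congr
        fun _ => by simp only [R, Fin.append_right]
  · have h := pt_val (PT.id (α := {p : SC W × ℕ × ℕ // p.2.1 < 2 ^ (R p.1).τ ∧ p.2.2 < (R p.1).nA}))
    have h1 := (pu_pw h.fst 2).pt
    refine (pt_labF (pt_sel h.snd.fst (pt_mod h.snd.snd h1))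
      (pt_lb h.fst (PT.div h.snd.fst (PT.const 2)) (PT.div h.snd.snd h1))).congr fun p => ?_
    change labF (sel _ (toN (unidx 0 0 _ p.1.2.2).2 % _)) (lb _ _ (toN (unidx 0 0 _ p.1.2.2).2 / _)) = _
    rw [toN_unidx_small, Nat.mod_eq_of_lt (b := 2 ^ (om p.1.1 + kk p.1.1)) p.2.2]
    rfl

theorem pt_D : PT (D : (SC W × Asg) × ℕ × ℕ → ℕ) := by
  have h1 : PT fun p : (SC W × Asg) × ℕ × ℕ => p.1.1 := PT.fst'.fst
  have h2 : PT fun p : (SC W × Asg) × ℕ × ℕ => p.2.1 := PT.snd'.fst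
  exact PT.getD PT.fst'.snd (PT.add (PT.mul (PT.mul (PT.const 2) h2) (pu_N h1).pt)
    (PT.add (PT.mul (pu_pw h1 2).pt PT.snd'.snd) (PT.mul (PT.const 4) h2))) (PT.const 0)

theorem xor_two {ω a v m u : ℕ} (hm : m < 2 ^ ω) (hu : u < 2 ^ ω) :
    (2 ^ ω * a + m) ^^^ (2 ^ ω * v + u) = 2 ^ ω * (a ^^^ v) + (m ^^^ u) := by
  refine Nat.eq_of_testBit_eq fun j => ?_
  rw [Nat.testBit_xor, Nat.testBit_two_pow_mul_add _ hm, Nat.testBit_two_pow_mul_add _ hu,
    Nat.testBit_two_pow_mul_add _ (Nat.xor_lt_two_pow hm hu)]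
  split_ifs <;> rw [Nat.testBit_xor]

/-- the address of a register of a processor -/
def ad (C : SC W) (a m : ℕ) : (R C).A := unidx 0 0 (om C + kk C) (2 ^ om C * a + m)

theorem act_ad (C : SC W) (a v : ℕ) {m u : ℕ} (hm : m < 2 ^ om C) (hu : u < 2 ^ om C) :
    act (R C).gens (.Tr (2 ^ om C * v + u)) (ad C a m) = ad C (a ^^^ v) (m ^^^ u) := by
  refine Prod.ext (funext fun l => l.elim0) ((ofN_xor _ _ _).symm.trans ?_)
  rw [xor_two hm hu]
  rfl

theorem ad_lt (C : SC W) {a m : ℕ} (ha : a < 2 ^ kk C) (hm : m < 2 ^ om C) :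
    2 ^ om C * a + m < 2 ^ (om C + kk C) := by
  have := Nat.mul_le_mul_left (2 ^ om C) (Nat.succ_le_of_lt ha)
  rw [Nat.mul_succ] at this
  rw [pow_add]
  omega

theorem reg_lt {C : SC W} {z : ℕ} (hz : z < C.M) :
    4 * z + 3 < 2 ^ om C ∧ 2 * z + 1 < 2 ^ (R C).τ := by
  have h1 : C.M < 2 ^ C.M.size := Nat.lt_size_self _
  have h4 : 2 ^ om C = 2 ^ C.M.size * 4 := pow_add _ _ _
  have h2 : 2 ^ (R C).τ = 2 ^ C.M.size * 2 := pow_add _ _ _
  omega

/-- sound processors -/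
def good (C : SC W) (x : ℕ → (R C).A → Val) (a : ℕ) : Prop :=
  ∀ m < 2 ^ om C, ∀ t < 2 ^ (R C).τ, (R C).sat x t (ad C a m)

section sound

variable {C : SC W} {x : ℕ → (R C).A → Val} {a : ℕ} (ha : a < 2 ^ kk C) (h : good C x a)
include ha h

theorem key {t m : ℕ} (ht : t < 2 ^ (R C).τ) (hm : m < 2 ^ om C) (β : Bool)
    (hβ : ∀ r : Fin (3 + W) → Bool,
      (∀ (j : Fin 3) γ, rd (decide (j = 2)) (x ((R C).prev t) (ad C a (m ^^^ j))) = some γ →
        r (Fin.castAdd W j) = γ) →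
      (∀ i γ, rd false (x ((R C).prev t) (act (R C).gens (.Tr (tr C (t / 2) i)) (ad C a m))) = some γ →
        r (Fin.natAdd 3 i) = γ) →
      (labF (sel t m) (lb C (t / 2) a)).val r = β) : x t (ad C a m) = pv β := by
  refine h m hm t ht β fun r hr => ?_
  have h0 : 0 < 2 ^ om C := Nat.two_pow_pos _
  change (labF (sel _ (toN (unidx 0 0 _ _).2 % _)) (lb _ _ (toN (unidx 0 0 _ _).2 / _))).val r = β
  rw [toN_unidx_small, Nat.mod_eq_of_lt (ad_lt C ha hm), Nat.mul_add_mod, Nat.mod_eq_of_lt hm,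
    Nat.mul_add_div h0, Nat.div_eq_of_lt hm, add_zero]
  refine hβ r (fun j γ e => hr _ γ ?_) fun i γ e => hr _ γ ?_
  · have h4 : 2 ^ om C = 2 ^ C.M.size * 4 := pow_add _ _ _
    have h5 := Nat.two_pow_pos C.M.size
    have h1 := act_ad C a 0 hm (show (j : ℕ) < 2 ^ om C by omega)
    rw [mul_zero, zero_add, Nat.xor_zero] at h1
    rw [← e, ← h1]
    simp only [R, Fin.append_left]
  · rw [← e]
    simp only [R, Fin.append_right]

theorem reg {z : ℕ} (hz : z < C.M) {w β : Bool} (h0 : rd w (x (2 * z) (ad C a (4 * z))) = some β)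
    (t : ℕ) : x ((R C).prev t) (ad C a (4 * z + rho w)) = pv β := by
  obtain ⟨h1, h2⟩ := reg_lt hz
  have h3 : rho w = 1 ∨ rho w = 2 := by cases w <;> simp [rho]
  refine Seq.cyc (P := fun t => x t (ad C a (4 * z + rho w)) = pv β) h2
    (key ha h h2 (by omega) β fun r h4 _ => ?_)
    (fun t ht hne e => key ha h ht (by omega) β fun r h4 _ => ?_) _ ((R C).prev_lt t)
  · rw [(R C).prev_succ h2] at h4
    cases w
    · rw [show sel (2 * z + 1) (4 * z + rho false) = 1 by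
        change sel _ (4 * z + 1) = 1; unfold sel; split_ifs <;> omega]
      refine h4 1 β ?_
      rwa [show (4 * z + rho false) ^^^ ((1 : Fin 3) : ℕ) = 4 * z from
        Nat.xor_one_of_odd ⟨2 * z, by unfold rho; simp; omega⟩]
    · rw [show sel (2 * z + 1) (4 * z + rho true) = 2 by
        change sel _ (4 * z + 2) = 2; unfold sel; split_ifs <;> omega]
      refine h4 2 β ?_
      have e := xor_two (ω := 2) (a := z) (v := 0) (m := 2) (u := 2) (by norm_num) (by norm_num)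
      rwa [show (4 * z + rho true) ^^^ ((2 : Fin 3) : ℕ) = 4 * z by simpa [rho] using e]
  · rw [show sel t (4 * z + rho w) = 0 by unfold sel; split_ifs <;> omega]
    refine h4 0 β ?_
    rw [show (4 * z + rho w) ^^^ ((0 : Fin 3) : ℕ) = 4 * z + rho w from Nat.xor_zero _,
      show x ((R C).prev t) (ad C a (4 * z + rho w)) = pv β from e, rd_pv]

end sound

theorem sound {C : SC W} (hC : C.WF) {x : ℕ → (R C).A → Val} {z : ℕ} (hz : z < C.M) {a : Vec C.k}
    (h : good C x (toN a)) (h2 : ∀ i, good C x (toN (a + ofN C.k (C.src z i).2))) :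
    C.sat (fun z a => x (2 * z) (ad C (toN a) (4 * z))) z a := by
  have hk : kk C = C.k := if_neg (by omega)
  have hlt : ∀ v : Vec C.k, toN v < 2 ^ kk C := fun v => by rw [hk]; exact toN_lt v
  obtain ⟨h3, h4⟩ := reg_lt hz
  intro β hβ
  refine key (hlt a) h (by omega) (by omega) β fun r _ hr => ?_
  have e2 : 2 * z / 2 = z := by omega
  have e3 : row C z = (C.src z, C.win z) := by
    rw [row, List.getD_eq_getElem _ _ (by simpa [SC.tab] using hz)]
    simp [SC.tab]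
  have e4 : (lb C z (toN a)).val = C.lab z (toN a) := by
    have h5 := toN_lt a
    have h6 : z * 2 ^ C.k + toN a < C.M * 2 ^ C.k := by
      have := Nat.mul_le_mul_right (2 ^ C.k) (Nat.succ_le_of_lt hz)
      rw [Nat.succ_mul] at this
      omega
    rw [lb, hk, List.getD_eq_getElem _ _ (by simpa [SC.tab] using h6)]
    simp only [SC.tab, List.getElem_map, List.getElem_range]
    rw [add_comm, Nat.add_mul_div_right _ _ (Nat.two_pow_pos _), Nat.add_mul_mod_self_right,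
      Nat.div_eq_of_lt h5, Nat.mod_eq_of_lt h5, zero_add]
  rw [e2] at hr
  rw [show sel (2 * z) (4 * z) = 3 by unfold sel; split_ifs <;> omega, e2]
  change (lb C z (toN a)).val _ = β
  rw [e4]
  refine hβ _ fun i γ e => hr i γ ?_
  obtain ⟨h5, -⟩ := reg_lt (hC z hz i)
  have h6 : rho (C.win z i) ≤ 2 := by unfold rho; split_ifs <;> omega
  rw [tr, e3, act_ad C _ _ (by omega) (Nat.xor_lt_two_pow (by omega) (by dsimp only; omega)),
    Nat.xor_xor_cancel_left, hk, ← toN_ofN, ← toN_add, reg (hlt _) (h2 i) (hC z hz i) e, rd_pv]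

theorem ind_sum {ι : Type} (s : Finset ι) {p : Prop} {q : ι → Prop} (h : p → ∃ i ∈ s, q i) :
    ind p ≤ ∑ i ∈ s, ind (q i) := by
  by_cases hp : p
  · obtain ⟨i, hi, hq⟩ := h hp
    rw [ind_of hp, ← ind_of hq]
    exact single_le_sum (f := fun i => ind (q i)) (fun j _ => ind_nonneg _) hi
  · rw [ind_of_not hp]
    exact sum_nonneg fun _ _ => ind_nonneg _

theorem dens {C : SC W} (hk : kk C = C.k) (x : ℕ → (R C).A → Val) :
    (𝔼 a : Vec C.k, ind (¬ good C x (toN a))) ≤ 2 ^ om C * (2 ^ (R C).τ * (R C).viol x) := by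
  set g : ℕ → ℝ := fun n =>
    ind (∃ t < 2 ^ (R C).τ, ¬ (R C).sat x t (unidx 0 0 (om C + kk C) n)) with hg
  have h1 : (𝔼 a : (R C).A, ind (∃ t < 2 ^ (R C).τ, ¬ (R C).sat x t a)) =
      𝔼 a : Fin (2 ^ C.k), 𝔼 m : Fin (2 ^ om C), g (2 ^ om C * a + m) := by
    rw [expect_addr, ib_expect2 _ _ fun a m => g (2 ^ om C * a + m)]
    simp only [Nat.div_add_mod]
    rw [← pow_add, add_comm C.k, ← hk, sum_range, expect_eq_sum_div_card, card_univ,
      Fintype.card_fin]
    rfl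
  refine le_trans ?_ (mul_le_mul_of_nonneg_left ((R C).expect_flt x) (by positivity))
  rw [h1, expect_vec, mul_expect]
  refine expect_le_expect fun a _ => ?_
  rw [toN_ofN, Nat.mod_eq_of_lt a.2, expect_eq_sum_div_card, card_univ, Fintype.card_fin,
    Nat.cast_pow, Nat.cast_ofNat, mul_div_cancel₀ _ (by positivity)]
  refine ind_sum _ fun hn => ?_
  simp only [good, not_forall] at hn
  obtain ⟨m, hm, t, ht, hn⟩ := hn
  exact ⟨⟨m, hm⟩, mem_univ _, t, ht, hn⟩

theorem main {C : SC W} (hC : C.WF) (s : Asg) : (𝔼 a : Vec C.k, ind (∃ z < C.M,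
      ¬ C.sat (fun z a => Fin.ofNat 4 (D ((C, s), z, toN a))) z a)) ≤
    ((1 + C.M * W) * (2 ^ om C * 2 ^ (R C).τ) : ℕ) * (R C).violA s := by
  by_cases hM : C.M = 0
  · rw [expect_eq_zero fun a _ => ind_of_not (by omega)]
    exact mul_nonneg (Nat.cast_nonneg _) ((R C).viol_nonneg _)
  have hk : kk C = C.k := if_neg hM
  have hD : ∀ z < C.M, ∀ a : Vec C.k, Fin.ofNat 4 (D ((C, s), z, toN a)) =
      (R C).val s (2 * z) (ad C (toN a) (4 * z)) := fun z hz a => by
    have e : idx (ad C (toN a) (4 * z)) = 2 ^ om C * toN a + 4 * z :=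
      idx_unidx (ad_lt C (by rw [hk]; exact toN_lt a) (by have := (reg_lt hz).1; omega))
    rw [Inst.val, e]
    rfl
  have h1 : ∀ a : Vec C.k, ind (∃ z < C.M,
      ¬ C.sat (fun z a => Fin.ofNat 4 (D ((C, s), z, toN a))) z a) ≤
      ind (¬ good C ((R C).val s) (toN a)) + ∑ p ∈ range C.M ×ˢ (univ : Finset (Fin W)),
        ind (¬ good C ((R C).val s) (toN (a + ofN C.k (C.src p.1 p.2).2))) := fun a => by
    refine le_trans (ind_mono ?_) ((ind_or_le _ _).trans (add_le_add le_rfl (ind_sum _ id)))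
    rintro ⟨z, hz, hn⟩
    by_contra hc
    simp only [not_or, not_not, not_exists, not_and] at hc
    have h2 := sound hC hz hc.1 fun i => hc.2 (z, i) (by simpa using hz)
    refine hn ?_
    unfold SC.sat at h2 ⊢
    simp only [hD z hz, hD _ (hC z hz _)]
    exact h2
  have h2 : ∀ v : Vec C.k, (𝔼 a : Vec C.k, ind (¬ good C ((R C).val s) (toN (a + v)))) =
      𝔼 a : Vec C.k, ind (¬ good C ((R C).val s) (toN a)) := fun v =>
    Fintype.expect_equiv (Equiv.addRight v) _ _ fun _ => rfl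
  refine (expect_le_expect fun a _ => h1 a).trans ?_
  rw [expect_add_distrib, expect_sum_comm]
  simp only [h2]
  rw [sum_const, card_product, card_range, card_univ, Fintype.card_fin, nsmul_eq_mul, ← one_add_mul]
  refine (mul_le_mul_of_nonneg_left (dens hk _) (by positivity)).trans (le_of_eq ?_)
  rw [Inst.violA]
  push_cast
  ring

theorem le_pw (M n j c : ℕ) (h : n + j ≤ c) : n * (M + 2) ^ j ≤ (M + 2) ^ c :=
  calc n * (M + 2) ^ j ≤ (M + 2) ^ n * (M + 2) ^ j :=
        Nat.mul_le_mul_right _ (Nat.lt_two_pow_self.le.trans (Nat.pow_le_pow_left (by omega) _))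
    _ ≤ (M + 2) ^ c := by
        rw [← pow_add]
        exact Nat.pow_le_pow_right (by omega) h

end SCI

theorem sc_pt {W : ℕ} {D : Inst (3 + W) × Asg → Asg} (hD : PT D) :
    PT fun p : (SC W × Asg) × ℕ × ℕ => SCI.D ((p.1.1, D (SCI.R p.1.1, p.1.2)), p.2) := by
  have p1 : PT fun p : (SC W × Asg) × ℕ × ℕ => p.1.1 := PT.fst'.fst
  have p0 : PT fun p : (SC W × Asg) × ℕ × ℕ => SCI.R p.1.1 := PT.comp (f := SCI.R) SCI.pt_R p1
  have p2 : PT fun p : (SC W × Asg) × ℕ × ℕ => D (SCI.R p.1.1, p.1.2) :=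
    PT.comp (f := D) hD (p0.pair PT.fst'.snd)
  exact PT.comp (f := SCI.D) SCI.pt_D ((p1.pair p2).pair PT.snd')

theorem sc_size {W : ℕ} (C : SC W) : 2 ^ SCI.om C ≤ 8 * (C.M + 2) ∧
    2 ^ (SCI.R C).τ ≤ 4 * (C.M + 2) ∧ 2 ^ SCI.kk C ≤ 2 ^ C.k := by
  have b0 := Seq.two_pow_size C.M
  refine ⟨?_, ?_, Nat.pow_le_pow_right (by omega) ?_⟩
  · rw [show 2 ^ SCI.om C = 2 ^ C.M.size * 4 from pow_add _ _ _]
    omega
  · rw [show 2 ^ (SCI.R C).τ = 2 ^ C.M.size * 2 from pow_add _ _ _]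
    omega
  · unfold SCI.kk
    split_ifs <;> omega

theorem sc_a {σ ω k k2 K M c : ℕ} (h : σ ≤ ω + k + K) (b1 : 2 ^ ω ≤ 8 * (M + 2))
    (b3 : 2 ^ k ≤ 2 ^ k2) (hc : 8 * 2 ^ K + 1 ≤ c) : 2 ^ σ ≤ 2 ^ k2 * (M + 2) ^ c :=
  calc 2 ^ σ ≤ 2 ^ ω * 2 ^ k * 2 ^ K := by
        rw [← pow_add, ← pow_add]
        exact Nat.pow_le_pow_right (by omega) h
    _ ≤ 8 * (M + 2) * 2 ^ k2 * 2 ^ K := by gcongr
    _ = 2 ^ k2 * (8 * 2 ^ K * (M + 2) ^ 1) := by ring
    _ ≤ _ := Nat.mul_le_mul_left _ (SCI.le_pw _ _ _ _ hc)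

theorem sc_b {a b K M c : ℕ} (h : a ≤ K * b) (b2 : b ≤ 4 * (M + 2)) (hc : 4 * K + 1 ≤ c) :
    a ≤ (M + 2) ^ c :=
  calc a ≤ K * (4 * (M + 2)) := h.trans (Nat.mul_le_mul_left _ b2)
    _ = 4 * K * (M + 2) ^ 1 := by ring
    _ ≤ _ := SCI.le_pw _ _ _ _ hc

theorem sc_c {a b K M W c : ℕ} (b1 : a ≤ 8 * (M + 2)) (b2 : b ≤ 4 * (M + 2))
    (hc : 32 * (W + 1) * K + 3 ≤ c) : (1 + M * W) * (a * b) * K ≤ (M + 2) ^ c := by
  have b4 : 1 + M * W ≤ (W + 1) * (M + 2) := by nlinarith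
  calc (1 + M * W) * (a * b) * K
      ≤ (W + 1) * (M + 2) * (8 * (M + 2) * (4 * (M + 2))) * K := by gcongr
    _ = 32 * (W + 1) * K * (M + 2) ^ 3 := by ring
    _ ≤ _ := SCI.le_pw _ _ _ _ hc

theorem sc (hC : CompileStmt) : SCStmt := by
  intro W
  obtain ⟨K, R, h1, hR, D, hD, h2⟩ := hC (3 + W)
  obtain ⟨c, c1, c2, c3⟩ : ∃ c, 8 * 2 ^ K + 1 ≤ c ∧ 4 * K + 1 ≤ c ∧ 32 * (W + 1) * K + 3 ≤ c :=
    ⟨32 * (W + 1) * K + 8 * 2 ^ K + 4 * K + 3, by omega, by omega, by omega⟩
  refine ⟨c, fun C => R (SCI.R C), _, PT.comp (f := R) hR SCI.pt_R, sc_pt hD, fun C => ?_⟩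
  obtain ⟨a1, -, -, a2, a3, -⟩ := h1 (SCI.R C)
  obtain ⟨b1, b2, b3⟩ := sc_size C
  refine ⟨a1, sc_a a2 b1 b3 c1, sc_b a3 b2 c2, fun hW s => ?_⟩
  refine (SCI.main hW (D (SCI.R C, s))).trans ?_
  refine (mul_le_mul_of_nonneg_left (h2 (SCI.R C) s) (Nat.cast_nonneg _)).trans ?_
  rw [← mul_assoc, ← Nat.cast_mul]
  exact mul_le_mul_of_nonneg_right (Nat.cast_le.2 (sc_c b1 b2 c3)) (Inst.viol_nonneg _ _)

end Vale.Agent.P330Q
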