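import Vale.Agent.P330Q.WNc

/-! Networks of words as instances: soundness of the circuit `net` and the assembly. The possible
readings of a node are those that agree with the pure values of its output nodes; a processor is
good if all its local nodes are satisfied. -/

namespace Vale.Agent.P330Q

open Vale.Agent.Lib.H23 Vale.Agent.P333 Vale.Agent.P325 Vale.Agent.P330 Vale.Agent.P330.Amp Finset

section sound

variable {X : Type} [Enc X] {W : ℕ} {cl : List Unit × List Unit → GC (W + 3)}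
  {out : (List Unit × List Unit) × ℕ → ℕ} {N : WN X} {x : ℕ → Vec N.k → Val} {a : Vec N.k} {t : ℕ}

/-- the padded label of a node -/
def lbl (N : WN X) (t a : ℕ) : List Bool := labBits (nL N) (un N.κ, un N.w, un N.d, N.lab t a)

theorem length_lbl (t a : ℕ) : (lbl N t a).length = nL N := by simp [lbl, labBits]

theorem hf_copy {ρ : Fin (W + 3) → Option Bool} {y : Val} {γ : Bool}
    (h : HF ρ (fun r => r 0) y) (e : ρ 0 = some γ) : y = pv γ := h γ fun _ hr => hr 0 γ e

theorem loc (ht : t < N.T) (G : ∀ z < nM cl N, (net cl out N).sat x z a)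
    (hC : (cl (uv N)).Ok (nD N + nL N))
    (ho : ∀ i, out (uv N, i) < nD N + nL N + (cl (uv N)).length) :
    Loc (cl (uv N)) (nD N) (nK N) (N.w * N.κ) (lbl N t (toN a)) (fun o => out (uv N, o))
      fun k v p h => x (nm (nB cl N) t k v p h) a := by
  have hB : nB cl N = nK N + nD N + nL N + (cl (uv N)).length + N.w * N.κ + 3 := rfl
  have S : ∀ k v p h, k < nB cl N → v < nB cl N → p < nB cl N → h < nB cl N → _ :=
    fun k v p h hk hv hp hh => net_sat cl out N hk hv hp hh (G _ (nm_lt cl N ht hk hv hp hh))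
  have E : ∀ k v p h, k < nB cl N → v < nB cl N → p < nB cl N → h < nB cl N →
      nm (nB cl N) t k v p h % nM cl N = nm (nB cl N) t k v p h :=
    fun k v p h hk hv hp hh => Nat.mod_eq_of_lt (nm_lt cl N ht hk hv hp hh)
  refine ⟨fun e he v hv γ h => ?_, fun e he v hv γ h => ?_, fun v hv y hy => ?_,
    fun v hv g hg => ?_, fun o h1 v hv => ?_, fun o h1 h hh => ?_, fun o h1 v hv h hh => ?_⟩
  · refine hf_copy (S 0 (v + 1) e 0 (by omega) (by omega) (by omega) (by omega)) ?_
    simpa [lsrc, ofN_zero, E 0 v e 0 (by omega) (by omega) (by omega) (by omega)] using h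
  · have h2 := S 1 v e 0 (by omega) (by omega) (by omega) (by omega)
    simp only [llab, one_ne_zero, if_false, if_true, if_pos he] at h2
    refine hf_copy h2 ?_
    simpa [lsrc, he, ofN_zero, E 0 v e 0 (by omega) (by omega) (by omega) (by omega)] using h
  · rw [length_lbl] at hy
    have h2 := S 1 v (nD N + y) 0 (by omega) (by omega) (by omega) (by omega)
    simp only [llab, one_ne_zero, if_false, if_true, if_neg (show ¬ nD N + y < nD N by omega),
      if_pos (show nD N + y < nD N + nL N by omega), Nat.add_sub_cancel_left] at h2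
    have h3 : (lbl N t (toN a)).getD y false = lbit N t (toN a) y := by
      rw [lbl, labBits, getD_range _ _ hy, lbit, WN.tL_eq N ht (toN_lt a)]
      rfl
    refine h2 _ fun r _ => ?_
    rw [h3]
    cases lbit N t (toN a) y <;> rfl
  · rw [length_lbl]
    have h2 := S 1 v (nD N + nL N + g) 0 (by omega) (by omega) (by omega) (by omega)
    have h3 : gat cl N (nD N + nL N + g) = (cl (uv N))[g] := by
      rw [gat, Nat.add_sub_cancel_left, List.getD_eq_getElem _ _ hg]
    have h4 : ∀ i, _ := fun i => E 1 v ((cl (uv N))[g].1 i) 0 (by omega) (by omega)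
      (by have := hC g hg i; omega) (by omega)
    simpa [llab, lsrc, show ¬ nD N + nL N + g < nD N by omega, h3, h4, ofN_zero] using h2
  · exact S 2 v o 0 (by omega) (by omega) (by omega) (by omega) true fun _ _ => rfl
  · exact S 2 0 o (h + 1) (by omega) (by omega) (by omega) (by omega) false fun _ _ => rfl
  · have h2 := S 2 (v + 1) o (h + 1) (by omega) (by omega) (by omega) (by omega)
    have e0 := E 2 v o (h + 1) (by omega) (by omega) (by omega) (by omega)
    have e1 := E 1 v (out (uv N, o)) 0 (by omega) (by omega) (by have := ho o; omega) (by omega)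
    have e2 := E 2 v o h (by omega) (by omega) (by omega) (by omega)
    have n1 : (1 : Fin (W + 3)) ≠ 0 := by simp
    have n2 : (2 : Fin (W + 3)) ≠ 0 := Fin.ne_of_val_ne (by rw [Fin.val_two]; simp)
    have n3 : (2 : Fin (W + 3)) ≠ 1 := Fin.ne_of_val_ne (by rw [Fin.val_two]; simp)
    have key : ∀ r : Fin (W + 3) → Bool, Res (fun i => rd (decide (2 = 0))
        (x ((lsrc cl out N t 2 (v + 1) o (h + 1) i).1 % nM cl N)
          (a + ofN N.k (lsrc cl out N t 2 (v + 1) o (h + 1) i).2))) r → ∀ γ,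
        (x (nm (nB cl N) t 2 v o (h + 1)) a = pv γ → r 0 = γ) ∧
        (x (nm (nB cl N) t 1 v (out (uv N, o)) 0) a = pv γ → r 1 = γ) ∧
        (x (nm (nB cl N) t 2 v o h) a = pv γ → r 2 = γ) := fun r hr γ =>
      ⟨fun e => hr 0 γ (by simp [lsrc, e0, e, ofN_zero, rd_pv]),
        fun e => hr 1 γ (by simp [lsrc, e1, e, ofN_zero, rd_pv]),
        fun e => hr 2 γ (by simp [lsrc, n2, n3, e2, e, ofN_zero, rd_pv])⟩
    refine ⟨fun h3 => h2 true fun r hr => ?_, fun h3 h4 => h2 false fun r hr => ?_⟩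
    · obtain ⟨k0, k1, k2⟩ := key r hr true
      show (r 0 || (r 1 && r 2)) = true
      rcases h3 with h3 | ⟨h3, h4⟩
      · simp [k0 h3]
      · simp [k1 h3, k2 h4]
    · obtain ⟨k0, k1, k2⟩ := key r hr false
      show (r 0 || (r 1 && r 2)) = false
      rcases h4 with h4 | h4
      · simp [k0 h3, k1 h4]
      · simp [k0 h3, k2 h4]

omit [Enc X] in
theorem outN_lt (ht : t < N.T) {j o : ℕ} (hj : j < 64) (ho : o < N.w * N.κ) :
    outN cl N t j o < nM cl N := by
  have hB : nB cl N = nK N + nD N + nL N + (cl (uv N)).length + N.w * N.κ + 3 := rfl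
  have hK : nK N = 65 * (nD N + 1) := rfl
  have h0 := Nat.mul_le_mul_right (nD N + 1) (show j + 1 ≤ 64 by omega)
  exact nm_lt cl N ht (by omega) (by omega) (by omega) (by omega)

omit [Enc X] in
theorem idx_lt_nD {s l j o : ℕ} (hs : s < 3) (hl : l < N.d) (hj : j < 64) (ho : o < N.w * N.κ) :
    ((s * N.d + l) * 64 + j) * (N.w * N.κ) + o < nD N := dig_lt (dig_lt (dig_lt hs hl) hj) ho

theorem ch0 (hN : N.WF) (ht : t < N.T) (G : ∀ z < nM cl N, (net cl out N).sat x z a)
    {s l j o : ℕ} (hs : s < 3) (hl : l < N.d) (hj : j < 64) (ho : o < N.w * N.κ) {γ : Bool}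
    (h : x (outN cl N (N.src t s) j o) (a + ofN N.k (N.V t l)) = pv γ) :
    x (nm (nB cl N) t 0 0 (((s * N.d + l) * 64 + j) * (N.w * N.κ) + o) 0) a = pv γ := by
  have hB : nB cl N = nK N + nD N + nL N + (cl (uv N)).length + N.w * N.κ + 3 := rfl
  have he := idx_lt_nD hs hl hj ho
  refine hf_copy (net_sat cl out N (k := 0) (v := 0) (h := 0)
    (p := ((s * N.d + l) * 64 + j) * (N.w * N.κ) + o) (by omega) (by omega) (by omega) (by omega)
    (G _ (nm_lt cl N ht (by omega) (by omega) (by omega) (by omega)))) ?_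
  simp only [lsrc, if_true, dig_div ho, dig_div hj, dig_div hl, Nat.mul_add_mod_of_lt ho,
    Nat.mul_add_mod_of_lt hj, Nat.mul_add_mod_of_lt hl, WN.tS_eq N ht hs, WN.tV_eq N ht hl,
    Nat.mod_eq_of_lt (outN_lt ((hN t ht).1 s hs) hj ho), h, rd_pv]

variable (cl x) in
/-- the possible readings -/
def rdS (t : ℕ) (a : Vec N.k) : Set Rd :=
  {ρ | Shape N.w N.κ ρ ∧ ∀ j < 64, ∀ c < N.w, ∀ i < N.κ, ∀ γ,
    x (outN cl N t j (c * N.κ + i)) a = pv γ → (wd ρ j c).testBit i = γ}

omit [Enc X] in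
theorem mkRd_mem {b : ℕ → ℕ → Bool}
    (h : ∀ j < 64, ∀ o < N.w * N.κ, ∀ γ, x (outN cl N t j o) a = pv γ → b j o = γ) :
    mkRd N.w N.κ b ∈ rdS cl x t a :=
  ⟨shape_mkRd _ _ _, fun j hj c hc i hi γ e => by
    rw [bit_mkRd _ hj hc hi]; exact h j hj _ (dig_lt hc hi) γ e⟩

theorem dec_pv (γ : Bool) : decide (pv γ = 3) = γ := by cases γ <;> rfl

/-- the system of readings given by an assignment -/
theorem sys {g : Inp × X → List ℕ} (hN : N.WF) (x : ℕ → Vec N.k → Val)
    (hC : (cl (uv N)).Ok (nD N + nL N))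
    (ho : ∀ i, out (uv N, i) < nD N + nL N + (cl (uv N)).length)
    (hg : ∀ (l : List Bool) (y : XL X), l.length = nD N → sz y ≤ nL N →
      ∀ i < (fB g (l, y)).length, ((cl (uv N)).wires (l ++ labBits (nL N) y)).getD
        (out (uv N, i)) false = (fB g (l, y)).getD i false) :
    ∃ Y : Sys N g, Y.S = rdS cl x ∧ Y.good = fun a => ∀ z < nM cl N, (net cl out N).sat x z a := by
  have V : ∀ t < N.T, ∀ a : Vec N.k, (∀ z < nM cl N, (net cl out N).sat x z a) → ∀ v < nK N,
      (∀ e < nD N, Pur (x (nm (nB cl N) t 1 v e 0) a)) → ∃ r, N.Adm (rdS cl x) t a r ∧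
        ∀ c < N.w, ∀ i < N.κ, x (nm (nB cl N) t 1 v (out (uv N, c * N.κ + i)) 0) a =
          pv (((g (r, N.lab t (toN a))).getD c 0).testBit i) := by
    intro t ht a G v hv hp
    have L := loc ht G hC ho
    set u := (List.range (nD N)).map fun e => decide (x (nm (nB cl N) t 1 v e 0) a = 3) with hu
    refine ⟨parse N.κ N.w N.d u, ⟨by simp [parse], fun s hs => ?_⟩, fun c hc i hi => ?_⟩
    · rw [parse, getD_range _ _ hs]
      refine ⟨by simp, fun l hl => ?_⟩
      rw [rdg, getD_range _ _ hs, getD_range _ _ hl]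
      refine mkRd_mem fun j hj o h1 γ e => ?_
      have he := idx_lt_nD hs hl hj h1
      rw [hu, getD_range _ _ he, L.leaf_pure he (ch0 hN ht G hs hl hj h1 e) hv, dec_pv]
    · have h1 := L.eval (by rw [length_lbl]; exact hC) hv hp (out (uv N, c * N.κ + i))
        (by rw [length_lbl]; exact ho _)
      have h2 := hg u (un N.κ, un N.w, un N.d, N.lab t (toN a)) (by simp [hu]) (by
        have := (hN t ht).2 _ (toN_lt a)
        simp only [sz_pair, sz_un, nL]
        omega) (c * N.κ + i) (by simpa [fB] using dig_lt hc hi)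
      rw [h1, lbl, h2]
      simp only [fB, length_un]
      rw [getD_range _ _ (dig_lt hc hi), dig_div hi, Nat.mul_add_mod_of_lt hi]
  have B : ∀ t < N.T, ∀ a : Vec N.k, (∀ z < nM cl N, (net cl out N).sat x z a) →
      ∀ c < N.w, ∀ i < N.κ, ∃ b, ∀ ρ ∈ rdS cl x t a, ∀ j < 64, (j < b → (wd ρ j c).testBit i = true) ∧
        (b < j → (wd ρ j c).testBit i = false) := by
    intro t ht a G c hc i hi
    obtain ⟨b, hb⟩ := (loc ht G hC ho).levels rfl (dig_lt hc hi) fun v hv hp => by
      obtain ⟨r, -, h⟩ := V t ht a G v hv hp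
      exact ⟨_, h c hc i hi⟩
    exact ⟨b, fun ρ hρ j hj => ⟨fun h => hρ.2 j hj c hc i hi _ ((hb j hj).1 h),
      fun h => hρ.2 j hj c hc i hi _ ((hb j hj).2 h)⟩⟩
  refine ⟨⟨rdS cl x, fun a => ∀ z < nM cl N, (net cl out N).sat x z a,
    fun t a => ⟨_, mkRd_mem (b := fun j o => decide (x (outN cl N t j o) a = 3))
      fun j _ o _ γ e => by rw [e, dec_pv]⟩, fun t a ρ hρ => hρ.1,
    fun t ht a G c hc n hn h ρ hρ j hj => ?_,
    fun t ht a G c hc i j l hi hj hl ρ hρ ρ' hρ' e => ?_, fun t ht a G c hc => ?_⟩, rfl, rfl⟩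
  · refine eq_of_bits (hρ.1.lt hj hc) hn fun i hi => hρ.2 j hj c hc i hi _ ?_
    refine (loc ht G hC ho).all_levels rfl (dig_lt hc hi) _ (fun v hv hp => ?_) hj
    obtain ⟨r, h1, h2⟩ := V t ht a G v hv hp
    rw [← h r h1]
    exact h2 c hc i hi
  · refine eq_of_bits (hρ'.1.lt (by omega) hc) (hρ.1.lt (by omega) hc) fun m hm => ?_
    obtain ⟨b, hb⟩ := B t ht a G c hc m hm
    have h1 := hb ρ hρ i (by omega)
    have h2 := hb ρ hρ l hl
    have h3 := hb ρ' hρ' j (by omega)
    rw [← e] at h2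
    rcases lt_trichotomy j b with h | h | h
    · rw [h3.1 h, h1.1 (by omega)]
    · exact absurd ((h1.1 (by omega)).symm.trans (h2.2 (by omega))) (by simp)
    · rw [h3.2 h, h2.2 (by omega)]
  · rcases Nat.eq_zero_or_pos N.κ with h0 | h0
    · refine ⟨0, fun ρ hρ => ?_⟩
      have h1 := sum_levels (fun j => wd ρ j c % 2) 0 64 fun j hj => by
        have h2 := hρ.1.lt hj hc
        rw [h0, pow_zero] at h2
        omega
      exact ⟨Nat.zero_le _, h1.2.1⟩
    · obtain ⟨b, hb⟩ := B t ht a G c hc 0 h0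
      refine ⟨min b 64, fun ρ hρ => ?_⟩
      have h1 := sum_levels (fun j => wd ρ j c % 2) b 64 fun j hj => by
        have h2 := hb ρ hρ j hj
        simp only [Nat.testBit_zero, decide_eq_true_eq, decide_eq_false_iff_not] at h2
        omega
      exact ⟨h1.1, h1.2.1⟩

end sound

theorem wn (hL : CLStmt) (hS : SCStmt) : WNStmt := by
  intro X _ g hg
  obtain ⟨W, c, cl, out, hW, hcl, hout, H⟩ := hL (XL X) (fB g) (pt_fB hg)
  obtain ⟨W, rfl⟩ := Nat.exists_eq_add_of_le' hW
  obtain ⟨c', R, D, hR, hD, H'⟩ := hS (W + 3)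
  obtain ⟨e, he⟩ := (pb_nM (X := X) fun u v => (H u v).1).pow c'
  have hn := pt_net (X := X) hcl hout
  refine ⟨e, fun N => R (net cl out N), fun q => mkRd q.1.1.w q.1.1.κ fun j o =>
    decide (D ((net cl out q.1.1, q.1.2), outN cl q.1.1 q.2.1 j o, q.2.2) % 4 = 3), hR.comp hn,
    ?_, fun N => ?_⟩
  · refine pt_mkRd (WN.pu_w.comp PT.fst'.fst) (WN.pu_κ.comp PT.fst'.fst)
      (pt_decEq (pt_mod (hD.comp ?_) (PT.const 4)) (PT.const 3))
    exact ((hn.comp PT.fst'.fst.fst).pair PT.fst'.fst.snd).pair ((pt_outN hcl PT.fst'.fst.fst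
      PT.fst'.snd.fst PT.snd'.fst PT.snd'.snd).pair PT.fst'.snd.snd)
  obtain ⟨h1, h2, h3, h4⟩ := H' (net cl out N)
  have h5 := he N
  refine ⟨h1, h2.trans (Nat.mul_le_mul_left _ h5), h3.trans h5, fun hN s => ?_⟩
  obtain ⟨k1, k2, k3⟩ := (H (un (nD N)) (un (nL N))).2 fun h => by
    have := congrArg List.length h
    simp [nL] at this
  simp only [length_un] at k1 k2 k3
  obtain ⟨Y, y1, y2⟩ :=
    sys hN (fun z a => Fin.ofNat 4 (D ((net cl out N, s), z, toN a))) k1 k2 k3
  refine ⟨Y, fun t _ a => ?_, le_trans (le_of_eq ?_)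
      ((h4 (net_wf cl out N) s).trans (mul_le_mul_of_nonneg_right (Nat.cast_le.2 h5)
        (Inst.viol_nonneg _ _)))⟩
  · rw [y1]
    refine mkRd_mem (N := N) fun j _ o _ γ h => ?_
    rw [← dec_pv γ, ← h]
    exact decide_eq_decide.2 (by simp [Fin.ext_iff])
  · rw [y2]
    refine Finset.expect_congr rfl fun a _ => congrArg ind (propext ?_)
    push Not
    rfl

end Vale.Agent.P330Q
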