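import Vale.Agent.P330Q.FinP
import Vale.Agent.P330Q.Mach
import Vale.Agent.P330Q.Lay
import Vale.Agent.P330Q.Route
import Vale.Agent.P330Q.WN
import Vale.Agent.P330Q.SC
import Vale.Agent.P330Q.CL
import Vale.Agent.P330.Compile

/-! Half (a): quasi-linear size with an inverse polylogarithmic gap. -/

namespace Vale.Agent.P330Q

theorem halfA : HardQ := hardQ (wn cl (sc P330.Amp.compile)) (mach layout route)

end Vale.Agent.P330Q
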