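import Vale.Agent.P330Q.Tens

/-! Low degree extension along a Kummer cover: the points are the pairs `(x, a)`, where `x` names
a value `xi x` of the base coordinate and `a` chooses the signs of the square roots `r x j` of
`xi x - cc j`. -/

namespace Vale.Agent.P330Q

open Vale.Agent.Lib.H23 Vale.Agent.P325 Vale.Agent.P330 Vale.Agent.P330.Amp Finset Polynomial
open scoped BigOperators

structure KP where
  p : ℕ
  xi : List ℕ
  cc : List ℕ
  rt : List (List ℕ)

instance encKP : Enc KP := ⟨fun K => Enc.enc (K.p, K.xi, K.cc, K.rt)⟩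

/-- number of fibres -/
def nX (k : ℕ) : ℕ := 4 * k + 4

namespace KP

variable (K : KP)

def ξ (x : ℕ) : ℕ := K.xi.getD x 0
def r (x j : ℕ) : ℕ := (K.rt.getD x []).getD j 0

structure Ok (k : ℕ) : Prop where
  hp : 2 < K.p
  rne : ∀ x < nX k, ∀ j < k, (K.r x j : ZMod K.p) ≠ 0
  rsq : ∀ x < nX k, ∀ j < k, (K.r x j : ZMod K.p) ^ 2 = (K.ξ x : ZMod K.p) - (K.cc.getD j 0 : ℕ)
  xinj : ∀ x < nX k, ∀ x' < nX k, (K.ξ x : ZMod K.p) = K.ξ x' → x = x'
  cinj : ∀ j < k, ∀ j' < k, ((K.cc.getD j 0 : ℕ) : ZMod K.p) = (K.cc.getD j' 0 : ℕ) → j = j'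

/-- from values to coefficients -/
def nA (x j : ℕ) (b : Bool) : ℕ := if b then subm K.p 0 (invm K.p (2 * K.r x j)) else invm K.p 2
def nB (x j : ℕ) (b : Bool) : ℕ := if b then invm K.p (2 * K.r x j) else invm K.p 2
/-- from coefficients to values -/
def mA (x j : ℕ) (b : Bool) : ℕ := if b then subm K.p 0 (K.r x j) else 1
def mB (x j : ℕ) (b : Bool) : ℕ := if b then 1 else K.r x j
/-- the factors of the extension of a point mass -/
def dl (x c j : ℕ) (b : Bool) : ℕ :=
  divm K.p (if b = c.testBit j then addm K.p 1 (divm K.p (K.r x j) (K.r 0 j))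
    else subm K.p 1 (divm K.p (K.r x j) (K.r 0 j))) 2
/-- interpolation in the base coordinate -/
def lam (k x' x : ℕ) : ℕ :=
  prodm K.p (((List.range (k + 1)).filter fun e => decide (e ≠ x')).map fun e =>
    divm K.p (subm K.p (K.ξ x) (K.ξ e)) (subm K.p (K.ξ x') (K.ξ e)))

variable {k : ℕ}

def N (x : ℕ) (y : Vec k → ZMod K.p) : Vec k → ZMod K.p := tens (cf (K.nA x)) (cf (K.nB x)) y
def M (x : ℕ) (y : Vec k → ZMod K.p) : Vec k → ZMod K.p := tens (cf (K.mA x)) (cf (K.mB x)) y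
def lde (x : ℕ) (y : Vec k → ZMod K.p) : Vec k → ZMod K.p := K.M x (K.N 0 y)
def ext (U : ℕ → Vec k → ZMod K.p) (x : ℕ) : Vec k → ZMod K.p :=
  K.M x fun a => ∑ x' ∈ range (k + 1), (K.lam k x' x : ZMod K.p) * K.N x' (U x') a

/-- the coefficients are polynomials of degree at most `D` in the base coordinate -/
def Cf (D : ℕ) (u : ℕ → Vec k → ZMod K.p) : Prop :=
  ∃ q : Vec k → (ZMod K.p)[X], (∀ i, (q i).natDegree ≤ D) ∧
    ∀ x < nX k, ∀ i, K.N x (u x) i = (q i).eval (K.ξ x : ZMod K.p)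

/-- tables of the two transforms -/
def nT (k x : ℕ) : List (List ℕ) :=
  (List.range k).map fun j => [K.nA x j false, K.nA x j true, K.nB x j false, K.nB x j true]
def mT (k x : ℕ) : List (List ℕ) :=
  (List.range k).map fun j => [K.mA x j false, K.mA x j true, K.mB x j false, K.mB x j true]
def ldeL (k x : ℕ) (l : List ℕ) : List ℕ := tensL K.p k (K.mT k x) (tensL K.p k (K.nT k 0) l)

end KP

end Vale.Agent.P330Q
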