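import Mathlib

/-! The number of zeros of a function on the Kummer cover (task KumB; pure algebra).
Plan. Pass to an algebraically closed field `L` (`AlgebraicClosure F`). For a base point `t` with
`t ≠ c j` for all `j < k` and roots `ρ j ^ 2 = t - c j` let `R j : L⟦X⟧` be the square root of
`C (t - c j) + X` with constant term `ρ j` (exists as `ρ j ≠ 0`, `2 ≠ 0`: define the coefficients
recursively, or use that `L⟦X⟧` is Henselian). Put
`V q s = ∑ i, (taylor t (q i) : L⟦X⟧) * ∏ j, if i j then (if s j then -R j else R j) else 1`.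
(1) `V` is multiplicative for the product `(q * q') i = ∑ u, q u * q' (u xor i) * ∏ (both bits)
(X - C (c j))`, which raises degrees to `2 D + k`. (2) If `V q s = 0` for all `s` then `q = 0`
(induction on `k`: add and subtract the two signs). (3) Split `q` on `k + 1` bits as `A + R B` along the
last bit and let `q' = A * A - (X - C (c k)) * (B * B)`; then `V q' s = V q (s, +) * V q (s, -)`.
`q' ≠ 0`: otherwise at the base point `t = c k` one gets `(V A s) ^ 2 = X * (V B s) ^ 2`, so by parity
of `PowerSeries.order` both vanish for all `s`. (4) Induction on `k` for the claim: if `q ≠ 0` then all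
`V q s` (at every base point) are nonzero and `∑ x, ∑ s, order (V q s at ξ x) ≤ 2 ^ k * (D + k)`;
for `k = 0` this is the sum of the root multiplicities. A zero has order at least one. -/

namespace Vale.Agent.P330Q

open Finset Polynomial

namespace KumB

section alg

variable {F A : Type} [Field F] [CommRing A] {k : ℕ}

/-- monomials in the square roots -/
def mon (R : Fin k → A) (i : Fin k → Bool) : A := ∏ j, if i j then R j else 1

/-- choice of signs -/
def sgn (s : Fin k → Bool) (R : Fin k → A) : Fin k → A := fun j => if s j then -R j else R j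

/-- the value of a function on the cover -/
noncomputable def V (φ : F[X] →+* A) (R : Fin k → A) (q : (Fin k → Bool) → F[X]) : A :=
  ∑ i, φ (q i) * mon R i

/-- bitwise sum -/
def xr (u i : Fin k → Bool) : Fin k → Bool := fun j => xor (u j) (i j)

theorem xr_invol (u : Fin k → Bool) : Function.Involutive (xr u) := fun i => by
  funext j
  simp only [xr]
  cases u j <;> cases i j <;> rfl

/-- the product of functions on the cover -/
noncomputable def mul (c : Fin k → F) (q q' : (Fin k → Bool) → F[X]) : (Fin k → Bool) → F[X] :=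
  fun i => ∑ u, q u * q' (xr u i) * ∏ j, if u j && xr u i j then X - C (c j) else 1

theorem sgn_sq {φ : F[X] →+* A} {R : Fin k → A} {c : Fin k → F}
    (hR : ∀ j, R j ^ 2 = φ (X - C (c j))) (s : Fin k → Bool) (j : Fin k) :
    sgn s R j ^ 2 = φ (X - C (c j)) := by
  rw [sgn, ← hR j]
  split_ifs
  · exact neg_sq _
  · rfl

theorem V_mul {φ : F[X] →+* A} {R : Fin k → A} {c : Fin k → F}
    (hR : ∀ j, R j ^ 2 = φ (X - C (c j))) (q q' : (Fin k → Bool) → F[X]) :
    V φ R (mul c q q') = V φ R q * V φ R q' := by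
  simp only [V, mul, map_sum, Finset.sum_mul]
  rw [Finset.sum_comm]
  refine Finset.sum_congr rfl fun u _ => ?_
  rw [Finset.mul_sum, ← (xr_invol u).bijective.sum_comp]
  refine Finset.sum_congr rfl fun i _ => ?_
  have h : mon R u * mon R i = φ (∏ j, if u j && i j then X - C (c j) else 1) * mon R (xr u i) := by
    rw [map_prod, mon, mon, mon, ← Finset.prod_mul_distrib, ← Finset.prod_mul_distrib]
    refine Finset.prod_congr rfl fun j _ => ?_
    have h1 := hR j
    cases hu : u j <;> cases hi : i j <;> simp [-map_sub, xr, hu, hi, ← h1, sq]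
  rw [xr_invol u i, map_mul, map_mul]
  linear_combination (-(φ (q u) * φ (q' i))) * h

theorem deg_mul (c : Fin k → F) {q q' : (Fin k → Bool) → F[X]} {D : ℕ}
    (hq : ∀ i, (q i).natDegree ≤ D) (hq' : ∀ i, (q' i).natDegree ≤ D) (i : Fin k → Bool) :
    (mul c q q' i).natDegree ≤ 2 * D + k := by
  refine natDegree_sum_le_of_forall_le _ _ fun u _ => ?_
  have h1 : (∏ j, if u j && xr u i j then X - C (c j) else 1 : F[X]).natDegree ≤ k := by
    refine (natDegree_prod_le _ _).trans ((Finset.sum_le_card_nsmul _ _ 1 fun j _ => ?_).trans ?_)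
    · split_ifs
      · exact (natDegree_X_sub_C _).le
      · simp
    · simp
  have h2 := natDegree_mul_le (p := q u * q' (xr u i))
    (q := ∏ j, if u j && xr u i j then X - C (c j) else 1)
  have h3 := natDegree_mul_le (p := q u) (q := q' (xr u i))
  have h4 := hq u
  have h5 := hq' (xr u i)
  omega

theorem sum_cons {M : Type} [AddCommMonoid M] (f : (Fin (k + 1) → Bool) → M) :
    ∑ i, f i = ∑ i : Fin k → Bool, (f (Fin.cons false i) + f (Fin.cons true i)) := by
  rw [← (Fin.consEquiv fun _ : Fin (k + 1) => Bool).sum_comp, Fintype.sum_prod_type,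
    Fintype.sum_bool, Finset.sum_add_distrib, add_comm]
  rfl

theorem V_cons (φ : F[X] →+* A) (R : Fin (k + 1) → A) (q : (Fin (k + 1) → Bool) → F[X]) :
    V φ R q = V φ (Fin.tail R) (fun i => q (Fin.cons false i)) +
      R 0 * V φ (Fin.tail R) (fun i => q (Fin.cons true i)) := by
  rw [V, sum_cons, V, V, Finset.mul_sum, ← Finset.sum_add_distrib]
  refine Finset.sum_congr rfl fun i _ => ?_
  simp only [mon, Fin.prod_univ_succ, Fin.cons_zero, Fin.cons_succ, Fin.tail, if_true,
    Bool.false_eq_true, if_false, one_mul]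
  ring

theorem V_sgn_cons (φ : F[X] →+* A) (R : Fin (k + 1) → A) (q : (Fin (k + 1) → Bool) → F[X])
    (b : Bool) (s : Fin k → Bool) :
    V φ (sgn (Fin.cons b s) R) q = V φ (sgn s (Fin.tail R)) (fun i => q (Fin.cons false i)) +
      (if b then -R 0 else R 0) * V φ (sgn s (Fin.tail R)) (fun i => q (Fin.cons true i)) :=
  V_cons φ _ q

theorem eq_zero_of_cons {q : (Fin (k + 1) → Bool) → F[X]}
    (h0 : (fun i : Fin k → Bool => q (Fin.cons false i)) = 0)
    (h1 : (fun i : Fin k → Bool => q (Fin.cons true i)) = 0) : q = 0 := by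
  funext i
  rw [← Fin.cons_self_tail i]
  cases i 0
  · exact congrFun h0 _
  · exact congrFun h1 _

theorem eq_zero_of_V [IsDomain A] (h2 : (2 : A) ≠ 0) {φ : F[X] →+* A}
    (hφ : Function.Injective φ) : ∀ {k : ℕ} {R : Fin k → A} (_ : ∀ j, R j ≠ 0)
      {q : (Fin k → Bool) → F[X]}, (∀ s, V φ (sgn s R) q = 0) → q = 0
  | 0, R, _, q, h => by
    funext i
    have h1 := h i
    rw [V, Fintype.sum_subsingleton _ i, mon, Fin.prod_univ_zero, mul_one] at h1
    exact hφ (h1.trans (map_zero φ).symm)
  | k + 1, R, hR, q, h => by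
    have h0 := fun s => (V_sgn_cons φ R q false s).symm.trans (h _)
    have h1 := fun s => (V_sgn_cons φ R q true s).symm.trans (h _)
    simp only [if_true, Bool.false_eq_true, if_false] at h0 h1
    refine eq_zero_of_cons
      (eq_zero_of_V h2 hφ (R := Fin.tail R) (fun j => hR j.succ) fun s => ?_)
      (eq_zero_of_V h2 hφ (R := Fin.tail R) (fun j => hR j.succ) fun s => ?_)
    · refine (mul_eq_zero.1 ?_).resolve_left h2
      linear_combination h0 s + h1 s
    · refine (mul_eq_zero.1 ?_).resolve_left (mul_ne_zero h2 (hR 0))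
      linear_combination h0 s - h1 s

/-- the norm along the first root -/
noncomputable def nrm (c : Fin (k + 1) → F) (q : (Fin (k + 1) → Bool) → F[X]) :
    (Fin k → Bool) → F[X] := fun i =>
  mul (Fin.tail c) (fun i => q (Fin.cons false i)) (fun i => q (Fin.cons false i)) i -
    (X - C (c 0)) * mul (Fin.tail c) (fun i => q (Fin.cons true i)) (fun i => q (Fin.cons true i)) i

theorem V_nrm {φ : F[X] →+* A} {R : Fin k → A} {c : Fin (k + 1) → F}
    (hR : ∀ j, R j ^ 2 = φ (X - C (Fin.tail c j))) (q : (Fin (k + 1) → Bool) → F[X]) :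
    V φ R (nrm c q) = V φ R (fun i => q (Fin.cons false i)) ^ 2 -
      φ (X - C (c 0)) * V φ R (fun i => q (Fin.cons true i)) ^ 2 := by
  rw [sq, sq, ← V_mul hR, ← V_mul hR, V, V, V, Finset.mul_sum, ← Finset.sum_sub_distrib]
  refine Finset.sum_congr rfl fun i _ => ?_
  rw [nrm, map_sub φ, map_mul]
  ring

theorem deg_nrm (c : Fin (k + 1) → F) {q : (Fin (k + 1) → Bool) → F[X]} {D : ℕ}
    (hq : ∀ i, (q i).natDegree ≤ D) (i : Fin k → Bool) :
    (nrm c q i).natDegree ≤ 2 * D + k + 1 := by
  have h1 := deg_mul (Fin.tail c) (q := fun i => q (Fin.cons false i))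
    (q' := fun i => q (Fin.cons false i)) (fun _ => hq _) (fun _ => hq _) i
  have h2 := deg_mul (Fin.tail c) (q := fun i => q (Fin.cons true i))
    (q' := fun i => q (Fin.cons true i)) (fun _ => hq _) (fun _ => hq _) i
  refine (natDegree_sub_le _ _).trans (max_le (by omega) (natDegree_mul_le.trans ?_))
  rw [natDegree_X_sub_C]
  omega

end alg

section ps

variable {F L : Type} [Field F] [Field L] {k : ℕ}

theorem exists_sqrt (h2 : (2 : L) ≠ 0) {ρ : L} (hρ : ρ ≠ 0) : ∃ R : PowerSeries L,
    R ^ 2 = PowerSeries.X + PowerSeries.C (ρ ^ 2) ∧ PowerSeries.constantCoeff R = ρ := by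
  obtain ⟨T, hT⟩ : ∃ T : PowerSeries L, T ^ 2 * PowerSeries.X + 1 = T :=
    ⟨PowerSeries.map (Nat.castRingHom L) PowerSeries.catalanSeries, by
      have h := congrArg (PowerSeries.map (Nat.castRingHom L))
        PowerSeries.catalanSeries_sq_mul_X_add_one
      rwa [map_add, map_mul, map_pow, map_one, PowerSeries.map_X] at h⟩
  obtain ⟨a, ha⟩ : ∃ a : L, 4 * ρ ^ 2 * a = -1 :=
    ⟨-(2 * 2 * ρ ^ 2)⁻¹, by field_simp; norm_num⟩
  have h1 := congrArg (PowerSeries.rescale a) hT
  rw [map_add, map_mul, map_pow, map_one, PowerSeries.rescale_X] at h1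
  have h3 := congrArg (PowerSeries.C (R := L)) ha
  rw [map_mul, map_mul, map_pow, map_neg, map_one, map_ofNat] at h3
  refine ⟨PowerSeries.C ρ * (1 - 2 * (PowerSeries.C a * PowerSeries.X) * PowerSeries.rescale a T),
    ?_, by simp⟩
  rw [map_pow]
  linear_combination (4 * PowerSeries.C ρ ^ 2 * (PowerSeries.C a * PowerSeries.X)) * h1 -
    PowerSeries.X * h3

/-- expansion at the point `t` -/
noncomputable def ex (f : F →+* L) (t : L) : F[X] →+* PowerSeries L :=
  (coeToPowerSeries.ringHom).comp ((taylorAlgHom t).toRingHom.comp (mapRingHom f))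

theorem ex_apply (f : F →+* L) (t : L) (p : F[X]) :
    ex f t p = ((taylor t (p.map f) : L[X]) : PowerSeries L) := rfl

theorem ex_injective (f : F →+* L) (t : L) : Function.Injective (ex f t) := fun _ _ h =>
  map_injective f f.injective (taylor_injective t (coe_injective L h))

theorem ex_lin (f : F →+* L) (t : L) (c : F) :
    ex f t (X - C c) = PowerSeries.X + PowerSeries.C (t - f c) := by
  rw [ex_apply, Polynomial.map_sub, map_X, map_C, map_sub, taylor_X, taylor_C, add_sub_assoc,
    ← C_sub, Polynomial.coe_add, coe_X, coe_C]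

theorem two_ne (h2 : (2 : L) ≠ 0) : (2 : PowerSeries L) ≠ 0 := fun h => h2 (by
  have h1 := congrArg (PowerSeries.constantCoeff (R := L)) h
  rwa [map_ofNat, map_zero] at h1)

theorem sq_eq_X_mul {a b : PowerSeries L} (h : a ^ 2 = PowerSeries.X * b ^ 2) :
    a = 0 ∧ b = 0 := by
  have hb : b = 0 := by
    by_contra hb
    have ha : a ≠ 0 := by
      rintro rfl
      rw [zero_pow two_ne_zero, eq_comm, mul_eq_zero, pow_eq_zero_iff two_ne_zero] at h
      exact h.elim PowerSeries.X_ne_zero hb
    have h1 := congrArg PowerSeries.order h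
    rw [sq, sq, PowerSeries.order_mul, PowerSeries.order_mul, PowerSeries.order_mul,
      PowerSeries.order_X] at h1
    obtain ⟨m, hm⟩ := ENat.ne_top_iff_exists.1 (mt PowerSeries.order_eq_top.1 ha)
    obtain ⟨n, hn⟩ := ENat.ne_top_iff_exists.1 (mt PowerSeries.order_eq_top.1 hb)
    rw [← hm, ← hn] at h1
    have h2 : m + m = 1 + (n + n) := by exact_mod_cast h1
    omega
  rw [hb, zero_pow two_ne_zero, mul_zero, pow_eq_zero_iff two_ne_zero] at h
  exact ⟨h, hb⟩

theorem nrm_ne_zero (h2 : (2 : F) ≠ 0) {c : Fin (k + 1) → F} (hc : Function.Injective c)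
    {q : (Fin (k + 1) → Bool) → F[X]} (h0 : q ≠ 0) : nrm c q ≠ 0 := by
  intro h
  let f := algebraMap F (AlgebraicClosure F)
  have h2' : (2 : AlgebraicClosure F) ≠ 0 := by
    rw [← map_ofNat f 2]
    exact (map_ne_zero f).2 h2
  have hR : ∀ j : Fin k, ∃ R : PowerSeries (AlgebraicClosure F),
      R ^ 2 = ex f (f (c 0)) (X - C (Fin.tail c j)) ∧ R ≠ 0 := by
    intro j
    obtain ⟨ρ, hρ⟩ := IsAlgClosed.exists_pow_nat_eq (f (c 0) - f (Fin.tail c j)) two_pos
    have hρ0 : ρ ≠ 0 := by
      rintro rfl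
      rw [zero_pow two_ne_zero, eq_comm, sub_eq_zero] at hρ
      exact (Fin.succ_ne_zero j) (hc (f.injective hρ)).symm
    obtain ⟨R, h1, h3⟩ := exists_sqrt h2' hρ0
    refine ⟨R, by rw [h1, hρ, ex_lin], ?_⟩
    rintro rfl
    exact hρ0 (by simpa using h3.symm)
  choose R hR hR0 using hR
  have key : ∀ s, V (ex f (f (c 0))) (sgn s R) (fun i => q (Fin.cons false i)) = 0 ∧
      V (ex f (f (c 0))) (sgn s R) (fun i => q (Fin.cons true i)) = 0 := by
    intro s
    have h1 := V_nrm (sgn_sq hR s) q
    rw [h, ex_lin, sub_self, map_zero, add_zero, V] at h1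
    simp only [Pi.zero_apply, map_zero, zero_mul, Finset.sum_const_zero] at h1
    exact sq_eq_X_mul (sub_eq_zero.1 h1.symm)
  exact h0 (eq_zero_of_cons
    (eq_zero_of_V (two_ne h2') (ex_injective _ _) hR0 fun s => (key s).1)
    (eq_zero_of_V (two_ne h2') (ex_injective _ _) hR0 fun s => (key s).2))

theorem order_ex_le {p : F[X]} (hp : p ≠ 0) (t : F) :
    (ex (RingHom.id F) t p).order ≤ (p.rootMultiplicity t : ℕ) := by
  refine PowerSeries.order_le _ ?_
  rw [ex_apply, Polynomial.map_id, coeff_coe, rootMultiplicity_eq_natTrailingDegree,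
    ← taylor_apply]
  exact coeff_natTrailingDegree_ne_zero.2 fun h =>
    hp (taylor_injective t (h.trans (map_zero _).symm))

theorem sum_mult_le {n : ℕ} {ξ : Fin n → F} (hξ : Function.Injective ξ) (p : F[X]) :
    ∑ x, p.rootMultiplicity (ξ x) ≤ p.natDegree := by
  classical
  refine le_trans ?_ (card_roots' p)
  rw [← Finset.sum_image (f := fun a => p.rootMultiplicity a) hξ.injOn,
    ← Multiset.sum_count_eq_card (s := univ.image ξ ∪ p.roots.toFinset)
      fun a ha => mem_union_right _ (Multiset.mem_toFinset.2 ha)]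
  simp only [← count_roots]
  exact Finset.sum_le_sum_of_subset subset_union_left

theorem main (h2 : (2 : F) ≠ 0) {n : ℕ} {ξ : Fin n → F} (hξ : Function.Injective ξ) :
    ∀ {k D : ℕ} {c : Fin k → F} (_ : Function.Injective c) {R : Fin n → Fin k → PowerSeries F}
      (_ : ∀ x j, R x j ^ 2 = ex (RingHom.id F) (ξ x) (X - C (c j)))
      {q : (Fin k → Bool) → F[X]} (_ : ∀ i, (q i).natDegree ≤ D) (_ : q ≠ 0),
      ∑ x, ∑ s, (V (ex (RingHom.id F) (ξ x)) (sgn s (R x)) q).order ≤ (2 ^ k * (D + k) : ℕ)
  | 0, D, c, _, R, _, q, hq, h0 => by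
    obtain ⟨i, hi⟩ := Function.ne_iff.1 h0
    have h1 : ∀ x, ∑ s, (V (ex (RingHom.id F) (ξ x)) (sgn s (R x)) q).order ≤
        ((q i).rootMultiplicity (ξ x) : ℕ) := by
      intro x
      rw [Fintype.sum_subsingleton _ i, V, Fintype.sum_subsingleton _ i, mon, Fin.prod_univ_zero,
        mul_one]
      exact order_ex_le hi _
    refine (Finset.sum_le_sum fun x _ => h1 x).trans ?_
    rw [← Nat.cast_sum, Nat.cast_le]
    simpa using (sum_mult_le hξ (q i)).trans (hq i)
  | k + 1, D, c, hc, R, hR, q, hq, h0 => by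
    have ih := main h2 hξ (c := Fin.tail c) (hc.comp (Fin.succ_injective k))
      (R := fun x => Fin.tail (R x)) (fun x j => hR x j.succ) (deg_nrm c hq)
      (nrm_ne_zero h2 hc h0)
    refine le_trans (le_of_eq ?_) (ih.trans (Nat.cast_le.2 ?_))
    · refine Finset.sum_congr rfl fun x _ => ?_
      rw [sum_cons]
      refine Finset.sum_congr rfl fun s _ => ?_
      rw [← PowerSeries.order_mul, V_sgn_cons, V_sgn_cons,
        V_nrm (sgn_sq (R := Fin.tail (R x)) (fun j => hR x j.succ) s), ← hR x 0]
      congr 1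
      simp only [if_true, Bool.false_eq_true, if_false]
      ring
    · rw [pow_succ, mul_assoc]
      exact Nat.mul_le_mul_left _ (by omega)

end ps

end KumB

open Classical in
theorem kummer_zeros {F : Type} [Field F] (h2 : (2 : F) ≠ 0) {k D n : ℕ} {c : Fin k → F}
    (hc : Function.Injective c) {ξ : Fin n → F} (hξ : Function.Injective ξ) {r : Fin n → Fin k → F}
    (hr : ∀ x j, r x j ≠ 0) (hs : ∀ x j, r x j ^ 2 = ξ x - c j) {q : (Fin k → Bool) → F[X]}
    (hq : ∀ i, (q i).natDegree ≤ D) (h0 : q ≠ 0) :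
    (univ.filter fun z : Fin n × (Fin k → Bool) => ∑ i, (q i).eval (ξ z.1) *
      ∏ j, (if i j then (if z.2 j then -r z.1 j else r z.1 j) else 1) = 0).card
        ≤ 2 ^ k * (D + k) := by
  choose R hR hR0 using fun x j => KumB.exists_sqrt h2 (hr x j)
  have h1 := KumB.main h2 hξ hc (R := R)
    (fun x j => by rw [hR, hs, KumB.ex_lin, RingHom.id_apply]) hq h0
  rw [← Fintype.sum_prod_type'] at h1
  refine (Nat.cast_le (α := ℕ∞)).1 (le_trans ?_ h1)
  rw [card_filter, Nat.cast_sum]
  refine Finset.sum_le_sum fun z _ => ?_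
  split_ifs with hz
  · rw [Nat.cast_one, PowerSeries.one_le_order_iff_constCoeff_eq_zero, ← hz, KumB.V, map_sum]
    refine Finset.sum_congr rfl fun i _ => ?_
    rw [map_mul, KumB.ex_apply, Polynomial.map_id, constantCoeff_coe, taylor_coeff_zero, KumB.mon,
      map_prod]
    congr 1
    refine Finset.prod_congr rfl fun j _ => ?_
    simp only [KumB.sgn]
    split_ifs
    · rw [map_neg, hR0]
    · exact hR0 _ _
    · exact map_one _
  · simp

end Vale.Agent.P330Q
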