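import Vale.Agent.P330Q.Kum

/-! The search for the parameters of the Kummer cover (part of task KumC). -/

namespace Vale.Agent.P330Q

open Vale.Agent.Lib.H23 Vale.Agent.P333 Vale.Agent.P325 Vale.Agent.P330 Vale.Agent.P330.Amp Finset
open scoped BigOperators

theorem kd_head {l : List ℕ} {a : ℕ} (h : a ∈ l) (d : ℕ) : l.headD d ∈ l := by
  cases l with
  | nil => simp at h
  | cons b l => simp

/-- trial division -/
def kdPr (R : List ℕ) (n : ℕ) : Bool :=
  ltb 1 n && R.all fun d => ltb d 2 || (!(ltb d n) || ltb 0 (n % d))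

/-- the first prime above `V` in the list -/
def kdP (R : List ℕ) (V : ℕ) : ℕ := (R.filter fun n => ltb V n && kdPr R n).headD 0

/-- a square root of `x - c`, or zero -/
def kdRt (p : ℕ) (R : List ℕ) (x c : ℕ) : ℕ :=
  (R.filter fun y => eqb (mulm p y y) (subm p x c)).headD 0

def kdKeep (p : ℕ) (R X : List ℕ) (c : ℕ) : List ℕ := X.filter fun x => ltb 0 (kdRt p R x c)

def kdPick (p : ℕ) (R : List ℕ) (s : List ℕ × List ℕ) : ℕ :=
  (R.filter fun c => !(s.1.any fun c' => eqb c' c) &&
    !(ltb (3 * (kdKeep p R s.2 c).length) s.2.length)).headD 0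

def kdStep (p : ℕ) (R : List ℕ) (s : List ℕ × List ℕ) : List ℕ × List ℕ :=
  (s.1 ++ [kdPick p R s], kdKeep p R s.2 (kdPick p R s))

def kdRun (p : ℕ) (R : List ℕ) (u : List Unit) : List ℕ × List ℕ :=
  u.foldl (fun s _ => kdStep p R s) ([], R)

def kdK (p : ℕ) (R : List ℕ) (u : List Unit) : KP :=
  ⟨p, (kdRun p R u).2.take (4 * u.length + 4), (kdRun p R u).1,
    ((kdRun p R u).2.take (4 * u.length + 4)).map fun x => (kdRun p R u).1.map fun c => kdRt p R x c⟩

theorem kdP_spec {V : ℕ} (hV : V ≠ 0) : (kdP (List.range (2 * V + 1)) V).Prime ∧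
    V < kdP (List.range (2 * V + 1)) V ∧ kdP (List.range (2 * V + 1)) V ≤ 2 * V := by
  have e : ∀ n ≤ 2 * V, kdPr (List.range (2 * V + 1)) n = true ↔ n.Prime := fun n hn => by
    rw [Nat.prime_def_lt']
    simp only [kdPr, ltb, Bool.and_eq_true, decide_eq_true_eq, List.all_eq_true, List.mem_range,
      Bool.or_eq_true, Bool.not_eq_true', decide_eq_false_iff_not, Nat.dvd_iff_mod_eq_zero]
    exact ⟨fun ⟨h1, h2⟩ => ⟨h1, fun m h3 h4 => by have := h2 m (by omega); omega⟩,
      fun ⟨h1, h2⟩ => ⟨h1, fun m _ => by have := h2 m; omega⟩⟩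
  obtain ⟨q, h1, h2, h3⟩ := Nat.exists_prime_lt_and_le_two_mul V hV
  have h := kd_head (l := (List.range (2 * V + 1)).filter fun n =>
    ltb V n && kdPr (List.range (2 * V + 1)) n) (a := q) (by
      simp only [List.mem_filter, List.mem_range, Bool.and_eq_true, e q h3, ltb, decide_eq_true_eq]
      exact ⟨by omega, h2, h1⟩) 0
  simp only [List.mem_filter, List.mem_range, Bool.and_eq_true, ltb, decide_eq_true_eq] at h
  exact ⟨(e _ (Nat.lt_succ_iff.1 h.1)).1 h.2.2, h.2.1, Nat.lt_succ_iff.1 h.1⟩

theorem kdP_le (N V : ℕ) : kdP (List.range N) V ≤ N := by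
  rcases headD_mem ((List.range N).filter fun n => ltb V n && kdPr (List.range N) n) 0 with h | h
  · exact h.le.trans (Nat.zero_le _)
  · exact (List.mem_range.1 (List.mem_filter.1 h).1).le

variable {p : ℕ}

theorem kdRt_lt (hp : 0 < p) (x c : ℕ) : kdRt p (List.range p) x c < p := by
  rcases headD_mem ((List.range p).filter fun y => eqb (mulm p y y) (subm p x c)) 0 with h | h
  · exact h.trans_lt hp
  · exact List.mem_range.1 (List.mem_filter.1 h).1

theorem kdRt_sq (hp : 0 < p) {x c : ℕ} (h0 : 0 < kdRt p (List.range p) x c) :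
    (kdRt p (List.range p) x c : ZMod p) ^ 2 = (x : ZMod p) - c := by
  rcases headD_mem ((List.range p).filter fun y => eqb (mulm p y y) (subm p x c)) 0 with h | h
  · exact absurd h h0.ne'
  · have h1 : mulm p (kdRt p (List.range p) x c) (kdRt p (List.range p) x c) = subm p x c :=
      of_decide_eq_true (List.mem_filter.1 h).2
    rw [← cast_subm hp, ← h1, cast_mulm, sq]

theorem kdRt_pos [Fact p.Prime] {x c : ℕ} {y : ZMod p} (hy : y ≠ 0)
    (h : y ^ 2 = (x : ZMod p) - c) : 0 < kdRt p (List.range p) x c := by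
  have hp : 0 < p := (Fact.out : p.Prime).pos
  have h1 := kd_head (l := (List.range p).filter fun y => eqb (mulm p y y) (subm p x c))
    (a := y.val) (List.mem_filter.2 ⟨List.mem_range.2 (ZMod.val_lt y), decide_eq_true (by
      rw [eq_val (mulm_lt hp _ _) rfl, eq_val (subm_lt hp x c) rfl, cast_mulm, cast_subm hp,
        ZMod.natCast_zmod_val, ← h, sq])⟩) 0
  have h2 : mulm p (kdRt p (List.range p) x c) (kdRt p (List.range p) x c) = subm p x c :=
    of_decide_eq_true (List.mem_filter.1 h1).2
  refine Nat.pos_of_ne_zero fun h0 => hy ?_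
  have h3 := congrArg (Nat.cast : ℕ → ZMod p) h2
  rw [cast_mulm, cast_subm hp, h0, Nat.cast_zero, mul_zero, ← h] at h3
  exact pow_eq_zero_iff (two_ne_zero) |>.1 h3.symm

theorem kd_half [Fact p.Prime] (x : ℕ) :
    p - 1 ≤ 2 * ((range p).filter fun c => 0 < kdRt p (List.range p) x c).card := by
  have h := Finset.card_le_mul_card_image_of_maps_to (s := (univ : Finset (ZMod p)).erase 0)
    (t := (range p).filter fun c => 0 < kdRt p (List.range p) x c)
    (f := fun y => ((x : ZMod p) - y ^ 2).val) (fun y hy => mem_filter.2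
      ⟨mem_range.2 (ZMod.val_lt _), kdRt_pos (ne_of_mem_erase hy) (by
        rw [ZMod.natCast_zmod_val]; ring)⟩) 2 fun c _ => by
      rcases (((univ : Finset (ZMod p)).erase 0).filter
        fun y => ((x : ZMod p) - y ^ 2).val = c).eq_empty_or_nonempty with e | ⟨y, hy⟩
      · rw [e]; simp
      · refine (card_le_card (t := {y, -y}) fun z hz => ?_).trans card_le_two
        have h1 := ZMod.val_injective p ((mem_filter.1 hz).2.trans (mem_filter.1 hy).2.symm)
        simpa using sq_eq_sq_iff_eq_or_eq_neg.1 (sub_right_injective h1)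
  rwa [card_erase_of_mem (mem_univ _), card_univ, ZMod.card] at h

theorem kd_avg [Fact p.Prime] (X : List ℕ) :
    X.length * (p - 1) ≤ 2 * ∑ c ∈ range p, (kdKeep p (List.range p) X c).length := by
  induction X with
  | nil => simp
  | cons x X ih =>
    have e : ∀ c, (kdKeep p (List.range p) (x :: X) c).length =
        (if 0 < kdRt p (List.range p) x c then 1 else 0) + (kdKeep p (List.range p) X c).length :=
      fun c => by
        rw [kdKeep, List.filter_cons]
        by_cases h : 0 < kdRt p (List.range p) x c <;> simp [ltb, h, kdKeep, add_comm]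
    have h := kd_half (p := p) x
    rw [card_filter] at h
    simp only [e, sum_add_distrib, List.length_cons, add_mul, mul_add]
    omega

theorem kdPick_spec [Fact p.Prime] {s : List ℕ × List ℕ} (h : 6 * s.1.length + 3 ≤ p) :
    kdPick p (List.range p) s < p ∧ kdPick p (List.range p) s ∉ s.1 ∧
      s.2.length ≤ 3 * (kdKeep p (List.range p) s.2 (kdPick p (List.range p) s)).length := by
  have e : ∀ c, c ∈ ((List.range p).filter fun c => !(s.1.any fun c' => eqb c' c) &&
      !(ltb (3 * (kdKeep p (List.range p) s.2 c).length) s.2.length)) ↔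
      c < p ∧ c ∉ s.1 ∧ s.2.length ≤ 3 * (kdKeep p (List.range p) s.2 c).length := fun c => by
    simp only [List.mem_filter, List.mem_range, Bool.and_eq_true, Bool.not_eq_true', ltb, eqb,
      List.any_eq_false, decide_eq_true_eq, decide_eq_false_iff_not, not_lt]
    exact and_congr_right fun _ => and_congr_left fun _ =>
      ⟨fun h hc => h c hc rfl, fun h c' hc e => h (e ▸ hc)⟩
  have hex : ∃ c < p, c ∉ s.1 ∧ s.2.length ≤ 3 * (kdKeep p (List.range p) s.2 c).length := by
    by_contra hn
    have h1 : ∀ c ∈ range p, 3 * (kdKeep p (List.range p) s.2 c).length + 1 ≤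
        s.2.length + (if c ∈ s.1 then 1 else 0) * (3 * s.2.length + 1) := fun c hc => by
      have h2 : (kdKeep p (List.range p) s.2 c).length ≤ s.2.length := List.length_filter_le _ _
      split_ifs with h3
      · omega
      · have : ¬ s.2.length ≤ 3 * (kdKeep p (List.range p) s.2 c).length :=
          fun h4 => hn ⟨c, mem_range.1 hc, h3, h4⟩
        omega
    have h2 := sum_le_sum h1
    have h3 : ((range p).filter fun c => c ∈ s.1).card ≤ s.1.length :=
      (card_le_card fun c hc => List.mem_toFinset.2 (mem_filter.1 hc).2).trans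
        (List.toFinset_card_le _)
    rw [sum_add_distrib, sum_add_distrib, ← mul_sum, ← sum_mul, ← card_filter, sum_const, sum_const,
      card_range, smul_eq_mul, smul_eq_mul] at h2
    have h4 := kd_avg (p := p) s.2
    have h5 := Nat.mul_le_mul_right (3 * s.2.length + 1) h3
    obtain ⟨t, rfl⟩ : ∃ t, p = 6 * s.1.length + 3 + t := ⟨_, (Nat.add_sub_cancel' h).symm⟩
    rw [show 6 * s.1.length + 3 + t - 1 = 6 * s.1.length + 2 + t by omega] at h4
    nlinarith [Nat.zero_le (s.2.length * t)]
  obtain ⟨c, hc⟩ := hex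
  exact (e _).1 (kd_head ((e c).2 hc) 0)

structure KdInv (p j : ℕ) (s : List ℕ × List ℕ) : Prop where
  len : s.1.length = j
  nd1 : s.1.Nodup
  lt1 : ∀ c ∈ s.1, c < p
  nd2 : s.2.Nodup
  lt2 : ∀ x ∈ s.2, x < p
  rt : ∀ x ∈ s.2, ∀ c ∈ s.1, 0 < kdRt p (List.range p) x c
  big : p ≤ 3 ^ j * s.2.length

theorem KdInv.step [Fact p.Prime] {j : ℕ} {s : List ℕ × List ℕ} (h : KdInv p j s)
    (hj : 6 * j + 3 ≤ p) : KdInv p (j + 1) (kdStep p (List.range p) s) := by
  obtain ⟨h1, h2, h3⟩ := kdPick_spec (p := p) (s := s) (h.len ▸ hj)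
  refine ⟨by simp [kdStep, h.len], ?_, fun c hc => ?_, h.nd2.filter _,
    fun x hx => h.lt2 x (List.mem_filter.1 hx).1, fun x hx c hc => ?_, ?_⟩
  · exact List.nodup_append.2 ⟨h.nd1, List.nodup_singleton _, fun a ha b hb e =>
      h2 (List.mem_singleton.1 hb ▸ e ▸ ha)⟩
  · rcases List.mem_append.1 hc with hc | hc
    · exact h.lt1 c hc
    · exact List.mem_singleton.1 hc ▸ h1
  · rcases List.mem_append.1 hc with hc | hc
    · exact h.rt x (List.mem_filter.1 hx).1 c hc
    · exact List.mem_singleton.1 hc ▸ of_decide_eq_true (List.mem_filter.1 hx).2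
  · rw [pow_succ, mul_assoc]
    exact h.big.trans (Nat.mul_le_mul_left _ h3)

theorem kdRun_inv [Fact p.Prime] (u : List Unit) (h : 6 * u.length ≤ p + 3) :
    KdInv p u.length (kdRun p (List.range p) u) := by
  induction u using List.reverseRecOn with
  | nil => exact ⟨rfl, List.nodup_nil, by simp [kdRun], List.nodup_range,
      fun x hx => List.mem_range.1 hx, by simp [kdRun], by simp [kdRun]⟩
  | append_singleton u a ih =>
    rw [List.length_append, List.length_singleton] at h ⊢
    rw [kdRun, List.foldl_append]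
    exact (ih (by omega)).step (by omega)

theorem kdK_spec [Fact p.Prime] (u : List Unit) (h : 3 ^ u.length * nX u.length < p) :
    (kdK p (List.range p) u).Ok u.length ∧ ∀ B, (∀ n ≤ p, sz n ≤ B) →
      sz (kdK p (List.range p) u) ≤ B + (nX u.length * (B + 1) + 1) + (u.length * (B + 1) + 1) +
        (nX u.length * (u.length * (B + 1) + 1 + 1) + 1) + 3 := by
  have hp : 0 < p := by omega
  have h3 : u.length < 3 ^ u.length := Nat.lt_pow_self (by omega)
  have hI := kdRun_inv (p := p) u (by
    have : (u.length + 1) * nX u.length ≤ 3 ^ u.length * nX u.length := Nat.mul_le_mul_right _ h3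
    rw [nX] at this h
    nlinarith [Nat.zero_le (u.length * u.length), sq_nonneg ((u.length : ℤ) - 1)])
  have hX : nX u.length < (kdRun p (List.range p) u).2.length :=
    lt_of_mul_lt_mul_left (h.trans_le hI.big) (Nat.zero_le _)
  set cc := (kdRun p (List.range p) u).1 with hcc
  set xi := (kdRun p (List.range p) u).2.take (4 * u.length + 4) with hxi
  have hl : xi.length = nX u.length := by rw [hxi, List.length_take, nX] at *; omega
  have hsub : xi.Sublist (kdRun p (List.range p) u).2 := List.take_sublist _ _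
  have e1 : ∀ x (hx : x < nX u.length), (kdK p (List.range p) u).ξ x = xi[x]'(hl ▸ hx) :=
    fun x hx => List.getD_eq_getElem _ _ _
  have e2 : ∀ j (hj : j < u.length), (kdK p (List.range p) u).cc.getD j 0 = cc[j]'(hI.len ▸ hj) :=
    fun j hj => List.getD_eq_getElem _ _ _
  have e3 : ∀ x (hx : x < nX u.length) j (hj : j < u.length), (kdK p (List.range p) u).r x j =
      kdRt p (List.range p) (xi[x]'(hl ▸ hx)) (cc[j]'(hI.len ▸ hj)) := fun x hx j hj => by
    change ((xi.map fun x => cc.map fun c => kdRt p (List.range p) x c).getD x []).getD j 0 = _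
    rw [List.getD_eq_getElem _ [] (by rw [List.length_map, hl]; exact hx), List.getElem_map,
      List.getD_eq_getElem _ 0 (by rw [List.length_map, hI.len]; exact hj), List.getElem_map]
  have inj : ∀ {a b : ℕ}, a < p → b < p → (a : ZMod p) = b → a = b := fun ha hb e =>
    (eq_val ha e).trans (eq_val hb rfl).symm
  have hpos : ∀ x (hx : x < nX u.length) j (hj : j < u.length),
      0 < kdRt p (List.range p) (xi[x]'(hl ▸ hx)) (cc[j]'(hI.len ▸ hj)) := fun x hx j hj =>
    hI.rt _ (hsub.subset (List.getElem_mem _)) _ (List.getElem_mem _)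
  refine ⟨⟨?_, fun x hx j hj e => ?_, fun x hx j hj => ?_, fun x hx x' hx' e => ?_,
    fun j hj j' hj' e => ?_⟩, fun B hB => ?_⟩
  · change 2 < p
    have : 1 * nX u.length ≤ 3 ^ u.length * nX u.length := Nat.mul_le_mul_right _ (by omega)
    rw [nX] at this h
    omega
  · rw [e3 x hx j hj] at e
    exact (hpos x hx j hj).ne' (inj (kdRt_lt hp _ _) hp (e.trans Nat.cast_zero.symm))
  · rw [e3 x hx j hj, e1 x hx, e2 j hj]
    exact kdRt_sq hp (hpos x hx j hj)
  · rw [e1 x hx, e1 x' hx'] at e
    exact (hI.nd2.sublist hsub).getElem_inj_iff.1 (inj (hI.lt2 _ (hsub.subset (List.getElem_mem _)))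
      (hI.lt2 _ (hsub.subset (List.getElem_mem _))) e)
  · rw [e2 j hj, e2 j' hj'] at e
    exact hI.nd1.getElem_inj_iff.1
      (inj (hI.lt1 _ (List.getElem_mem _)) (hI.lt1 _ (List.getElem_mem _)) e)
  · have s0 : sz (kdK p (List.range p) u) =
        sz (p, xi, cc, xi.map fun x => cc.map fun c => kdRt p (List.range p) x c) := rfl
    have s1 := hB p le_rfl
    have s2 := sz_list_le (l := xi) fun a ha => hB a (hI.lt2 a (hsub.subset ha)).le
    have s3 := sz_list_le (l := cc) fun a ha => hB a (hI.lt1 a ha).le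
    have s4 := sz_list_le (l := xi.map fun x => cc.map fun c => kdRt p (List.range p) x c)
      (B := u.length * (B + 1) + 1) fun a ha => by
        obtain ⟨x, -, rfl⟩ := List.mem_map.1 ha
        have := sz_list_le (l := cc.map fun c => kdRt p (List.range p) x c) fun b hb => by
          obtain ⟨c, -, rfl⟩ := List.mem_map.1 hb
          exact hB _ (kdRt_lt hp _ _).le
        rwa [List.length_map, hI.len] at this
    rw [List.length_map, hl] at s4
    rw [hl] at s2
    rw [hI.len] at s3
    rw [s0, sz_pair, sz_pair, sz_pair]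
    omega

section pt

variable {α : Type} [Enc α] {q a b : α → ℕ} {R X : α → List ℕ} {s : α → List ℕ × List ℕ}
  {u : α → List Unit}

@[fun_prop] theorem pt_kdPr (hR : PT R) (ha : PT a) : PT fun x => kdPr (R x) (a x) := by
  unfold kdPr
  fun_prop

theorem pt_kdP (hR : PT R) (ha : PT a) : PT fun x => kdP (R x) (a x) := by
  unfold kdP
  fun_prop

@[fun_prop] theorem pt_kdRt (hq : PT q) (hR : PT R) (ha : PT a) (hb : PT b) :
    PT fun x => kdRt (q x) (R x) (a x) (b x) := by
  unfold kdRt
  fun_prop

@[fun_prop] theorem pt_kdKeep (hq : PT q) (hR : PT R) (hX : PT X) (ha : PT a) :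
    PT fun x => kdKeep (q x) (R x) (X x) (a x) := by
  unfold kdKeep
  fun_prop

@[fun_prop] theorem pt_kdPick (hq : PT q) (hR : PT R) (hs : PT s) :
    PT fun x => kdPick (q x) (R x) (s x) := by
  unfold kdPick
  fun_prop

@[fun_prop] theorem pt_kdStep (hq : PT q) (hR : PT R) (hs : PT s) :
    PT fun x => kdStep (q x) (R x) (s x) := by
  unfold kdStep
  fun_prop

@[fun_prop] theorem pt_kdRun (hq : PT q) (hR : PT R) (hu : PT u) :
    PT fun x => kdRun (q x) (R x) (u x) := by
  refine pt_fold (f := fun x s _ => kdStep (q x) (R x) s) (fun z => (R z.1, R z.1))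
    (by fun_prop) hu (by fun_prop) (by fun_prop) fun x s _ => ?_
  have h1 := sz_append s.1 [kdPick (q x) (R x) s]
  have h2 : sz (kdKeep (q x) (R x) s.2 (kdPick (q x) (R x) s)) ≤ sz s.2 :=
    sz_sublist List.filter_sublist
  have h3 : sz (kdPick (q x) (R x) s) ≤ sz (R x) := by
    rcases headD_mem ((R x).filter fun c => !(s.1.any fun c' => eqb c' c) &&
      !(ltb (3 * (kdKeep (q x) (R x) s.2 c).length) s.2.length)) 0 with h | h
    · rw [kdPick, h]
      exact sz_pos (R x)
    · exact (sz_lt_of_mem (List.mem_filter.1 h).1).le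
  rw [kdStep, sz_pair, sz_prod s, sz_pair]
  rw [sz_cons, sz_nil] at h1
  dsimp only
  omega

theorem pt_kdK (hq : PT q) (hR : PT R) (hu : PT u) : PT fun x => kdK (q x) (R x) (u x) := by
  have : PT fun x => (q x, (kdRun (q x) (R x) (u x)).2.take (4 * (u x).length + 4),
      (kdRun (q x) (R x) (u x)).1, ((kdRun (q x) (R x) (u x)).2.take (4 * (u x).length + 4)).map
        fun y => (kdRun (q x) (R x) (u x)).1.map fun c => kdRt (q x) (R x) y c) := by
    fun_prop
  exact this.of_enc fun _ => rfl

end pt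

end Vale.Agent.P330Q
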