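import Vale.Agent.P330Q.KumA
import Vale.Agent.P330Q.KumB
import Vale.Agent.P330Q.KumD

/-! The product test, and existence of the parameters (task KumC).
Plan. `dich`: the difference has `Cf k` (`cf_ext`, `cf_prod`, `Cf.sub`); by `M_N`, `M_eq` its values are
the sums of `kummer_zeros` (transport `Vec k ≃ (Fin k → Bool)` by `bt`); at most `2 ^ k * 2 k` of the
`2 ^ k * (4 k + 4)` pairs are zeros, so at most half of the `a` vanish for all `x`.
`exists_kp`: `p` is the first prime above `v.length` (Bertrand, `Nat.exists_prime_lt_and_le_two_mul`;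
trial division on `List.range`). Choose `cc` greedily: `X j` is the list of `ξ < p` such that
`ξ - cc j'` is a nonzero square for all `j' < j`; take the first new `c < p` that keeps a third of
`X j` (averaging: every `ξ` is kept by `(p - 1) / 2` values of `c`; squares: `ZMod`,
`FiniteField`/`quadraticChar`, or count directly with the two-to-one map `y ↦ y ^ 2`). `xi` is the
first `nX k` entries of `X k`, the roots are found by search. -/

namespace Vale.Agent.P330Q

open Vale.Agent.Lib.H23 Vale.Agent.P333 Vale.Agent.P325 Vale.Agent.P330 Vale.Agent.P330.Amp Finset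
open scoped BigOperators

theorem KP.dich {K : KP} [Fact K.p.Prime] {k : ℕ} (h : K.Ok k) (U : ℕ → Vec k → ZMod K.p)
    (y z : Vec k → ZMod K.p) (hne : ∃ a, ∃ x < nX k, K.ext U x a ≠ K.lde x y a * K.lde x z a) :
    1 / 2 ≤ 𝔼 a, ind (∃ x < nX k, K.ext U x a ≠ K.lde x y a * K.lde x z a) := by
  classical
  obtain ⟨q, hq, hN⟩ := (KP.cf_ext (U := U) h).sub (KP.cf_prod (y := y) (z := z) h)
  have hcard : Fintype.card (Vec k) = 2 ^ k := by simp
  let e : Vec k ≃ (Fin k → Bool) := Equiv.ofBijective (fun a j => bt a j)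
    ((Fintype.bijective_iff_injective_and_card _).2
      ⟨fun a v hav => vec_ext fun j hj => congrFun hav ⟨j, hj⟩, by simp⟩)
  have hW : ∀ (x : Fin (nX k)) (a : Vec k), K.ext U x a - K.lde x y a * K.lde x z a =
      ∑ i, (q (e.symm i)).eval (K.ξ x : ZMod K.p) * ∏ j : Fin k,
        (if i j then (if e a j then -(K.r x j : ZMod K.p) else K.r x j) else 1) := fun x a => by
    have h1 := congrFun (KP.M_N (y := fun a => K.ext U x a - K.lde x y a * K.lde x z a) h x.2) a
    rw [← h1, KP.M_eq h, ← e.sum_comp]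
    refine sum_congr rfl fun i _ => ?_
    rw [hN x x.2 i, e.symm_apply_apply, Finset.prod_range]
    rfl
  have h2 : (2 : ZMod K.p) ≠ 0 := fun h0 => by
    have := (ZMod.natCast_eq_zero_iff 2 K.p).1 (by exact_mod_cast h0)
    exact absurd (Nat.le_of_dvd (by omega) this) (not_le.2 h.hp)
  have hz := kummer_zeros h2 (D := k) (c := fun j : Fin k => ((K.cc.getD j 0 : ℕ) : ZMod K.p))
    (fun j j' hj => Fin.ext (h.cinj j j.2 j' j'.2 hj))
    (ξ := fun x : Fin (nX k) => (K.ξ x : ZMod K.p))
    (fun x x' hx => Fin.ext (h.xinj x x.2 x' x'.2 hx))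
    (r := fun x j => (K.r x j : ZMod K.p)) (fun x j => h.rne x x.2 j j.2)
    (fun x j => h.rsq x x.2 j j.2) (q := fun i => q (e.symm i)) (fun i => hq _) (fun h0 => by
      obtain ⟨a, x, hx, hn⟩ := hne
      refine hn (sub_eq_zero.1 ((hW ⟨x, hx⟩ a).trans (sum_eq_zero fun i _ => ?_)))
      rw [show q (e.symm i) = 0 from congrFun h0 i, Polynomial.eval_zero, zero_mul])
  set A : Finset (Vec k) :=
    univ.filter fun a => ¬ ∃ x < nX k, K.ext U x a ≠ K.lde x y a * K.lde x z a with hA
  have h3 : nX k * A.card ≤ 2 ^ k * (k + k) := by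
    have e0 : nX k * A.card = ((univ : Finset (Fin (nX k))) ×ˢ A.map e.toEmbedding).card := by
      rw [card_product, card_map, card_univ, Fintype.card_fin]
    rw [e0]
    refine le_trans (card_le_card fun w hw => ?_) hz
    refine (@mem_filter _ _ (_) _ _).2 ⟨mem_univ _, ?_⟩
    obtain ⟨a, ha, e1⟩ := mem_map.1 (mem_product.1 hw).2
    have e2 : e a = w.2 := e1
    rw [← e2, ← hW w.1 a, sub_eq_zero]
    by_contra hn
    exact (mem_filter.1 ha).2 ⟨w.1, w.1.2, hn⟩
  have h4 : 2 * A.card ≤ 2 ^ k := by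
    rw [nX] at h3
    by_contra hn
    nlinarith [Nat.zero_le (2 ^ k), Nat.zero_le k, Nat.mul_le_mul_left k (not_le.1 hn).le]
  have h5 : ∑ a, ind (¬ ∃ x < nX k, K.ext U x a ≠ K.lde x y a * K.lde x z a) = A.card := by
    simp only [ind_eq_ite, hA, card_filter, Nat.cast_sum, Nat.cast_ite, Nat.cast_one, Nat.cast_zero]
  simp only [ind_not, sum_sub_distrib, sum_const, card_univ, hcard, nsmul_eq_mul, mul_one] at h5
  have h6 : (2 : ℝ) * A.card ≤ ((2 ^ k : ℕ) : ℝ) := by exact_mod_cast h4
  rw [expect_eq_sum_div_card, card_univ, hcard, le_div_iff₀ (by positivity)]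
  linarith

theorem exists_kp : ∃ (C : ℕ) (K : List Unit × List Unit → KP), PT K ∧ ∀ u v : List Unit,
    3 ^ u.length * nX u.length ≤ v.length → (K (u, v)).p.Prime ∧ v.length < (K (u, v)).p ∧
      (K (u, v)).p ≤ 2 * v.length ∧ (K (u, v)).Ok u.length ∧
      sz (K (u, v)) ≤ C * (u.length + 1) ^ 2 * (v.length.size + 2) := by
  have hV : PU fun z : List Unit × List Unit => z.2.length := PU.len PT.snd'
  have hN : PU fun z : List Unit × List Unit => 2 * z.2.length + 1 :=
    ((PU.const 2).mul hV).add (PU.const 1)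
  have hp := pt_kdP hN.range hV.pt
  refine ⟨64, fun z => kdK (kdP (List.range (2 * z.2.length + 1)) z.2.length)
    (List.range (kdP (List.range (2 * z.2.length + 1)) z.2.length)) z.1,
    pt_kdK hp (hN.of_le hp fun z => kdP_le _ _).range PT.fst', fun u v h => ?_⟩
  have h0 : v.length ≠ 0 := fun e => by
    have : 0 < 3 ^ u.length * nX u.length := Nat.mul_pos (by positivity) (by rw [nX]; omega)
    omega
  obtain ⟨h1, h2, h3⟩ := kdP_spec h0
  have := Fact.mk h1
  obtain ⟨h4, h5⟩ := kdK_spec u (h.trans_lt h2)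
  refine ⟨h1, h2, h3, h4, (h5 (4 * (v.length.size + 1) + 1) fun n hn => sz_nat_le ?_).trans ?_⟩
  · have := Nat.lt_size_self v.length
    rw [pow_succ]
    omega
  · rw [nX]
    generalize u.length = k
    generalize v.length.size = t
    nlinarith [Nat.zero_le k, Nat.zero_le t, Nat.zero_le (k * t), Nat.zero_le (k * k),
      Nat.zero_le (k * k * t)]

end Vale.Agent.P330Q
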