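import Vale.Agent.P330Q.Tens

/-! The logical machine: registers are functions on the cube, every step replaces them by linear
combinations (with coefficients depending on one bit of the processor, and shifts along this bit)
and updates a list of scalars that all processors share. -/

namespace Vale.Agent.P330Q

open Vale.Agent.Lib.H23 Vale.Agent.P325 Vale.Agent.P330 Vale.Agent.P330.Amp Finset
open scoped BigOperators

/-- coefficient, register, shifted or not -/
abbrev Tm : Type := ℕ × ℕ × Bool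

abbrev Regs (p k : ℕ) : Type := ℕ → Vec k → ZMod p

abbrev Cfg (p k : ℕ) : Type := List ℕ × Regs p k

/-- states: the first `n` registers -/
abbrev St (p k n : ℕ) : Type := Fin n → Vec k → ZMod p

/-- the value of a list of terms; `j` is the bit of the step -/
def evT {p k : ℕ} (j : ℕ) (Y : Regs p k) (l : List Tm) (a : Vec k) : ZMod p :=
  (l.map fun m => (m.1 : ZMod p) * Y m.2.1 (if m.2.2 then a + ej k j else a)).sum

/-- normal form of the scalars -/
def nrmS (p n : ℕ) (l : List ℕ) : List ℕ := (List.range n).map fun i => l.getD i 0 % p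

def regL (p k : ℕ) (l : List (List ℕ)) : Regs p k := fun r => fnL p k (l.getD r [])

def stL (p k n : ℕ) (l : List (List ℕ)) : St p k n := fun r => regL p k l r

def toL {p k n : ℕ} (A : St p k n) : List (List ℕ) :=
  List.ofFn fun r => (List.range (2 ^ k)).map fun a => (A r (ofN k a)).val

structure LM (P : Type) where
  len : P → ℕ
  nR : P → ℕ
  nS : P → ℕ
  ns : P → ℕ
  bit : P → ℕ → ℕ
  tm : P → ℕ → List ℕ → ℕ → Bool → List Tm
  upd : P → ℕ → List ℕ → List ℕ → Bool → List ℕ
  zs : P → ℕ → List ℕ → List ℕ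
  ts : P → ℕ → List ℕ → List (ℕ × ℕ × ℕ)

namespace LM

variable {P : Type} (M : LM P)

structure PTime [Enc P] : Prop where
  len : PU M.len
  nR : PU M.nR
  nS : PU M.nS
  ns : PU M.ns
  bit : PT fun x : P × ℕ => M.bit x.1 x.2
  tm : PT fun x : (P × ℕ × List ℕ) × ℕ × Bool => M.tm x.1.1 x.1.2.1 x.1.2.2 x.2.1 x.2.2
  upd : PT fun x : (P × ℕ × List ℕ) × List ℕ × Bool => M.upd x.1.1 x.1.2.1 x.1.2.2 x.2.1 x.2.2
  zs : PT fun x : P × ℕ × List ℕ => M.zs x.1 x.2.1 x.2.2
  ts : PT fun x : P × ℕ × List ℕ => M.ts x.1 x.2.1 x.2.2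

variable (q : P) {p k : ℕ}

/-- a product test fails at the processor `a` -/
def badT (t : ℕ) (s : Cfg p k) (a : Vec k) : Prop :=
  ∃ e ∈ M.ts q t s.1, s.2 e.1 a ≠ s.2 e.2.1 a * s.2 e.2.2 a

/-- some test fails -/
def flag (t : ℕ) (s : Cfg p k) : Prop :=
  (∃ r ∈ M.zs q t s.1, s.2 r ≠ 0) ∨ ∃ a, M.badT q t s a

open Classical in
/-- the new scalars, computed at the processor `a` -/
noncomputable def newS (t : ℕ) (s : Cfg p k) (a : Vec k) : List ℕ :=
  nrmS p (M.ns q) (M.upd q t s.1 ((List.range (M.nR q)).map fun r => (s.2 r a).val)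
    (decide (M.flag q t s)))

noncomputable def step (t : ℕ) (s : Cfg p k) : Cfg p k :=
  (M.newS q t s 0, fun r a => if r < M.nR q then
    evT (M.bit q t) s.2 (M.tm q t s.1 r (bt a (M.bit q t))) a else 0)

/-- the start: the state, then the constants -/
def start (cst : List (List ℕ)) (A : St p k (M.nS q)) : Cfg p k :=
  (nrmS p (M.ns q) [], fun r => if h : r < M.nS q then A ⟨r, h⟩
    else if r < M.nR q then regL p k cst r else 0)

noncomputable def run (cst : List (List ℕ)) (A : St p k (M.nS q)) : ℕ → Cfg p k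
  | 0 => M.start q cst A
  | t + 1 => M.step q t (run cst A t)

/-- the outputs: `b = 0` a copy, `b = 1` the successor, `b = 2` the predecessor -/
noncomputable def outp (cst : List (List ℕ)) (b : ℕ) (A : St p k (M.nS q)) : St p k (M.nS q) :=
  fun r => (M.run q cst A (M.len q)).2 (b * M.nS q + r)

/-- the machine keeps its promises and describes a line; the other ends satisfy `Fnd` -/
structure Good (p k : ℕ) (cst o so : List (List ℕ)) (Fnd : List (List ℕ) → Prop) : Prop where
  len : 1 ≤ M.len q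
  nR : 3 * M.nS q ≤ M.nR q
  p1 : ∀ A : St p k (M.nS q), ∀ t < M.len q, ∀ a,
    M.newS q t (M.run q cst A t) a = M.newS q t (M.run q cst A t) 0
  p2 : ∀ A : St p k (M.nS q), ∀ t < M.len q, (∃ a, M.badT q t (M.run q cst A t) a) →
    1 / 4 ≤ 𝔼 a, ind (M.badT q t (M.run q cst A t) a)
  keep : ∀ A : St p k (M.nS q), M.outp q cst 0 A = A
  po : M.outp q cst 2 (stL p k _ o) = stL p k _ o
  so1 : M.outp q cst 1 (stL p k _ o) = stL p k _ so
  sne : stL p k (M.nS q) so ≠ stL p k _ o
  pso : M.outp q cst 2 (stL p k _ so) = stL p k _ o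
  fnd : ∀ A : St p k (M.nS q), A ≠ stL p k _ o →
    (M.outp q cst 1 (M.outp q cst 2 A) ≠ A ∨ M.outp q cst 2 (M.outp q cst 1 A) ≠ A) → Fnd (toL A)

end LM

abbrev MIn : Type := EOL × List Unit

/-- the machine for End-of-Line; the second argument is a lower bound for the prime -/
def MachStmt : Prop :=
  ∃ (P : Type) (_ : Enc P) (M : LM P) (C : ℕ) (kk : EOL → List Unit) (pp : MIn → ℕ) (par : MIn → P)
    (cst o so : MIn → List (List ℕ)) (dec : MIn × List (List ℕ) → List (List Bool)),
    M.PTime ∧ PT kk ∧ PT pp ∧ PT par ∧ PT cst ∧ PT o ∧ PT so ∧ PT dec ∧ ∀ x : MIn,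
      2 ^ (kk x.1).length ≤ C * sz x.1 ∧ (pp x).Prime ∧ x.2.length < pp x ∧
      (pp x).size + sz (par x) ≤ ((kk x.1).length + x.2.length.size + 2) ^ C ∧
      M.len (par x) + M.nR (par x) + M.nS (par x) + M.ns (par x) ≤ ((kk x.1).length + 2) ^ C ∧
      (x.1.Valid → M.Good (par x) (pp x) (kk x.1).length (cst x) (o x) (so x)
        fun l => ∃ v ∈ dec (x, l), x.1.Sol v)

end Vale.Agent.P330Q
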