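import Vale.Agent.P330Q.LM

/-! General rules for runs of a logical machine (task LMB; inductions on the number of steps). -/

namespace Vale.Agent.P330Q

open Vale.Agent.Lib.H23 Vale.Agent.P325 Vale.Agent.P330 Vale.Agent.P330.Amp Finset
open scoped BigOperators

variable {p k : ℕ}

theorem evT_nil (j : ℕ) (Y : Regs p k) (a : Vec k) : evT j Y [] a = 0 := rfl
theorem evT_cons (j : ℕ) (Y : Regs p k) (c r : ℕ) (s : Bool) (l : List Tm) (a : Vec k) :
    evT j Y ((c, r, s) :: l) a = c * Y r (if s then a + ej k j else a) + evT j Y l a := by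
  simp only [evT, List.map_cons, List.sum_cons]
theorem evT_append (j : ℕ) (Y : Regs p k) (l l' : List Tm) (a : Vec k) :
    evT j Y (l ++ l') a = evT j Y l a + evT j Y l' a := by
  simp only [evT, List.map_append, List.sum_append]
theorem evT_range (j : ℕ) (Y : Regs p k) (n : ℕ) (c r : ℕ → ℕ) (a : Vec k) :
    evT j Y ((List.range n).map fun i => (c i, r i, false)) a =
      ∑ i ∈ range n, (c i : ZMod p) * Y (r i) a := by
  induction n with
  | zero => rfl
  | succ n ih =>
    rw [List.range_succ, List.map_append, evT_append, ih, sum_range_succ, List.map_singleton,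
      evT_cons, evT_nil, add_zero]
    rfl

theorem length_nrmS (n : ℕ) (l : List ℕ) : (nrmS p n l).length = n := by simp [nrmS]
theorem getD_nrmS {n i : ℕ} (h : i < n) (l : List ℕ) : (nrmS p n l).getD i 0 = l.getD i 0 % p := by
  simp [nrmS, List.getD_eq_getElem?_getD, h]
theorem nrmS_nrmS (n : ℕ) (l : List ℕ) : nrmS p n (nrmS p n l) = nrmS p n l := by
  refine List.map_congr_left fun i hi => ?_
  rw [getD_nrmS (List.mem_range.1 hi), Nat.mod_mod]
theorem nrmS_lt (hp : 0 < p) (n : ℕ) (l : List ℕ) : ∀ x ∈ nrmS p n l, x < p := by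
  intro x hx
  obtain ⟨i, -, rfl⟩ := List.mem_map.1 hx
  exact Nat.mod_lt _ hp
theorem stL_toL [NeZero p] {n : ℕ} (A : St p k n) : stL p k n (toL A) = A := by
  funext r a
  have e : (toL A).getD r [] = (List.range (2 ^ k)).map fun a => (A r (ofN k a)).val := by
    rw [toL, List.getD_eq_getElem _ _ (by simp), List.getElem_ofFn]
  rw [stL, regL, e, fnL_map, ofN_toN, ZMod.natCast_zmod_val]
theorem getD_toL {n : ℕ} (A : St p k n) (r : Fin n) (a : Vec k) :
    ((toL A).getD r []).getD (toN a) 0 = (A r a).val := by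
  have e : (toL A).getD r [] = (List.range (2 ^ k)).map fun a => (A r (ofN k a)).val := by
    rw [toL, List.getD_eq_getElem _ _ (by simp), List.getElem_ofFn]
  rw [e, List.getD_eq_getElem _ _ (by simpa using toN_lt a), List.getElem_map, List.getElem_range,
    ofN_toN]

namespace LM

variable {P : Type} {M : LM P} {q : P} {cst : List (List ℕ)} {A : St p k (M.nS q)}

theorem run_nrm (t : ℕ) : nrmS p (M.ns q) (M.run q cst A t).1 = (M.run q cst A t).1 := by
  cases t with
  | zero => exact nrmS_nrmS _ _
  | succ t => exact nrmS_nrmS _ _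
theorem run_len (t : ℕ) : (M.run q cst A t).1.length = M.ns q := by
  rw [← run_nrm, length_nrmS]
theorem run_hi (h : M.nS q ≤ M.nR q) (t : ℕ) {r : ℕ} (hr : M.nR q ≤ r) :
    (M.run q cst A t).2 r = 0 := by
  cases t with
  | zero =>
    change (if h : r < M.nS q then A ⟨r, h⟩ else if r < M.nR q then regL p k cst r else 0) = 0
    rw [dif_neg (by omega), if_neg (by omega)]
  | succ t =>
    funext a
    exact if_neg (not_lt.2 hr)
theorem run_reg (t : ℕ) {r : ℕ} (hr : r < M.nR q) (a : Vec k) : (M.run q cst A (t + 1)).2 r a =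
    evT (M.bit q t) (M.run q cst A t).2 (M.tm q t (M.run q cst A t).1 r (bt a (M.bit q t))) a :=
  if_pos hr

/-- the scalars do not change -/
theorem run_keepS {t0 n : ℕ} (h : ∀ i < n, ∀ σ v f, M.upd q (t0 + i) σ v f = σ) :
    (M.run q cst A (t0 + n)).1 = (M.run q cst A t0).1 := by
  induction n with
  | zero => rfl
  | succ n ih =>
    rw [← ih fun i hi => h i (by omega), ← run_nrm (t0 + n)]
    exact congrArg (nrmS p (M.ns q)) (h n (by omega) _ _ _)

/-- a register does not change -/
theorem run_keep {t0 n r : ℕ} (hr : r < M.nR q)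
    (h : ∀ i < n, ∀ σ b, M.tm q (t0 + i) σ r b = [(1, r, false)]) :
    (M.run q cst A (t0 + n)).2 r = (M.run q cst A t0).2 r := by
  induction n with
  | zero => rfl
  | succ n ih =>
    rw [← ih fun i hi => h i (by omega)]
    funext a
    rw [← add_assoc, run_reg _ hr, h n (by omega), evT_cons, evT_nil]
    simp

/-- a sweep over the bits -/
theorem run_sweep {t0 r : ℕ} (hr : r < M.nR q) {α β : ℕ → Bool → ℕ}
    (hb : ∀ j < k, M.bit q (t0 + j) = j)
    (h : ∀ j < k, ∀ b, M.tm q (t0 + j) (M.run q cst A (t0 + j)).1 r b =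
      [(α j b, r, false), (β j b, r, true)]) :
    (M.run q cst A (t0 + k)).2 r = tens (cf α) (cf β) ((M.run q cst A t0).2 r) := by
  have key : ∀ n ≤ k, (M.run q cst A (t0 + n)).2 r =
      tensN (cf α) (cf β) n ((M.run q cst A t0).2 r) := by
    intro n hn
    induction n with
    | zero => rfl
    | succ n ih =>
      funext a
      rw [tensN_succ, ← ih (by omega), ← add_assoc, run_reg _ hr, h n hn, hb n hn, evT_cons,
        evT_cons, evT_nil, add_zero]
      rfl
  exact key k le_rfl

/-- a recurrence with a fixed source -/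
theorem run_rec {t0 r r0 : ℕ} (hr : r < M.nR q) {α β : ℕ → Bool → ℕ}
    (hb : ∀ j < k, M.bit q (t0 + j) = j)
    (h0 : ∀ j < k, (M.run q cst A (t0 + j)).2 r0 = (M.run q cst A t0).2 r0)
    (h : ∀ j < k, ∀ b, M.tm q (t0 + j) (M.run q cst A (t0 + j)).1 r b =
      [(α j b, r0, false), (β j b, r, false)]) :
    (M.run q cst A (t0 + k)).2 r =
      rec2 (cf α) (cf β) ((M.run q cst A t0).2 r0) ((M.run q cst A t0).2 r) k := by
  have key : ∀ n ≤ k, (M.run q cst A (t0 + n)).2 r =
      rec2 (cf α) (cf β) ((M.run q cst A t0).2 r0) ((M.run q cst A t0).2 r) n := by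
    intro n hn
    induction n with
    | zero => rfl
    | succ n ih =>
      funext a
      rw [rec2_succ, ← ih (by omega), ← add_assoc, run_reg _ hr, h n hn, hb n hn, evT_cons,
        evT_cons, evT_nil, add_zero, h0 n hn]
      rfl
  exact key k le_rfl

end LM

end Vale.Agent.P330Q
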