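import Vale.Agent.P330Q.Samp

/-! Local testability, part a: counting, the closure set, the end points of disputes. -/

namespace Vale.Agent.P330Q

open Vale.Agent.Lib.H23 Vale.Agent.P325 Vale.Agent.P330 Vale.Agent.P330.Amp Finset
open scoped BigOperators

variable {k : ℕ}

open Classical in
/-- number of `i < n` with `P i` -/
noncomputable def lcN (n : ℕ) (P : ℕ → Prop) : ℕ := ((range n).filter P).card

open Classical in
/-- number of points with `P` -/
noncomputable def lcV (P : Vec k → Prop) : ℕ := (univ.filter P).card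

theorem lcN_mono {n : ℕ} {P Q : ℕ → Prop} (h : ∀ i < n, P i → Q i) : lcN n P ≤ lcN n Q := by
  classical
  unfold lcN
  refine card_le_card fun i hi => ?_
  simp only [mem_filter, mem_range] at hi ⊢
  exact ⟨hi.1, h i hi.1 hi.2⟩

theorem lcN_or {n : ℕ} {P Q R : ℕ → Prop} (h : ∀ i < n, P i → Q i ∨ R i) :
    lcN n P ≤ lcN n Q + lcN n R := by
  classical
  unfold lcN
  refine le_trans (card_le_card fun i hi => ?_) (card_union_le _ _)
  simp only [mem_filter, mem_range, mem_union] at hi ⊢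
  rcases h i hi.1 hi.2 with h1 | h1
  · exact Or.inl ⟨hi.1, h1⟩
  · exact Or.inr ⟨hi.1, h1⟩

theorem lcN_le (n : ℕ) (P : ℕ → Prop) : lcN n P ≤ n := by
  classical
  unfold lcN
  exact (card_filter_le _ _).trans (card_range n).le

theorem lcN_add_not (n : ℕ) (P : ℕ → Prop) : lcN n P + lcN n (fun i => ¬ P i) = n := by
  classical
  unfold lcN
  have h := card_filter_add_card_filter_not (s := range n) P
  rw [card_range] at h
  convert h

theorem lcN_eq_sum (n : ℕ) (P : ℕ → Prop) [DecidablePred P] :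
    lcN n P = ∑ i ∈ range n, if P i then 1 else 0 := by
  unfold lcN
  rw [card_filter]
  exact sum_congr rfl fun i _ => by congr

theorem lcN_zero {n : ℕ} {P : ℕ → Prop} (h : ∀ i < n, ¬ P i) : lcN n P = 0 := by
  classical
  unfold lcN
  rw [card_eq_zero, filter_eq_empty_iff]
  exact fun i hi => h i (mem_range.1 hi)

theorem lcV_mono {P Q : Vec k → Prop} (h : ∀ a, P a → Q a) : lcV P ≤ lcV Q := by
  classical
  unfold lcV
  refine card_le_card fun i hi => ?_
  simp only [mem_filter, mem_univ, true_and] at hi ⊢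
  exact h i hi

theorem lcV_or {P Q R : Vec k → Prop} (h : ∀ a, P a → Q a ∨ R a) : lcV P ≤ lcV Q + lcV R := by
  classical
  unfold lcV
  refine le_trans (card_le_card fun i hi => ?_) (card_union_le _ _)
  simp only [mem_filter, mem_univ, true_and, mem_union] at hi ⊢
  exact h i hi

theorem lcV_eq_sum (P : Vec k → Prop) [DecidablePred P] :
    lcV P = ∑ a, if P a then 1 else 0 := by
  unfold lcV
  rw [card_filter]
  exact sum_congr rfl fun i _ => by congr

theorem lcV_mem (Z : Finset (Vec k)) : lcV (fun a => a ∈ Z) = Z.card := by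
  classical
  unfold lcV
  congr 1
  ext a
  simp

theorem lcV_eq_one (a : Vec k) : lcV (fun b => b = a) = 1 := by
  rw [← card_singleton a, ← lcV_mem]
  simp only [mem_singleton]

theorem lcV_zero {P : Vec k → Prop} (h : lcV P = 0) (a : Vec k) : ¬ P a := by
  classical
  unfold lcV at h
  rw [card_eq_zero, filter_eq_empty_iff] at h
  exact h (mem_univ a)

theorem lcV_of_not {P : Vec k → Prop} (h : ∀ a, ¬ P a) : lcV P = 0 := by
  classical
  unfold lcV
  rw [card_eq_zero, filter_eq_empty_iff]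
  exact fun a _ => h a

theorem lcV_shift (P : Vec k → Prop) (v : Vec k) : lcV (fun a => P (a + v)) = lcV P := by
  classical
  rw [lcV_eq_sum, lcV_eq_sum]
  exact Fintype.sum_equiv (Equiv.addRight v) _ _ fun _ => rfl

theorem lcV_ex {n x : ℕ} {P : ℕ → Vec k → Prop} (h : ∀ i < n, lcV (P i) ≤ x) :
    lcV (fun a => ∃ i < n, P i a) ≤ n * x := by
  induction n with
  | zero => exact (lcV_of_not (by simp)).le.trans (Nat.zero_le _)
  | succ n ih =>
    have h1 := ih fun i hi => h i (by omega)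
    have h2 := h n (by omega)
    have h3 : lcV (fun a => ∃ i < n + 1, P i a) ≤ lcV (fun a => ∃ i < n, P i a) + lcV (P n) := by
      refine lcV_or fun a ⟨i, hi, ha⟩ => ?_
      rcases Nat.lt_succ_iff_lt_or_eq.1 hi with h4 | h4
      · exact Or.inl ⟨i, h4, ha⟩
      · exact Or.inr (h4 ▸ ha)
    rw [Nat.succ_mul]
    omega

theorem sum_lcN (n : ℕ) (R : Vec k → ℕ → Prop) :
    ∑ a, lcN n (R a) = ∑ i ∈ range n, lcV fun a => R a i := by
  classical
  simp only [lcN_eq_sum, lcV_eq_sum]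
  exact sum_comm

theorem dens_eq (P : Vec k → Prop) : (𝔼 a, ind (P a)) = (lcV P : ℝ) / 2 ^ k := by
  classical
  rw [expect_eq_sum_div_card, card_univ, lcV_eq_sum]
  have h : (Fintype.card (Vec k) : ℝ) = 2 ^ k := by simp
  rw [h]
  push_cast
  rfl

/-- a fraction at least `1 / m` of the neighbours along `S` satisfy `Z` -/
def Near (S : List ℕ) (m : ℕ) (Z : Vec k → Prop) (a : Vec k) : Prop :=
  S.length ≤ m * lcN S.length fun i => Z (a + nb k S i)

theorem Near.mono {S : List ℕ} {m : ℕ} {Z Z' : Vec k → Prop} {a : Vec k} (h : Near S m Z a)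
    (hZ : ∀ b, Z b → Z' b) : Near S m Z' a :=
  h.trans (Nat.mul_le_mul_left _ (lcN_mono fun _ _ => hZ _))

theorem near_tail {S : List ℕ} {e : ℝ} (h : Bias k S e) (he : 0 ≤ e) {m : ℕ} (hm : 0 < m)
    {Z : Vec k → Prop} (hZ : 2 * m * lcV Z ≤ 2 ^ k) :
    (lcV (Near S m Z) : ℝ) ≤ 4 * e * m ^ 2 * lcV Z := by
  have hm' : (0 : ℝ) < m := by exact_mod_cast hm
  have hN : (0 : ℝ) < 2 ^ k := by positivity
  have hS : (0 : ℝ) < S.length := by exact_mod_cast List.length_pos_iff.2 h.1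
  have hZ' : (2 * m * lcV Z : ℝ) ≤ 2 ^ k := by exact_mod_cast hZ
  have h1 := tail1 h he (φ := fun b => ind (Z b))
    (fun a => by unfold ind; split_ifs <;> norm_num) (s := 1 / m) (by positivity) (by
      rw [dens_eq, div_le_iff₀ hN]
      rw [div_div, div_mul_eq_mul_div, le_div_iff₀ (by positivity)]
      linarith)
  rw [dens_eq, dens_eq, div_le_iff₀ hN] at h1
  have h2 : lcV (Near S m Z) ≤ lcV fun a => 1 / (m : ℝ) ≤ avS S (fun b => ind (Z b)) a := by
    refine lcV_mono fun a ha => ?_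
    rw [avS_ind h.1, div_le_div_iff₀ hm' hS, one_mul, mul_comm]
    exact_mod_cast ha
  refine le_trans (by exact_mod_cast h2) (h1.trans (le_of_eq ?_))
  field_simp

/-- the closure set -/
theorem exists_closure {S S' : List ℕ} (h : Bias k S (1 / 2 ^ 17)) (h' : Bias k S' (1 / 2 ^ 17))
    (H : Finset (Vec k)) (hH : 256 * H.card ≤ 2 ^ k) :
    ∃ Z : Finset (Vec k), H ⊆ Z ∧ Z.card ≤ 2 * H.card ∧
      ∀ a, a ∉ Z → ¬ Near S 64 (· ∈ Z) a ∧ ¬ Near S' 64 (· ∈ Z) a := by
  classical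
  obtain ⟨F, hF⟩ : ∃ F : Finset (Finset (Vec k)), F = univ.filter fun Z => H ⊆ Z ∧
    Z.card ≤ 2 * H.card ∧ ∀ a ∈ Z, a ∉ H → Near S 64 (· ∈ Z) a ∨ Near S' 64 (· ∈ Z) a := ⟨_, rfl⟩
  have hm : ∀ Z, Z ∈ F ↔ H ⊆ Z ∧ Z.card ≤ 2 * H.card ∧
      ∀ a ∈ Z, a ∉ H → Near S 64 (· ∈ Z) a ∨ Near S' 64 (· ∈ Z) a := fun Z => by
    rw [hF, mem_filter]
    exact and_iff_right (mem_univ _)
  obtain ⟨Z, hZ, hmax⟩ := exists_max_image F card
    ⟨H, (hm H).2 ⟨subset_rfl, by omega, fun a ha hn => (hn ha).elim⟩⟩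
  obtain ⟨h1, h2, h3⟩ := (hm Z).1 hZ
  refine ⟨Z, h1, h2, fun a ha => ?_⟩
  rw [← not_or]
  intro hn
  have hc : 2 * 64 * lcV (· ∈ Z) ≤ 2 ^ k := by rw [lcV_mem]; omega
  have t1 := near_tail h (by positivity) (by norm_num) hc
  have t2 := near_tail h' (by positivity) (by norm_num) hc
  rw [lcV_mem] at t1 t2
  have t3 : lcV (fun b => b ∈ insert a Z) ≤ lcV (· ∈ H) + (lcV (Near S 64 (· ∈ Z)) +
      lcV (Near S' 64 (· ∈ Z))) := by
    refine (lcV_or (R := fun b => Near S 64 (· ∈ Z) b ∨ Near S' 64 (· ∈ Z) b) fun b hb => ?_).trans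
      (Nat.add_le_add_left (lcV_or fun _ hb => hb) _)
    by_cases hbH : b ∈ H
    · exact Or.inl hbH
    · rcases mem_insert.1 hb with h4 | h4
      · exact Or.inr (h4 ▸ hn)
      · exact Or.inr (h3 b h4 hbH)
  rw [lcV_mem, lcV_mem, card_insert_of_notMem ha] at t3
  have t4 : 4 * (lcV (Near S 64 (· ∈ Z)) + lcV (Near S' 64 (· ∈ Z))) ≤ Z.card := by
    have : (4 * (lcV (Near S 64 (· ∈ Z)) + lcV (Near S' 64 (· ∈ Z))) : ℝ) ≤ Z.card := by
      push_cast at t1 t2
      linarith
    exact_mod_cast this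
  have t5 := hmax (insert a Z) ((hm _).2 ⟨h1.trans (subset_insert _ _), by
    rw [card_insert_of_notMem ha]; omega, fun b hb hbH => by
      have h4 : Near S 64 (· ∈ Z) b ∨ Near S' 64 (· ∈ Z) b := by
        rcases mem_insert.1 hb with h4 | h4
        · exact h4 ▸ hn
        · exact h3 b h4 hbH
      exact h4.imp (fun h5 => h5.mono fun _ => mem_insert_of_mem)
        fun h5 => h5.mono fun _ => mem_insert_of_mem⟩)
  rw [card_insert_of_notMem ha] at t5
  omega

/-- every dispute has an end in `Z` -/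
theorem end_in {S : List ℕ} (h : Bias k S (1 / 2 ^ 17)) {Z R : Vec k → Prop}
    {C : Vec k → ℕ → Prop} {v : Vec k}
    (hsq : ∀ a, R a → S.length ≤
      2 * lcN S.length fun j => C a j ∨ C (a + v) j ∨ R (a + nb k S j))
    (hl : ∀ a, ¬ Z a → 8 * lcN S.length (C a) ≤ S.length)
    (hc : ∀ a, ¬ Z a → ¬ Near S 64 Z a) (hs : 10 * lcV R ≤ 2 ^ k) (a : Vec k) (ha : R a) :
    Z a ∨ Z (a + v) := by
  obtain ⟨Y, hY⟩ : ∃ Y : Vec k → Prop, Y = fun b => R b ∧ ¬ Z b ∧ ¬ Z (b + v) := ⟨_, rfl⟩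
  have h1 : lcV Y ≤ lcV R := lcV_mono fun b hb => by rw [hY] at hb; exact hb.1
  have h2 := near_tail h (by positivity) (m := 5) (by norm_num) (Z := Y) (by omega)
  have h3 : lcV Y ≤ lcV (Near S 5 Y) := by
    refine lcV_mono fun b hb => ?_
    rw [hY] at hb
    obtain ⟨b1, b2, b3⟩ := hb
    have e1 := hsq b b1
    have e2 := hl b b2
    have e3 := hl _ b3
    have e4 := hc b b2
    have e5 := hc _ b3
    unfold Near at e4 e5 ⊢
    have f1 := lcN_or (n := S.length) (P := fun j => C b j ∨ C (b + v) j ∨ R (b + nb k S j))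
      fun _ _ hj => hj
    have f2 := lcN_or (n := S.length) (P := fun j => C (b + v) j ∨ R (b + nb k S j))
      fun _ _ hj => hj
    have f3 := lcN_or (n := S.length) (P := fun j => R (b + nb k S j))
      (Q := fun j => Y (b + nb k S j))
      (R := fun j => Z (b + nb k S j) ∨ Z (b + v + nb k S j)) fun j _ hj => by
        by_contra hn
        rw [not_or, not_or] at hn
        refine hn.1 ?_
        rw [hY]
        exact ⟨hj, hn.2.1, by rw [add_right_comm]; exact hn.2.2⟩
    have f4 := lcN_or (n := S.length) (P := fun j => Z (b + nb k S j) ∨ Z (b + v + nb k S j))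
      fun _ _ hj => hj
    change _ ≤ lcN _ (C b) + _ at f1
    change _ ≤ lcN _ (C (b + v)) + _ at f2
    omega
  have h4 : lcV Y = 0 := by
    have h5 : (lcV Y : ℝ) ≤ lcV (Near S 5 Y) := by exact_mod_cast h3
    have h6 : (0 : ℝ) ≤ lcV Y := Nat.cast_nonneg _
    push_cast at h2
    exact_mod_cast (show (lcV Y : ℝ) = 0 by linarith)
  have h5 := lcV_zero h4 a
  rw [hY] at h5
  by_contra hn
  rw [not_or] at hn
  exact h5 ⟨ha, hn.1, hn.2⟩

/-- a point of `H` with few neighbours near `Z` -/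
theorem exists_good {S S' : List ℕ} (h : Bias k S (1 / (2 ^ 17 * (1 + S'.length))))
    (h' : Bias k S' (1 / 2 ^ 17)) {H Z : Finset (Vec k)} (hne : 0 < H.card)
    (hH : 256 * ((1 + S'.length) * H.card) ≤ 2 ^ k) (hZ : Z.card ≤ 2 * H.card) :
    ∃ a ∈ H, ¬ Near S 64 (fun b => b ∈ Z ∨ ∃ j < S'.length, b + nb k S' j ∈ Z) a ∧
      ¬ Near S' 64 (· ∈ Z) a := by
  by_contra hn
  obtain ⟨Z', hZ'⟩ : ∃ Z' : Vec k → Prop,
    Z' = fun b => b ∈ Z ∨ ∃ j < S'.length, b + nb k S' j ∈ Z := ⟨_, rfl⟩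
  rw [← hZ'] at hn
  have h1 : lcV Z' ≤ 2 * ((1 + S'.length) * H.card) := by
    have e1 := lcV_or (P := Z') (Q := (· ∈ Z)) (R := fun b => ∃ j < S'.length, b + nb k S' j ∈ Z)
      fun b hb => by rw [hZ'] at hb; exact hb
    have e2 := lcV_ex (n := S'.length) (x := 2 * H.card) (P := fun j b => b + nb k S' j ∈ Z)
      fun j _ => by rw [lcV_shift (· ∈ Z), lcV_mem]; exact hZ
    rw [lcV_mem] at e1
    nlinarith
  have h2 := near_tail h (by positivity) (m := 64) (by norm_num) (Z := Z') (by omega)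
  have h3 := near_tail h' (by positivity) (m := 64) (by norm_num) (Z := (· ∈ Z))
    (by rw [lcV_mem]; nlinarith)
  have h4 : lcV (· ∈ H) ≤ lcV (Near S 64 Z') + lcV (Near S' 64 (· ∈ Z)) :=
    lcV_or fun a ha => by
      by_contra h5
      rw [not_or] at h5
      exact hn ⟨a, ha, h5⟩
  rw [lcV_mem] at h3 h4
  have h5 : (H.card : ℝ) ≤ lcV (Near S 64 Z') + lcV (Near S' 64 (· ∈ Z)) := by exact_mod_cast h4
  have h6 : (lcV Z' : ℝ) ≤ 2 * ((1 + S'.length) * H.card) := by exact_mod_cast h1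
  have h7 : (Z.card : ℝ) ≤ 2 * H.card := by exact_mod_cast hZ
  have h8 : (0 : ℝ) < H.card := by exact_mod_cast hne
  have h9 : (0 : ℝ) < 1 + S'.length := by positivity
  have h10 : 4 * (1 / (2 ^ 17 * (1 + (S'.length : ℝ)))) * ((64 : ℕ) : ℝ) ^ 2 * (lcV Z' : ℝ) ≤
      H.card / 4 := by
    refine (mul_le_mul_of_nonneg_left h6 (by positivity)).trans (le_of_eq ?_)
    field_simp
    norm_num
  push_cast at h3
  linarith

/-- the effect of a change at `a` on the disputes along `v` -/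
theorem upd_count {R R' : Vec k → Prop} [DecidablePred R] [DecidablePred R'] {a v : Vec k}
    (hs : R' (a + v) → R' a) (he : ∀ b, b ≠ a → b + v ≠ a → R' b → R b) :
    lcV R' + (if R a then 1 else 0) ≤ lcV R + 2 * if R' a then 1 else 0 := by
  have h1 : lcV (fun b => R b ∧ b ≠ a) + (if R a then 1 else 0) ≤ lcV R := by
    split_ifs with hR
    · unfold lcV
      refine Nat.succ_le_of_lt (card_lt_card ⟨fun b hb => ?_, fun hb => ?_⟩)
      · simp only [mem_filter, mem_univ, true_and] at hb ⊢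
        exact hb.1
      · have := @hb a (by simpa using hR)
        simp at this
    · exact lcV_mono fun b hb => hb.1
  have hv : ∀ b, b + v = a → b = a + v := fun b hb => by
    rw [← hb, add_assoc, vec_add_self, add_zero]
  have h2 : lcV R' ≤ lcV (fun b => R b ∧ b ≠ a) + 2 * if R' a then 1 else 0 := by
    split_ifs with hR
    · have e1 := lcV_or (P := R') (Q := fun b => R b ∧ b ≠ a) (R := fun b => b = a ∨ b = a + v)
        fun b hb => by
          by_cases h3 : b = a
          · exact Or.inr (Or.inl h3)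
          · by_cases h4 : b + v = a
            · exact Or.inr (Or.inr (hv b h4))
            · exact Or.inl ⟨he b h3 h4 hb, h3⟩
      have e2 := lcV_or (P := fun b => b = a ∨ b = a + v) fun _ hb => hb
      rw [lcV_eq_one, lcV_eq_one] at e2
      omega
    · refine lcV_mono fun b hb => ?_
      have h3 : b ≠ a := fun e => hR (e ▸ hb)
      exact ⟨he b h3 (fun e => hR (hs (hv b e ▸ hb))) hb, h3⟩
  omega

theorem upd_total {n : ℕ} {R R' : Vec k → ℕ → Prop} {a : Vec k} {v : ℕ → Vec k}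
    (hs : ∀ i, R' (a + v i) i → R' a i) (he : ∀ i b, b ≠ a → b + v i ≠ a → R' b i → R b i) :
    ∑ b, lcN n (R' b) + lcN n (R a) ≤ ∑ b, lcN n (R b) + 2 * lcN n (R' a) := by
  classical
  rw [sum_lcN, sum_lcN, lcN_eq_sum, lcN_eq_sum, mul_sum, ← sum_add_distrib, ← sum_add_distrib]
  exact sum_le_sum fun i _ => upd_count (R := fun b => R b i) (R' := fun b => R' b i) (hs i) (he i)

end Vale.Agent.P330Q
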