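import Vale.Agent.P330Q.CodeB
import Vale.Agent.P330Q.LTCa

/-! Local testability, part b: disputes, squares and the improved view. -/

namespace Vale.Agent.P330Q

open Vale.Agent.Lib.H23 Vale.Agent.P325 Vale.Agent.P330 Vale.Agent.P330.Amp Finset
open scoped BigOperators

theorem lcN_half (d : ℕ) (P : ℕ → Prop) : lcN (2 * d) (fun e => P (e / 2)) = 2 * lcN d P := by
  classical
  rw [lcN_eq_sum, lcN_eq_sum]
  induction d with
  | zero => simp
  | succ d ih =>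
    rw [show 2 * (d + 1) = 2 * d + 1 + 1 by ring, sum_range_succ, sum_range_succ, ih,
      sum_range_succ, show (2 * d + 1) / 2 = d by omega, show 2 * d / 2 = d by omega]
    ring

theorem exists_edges (d : ℕ) (P : ℕ → Prop) :
    ∃ s : Finset ℕ, s.card = 2 * lcN d P ∧ ∀ e ∈ s, e < 2 * d ∧ P (e / 2) := by
  classical
  refine ⟨(range (2 * d)).filter fun e => P (e / 2), ?_, fun e he => ?_⟩
  · rw [← lcN_half]
    unfold lcN
    congr
  · simpa using he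

theorem zp_injOn {p d : ℕ} [Fact p.Prime] (hp : 3 * d + 3 < p) {s : Finset ℕ}
    (hs : ∀ e ∈ s, e < 2 * d) : Set.InjOn (zp p d) s :=
  (zp_inj hp).mono fun e he => by simpa using hs e he

theorem many_nonroot {p d : ℕ} [Fact p.Prime] (hp : 3 * d + 3 < p) {f g : ZMod p → ZMod p}
    (hf : Lo d f) (hg : Lo d g) (hne : ¬ ∀ y, f y = g y) :
    d ≤ 2 * lcN d fun j => ∃ e, e / 2 = j ∧ f (zp p d e) ≠ g (zp p d e) := by
  obtain ⟨s, h1, h2⟩ := exists_edges d fun j => ¬ ∃ e, e / 2 = j ∧ f (zp p d e) ≠ g (zp p d e)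
  have h3 := lcN_add_not d fun j => ∃ e, e / 2 = j ∧ f (zp p d e) ≠ g (zp p d e)
  have h4 : ¬ d < s.card := fun h5 => hne (congrFun (hf.eq_of_agree' hg s h5
    (zp_injOn hp fun e he => (h2 e he).1) fun e he => by
      by_contra h6
      exact (h2 e he).2 ⟨e, rfl, h6⟩))
  omega

namespace CP

variable {c : CP} [Fact c.p.Prime]

/-- a dispute on a row of the generator `i` -/
def RD (V : Vec c.k → View c.p) (a : Vec c.k) (i : ℕ) : Prop := ∃ e, e / 2 = i ∧ ¬ c.RowOk 0 V a e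

/-- a dispute on a column of the generator `j` -/
def CD (V : Vec c.k → View c.p) (a : Vec c.k) (j : ℕ) : Prop := ∃ e, e / 2 = j ∧ ¬ c.ColOk 0 V a e

variable {V : Vec c.k → View c.p} {a : Vec c.k}

theorem RD.symm {i : ℕ} (h : RD V (a + nb c.k c.S i) i) : RD V a i := by
  obtain ⟨e, rfl, he⟩ := h
  refine ⟨e, rfl, fun h1 => he fun y => ?_⟩
  rw [add_assoc, vec_add_self, add_zero, h1 y, ← mul_assoc, sg_mul_self, one_mul]

theorem CD.symm {j : ℕ} (h : CD V (a + nb c.k c.S' j) j) : CD V a j := by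
  obtain ⟨e, rfl, he⟩ := h
  refine ⟨e, rfl, fun h1 => he fun y => ?_⟩
  rw [add_assoc, vec_add_self, add_zero, h1 y, ← mul_assoc, sg_mul_self, one_mul]

theorem calm_iff : c.Calm V a ↔ (∀ i < c.d, ¬ RD V a i) ∧ ∀ j < c.d', ¬ CD V a j := by
  constructor
  · rintro ⟨h1, h2⟩
    exact ⟨fun i hi ⟨e, he, hn⟩ => hn (h1 e (by omega)),
      fun i hi ⟨e, he, hn⟩ => hn (h2 e (by omega))⟩
  · rintro ⟨h1, h2⟩
    refine ⟨fun e he => ?_, fun e he => ?_⟩
    · by_contra hn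
      exact h1 (e / 2) (by omega) ⟨e, rfl, hn⟩
    · by_contra hn
      exact h2 (e / 2) (by omega) ⟨e, rfl, hn⟩

theorem sg_cancel {p : ℕ} (s : ZMod 2) {x y : ZMod p} (h : sg s * x = sg s * y) : x = y := by
  rw [← one_mul x, ← one_mul y, ← sg_mul_self s, mul_assoc, h, mul_assoc]

theorem row_square (h : c.Ok) (hV : ∀ a, Bi c.d c.d' (V a)) {i : ℕ} (hd : RD V a i) :
    c.d' ≤ 2 * lcN c.d' fun j =>
      CD V a j ∨ CD V (a + nb c.k c.S i) j ∨ RD V (a + nb c.k c.S' j) i := by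
  obtain ⟨e, rfl, he⟩ := hd
  refine (many_nonroot h.hd' ((hV _).2 _) (((hV _).2 _).cmul _) he).trans
    (Nat.mul_le_mul_left _ (lcN_mono fun j _ hj => ?_))
  obtain ⟨e', rfl, hj⟩ := hj
  by_contra hn
  rw [not_or, not_or] at hn
  have h1 : c.ColOk 0 V a e' := by_contra fun h1 => hn.1 ⟨e', rfl, h1⟩
  have h2 : c.ColOk 0 V (a + nb c.k c.S (e / 2)) e' := by_contra fun h1 => hn.2.1 ⟨e', rfl, h1⟩
  have h3 : c.RowOk 0 V (a + nb c.k c.S' (e' / 2)) e := by_contra fun h1 => hn.2.2 ⟨e, rfl, h1⟩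
  have h4 := h3 (zp c.p c.d' e')
  rw [add_right_comm, h2, h1, mul_left_comm] at h4
  exact hj (sg_cancel _ h4)

theorem col_square (h : c.Ok) (hV : ∀ a, Bi c.d c.d' (V a)) {j : ℕ} (hd : CD V a j) :
    c.d ≤ 2 * lcN c.d fun i =>
      RD V a i ∨ RD V (a + nb c.k c.S' j) i ∨ CD V (a + nb c.k c.S i) j := by
  obtain ⟨e, rfl, he⟩ := hd
  refine (many_nonroot h.hd ((hV _).1 _) (((hV _).1 _).cmul _) he).trans
    (Nat.mul_le_mul_left _ (lcN_mono fun j _ hj => ?_))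
  obtain ⟨e', rfl, hj⟩ := hj
  by_contra hn
  rw [not_or, not_or] at hn
  have h1 : c.RowOk 0 V a e' := by_contra fun h1 => hn.1 ⟨e', rfl, h1⟩
  have h2 : c.RowOk 0 V (a + nb c.k c.S' (e / 2)) e' := by_contra fun h1 => hn.2.1 ⟨e', rfl, h1⟩
  have h3 : c.ColOk 0 V (a + nb c.k c.S (e' / 2)) e := by_contra fun h1 => hn.2.2 ⟨e, rfl, h1⟩
  have h4 := h3 (zp c.p c.d e')
  rw [add_right_comm, h2, h1, mul_left_comm] at h4
  exact hj (sg_cancel _ h4)

/-- a view that agrees with the proposed rows in `I` and the proposed columns in `J` -/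
theorem improve (h : c.Ok) (hV : ∀ a, Bi c.d c.d' (V a)) (a : Vec c.k) {I J : ℕ → Prop}
    (hI : c.d + 1 ≤ 2 * lcN c.d I) (hJ : c.d' + 1 ≤ 2 * lcN c.d' J)
    (hr : ∀ i < c.d, ∀ j < c.d', I i → J j →
      ¬ RD V (a + nb c.k c.S' j) i ∧ ¬ CD V (a + nb c.k c.S i) j) :
    ∃ ω : View c.p, Bi c.d c.d' ω ∧
      (∀ e < 2 * c.d, I (e / 2) → ∀ y, V (a + nb c.k c.S (e / 2)) (zp c.p c.d e) y =
        sg ((0 : ℕ → ZMod 2) (e / 2) + e) * ω (zp c.p c.d e) y) ∧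
      ∀ e < 2 * c.d', J (e / 2) → ∀ x, V (a + nb c.k c.S' (e / 2)) x (zp c.p c.d' e) =
        sg ((0 : ℕ → ZMod 2) (e / 2) + e) * ω x (zp c.p c.d' e) := by
  obtain ⟨s0, s1, s2⟩ := exists_edges c.d I
  obtain ⟨t, t1, t2⟩ := exists_edges c.d' J
  obtain ⟨s, s3, s4⟩ := exists_subset_card_eq (s := s0) (n := c.d + 1) (by omega)
  obtain ⟨σ, hσ⟩ : ∃ σ : ℕ → ZMod c.p, σ = fun e => sg ((0 : ℕ → ZMod 2) (e / 2) + e) := ⟨_, rfl⟩
  have hσ1 : ∀ e, sg ((0 : ℕ → ZMod 2) (e / 2) + e) = σ e := fun e => by rw [hσ]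
  have hσ2 : ∀ e, σ e * σ e = 1 := fun e => by rw [← hσ1, sg_mul_self]
  simp only [hσ1]
  have key : ∀ e < 2 * c.d, I (e / 2) → ∀ e' < 2 * c.d', J (e' / 2) →
      σ e * V (a + nb c.k c.S (e / 2)) (zp c.p c.d e) (zp c.p c.d' e') =
        σ e' * V (a + nb c.k c.S' (e' / 2)) (zp c.p c.d e) (zp c.p c.d' e') := by
    intro e he hi e' he' hj
    obtain ⟨h1, h2⟩ := hr (e / 2) (by omega) (e' / 2) (by omega) hi hj
    have h3 : c.RowOk 0 V (a + nb c.k c.S' (e' / 2)) e := by_contra fun h3 => h1 ⟨e, rfl, h3⟩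
    have h4 : c.ColOk 0 V (a + nb c.k c.S (e / 2)) e' := by_contra fun h3 => h2 ⟨e', rfl, h3⟩
    have h5 := h3 (zp c.p c.d' e')
    rw [add_right_comm, h4, hσ1, hσ1] at h5
    linear_combination (σ e * σ e') * h5 -
      σ e * V (a + nb c.k c.S (e / 2)) (zp c.p c.d e) (zp c.p c.d' e') * hσ2 e' +
      σ e' * V (a + nb c.k c.S' (e' / 2)) (zp c.p c.d e) (zp c.p c.d' e') * hσ2 e
  obtain ⟨ω, hω⟩ : ∃ ω : View c.p, ω = fun x y => ∑ e ∈ s,
    σ e * V (a + nb c.k c.S (e / 2)) (zp c.p c.d e) y *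
      ∏ e2 ∈ s.erase e, (x - zp c.p c.d e2) / (zp c.p c.d e - zp c.p c.d e2) := ⟨_, rfl⟩
  have hb : Bi c.d c.d' ω := by
    rw [hω]
    exact ⟨fun y => Lo.sum s fun e he => (lo_basis s s4 _ he).cmul _,
      fun x => Lo.sum s fun e _ => (((hV _).2 _).cmul _).mulc _⟩
  have hcol : ∀ e' < 2 * c.d', J (e' / 2) → ∀ x, ω x (zp c.p c.d' e') =
      σ e' * V (a + nb c.k c.S' (e' / 2)) x (zp c.p c.d' e') := by
    intro e' he' hj x
    rw [(((hV (a + nb c.k c.S' (e' / 2))).1 (zp c.p c.d' e')).cmul (σ e')).interp' s s4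
      (zp_injOn h.hd fun e he => (s2 e (s3 he)).1) x, hω]
    exact sum_congr rfl fun e he => by rw [key e (s2 e (s3 he)).1 (s2 e (s3 he)).2 e' he' hj]
  refine ⟨ω, hb, fun e he hi y => ?_, fun e he hj x => ?_⟩
  · have h1 := (hb.2 (zp c.p c.d e)).eq_of_agree'
      (((hV (a + nb c.k c.S (e / 2))).2 (zp c.p c.d e)).cmul (σ e)) t (by omega)
      (zp_injOn h.hd' fun e he => (t2 e he).1) fun e' he' => by
        rw [hcol e' (t2 e' he').1 (t2 e' he').2, key e he hi e' (t2 e' he').1 (t2 e' he').2]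
    rw [h1, ← mul_assoc, hσ2, one_mul]
  · rw [hcol e he hj, ← mul_assoc, hσ2, one_mul]

end CP

end Vale.Agent.P330Q
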