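import Vale.Agent.P330Q.Line
import Vale.Agent.P330.Hard

/-! Tools for the layout: extension of an injective map with holes to a permutation, and the latest
earlier position with the same entry. -/

namespace Vale.Agent.P330Q.Lay

open Vale.Agent.Lib.H23 Vale.Agent.P333 Vale.Agent.P325 Vale.Agent.P330 Vale.Agent.P330.Hard

/-- the numbers below the length that do not occur -/
def free (L : List ℕ) : List ℕ :=
  (List.range L.length).filter fun v => !L.any fun a => decide (a = v)

/-- the entries that are too large are replaced by the free numbers, in increasing order -/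
def ext (L : List ℕ) : List ℕ := (List.range L.length).map fun m =>
  if L.getD m 0 < L.length then L.getD m 0
  else (free L).getD ((L.take m).countP fun a => decide (L.length ≤ a)) 0

theorem pt_free : PT free := by
  unfold free
  refine pt_filter (f := fun (L : List ℕ) v => !L.any fun a => decide (a = v)) (PT.not ?_)
    (PU.len PT.id).range
  exact PT.any (f := fun (p : List ℕ × ℕ) a => decide (a = p.2))
    (pt_decEq PT.snd' PT.fst'.snd) PT.fst'

theorem pt_ext : PT ext := by
  unfold ext
  refine PT.map (f := fun (L : List ℕ) m => if L.getD m 0 < L.length then L.getD m 0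
    else (free L).getD ((L.take m).countP fun a => decide (L.length ≤ a)) 0) ?_
    (PU.len PT.id).range
  have h1 : PT fun p : List ℕ × ℕ => p.1.getD p.2 0 := PT.getD PT.fst' PT.snd' (PT.const 0)
  refine ite_lt h1 PT.fst'.length h1 (PT.getD (PT.comp (f := free) pt_free PT.fst') ?_ (PT.const 0))
  exact pt_countP (f := fun (p : List ℕ × ℕ) a => decide (p.1.length ≤ a))
    (pt_decLe PT.fst'.fst.length PT.snd') (pt_take PT.snd' PT.fst')

theorem mem_free {L : List ℕ} {v : ℕ} : v ∈ free L ↔ v < L.length ∧ v ∉ L := by
  simp [free]
  intro _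
  exact ⟨fun h hv => h v hv rfl, fun h x hx e => h (e ▸ hx)⟩

theorem count_le_free (L : List ℕ) :
    (L.countP fun a => decide (L.length ≤ a)) ≤ (free L).length := by
  have h1 := List.length_eq_countP_add_countP (fun a => decide (L.length ≤ a)) (l := L)
  have h2 := List.length_eq_countP_add_countP
    (fun v => !L.any fun a => decide (a = v)) (l := List.range L.length)
  have h3 : ((List.range L.length).filter fun v => decide ¬(!L.any fun a => decide (a = v)) = true).length ≤
      (L.filter fun a => decide ¬(decide (L.length ≤ a)) = true).length := by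
    refine List.Subperm.length_le (List.Nodup.subperm (List.nodup_range.filter _) fun v hv => ?_)
    simp only [List.mem_filter, List.mem_range] at hv ⊢
    simp at hv ⊢
    exact ⟨hv.2, hv.1⟩
  rw [← List.countP_eq_length_filter, ← List.countP_eq_length_filter] at h3
  rw [free, ← List.countP_eq_length_filter]
  rw [List.length_range] at h2
  omega

theorem count_take_lt {L : List ℕ} {p : ℕ → Bool} {i j : ℕ} (hij : i < j) (hi : i < L.length)
    (hp : p (L.getD i 0) = true) : (L.take i).countP p < (L.take j).countP p := by
  have h1 : (L.take (i + 1)).countP p = (L.take i).countP p + 1 := by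
    rw [List.take_succ_eq_append_getElem hi, List.countP_append]
    rw [List.getD_eq_getElem _ _ hi] at hp
    simp [hp]
  have h2 : (L.take (i + 1)).countP p ≤ (L.take j).countP p :=
    (List.take_sublist_take_left hij).countP_le
  omega

theorem ext_length (L : List ℕ) : (ext L).length = L.length := by simp [ext]

theorem ext_getD {L : List ℕ} {m : ℕ} (hm : m < L.length) (h : L.getD m 0 < L.length) :
    (ext L).getD m 0 = L.getD m 0 := by
  rw [List.getD_eq_getElem _ _ (by rwa [ext_length])]
  simp only [ext, List.getElem_map, List.getElem_range, if_pos h]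

theorem ext_perm {L : List ℕ} (h : ∀ i j, i < j → j < L.length → L.getD i 0 < L.length →
    L.getD i 0 ≠ L.getD j 0) : (ext L).Perm (List.range L.length) := by
  have hc : ∀ m < L.length, ¬L.getD m 0 < L.length →
      ((L.take m).countP fun a => decide (L.length ≤ a)) < (free L).length := fun m hm h1 => by
    have := count_take_lt (p := fun a => decide (L.length ≤ a)) hm hm (by simpa using h1)
    rw [List.take_length] at this
    exact this.trans_le (count_le_free L)
  have hf : ∀ m < L.length, ¬L.getD m 0 < L.length →
      (free L).getD ((L.take m).countP fun a => decide (L.length ≤ a)) 0 ∈ free L :=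
    fun m hm h1 => by
      rw [List.getD_eq_getElem _ _ (hc m hm h1)]; exact List.getElem_mem _
  have hm : ∀ m < L.length, L.getD m 0 ∈ L := fun m hm => by
    rw [List.getD_eq_getElem _ _ hm]; exact List.getElem_mem _
  refine List.Subperm.perm_of_length_le (List.Nodup.subperm ?_ fun v hv => ?_) (by simp [ext])
  · unfold ext
    rw [List.Nodup, List.pairwise_map]
    refine List.Pairwise.imp_of_mem (fun {i j} hi hj hij => ?_) List.pairwise_lt_range
    rw [List.mem_range] at hi hj
    split_ifs with h1 h2 h2
    · exact h i j hij hj h1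
    · intro e
      exact (mem_free.1 (hf j hj h2)).2 (e ▸ hm i hi)
    · intro e
      exact (mem_free.1 (hf i hi h1)).2 (e ▸ hm j hj)
    · rw [List.getD_eq_getElem _ _ (hc i hi h1), List.getD_eq_getElem _ _ (hc j hj h2)]
      intro e
      have hn : (free L).Nodup := List.nodup_range.filter _
      have := (List.Nodup.getElem_inj_iff hn).1 e
      have := count_take_lt (p := fun a => decide (L.length ≤ a)) hij hi (by simpa using h1)
      omega
  · simp only [ext, List.mem_map, List.mem_range] at hv ⊢
    obtain ⟨m, hm, rfl⟩ := hv
    split_ifs with h1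
    · exact h1
    · exact (mem_free.1 (hf m hm h1)).1

/-- one more than the latest earlier position with the same entry, `0` if there is none -/
def prev (W : List ℕ) (r : ℕ) : ℕ :=
  maxL ((List.range W.length).map fun j => if j < r then
    (if W.getD j 0 = W.getD r 0 then j + 1 else 0) else 0)

theorem pt_prev : PT fun p : List ℕ × ℕ => prev p.1 p.2 := by
  unfold prev
  refine pt_maxL (PT.map (f := fun (p : List ℕ × ℕ) j => if j < p.2 then
    (if p.1.getD j 0 = p.1.getD p.2 0 then j + 1 else 0) else 0) ?_ (PU.len PT.fst').range)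
  exact ite_lt PT.snd' PT.fst'.snd (ite_eq (PT.getD PT.fst'.fst PT.snd' (PT.const 0))
    (PT.getD PT.fst'.fst PT.fst'.snd (PT.const 0)) (PT.snd'.add (PT.const 1)) (PT.const 0))
    (PT.const 0)

theorem foldl_max_mem (l : List ℕ) (b : ℕ) : l.foldl max b = b ∨ l.foldl max b ∈ l := by
  induction l generalizing b with
  | nil => simp
  | cons a l ih =>
    rw [List.foldl_cons]
    rcases ih (max b a) with h | h
    · rw [h]
      rcases max_choice b a with e | e <;> simp [e]
    · exact Or.inr (List.mem_cons_of_mem _ h)

theorem le_foldl_max (l : List ℕ) (b : ℕ) : b ≤ l.foldl max b ∧ ∀ x ∈ l, x ≤ l.foldl max b := by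
  induction l generalizing b with
  | nil => simp
  | cons a l ih =>
    rw [List.foldl_cons]
    obtain ⟨h1, h2⟩ := ih (max b a)
    refine ⟨(le_max_left _ _).trans h1, fun x hx => ?_⟩
    rcases List.mem_cons.1 hx with rfl | hx
    · exact (le_max_right _ _).trans h1
    · exact h2 x hx

theorem prev_ge {W : List ℕ} {j r : ℕ} (hj : j < r) (hr : r < W.length)
    (e : W.getD j 0 = W.getD r 0) : j + 1 ≤ prev W r :=
  (le_foldl_max _ 0).2 _ (List.mem_map.2 ⟨j, List.mem_range.2 (hj.trans hr), by
    rw [if_pos hj, if_pos e]⟩)

theorem prev_spec {W : List ℕ} {r : ℕ} (h : prev W r ≠ 0) :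
    prev W r - 1 < r ∧ W.getD (prev W r - 1) 0 = W.getD r 0 := by
  rcases foldl_max_mem ((List.range W.length).map fun j => if j < r then
    (if W.getD j 0 = W.getD r 0 then j + 1 else 0) else 0) 0 with h1 | h1
  · exact absurd h1 h
  · obtain ⟨j, -, e⟩ := List.mem_map.1 h1
    change _ = prev W r at e
    split_ifs at e with h2 h3
    · rw [← e, Nat.add_sub_cancel]; exact ⟨h2, h3⟩
    · exact absurd e.symm h
    · exact absurd e.symm h

theorem xor8 (k a b : ℕ) (ha : a < 8) (hb : b < 8) : (8 * k + a) ^^^ b = 8 * k + (a ^^^ b) := by
  have h1 : ((8 * k + a) ^^^ b) / 2 ^ 3 = k := by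
    rw [Nat.xor_div_two_pow, show (8 * k + a) / 2 ^ 3 = k by omega,
      show b / 2 ^ 3 = 0 by omega, Nat.xor_zero]
  have h2 : ((8 * k + a) ^^^ b) % 2 ^ 3 = a ^^^ b := by
    rw [Nat.xor_mod_two_pow, show (8 * k + a) % 2 ^ 3 = a by omega,
      show b % 2 ^ 3 = b by omega]
  omega

end Vale.Agent.P330Q.Lay
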