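import Vale.Agent.P330Q.LayA

/-! The cells read by the gate region and the output region of one circuit. -/

namespace Vale.Agent.P330Q.Lay

open Vale.Agent.Lib.H23 Vale.Agent.P333 Vale.Agent.P325 Vale.Agent.P330 Vale.Agent.P330.Hard

section defs

variable (C : BCircuit) (n H inp z : ℕ)

def gnum (g k d : ℕ) : ℕ := (C.gates.getD g (.not 0)).nums.getD k d

/-- the wire named by the cell with offset `r` -/
def raw (r : ℕ) : ℕ :=
  if r / 8 < C.gates.length then gnum C (r / 8) (r % 8 + 1) (n + C.gates.length)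
  else if r % 8 = 0 then C.outs.getD (r / 8 - C.gates.length) (n + C.gates.length)
  else n + C.gates.length

/-- one more than the wire wanted by the cell with offset `r`, or `0` -/
def wire (r : ℕ) : ℕ := if raw C n r < n + min (r / 8) C.gates.length then raw C n r + 1 else 0

def wl : List ℕ := (List.range H).map (wire C n)

/-- the cell that produces the wire `w` -/
def prod (w : ℕ) : ℕ :=
  if w < n then inp + w else inp + H + 8 * (w - n) + 2 + gnum C (w - n) 0 0

def tu (r : ℕ) : ℕ :=
  if wire C n r = 0 then inp + H + r + 5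
  else if prev (wl C n H) r = 0 then prod C n H inp (wire C n r - 1)
  else inp + H + (prev (wl C n H) r - 1)

/-- the cell read by the cell `inp + H + r` (`8 H` if there is no constraint) -/
def tc (r : ℕ) : ℕ :=
  if r < H then (if r % 8 < 2 then tu C n H inp r else 8 * H)
  else if r - H < n then inp + H + 8 * (C.gates.length + (r - H)) + 3 else z + (r - H)

end defs

section pt

variable {α : Type} [Enc α] {C : α → BCircuit} {n H inp z r k d : α → ℕ}

theorem pt_prev' {W : α → List ℕ} (hW : PT W) (hr : PT r) : PT fun x => prev (W x) (r x) :=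
  (PT.comp (g := fun x => (W x, r x)) pt_prev (PT.pair hW hr)).congr fun _ => rfl

theorem pt_gnum (hC : PT C) (hr : PT r) (hk : PT k) (hd : PT d) :
    PT fun x => gnum (C x) (r x) (k x) (d x) :=
  PT.getD (pt_nums (PT.getD (pt_gates hC) hr (PT.const _))) hk hd

theorem pt_raw (hC : PT C) (hn : PT n) (hr : PT r) : PT fun x => raw (C x) (n x) (r x) := by
  have hG : PT fun x => (C x).gates.length := (pt_gates hC).length
  have h8 : PT fun x => r x / 8 := hr.div (PT.const 8)
  have hm : PT fun x => r x % 8 := pt_mod hr (PT.const 8)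
  exact ite_lt h8 hG (pt_gnum hC h8 (hm.add (PT.const 1)) (hn.add hG))
    (ite_eq hm (PT.const 0) (PT.getD (pt_outs hC) (h8.sub hG) (hn.add hG)) (hn.add hG))

theorem pt_wire (hC : PT C) (hn : PT n) (hr : PT r) : PT fun x => wire (C x) (n x) (r x) :=
  ite_lt (pt_raw hC hn hr) (hn.add (pt_min (hr.div (PT.const 8)) (pt_gates hC).length))
    ((pt_raw hC hn hr).add (PT.const 1)) (PT.const 0)

theorem pt_wl (hC : PT C) (hn : PT n) (hH : PU H) : PT fun x => wl (C x) (n x) (H x) :=
  PT.map (f := fun x r => wire (C x) (n x) r)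
    (pt_wire (PT.comp (f := C) hC PT.fst') (PT.comp (f := n) hn PT.fst') PT.snd') hH.range

theorem pt_prod (hC : PT C) (hn : PT n) (hH : PT H) (hi : PT inp) (hr : PT r) :
    PT fun x => prod (C x) (n x) (H x) (inp x) (r x) :=
  ite_lt hr hn (hi.add hr) (((((hi.add hH).add ((PT.const 8).mul (hr.sub hn))).add
    (PT.const 2))).add (pt_gnum hC (hr.sub hn) (PT.const 0) (PT.const 0)))

theorem pt_tu (hC : PT C) (hn : PT n) (hH : PU H) (hi : PT inp) (hr : PT r) :
    PT fun x => tu (C x) (n x) (H x) (inp x) (r x) := by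
  have hp := pt_prev' (pt_wl hC hn hH) hr
  have hw := pt_wire hC hn hr
  exact ite_eq hw (PT.const 0) (((hi.add hH.pt).add hr).add (PT.const 5))
    (ite_eq hp (PT.const 0) (pt_prod hC hn hH.pt hi (hw.sub (PT.const 1)))
      ((hi.add hH.pt).add (hp.sub (PT.const 1))))

theorem pt_tc (hC : PT C) (hn : PT n) (hH : PU H) (hi : PT inp) (hz : PT z) (hr : PT r) :
    PT fun x => tc (C x) (n x) (H x) (inp x) (z x) (r x) := by
  have hd := hr.sub hH.pt
  exact ite_lt hr hH.pt (ite_lt (pt_mod hr (PT.const 8)) (PT.const 2) (pt_tu hC hn hH hi hr)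
    ((PT.const 8).mul hH.pt)) (ite_lt hd hn (((hi.add hH.pt).add
      ((PT.const 8).mul ((pt_gates hC).length.add hd))).add (PT.const 3)) (hz.add hd))

end pt

variable {C : BCircuit} {n H inp z r : ℕ}

theorem kind_le (C : BCircuit) (g : ℕ) : gnum C g 0 0 ≤ 2 := by
  unfold gnum
  cases C.gates.getD g (.not 0) <;> simp [BGate.nums]

theorem gnum_big (C : BCircuit) (g d : ℕ) {k : ℕ} (hk : 3 ≤ k) : gnum C g k d = d := by
  unfold gnum
  refine List.getD_eq_default _ _ ?_
  cases C.gates.getD g (.not 0) <;> simp [BGate.nums] <;> omega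

theorem wire_ne (h : wire C n r ≠ 0) :
    r % 8 < 2 ∧ wire C n r - 1 < n + min (r / 8) C.gates.length := by
  unfold wire at h ⊢
  split_ifs at h ⊢ with h1
  · refine ⟨?_, by simpa using h1⟩
    by_contra h2
    unfold raw at h1
    split_ifs at h1 with h3 h4
    · rw [gnum_big _ _ _ (by omega)] at h1; omega
    · omega
    · omega
  · exact absurd rfl h

theorem wl_getD (hr : r < H) : (wl C n H).getD r 0 = wire C n r := by
  rw [List.getD_eq_getElem _ _ (by simpa [wl] using hr)]
  simp [wl]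

theorem tc_cases (C : BCircuit) (n H inp z r : ℕ) :
    (r < H ∧ 2 ≤ r % 8 ∧ tc C n H inp z r = 8 * H) ∨
    (r < H ∧ r % 8 < 2 ∧ wire C n r = 0 ∧ tc C n H inp z r = inp + H + r + 5) ∨
    (r < H ∧ r % 8 < 2 ∧ wire C n r ≠ 0 ∧ prev (wl C n H) r = 0 ∧ wire C n r - 1 < n ∧
      tc C n H inp z r = inp + (wire C n r - 1)) ∨
    (r < H ∧ r % 8 < 2 ∧ prev (wl C n H) r = 0 ∧ ∃ g, wire C n r = n + g + 1 ∧ g < r / 8 ∧
      g < C.gates.length ∧ gnum C g 0 0 ≤ 2 ∧
      tc C n H inp z r = inp + H + 8 * g + 2 + gnum C g 0 0) ∨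
    (r < H ∧ r % 8 < 2 ∧ wire C n r ≠ 0 ∧ ∃ j, prev (wl C n H) r = j + 1 ∧ j < r ∧ j % 8 < 2 ∧
      wire C n j = wire C n r ∧ tc C n H inp z r = inp + H + j) ∨
    (H ≤ r ∧ r - H < n ∧ tc C n H inp z r = inp + H + 8 * (C.gates.length + (r - H)) + 3) ∨
    (H + n ≤ r ∧ tc C n H inp z r = z + (r - H)) := by
  unfold tc
  by_cases h1 : r < H
  · rw [if_pos h1]
    by_cases h2 : r % 8 < 2
    · rw [if_pos h2, tu]
      by_cases h3 : wire C n r = 0
      · rw [if_pos h3]; exact Or.inr (Or.inl ⟨h1, h2, h3, rfl⟩)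
      · rw [if_neg h3]
        have h4 := (wire_ne h3).2
        by_cases h5 : prev (wl C n H) r = 0
        · rw [if_pos h5, prod]
          by_cases h6 : wire C n r - 1 < n
          · rw [if_pos h6]; exact Or.inr (Or.inr (Or.inl ⟨h1, h2, h3, h5, h6, rfl⟩))
          · rw [if_neg h6]
            exact Or.inr (Or.inr (Or.inr (Or.inl ⟨h1, h2, h5, wire C n r - 1 - n, by omega,
              by omega, by omega, kind_le _ _, rfl⟩)))
        · rw [if_neg h5]
          obtain ⟨h6, h7⟩ := prev_spec h5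
          rw [wl_getD h1, wl_getD (h6.trans h1)] at h7
          exact Or.inr (Or.inr (Or.inr (Or.inr (Or.inl ⟨h1, h2, h3, _, by omega, h6,
            (wire_ne (h7 ▸ h3)).1, h7, rfl⟩))))
    · rw [if_neg h2]; exact Or.inl ⟨h1, by omega, rfl⟩
  · rw [if_neg h1]
    by_cases h2 : r - H < n
    · rw [if_pos h2]
      exact Or.inr (Or.inr (Or.inr (Or.inr (Or.inr (Or.inl ⟨by omega, h2, rfl⟩)))))
    · rw [if_neg h2]
      exact Or.inr (Or.inr (Or.inr (Or.inr (Or.inr (Or.inr ⟨by omega, rfl⟩)))))

/-- the size conditions -/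
structure Fit (C : BCircuit) (n H inp z : ℕ) : Prop where
  big : 8 * (C.gates.length + n + 1) ≤ H
  h8 : H % 8 = 0
  hz : inp + 2 * H ≤ z
  hz' : z + H ≤ 8 * H

theorem tc_range (F : Fit C n H inp z) (hr : r < 2 * H) :
    (r < H ∧ 2 ≤ r % 8 ∧ tc C n H inp z r = 8 * H) ∨
    (tc C n H inp z r < 8 * H ∧ inp ≤ tc C n H inp z r ∧ tc C n H inp z r < inp + H + r) ∨
    (∃ j < H, 5 ≤ j % 8 ∧ tc C n H inp z r = inp + H + j) ∨
    (∃ j < H, tc C n H inp z r = z + j) := by
  obtain ⟨f1, f2, f3, f4⟩ := F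
  rcases tc_cases C n H inp z r with h | h | h | ⟨h1, h2, h3, g, h⟩ | ⟨h1, h2, h3, j, h⟩ | h | h
  · exact Or.inl h
  · exact Or.inr (Or.inr (Or.inl ⟨r + 5, by omega, by omega, by omega⟩))
  · exact Or.inr (Or.inl (by omega))
  · exact Or.inr (Or.inl (by omega))
  · exact Or.inr (Or.inl (by omega))
  · exact Or.inr (Or.inl (by omega))
  · exact Or.inr (Or.inr (Or.inr ⟨r - H, by omega, by omega⟩))

theorem tc_range' (F : Fit C n H inp z) (hr : r < 2 * H) :
    tc C n H inp z r = 8 * H ∨ (inp ≤ tc C n H inp z r ∧ tc C n H inp z r < inp + 2 * H) ∨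
    (z ≤ tc C n H inp z r ∧ tc C n H inp z r < z + H) := by
  obtain ⟨f1, f2, f3, f4⟩ := F
  rcases tc_cases C n H inp z r with h | h | h | ⟨h1, h2, h3, g, h⟩ | ⟨h1, h2, h3, j, h⟩ | h | h <;>
    omega

theorem tc_inj (F : Fit C n H inp z) {r' : ℕ} (hr : r < r') (hr' : r' < 2 * H)
    (h : tc C n H inp z r < 8 * H) : tc C n H inp z r ≠ tc C n H inp z r' := by
  obtain ⟨f1, f2, f3, f4⟩ := F
  have key : r' < H → wire C n r = wire C n r' → r + 1 ≤ prev (wl C n H) r' := fun h1 h2 =>
    prev_ge hr (by simpa [wl] using h1) (by rw [wl_getD h1, wl_getD (hr.trans h1), h2])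
  rcases tc_cases C n H inp z r with a | a | a | ⟨a1, a2, a3, g, a⟩ | ⟨a1, a2, a3, j, a⟩ | a | a <;>
  rcases tc_cases C n H inp z r' with
    b | b | b | ⟨b1, b2, b3, g', b⟩ | ⟨b1, b2, b3, j', b⟩ | b | b <;> first | omega | skip
  intro e
  obtain rfl : j = j' := by omega
  omega

/-- the tape follows the rules of the gate region -/
structure Run (C : BCircuit) (n H inp z : ℕ) (y : ℕ → Bool) (x : List Bool) : Prop where
  len : x.length = n
  inp0 : ∀ i < n, y (inp + i) = x.getD i false
  zero : ∀ r < H, 5 ≤ r % 8 → y (inp + H + r) = false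
  zero' : ∀ i < H, y (z + i) = false
  use : ∀ r < H, r % 8 < 2 → y (inp + H + r) = y (tc C n H inp z r)
  g2 : ∀ g, 8 * g < H → y (inp + H + 8 * g + 2) = (y (inp + H + 8 * g) && y (inp + H + 8 * g + 1))
  g3 : ∀ g, 8 * g < H → y (inp + H + 8 * g + 3) = (y (inp + H + 8 * g + 1) || y (inp + H + 8 * g))
  g4 : ∀ g, 8 * g < H → y (inp + H + 8 * g + 4) = !y (inp + H + 8 * g)

/-- the value of the wire wanted by a cell -/
def wv (C : BCircuit) (n : ℕ) (x : List Bool) (r : ℕ) : Bool :=
  decide (wire C n r ≠ 0) && (wires C.gates x).getD (wire C n r - 1) false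

theorem wv_eq (x : List Bool) (r : ℕ) : wv C n x r =
    (decide (raw C n r < n + min (r / 8) C.gates.length) &&
      (wires C.gates x).getD (raw C n r) false) := by
  unfold wv wire
  split_ifs with h <;> simp [h]

theorem wv_gate (x : List Bool) {g : ℕ} (hg : g < C.gates.length) {p : ℕ} (hp : p < 2) :
    wv C n x (8 * g + p) = ((wires C.gates x).take (n + g)).getD
      (C.gates[g].nums.getD (p + 1) (n + C.gates.length)) false := by
  have e1 : (8 * g + p) / 8 = g := by omega
  have e2 : (8 * g + p) % 8 = p := by omega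
  rw [wv_eq, getD_take, raw, e1, e2, if_pos hg, gnum, List.getD_eq_getElem _ _ hg,
    min_eq_left hg.le]

variable {y : ℕ → Bool} {x : List Bool}

theorem Run.val (F : Fit C n H inp z) (R : Run C n H inp z y x) :
    ∀ r < H, r % 8 < 2 → y (inp + H + r) = wv C n x r := by
  obtain ⟨f1, f2, f3, f4⟩ := F
  obtain ⟨w1, w2, w3⟩ := wires_spec C.gates x
  rw [R.len] at w1 w2 w3
  intro r
  induction r using Nat.strong_induction_on with
  | _ r ih =>
  intro hr h2
  rw [R.use r hr h2]
  rcases tc_cases C n H inp z r with h | h | h | ⟨-, -, -, g, h⟩ | ⟨-, -, -, j, h⟩ | h | h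
  · omega
  · rw [h.2.2.2, add_assoc, R.zero _ (by omega) (by omega), wv]
    simp [h.2.2.1]
  · obtain ⟨-, -, h3, -, h4, h5⟩ := h
    have := getD_take (wires C.gates x) n (wire C n r - 1)
    rw [w2] at this
    rw [h5, R.inp0 _ h4, this, wv]
    simp [h3, h4]
  · obtain ⟨h3, h4, h5, -, h6⟩ := h
    have i0 := ih (8 * g) (by omega) (by omega) (by omega)
    have i1 := ih (8 * g + 1) (by omega) (by omega) (by omega)
    have a0 := wv_gate (n := n) x h5 (p := 0) (by omega)
    rw [add_zero] at a0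
    rw [a0] at i0
    rw [wv_gate x h5 (by omega), ← add_assoc] at i1
    have e : wv C n x r = C.gates[g].eval ((wires C.gates x).take (n + g)) := by
      rw [wv, h3, Nat.add_sub_cancel, w3 g h5]; simp
    have q2 := R.g2 g (by omega)
    have q3 := R.g3 g (by omega)
    have q4 := R.g4 g (by omega)
    rw [h6, e, gnum, List.getD_eq_getElem _ _ h5]
    rw [i0] at q4
    rw [i0, i1] at q2 q3
    generalize C.gates[g] = γ at *
    cases γ with
    | and a b => exact q2
    | or a b => exact q3.trans (Bool.or_comm _ _)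
    | not a => exact q4
  · obtain ⟨-, h3, h4, h5, h6⟩ := h
    rw [h6, ih j h3 (by omega) h4, wv, wv, h5]
  · omega
  · omega

theorem Run.out (F : Fit C n H inp z) (R : Run C n H inp z y x) (ho : C.outs.length = n) {i : ℕ}
    (hi : i < H) : y (tc C n H inp z (H + i)) = (C.eval x).getD i false := by
  have hv := R.val F
  obtain ⟨f1, f2, f3, f4⟩ := F
  rw [tc, if_neg (by omega), Nat.add_sub_cancel_left]
  split_ifs with h
  · have e1 : 8 * (C.gates.length + i) / 8 = C.gates.length + i := by omega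
    have e2 : (8 * (C.gates.length + i) + 1) / 8 = C.gates.length + i := by omega
    have e3 : 8 * (C.gates.length + i) % 8 = 0 := by omega
    have e4 : (8 * (C.gates.length + i) + 1) % 8 = 1 := by omega
    have i0 := hv (8 * (C.gates.length + i)) (by omega) (by omega)
    have i1 := hv (8 * (C.gates.length + i) + 1) (by omega) (by omega)
    rw [wv_eq, raw, e1, e3, if_neg (by omega), if_pos rfl, Nat.add_sub_cancel_left,
      min_eq_right (Nat.le_add_right _ _), List.getD_eq_getElem _ _ (by omega)] at i0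
    rw [wv_eq, raw, e2, e4, if_neg (by omega), if_neg (by omega),
      min_eq_right (Nat.le_add_right _ _), ← add_assoc] at i1
    rw [R.g3 _ (by omega), i0, i1, List.getD_eq_getElem (C.eval x) _ (by
      simpa [BCircuit.eval, ho] using h)]
    have w1 := (wires_spec C.gates x).1
    rw [R.len] at w1
    simp only [BCircuit.eval, List.getElem_map, lt_self_iff_false, decide_false, Bool.false_and,
      Bool.false_or]
    change _ = (wires C.gates x).getD _ false
    by_cases h1 : C.outs[i] < n + C.gates.length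
    · simp only [h1, decide_true, Bool.true_and]
    · rw [List.getD_eq_default _ _ (by omega)]; simp
  · rw [R.zero' i hi, List.getD_eq_default _ _ (by simp [BCircuit.eval, ho]; omega)]

end Vale.Agent.P330Q.Lay
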