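import Vale.Agent.P330Q.Tens

/-! A line with small steps. The tape has eight regions of `H = 2 ^ ko` cells: `0` the vertex `V`,
`1` the gates of `S`, `2` the vertex `U`, `3` the gates of `P`, `4` the vertex `W`, the rest zero.
Every step changes one cell. Also: routing of a permutation by layers of switches. -/

namespace Vale.Agent.P330Q

open Vale.Agent.Lib.H23 Vale.Agent.P325 Vale.Agent.P330 Vale.Agent.P330.Amp Finset

abbrev Tape : Type := ℕ → Bool

/-- the active region of a phase -/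
def lreg (φ : ℕ) : ℕ := [1, 2, 3, 4, 1, 0, 4, 3, 0, 2].getD φ 0
def lup (φ : ℕ) : Bool := decide (φ < 4 ∨ φ = 8)
def eAct (φ : ℕ) : ℕ := if φ = 5 then 1 else if φ = 8 ∨ φ = 9 then 2 else 0
/-- status of a region: `0` zero, `1` free, `2` full, `3` active -/
def stat (φ ρ : ℕ) : ℕ :=
  (([[1, 3], [1, 2, 3], [1, 2, 2, 3], [1, 2, 2, 2, 3], [2, 3, 1, 2, 2], [3, 0, 1, 2, 2],
    [0, 0, 1, 2, 3], [0, 0, 1, 3], [3, 0, 1], [1, 0, 3]] : List (List ℕ)).getD φ []).getD ρ 0

section pos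

variable (H n θ : ℕ)

def ph : ℕ := θ / (H + 1)
def ix : ℕ := θ % (H + 1)
def ptr : ℕ := if lup (ph H θ) then ix H θ else H - ix H θ
/-- the rule for the full cells of a region -/
def ee (ρ : ℕ) : ℕ := if stat (ph H θ) ρ = 3 then eAct (ph H θ) else if ρ = 0 then 1 else 0
/-- cells with offset below `fu` follow the rule -/
def fu (ρ : ℕ) : ℕ := if stat (ph H θ) ρ = 2 then H else if stat (ph H θ) ρ = 3 then ptr H θ else 0
/-- cells with offset from `hi` on are zero -/
def hi (ρ : ℕ) : ℕ := if stat (ph H θ) ρ = 1 then n else fu H θ ρ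
def nxt : ℕ := (θ + 1) % (10 * (H + 1))
def prv : ℕ := (θ + (10 * (H + 1) - 1)) % (10 * (H + 1))
/-- the next (`w = 0`) or previous position -/
def mvp (w : ℕ) : ℕ := if w = 0 then nxt H θ else prv H θ
/-- the step does not change the tape -/
def bdy (w : ℕ) : Bool := decide (ix H θ = if w = 0 then H else 0)
/-- the step fills a cell (otherwise it erases a cell) -/
def fills (w : ℕ) : Bool := if w = 0 then lup (ph H θ) else !lup (ph H θ)
/-- the cell that is changed -/
def cel (w : ℕ) : ℕ := lreg (ph H θ) * H + if fills H θ w then ptr H θ else ptr H θ - 1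

end pos

structure LD where
  ko : ℕ
  n : ℕ
  π : List ℕ

instance encLD : Enc LD := ⟨fun D => Enc.enc (List.range D.ko, D.n, D.π)⟩

namespace LD

variable (D : LD)

abbrev H : ℕ := 2 ^ D.ko
def pi (m : ℕ) : ℕ := D.π.getD m 0

def E0 (y : Tape) (m : ℕ) : Bool :=
  if m.testBit D.ko then
    (if m % 8 < 2 then y (D.pi m) else if m % 8 = 2 then y (m ^^^ 2) && y (m ^^^ 3)
      else if m % 8 = 3 then y (m ^^^ 2) || y (m ^^^ 3)
      else if m % 8 = 4 then !y (m ^^^ 4) else false)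
  else y (D.pi m)

def E (e : ℕ) (y : Tape) (m : ℕ) : Bool :=
  if e = 0 then D.E0 y m else if e = 1 then y (m ^^^ 4 * D.H) else y (m ^^^ 2 * D.H)

def Shape (θ : ℕ) (y : Tape) : Prop :=
  ∀ m < 8 * D.H, (m % D.H < fu D.H θ (m / D.H) → y m = D.E (ee D.H θ (m / D.H)) y m) ∧
    (hi D.H D.n θ (m / D.H) ≤ m % D.H → y m = false)

def Valid (θ : ℕ) (y : Tape) : Prop := θ < 10 * (D.H + 1) ∧ D.Shape θ y

/-- the step is possible -/
def Mv (w θ : ℕ) (y : Tape) : Prop :=
  D.Valid θ y ∧ (bdy D.H θ w = true → D.Shape (mvp D.H θ w) y)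

/-- the tape after the step -/
def stp (w θ : ℕ) (y : Tape) : Tape :=
  if bdy D.H θ w then y else Function.update y (cel D.H θ w)
    (fills D.H θ w && D.E (eAct (ph D.H θ)) y (cel D.H θ w))

def part (y : Tape) (ρ : ℕ) : List Bool := (List.range D.n).map fun i => y (ρ * D.H + i)

/-- cells that are always zero -/
def Zc (m : ℕ) : Prop := 5 * D.H ≤ m ∨ (m.testBit D.ko = true ∧ 5 ≤ m % 8)

/-- cells that read through the permutation -/
def Uses (m : ℕ) : Prop := m.testBit D.ko = false ∨ m % 8 < 2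

structure Ok (I : EOL) : Prop where
  ko : 3 ≤ D.ko
  n : D.n = I.n
  nH : D.n ≤ D.H
  lt : ∀ m < 8 * D.H, D.pi m < 8 * D.H
  p1 : ∀ m, D.H ≤ m → m < 5 * D.H → D.Uses m → D.pi m < m ∨ D.Zc (D.pi m)
  p2 : ∀ m, 3 * D.H ≤ m → m < 5 * D.H → D.Uses m → 2 * D.H ≤ D.pi m ∨ D.Zc (D.pi m)
  pS : ∀ y : Tape, (∀ m < 8 * D.H, D.Zc m → y m = false) →
    (∀ m, D.H ≤ m → m < 2 * D.H → y m = D.E0 y m) →
    ∀ i < D.H, y (D.pi (2 * D.H + i)) = (I.S.eval (D.part y 0)).getD i false
  pP : ∀ y : Tape, (∀ m < 8 * D.H, D.Zc m → y m = false) →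
    (∀ m, 3 * D.H ≤ m → m < 4 * D.H → y m = D.E0 y m) →
    ∀ i < D.H, y (D.pi (4 * D.H + i)) = (I.P.eval (D.part y 2)).getD i false

def fill (l : List Bool) (lo c : ℕ) : List Bool :=
  (List.range c).foldl (fun u i => u.set (lo + i) (D.E0 (fun m => u.getD m false) (lo + i))) l

/-- the tape of the known end of the line -/
def oL : List Bool :=
  D.fill (D.fill ((List.range (8 * D.H)).map fun _ => false) (3 * D.H) (2 * D.H)) D.H D.H

def oT : Tape := fun m => D.oL.getD m false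

/-- the position of the known end -/
def oθ : ℕ := 4 * (D.H + 1)

end LD

def LayStmt : Prop :=
  ∃ D : EOL → LD, PT D ∧ ∀ I, (D I).H ≤ 64 * sz I ∧ (D I).n = I.n ∧
    (D I).π.Perm (List.range (8 * (D I).H)) ∧ (I.Valid → (D I).Ok I)

/-! ### routing -/

def swc (cs : List (List ℕ)) (l a : ℕ) : ℕ := (cs.getD l []).getD a 0

/-- the position of the content of the cell `m` after `l` layers -/
def pos (k : ℕ) (jj : List ℕ) (cs : List (List ℕ)) (l m : ℕ) : ℕ :=
  (List.range l).foldl (fun x i => if swc cs i x = 1 then x ^^^ 2 ^ min (jj.getD i 0) k else x) m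

/-- the contents after `l` layers -/
def lyr {R : Type} {k : ℕ} (jj : List ℕ) (cs : List (List ℕ)) (l : ℕ) (y : Vec k → R) : Vec k → R :=
  (List.range l).foldl (fun z i a =>
    if swc cs i (toN a) = 1 then z (a + ej k (jj.getD i 0)) else z a) y

def lyrL (k : ℕ) (jj : List ℕ) (cs : List (List ℕ)) (l : ℕ) (y : List ℕ) : List ℕ :=
  (List.range l).foldl (fun z i => (List.range (2 ^ k)).map fun a =>
    if swc cs i a = 1 then z.getD (a ^^^ 2 ^ min (jj.getD i 0) k) 0 else z.getD a 0) y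

structure ROk (k : ℕ) (jj : List ℕ) (cs : List (List ℕ)) (π : List ℕ) : Prop where
  lt : ∀ j ∈ jj, j < k
  bin : ∀ l a, swc cs l a ≤ 1
  sym : ∀ l < jj.length, ∀ a < 2 ^ k, swc cs l (a ^^^ 2 ^ jj.getD l 0) = swc cs l a
  fin : ∀ a < 2 ^ k, π.getD a 0 < 2 ^ k ∧ pos k jj cs jj.length (π.getD a 0) = a

def RouteStmt : Prop :=
  ∃ (jj : List Unit → List ℕ) (cs : List Unit × List ℕ → List (List ℕ)), PT jj ∧ PT cs ∧
    ∀ u : List Unit, (jj u).length ≤ u.length ^ 2 ∧ (∀ j ∈ jj u, j < u.length) ∧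
      ∀ π : List ℕ, π.Perm (List.range (2 ^ u.length)) → ROk u.length (jj u) (cs (u, π)) π

end Vale.Agent.P330Q
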