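import Vale.Agent.P330Q.Line

/-! Steps along the line can be undone (task LineA).
Plan. Write `m = ρ H + i`; `m.testBit ko` says that `ρ` is odd; `m ^^^ 4 H`, `m ^^^ 2 H` change `ρ`
only; `m ^^^ 2, 3, 4` are smaller cells of the same block of eight. A cell `m` that follows its rule
in the new shape does not read the changed cell `c`, unless `c` is in `Zc`, and then the step does
not change the tape (`zc_false`). Cases on the phase (`interval_cases`). Filling at `ptr` and erasing
at `ptr - 1` are the two kinds of steps; prove both for all phases. -/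

namespace Vale.Agent.P330Q

open Vale.Agent.P330

namespace LD

variable {D : LD} {I : EOL} {θ w : ℕ} {y : Tape}

private theorem la_stat {φ : ℕ} (h : 10 ≤ φ) (ρ : ℕ) : stat φ ρ = 0 := by
  rw [stat, List.getD_eq_default (l := _) (n := φ) _ (by simpa using h)]
  rfl

private theorem la_lreg (φ : ℕ) : lreg φ ≤ 4 := by
  by_cases h : φ < 10
  · revert φ
    decide
  · rw [lreg, List.getD_eq_default _ _ (by simpa using h)]
    omega

private theorem la_act : ∀ φ < 10, ∀ ρ < 8, (stat φ ρ = 3 ↔ ρ = lreg φ) := by decide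

private theorem la_odd (φ : ℕ) : ∀ ρ < 8, (5 ≤ ρ → stat φ ρ = 0) ∧
    (ρ % 2 = 1 → stat φ ρ ≠ 1 ∧ (stat φ ρ = 3 → eAct φ = 0)) := by
  by_cases h : φ < 10
  · revert φ
    decide
  · intro ρ _
    rw [la_stat (not_lt.1 h)]
    simp

private theorem la_rule : ∀ φ < 10, ∀ ρ < 8, (stat φ ρ = 2 ∨ stat φ ρ = 3) →
    ((if stat φ ρ = 3 then eAct φ else if ρ = 0 then 1 else 0) = 0 ∧ 1 ≤ ρ ∧ ρ ≤ 4 ∧
      (ρ ≤ lreg φ ∨ (3 ≤ ρ ∧ lreg φ < 2))) ∨
    ((if stat φ ρ = 3 then eAct φ else if ρ = 0 then 1 else 0) = 1 ∧ (ρ ^^^ 4) ≠ lreg φ) ∨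
    ((if stat φ ρ = 3 then eAct φ else if ρ = 0 then 1 else 0) = 2 ∧ (ρ ^^^ 2) ≠ lreg φ) := by
  intro φ h1 ρ h2
  interval_cases φ <;> interval_cases ρ <;> decide

private theorem la_ix (H θ : ℕ) : ix H θ ≤ H := Nat.le_of_lt_succ (Nat.mod_lt _ (by omega))

private theorem la_ptr (H θ : ℕ) : ptr H θ ≤ H := by
  have := la_ix H θ
  unfold ptr
  split_ifs <;> omega

private theorem la_mk (H φ : ℕ) {i : ℕ} (h : i ≤ H) :
    ph H (φ * (H + 1) + i) = φ ∧ ix H (φ * (H + 1) + i) = i := by
  constructor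
  · rw [ph, add_comm, Nat.add_mul_div_right _ _ (by omega), Nat.div_eq_of_lt (by omega), zero_add]
  · rw [ix, add_comm, Nat.add_mul_mod_self_right, Nat.mod_eq_of_lt (by omega)]

private theorem la_dec (H θ : ℕ) : ph H θ * (H + 1) + ix H θ = θ := Nat.div_add_mod' _ _

private theorem la_ph {H : ℕ} (h : θ < 10 * (H + 1)) : ph H θ < 10 :=
  Nat.div_lt_of_lt_mul (by omega)

private theorem la_nxt {H : ℕ} (h : θ < 10 * (H + 1)) :
    nxt H θ = if θ + 1 < 10 * (H + 1) then θ + 1 else 0 := by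
  unfold nxt
  split_ifs with h1
  · exact Nat.mod_eq_of_lt h1
  · rw [show θ + 1 = 10 * (H + 1) by omega, Nat.mod_self]

private theorem la_prv {H : ℕ} (h : θ < 10 * (H + 1)) :
    prv H θ = if θ = 0 then 10 * (H + 1) - 1 else θ - 1 := by
  unfold prv
  split_ifs with h1
  · rw [h1, zero_add]
    exact Nat.mod_eq_of_lt (by omega)
  · rw [show θ + (10 * (H + 1) - 1) = θ - 1 + 10 * (H + 1) by omega, Nat.add_mod_right]
    exact Nat.mod_eq_of_lt (by omega)

theorem cel_lt (H θ w : ℕ) (h : 0 < H) : cel H θ w < 8 * H := by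
  have h1 := la_ptr H θ
  have h2 := Nat.mul_le_mul_right H (la_lreg (ph H θ))
  unfold cel
  split_ifs <;> omega

theorem fu_le (H θ ρ : ℕ) : fu H θ ρ ≤ H := by
  have h1 := la_ptr H θ
  unfold fu
  split_ifs <;> omega

theorem hi_le {H n : ℕ} (h : n ≤ H) (θ ρ : ℕ) : hi H n θ ρ ≤ H := by
  have h1 := fu_le H θ ρ
  unfold hi
  split_ifs <;> omega

theorem ee_lt (H θ ρ : ℕ) : ee H θ ρ < 3 := by
  unfold ee eAct
  split_ifs <;> omega

theorem eAct_lt (φ : ℕ) : eAct φ < 3 := by
  unfold eAct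
  split_ifs <;> omega

theorem mvp_lt (H θ w : ℕ) : mvp H θ w < 10 * (H + 1) := by
  unfold mvp nxt prv
  split_ifs <;> exact Nat.mod_lt _ (by omega)

theorem mvp_ne {H : ℕ} (h : θ < 10 * (H + 1)) (w : ℕ) : mvp H θ w ≠ θ := by
  unfold mvp
  rw [la_nxt h, la_prv h]
  split_ifs <;> omega

theorem mvp_mvp {H : ℕ} (h : θ < 10 * (H + 1)) (hw : w < 2) :
    mvp H (mvp H θ w) (1 - w) = θ := by
  have h1 := mvp_lt H θ w
  have h2 : mvp H θ w = if w = 0 then nxt H θ else prv H θ := rfl
  rw [la_nxt h, la_prv h] at h2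
  rw [mvp, la_nxt h1, la_prv h1]
  split_ifs at h2 ⊢ <;> omega

private theorem la_bdy {H : ℕ} (h : θ < 10 * (H + 1)) (hw : w < 2) (hb : bdy H θ w = true) :
    bdy H (mvp H θ w) (1 - w) = true := by
  have h1 := la_dec H θ
  have h2 := la_ph h
  simp only [bdy, decide_eq_true_eq] at hb ⊢
  rw [mvp, la_nxt h, la_prv h]
  obtain rfl | rfl : w = 0 ∨ w = 1 := by omega
  · simp only [if_true, Nat.sub_zero, Nat.one_ne_zero, if_false] at hb ⊢
    split_ifs with h3
    · have e : θ + 1 = (ph H θ + 1) * (H + 1) + 0 := by rw [add_mul]; omega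
      rw [e]
      exact (la_mk H _ (Nat.zero_le H)).2
    · simp [ix]
  · simp only [if_true, Nat.sub_self, Nat.one_ne_zero, if_false] at hb ⊢
    split_ifs with h3
    · have e : 10 * (H + 1) - 1 = 9 * (H + 1) + H := by omega
      rw [e]
      exact (la_mk H _ le_rfl).2
    · obtain ⟨φ, hφ⟩ : ∃ φ, ph H θ = φ + 1 := by
        refine ⟨ph H θ - 1, ?_⟩
        rcases Nat.eq_zero_or_pos (ph H θ) with h4 | h4
        · rw [h4] at h1
          omega
        · omega
      have e : θ - 1 = φ * (H + 1) + H := by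
        rw [hφ, add_mul] at h1
        omega
      rw [e]
      exact (la_mk H _ le_rfl).2

private theorem la_in {H : ℕ} (h : θ < 10 * (H + 1)) (hw : w < 2) (hb : bdy H θ w = false) :
    ph H (mvp H θ w) = ph H θ ∧ bdy H (mvp H θ w) (1 - w) = false ∧
      fills H (mvp H θ w) (1 - w) = !fills H θ w ∧
      (fills H θ w = true → ptr H θ < H ∧ ptr H (mvp H θ w) = ptr H θ + 1) ∧
      (fills H θ w = false → 1 ≤ ptr H θ ∧ ptr H (mvp H θ w) + 1 = ptr H θ) := by
  have h1 := la_dec H θ
  have h2 := la_ph h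
  have h3 := la_ix H θ
  have h4 : ph H θ * (H + 1) ≤ 9 * (H + 1) := Nat.mul_le_mul_right _ (by omega)
  simp only [bdy, decide_eq_false_iff_not] at hb ⊢
  obtain rfl | rfl : w = 0 ∨ w = 1 := by omega
  · simp only [if_true] at hb
    have e : mvp H θ 0 = ph H θ * (H + 1) + (ix H θ + 1) := by
      rw [mvp, if_pos rfl, la_nxt h, if_pos (by omega)]
      omega
    obtain ⟨a, b⟩ := la_mk H (ph H θ) (i := ix H θ + 1) (by omega)
    rw [← e] at a b
    simp only [fills, ptr, a, b]
    cases lup (ph H θ) <;> simp <;> omega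
  · simp only [Nat.one_ne_zero, if_false] at hb
    have e : mvp H θ 1 = ph H θ * (H + 1) + (ix H θ - 1) := by
      rw [mvp, if_neg (by omega), la_prv h, if_neg (by omega)]
      omega
    obtain ⟨a, b⟩ := la_mk H (ph H θ) (i := ix H θ - 1) (by omega)
    rw [← e] at a b
    simp only [fills, ptr, a, b]
    cases lup (ph H θ) <;> simp <;> omega

private theorem la_xor8 (m : ℕ) {j : ℕ} (hj : j < 8) :
    (m ^^^ j) / 8 = m / 8 ∧ (m ^^^ j) % 8 = m % 8 ^^^ j := by
  constructor
  · have := Nat.xor_div_two_pow (a := m) (b := j) (n := 3)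
    rw [show 2 ^ 3 = 8 from rfl, Nat.div_eq_of_lt hj, Nat.xor_zero] at this
    exact this
  · have := Nat.xor_mod_two_pow (a := m) (b := j) (n := 3)
    rw [show 2 ^ 3 = 8 from rfl, Nat.mod_eq_of_lt hj] at this
    exact this

private theorem la_xlt {m j : ℕ} (hm : m < 8 * D.H) (hj : j < 8 * D.H) : m ^^^ j < 8 * D.H := by
  have e : 8 * D.H = 2 ^ (D.ko + 3) := by rw [pow_add, mul_comm]; rfl
  rw [e] at hm hj ⊢
  exact Nat.xor_lt_two_pow hm hj

private theorem la_xdiv (m j : ℕ) : (m ^^^ j * D.H) / D.H = m / D.H ^^^ j := by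
  rw [Nat.xor_div_two_pow, Nat.mul_div_cancel _ (by positivity)]

private theorem la_H (h : D.Ok I) : ∃ K, 0 < K ∧ D.H = 8 * K := by
  obtain ⟨k, hk⟩ := Nat.exists_eq_add_of_le h.ko
  exact ⟨2 ^ k, by positivity, by rw [LD.H, hk, pow_add]; rfl⟩

private theorem la_bit (m : ℕ) : m.testBit D.ko = decide (m / D.H % 2 = 1) :=
  Nat.testBit_eq_decide_div_mod_eq

/-- only the first `8 H` cells matter -/
theorem E_congr (h : D.Ok I) {y' : Tape} (e : ∀ m < 8 * D.H, y m = y' m) (i : ℕ) {m : ℕ}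
    (hm : m < 8 * D.H) : D.E i y m = D.E i y' m := by
  obtain ⟨K, hK, hH⟩ := la_H h
  simp only [E, E0]
  rw [e _ (h.lt m hm), e _ (la_xlt hm (j := 2) (by omega)), e _ (la_xlt hm (j := 3) (by omega)),
    e _ (la_xlt hm (j := 4) (by omega)), e _ (la_xlt hm (j := 4 * D.H) (by omega)),
    e _ (la_xlt hm (j := 2 * D.H) (by omega))]

theorem shape_congr (h : D.Ok I) {y' : Tape} (e : ∀ m < 8 * D.H, y m = y' m) :
    D.Shape θ y ↔ D.Shape θ y' := by
  refine forall_congr' fun m => forall_congr' fun hm => ?_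
  rw [e m hm, E_congr h e _ hm]

private theorem la_E0z {m : ℕ} (h1 : m.testBit D.ko = true) (h2 : 5 ≤ m % 8) :
    D.E0 y m = false := by
  rw [E0, if_pos h1, if_neg (by omega), if_neg (by omega), if_neg (by omega), if_neg (by omega)]

theorem zc_false (h : D.Ok I) (hy : D.Shape θ y) : ∀ m < 8 * D.H, D.Zc m → y m = false := by
  intro m hm hz
  obtain ⟨K, hK, hH⟩ := la_H h
  have hρ : m / D.H < 8 := Nat.div_lt_of_lt_mul (by omega)
  obtain ⟨a, b⟩ := la_odd (ph D.H θ) _ hρ
  obtain ⟨c, d⟩ := hy m hm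
  rcases hz with hz | ⟨h1, h2⟩
  · have h3 := a ((Nat.le_div_iff_mul_le (by omega)).2 hz)
    refine d ?_
    simp [hi, fu, h3]
  · obtain ⟨b1, b2⟩ := b (by simpa [la_bit] using h1)
    rw [hi, if_neg b1] at d
    by_cases h3 : m % D.H < fu D.H θ (m / D.H)
    · have h4 : ee D.H θ (m / D.H) = 0 := by
        unfold ee
        split_ifs with h5 h6
        · exact b2 h5
        · rw [la_bit, h6] at h1
          simp at h1
        · rfl
      rw [c h3, h4, E, if_pos rfl, la_E0z h1 h2]
    · exact d (not_lt.1 h3)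

private theorem la_cel {H : ℕ} (h : θ < 10 * (H + 1)) (hw : w < 2) (hb : bdy H θ w = false) :
    cel H θ w / H = lreg (ph H θ) ∧
      cel H θ w % H = if fills H θ w then ptr H θ else ptr H θ - 1 := by
  obtain ⟨-, -, -, h1, h2⟩ := la_in h hw hb
  have h0 := la_ptr H θ
  have h3 : (if fills H θ w then ptr H θ else ptr H θ - 1) < H := by
    cases hf : fills H θ w
    · have := h2 hf
      simp only [Bool.false_eq_true, if_false]
      omega
    · exact (h1 hf).1
  constructor
  · rw [cel, add_comm, Nat.add_mul_div_right _ _ (by omega), Nat.div_eq_of_lt h3, zero_add]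
  · rw [cel, add_comm, Nat.add_mul_mod_self_right, Nat.mod_eq_of_lt h3]

/-- the old content of the changed cell -/
theorem old_val (h : D.Ok I) (hy : D.Valid θ y) (hw : w < 2) (hb : bdy D.H θ w = false) :
    y (cel D.H θ w) = (!fills D.H θ w && D.E (eAct (ph D.H θ)) y (cel D.H θ w)) := by
  obtain ⟨a, b⟩ := la_cel hy.1 hw hb
  obtain ⟨-, -, -, h1, h2⟩ := la_in hy.1 hw hb
  have h3 : stat (ph D.H θ) (lreg (ph D.H θ)) = 3 :=
    (la_act _ (la_ph hy.1) _ (by have := la_lreg (ph D.H θ); omega)).2 rfl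
  obtain ⟨K, hK, hH⟩ := la_H h
  obtain ⟨c, d⟩ := hy.2 _ (cel_lt D.H θ w (by omega))
  rw [a, b] at c d
  simp only [hi, fu, ee, h3] at c d
  cases hf : fills D.H θ w
  · have := h2 hf
    simp only [hf] at c
    simpa using c (by simp; omega)
  · simp only [hf] at d
    simpa using d (by simp)

private theorem la_E0 (h : D.Ok I) {m c : ℕ} (v : Bool) (hc : ¬ D.Zc c) (h1 : D.H ≤ m)
    (h2 : m < 5 * D.H) (h3 : m ≤ c ∨ (3 * D.H ≤ m ∧ c < 2 * D.H)) :
    D.E0 (Function.update y c v) m = D.E0 y m := by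
  obtain ⟨K, hK, hH⟩ := la_H h
  have hu : D.Uses m → Function.update y c v (D.pi m) = y (D.pi m) := by
    intro hu
    refine Function.update_of_ne ?_ _ _
    rintro rfl
    rcases h3 with h3 | ⟨h3, h4⟩
    · rcases h.p1 m h1 h2 hu with h5 | h5
      · omega
      · exact hc h5
    · rcases h.p2 m h3 h2 hu with h5 | h5
      · omega
      · exact hc h5
  have hx : ∀ j < 8, m % 8 ^^^ j < m % 8 → Function.update y c v (m ^^^ j) = y (m ^^^ j) := by
    intro j hj h4
    obtain ⟨a, b⟩ := la_xor8 m hj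
    refine Function.update_of_ne ?_ _ _
    omega
  unfold E0
  split_ifs with a1 a2 a3 a4 a5
  · exact hu (Or.inr a2)
  · rw [hx 2 (by omega) (by rw [a3]; decide), hx 3 (by omega) (by rw [a3]; decide)]
  · rw [hx 2 (by omega) (by rw [a4]; decide), hx 3 (by omega) (by rw [a4]; decide)]
  · rw [hx 4 (by omega) (by rw [a5]; decide)]
  · rfl
  · exact hu (Or.inl (by simpa using a1))

private theorem la_E (h : D.Ok I) (hθ : θ < 10 * (D.H + 1)) {m c : ℕ} (v : Bool) (hc : ¬ D.Zc c)
    (hm : m < 8 * D.H) (h1 : c / D.H = lreg (ph D.H θ))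
    (h2 : stat (ph D.H θ) (m / D.H) = 2 ∨ stat (ph D.H θ) (m / D.H) = 3)
    (h3 : m / D.H = c / D.H → m % D.H ≤ c % D.H) :
    D.E (ee D.H θ (m / D.H)) (Function.update y c v) m = D.E (ee D.H θ (m / D.H)) y m := by
  have hH : 0 < D.H := by positivity
  have hρ : m / D.H < 8 := Nat.div_lt_of_lt_mul (by omega)
  rcases la_rule _ (la_ph hθ) _ hρ h2 with ⟨a, a1, a2, a3⟩ | ⟨a, a1⟩ | ⟨a, a1⟩
  · rw [ee, a, E, E, if_pos rfl, if_pos rfl]
    refine la_E0 h v hc ?_ ?_ ?_
    · simpa using (Nat.le_div_iff_mul_le hH).1 a1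
    · exact (Nat.div_lt_iff_lt_mul hH).1 (by omega)
    · rw [← h1] at a3
      rcases a3 with a3 | ⟨a3, a4⟩
      · left
        rcases a3.lt_or_eq with a4 | a4
        · exact (Nat.lt_of_div_lt_div a4).le
        · have b1 := Nat.div_add_mod m D.H
          have b2 := Nat.div_add_mod c D.H
          have b3 := h3 a4
          rw [a4] at b1
          omega
      · exact Or.inr ⟨(Nat.le_div_iff_mul_le hH).1 a3, (Nat.div_lt_iff_lt_mul hH).1 a4⟩
  · rw [ee, a, E, E, if_neg (by omega), if_pos rfl, if_neg (by omega), if_pos rfl]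
    refine Function.update_of_ne ?_ _ _
    rintro rfl
    exact a1 (by rw [← h1, la_xdiv])
  · rw [ee, a, E, E, if_neg (by omega), if_neg (by omega), if_neg (by omega), if_neg (by omega)]
    refine Function.update_of_ne ?_ _ _
    rintro rfl
    exact a1 (by rw [← h1, la_xdiv])

private theorem la_read (h : D.Ok I) (hy : D.Valid θ y) (hw : w < 2) (hb : bdy D.H θ w = false)
    {m : ℕ} (hm : m < 8 * D.H)
    (h2 : stat (ph D.H θ) (m / D.H) = 2 ∨ stat (ph D.H θ) (m / D.H) = 3)
    (h3 : m / D.H = cel D.H θ w / D.H → m % D.H ≤ cel D.H θ w % D.H) :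
    D.E (ee D.H θ (m / D.H)) (D.stp w θ y) m = D.E (ee D.H θ (m / D.H)) y m := by
  obtain ⟨a, -⟩ := la_cel hy.1 hw hb
  have hc := cel_lt D.H θ w (by positivity)
  rw [stp, hb, if_neg (by simp)]
  by_cases hz : D.Zc (cel D.H θ w)
  · have h4 := zc_false h hy.2 _ hc hz
    have h5 : D.E (eAct (ph D.H θ)) y (cel D.H θ w) = false := by
      have h6 := la_lreg (ph D.H θ)
      rcases hz with hz | ⟨b1, b2⟩
      · have := (Nat.le_div_iff_mul_le (by positivity)).2 hz
        omega
      · have h7 := ((la_odd (ph D.H θ) (cel D.H θ w / D.H) (by omega)).2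
          (by simpa [la_bit] using b1)).2 ((la_act _ (la_ph hy.1) _ (by omega)).2 a)
        rw [h7, E, if_pos rfl, la_E0z b1 b2]
    rw [h5, Bool.and_false, ← h4, Function.update_eq_self]
  · exact la_E h hy.1 _ hz hm a h2 h3

theorem mv_back (h : D.Ok I) (hw : w < 2) (hy : D.Mv w θ y) :
    D.Mv (1 - w) (mvp D.H θ w) (D.stp w θ y) ∧
      D.stp (1 - w) (mvp D.H θ w) (D.stp w θ y) = y := by
  obtain ⟨hv, hs⟩ := hy
  cases hb : bdy D.H θ w
  · obtain ⟨a1, a2, a3, a4, a5⟩ := la_in hv.1 hw hb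
    obtain ⟨b1, b2⟩ := la_cel hv.1 hw hb
    have hc := cel_lt D.H θ w (by positivity)
    have hl := la_lreg (ph D.H θ)
    have h3 : stat (ph D.H θ) (cel D.H θ w / D.H) = 3 :=
      (la_act _ (la_ph hv.1) _ (by omega)).2 b1
    have hr := la_read h hv hw hb hc (Or.inr h3) fun _ => le_rfl
    rw [ee, if_pos h3] at hr
    have hst : D.stp w θ y = Function.update y (cel D.H θ w)
        (fills D.H θ w && D.E (eAct (ph D.H θ)) y (cel D.H θ w)) := by
      rw [stp, hb, if_neg (by simp)]
    have hcel : cel D.H (mvp D.H θ w) (1 - w) = cel D.H θ w := by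
      rw [cel, cel, a1, a3]
      cases hf : fills D.H θ w
      · have := a5 hf
        simp only [Bool.not_false, if_true, Bool.false_eq_true, if_false]
        omega
      · have := a4 hf
        simp only [Bool.not_true, if_true, Bool.false_eq_true, if_false]
        omega
    refine ⟨⟨⟨mvp_lt _ _ _, fun m hm => ?_⟩, fun h1 => by simp [a2] at h1⟩, ?_⟩
    · have hee : ee D.H (mvp D.H θ w) (m / D.H) = ee D.H θ (m / D.H) := by rw [ee, ee, a1]
      have hρ : m / D.H < 8 := Nat.div_lt_of_lt_mul (by omega)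
      obtain ⟨c1, c2⟩ := hv.2 m hm
      rw [hee]
      by_cases hmc : m = cel D.H θ w
      · rw [hmc, ee, if_pos h3, hr, hst, Function.update_self, b2]
        simp only [hi, fu, a1, h3]
        cases hf : fills D.H θ w
        · have := a5 hf
          simp
          omega
        · have := a4 hf
          simp
          omega
      · have hne : D.stp w θ y m = y m := by rw [hst, Function.update_of_ne hmc]
        rw [hne]
        by_cases hs3 : stat (ph D.H θ) (m / D.H) = 3
        · have d1 : m / D.H = cel D.H θ w / D.H := by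
            rw [b1]
            exact (la_act _ (la_ph hv.1) _ hρ).1 hs3
          have d2 : m % D.H ≠ cel D.H θ w % D.H := by
            intro d2
            apply hmc
            rw [← Nat.div_add_mod m D.H, d1, d2, Nat.div_add_mod]
          simp only [hi, fu, a1, hs3] at c1 c2 ⊢
          norm_num at c1 c2 ⊢
          have d3 : (m % D.H < ptr D.H (mvp D.H θ w) ↔ m % D.H < ptr D.H θ) ∧
              (m % D.H < ptr D.H θ → m % D.H ≤ cel D.H θ w % D.H) := by
            rw [b2] at d2 ⊢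
            cases hf : fills D.H θ w
            · have := a5 hf
              simp only [hf, Bool.false_eq_true, if_false] at d2 ⊢
              omega
            · have := a4 hf
              simp only [hf, if_true] at d2 ⊢
              omega
          refine ⟨fun d4 => ?_, fun d4 => c2 (by omega)⟩
          rw [la_read h hv hw hb hm (Or.inr hs3) fun _ => d3.2 (d3.1.1 d4)]
          exact c1 (d3.1.1 d4)
        · simp only [hi, fu, a1, if_neg hs3] at c1 c2 ⊢
          refine ⟨fun d4 => ?_, c2⟩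
          have d5 : stat (ph D.H θ) (m / D.H) = 2 := by
            by_contra d5
            simp [d5] at d4
          rw [la_read h hv hw hb hm (Or.inl d5) fun d6 => absurd (d6 ▸ h3) hs3]
          exact c1 d4
    · rw [stp, a2, if_neg (by simp), hcel, a1, a3, hr, ← old_val h hv hw hb, hst,
        Function.update_idem, Function.update_eq_self]
  · have hb' := la_bdy hv.1 hw hb
    have e : D.stp w θ y = y := by rw [stp, if_pos hb]
    rw [e]
    refine ⟨⟨⟨mvp_lt _ _ _, hs hb⟩, fun _ => ?_⟩, by rw [stp, if_pos hb']⟩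
    rw [mvp_mvp hv.1 hw]
    exact hv.2

end LD

end Vale.Agent.P330Q
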