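import Vale.Agent.P330Q.LineA

/-! The ends of the line (task LineB).
Plan. At a boundary between two phases other than `3 | 4` the two shapes are equivalent (for `8 | 9`:
`V = U` with one of them free). At `3 | 4`: forward one needs `V = W`, where `W = P (S V)` by `pS`, `pP`
(both are zero from the offset `n` on; `eval` has length `n`); backward one needs `U = S V` where
`V = W = P U`. If `U = 0` at the position `oθ` then the tape is determined (strong induction on the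
cells of region `3`, then `4`, `0`, `1`, using `p1`, `p2`, `zc_false`). For `oT`: after `fill` the filled
cells follow `E0` (later changes are in cells that they do not read, or write `false` to a cell of
`Zc`). -/

namespace Vale.Agent.P330Q

open Vale.Agent.Lib.H23 Vale.Agent.P333 Vale.Agent.P325 Vale.Agent.P330

namespace LD

variable {D : LD} {I : EOL} {θ : ℕ} {y : Tape}

theorem lb_xor {k a b r c : ℕ} (hr : r < 2 ^ k) (hc : c < 2 ^ k) :
    (2 ^ k * a + r) ^^^ (2 ^ k * b + c) = 2 ^ k * (a ^^^ b) + (r ^^^ c) := by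
  refine Nat.eq_of_testBit_eq fun j => ?_
  rw [Nat.testBit_xor, Nat.testBit_two_pow_mul_add _ hr, Nat.testBit_two_pow_mul_add _ hc,
    Nat.testBit_two_pow_mul_add _ (Nat.xor_lt_two_pow hr hc)]
  split_ifs <;> rw [Nat.testBit_xor]

theorem lb_xorH {ρ σ i : ℕ} (hi : i < D.H) : (ρ * D.H + i) ^^^ σ * D.H = (ρ ^^^ σ) * D.H + i := by
  have := lb_xor (a := ρ) (b := σ) hi (Nat.two_pow_pos D.ko)
  rwa [add_zero, Nat.xor_zero, mul_comm _ ρ, mul_comm _ σ, mul_comm _ (ρ ^^^ σ)] at this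

theorem lb_bit {ρ i : ℕ} (hi : i < D.H) : (ρ * D.H + i).testBit D.ko = ρ.testBit 0 := by
  rw [mul_comm, Nat.testBit_two_pow_mul_add _ hi, if_neg (lt_irrefl _), Nat.sub_self]

theorem lb_xor8 {m c : ℕ} (hc : c < 8) : m ^^^ c = 8 * (m / 8) + (m % 8 ^^^ c) := by
  have := lb_xor (k := 3) (a := m / 8) (b := 0) (Nat.mod_lt m (by norm_num)) hc
  rwa [show 2 ^ 3 = 8 from rfl, Nat.div_add_mod, mul_zero, zero_add, Nat.xor_zero] at this

theorem lb_dvd (h : D.Ok I) : 8 ∣ D.H := pow_dvd_pow 2 h.ko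

theorem lb_E0 {y' : Tape} {m : ℕ} (hu : D.Uses m → y (D.pi m) = y' (D.pi m))
    (hb : ∀ m' < m, m' / 8 = m / 8 → y m' = y' m') : D.E0 y m = D.E0 y' m := by
  have key : ∀ c < 8, m % 8 ^^^ c < m % 8 → y (m ^^^ c) = y' (m ^^^ c) := fun c hc h => by
    rw [lb_xor8 hc]
    exact hb _ (by omega) (by omega)
  unfold E0
  split_ifs with h1 h2 h3 h4 h5
  · exact hu (Or.inr h2)
  · rw [key 2 (by norm_num) (by rw [h3]; decide), key 3 (by norm_num) (by rw [h3]; decide)]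
  · rw [key 2 (by norm_num) (by rw [h4]; decide), key 3 (by norm_num) (by rw [h4]; decide)]
  · rw [key 4 (by norm_num) (by rw [h5]; decide)]
  · rfl
  · exact hu (Or.inl (by simpa using h1))

/-- the rule only reads cells in `[lo, m)` and zero cells -/
theorem lb_read (h : D.Ok I) {y' : Tape} {m lo : ℕ} (h1 : D.H ≤ m) (h5 : m < 5 * D.H)
    (hlo : lo = 0 ∨ (lo = 2 * D.H ∧ 3 * D.H ≤ m))
    (hz : ∀ c < 8 * D.H, D.Zc c → y c = y' c) (hb : ∀ c < m, lo ≤ c → y c = y' c) :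
    D.E0 y m = D.E0 y' m := by
  obtain ⟨k, hk⟩ := lb_dvd h
  refine lb_E0 (fun hu => ?_) fun c hc e => hb c hc (by omega)
  have hl := h.lt m (by omega)
  rcases h.p1 m h1 h5 hu with h2 | h2
  · rcases hlo with rfl | ⟨rfl, h3⟩
    · exact hb _ h2 (Nat.zero_le _)
    · exact (h.p2 m h3 h5 hu).elim (hb _ h2) (hz _ hl)
  · exact hz _ hl h2

/-- the state of a region at an end of a phase: zero, free, or full with a rule -/
def lbc (φ : ℕ) (b : Bool) (ρ : ℕ) : ℕ :=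
  if stat φ ρ = 1 then 1 else if stat φ ρ = 2 then 2 + (if ρ = 0 then 1 else 0)
  else if stat φ ρ = 3 ∧ lup φ = b then 2 + eAct φ else 0

/-- the condition on a region -/
def Reg (D : LD) (y : Tape) (c ρ : ℕ) : Prop :=
  ∀ i < D.H, (2 ≤ c → y (ρ * D.H + i) = D.E (c - 2) y (ρ * D.H + i)) ∧
    (c = 0 ∨ (c = 1 ∧ D.n ≤ i) → y (ρ * D.H + i) = false)

theorem lb_shape (φ : ℕ) (b : Bool) :
    D.Shape (φ * (D.H + 1) + if b then D.H else 0) y ↔ ∀ ρ < 8, D.Reg y (lbc φ b ρ) ρ := by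
  have hH : 0 < D.H := Nat.two_pow_pos _
  set θ := φ * (D.H + 1) + if b then D.H else 0 with hθ
  have hlt : (if b then D.H else 0) < D.H + 1 := by split_ifs <;> omega
  have e1 : ph D.H θ = φ := by
    rw [ph, hθ, mul_comm, Nat.mul_add_div (by omega), Nat.div_eq_of_lt hlt, add_zero]
  have e2 : ix D.H θ = if b then D.H else 0 := by
    rw [ix, hθ, mul_comm, Nat.mul_add_mod, Nat.mod_eq_of_lt hlt]
  have e3 : ptr D.H θ = if lup φ = b then D.H else 0 := by
    rw [ptr, e1, e2]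
    cases lup φ <;> cases b <;> simp
  have key : ∀ ρ, ∀ i < D.H, ((i < fu D.H θ ρ → y (ρ * D.H + i) = D.E (ee D.H θ ρ) y (ρ * D.H + i)) ∧
      (hi D.H D.n θ ρ ≤ i → y (ρ * D.H + i) = false)) ↔
      ((2 ≤ lbc φ b ρ → y (ρ * D.H + i) = D.E (lbc φ b ρ - 2) y (ρ * D.H + i)) ∧
      (lbc φ b ρ = 0 ∨ (lbc φ b ρ = 1 ∧ D.n ≤ i) → y (ρ * D.H + i) = false)) := by
    intro ρ i hi'
    have hi2 : ¬ D.H ≤ i := by omega
    simp only [hi, fu, ee, lbc, e1, e3]
    by_cases s1 : stat φ ρ = 1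
    · simp [s1]
    by_cases s2 : stat φ ρ = 2
    · by_cases r : ρ = 0
      · subst r
        simp [s2, hi', hi2]
      · simp [s2, r, hi', hi2]
    by_cases s3 : stat φ ρ = 3
    · by_cases r : lup φ = b <;> simp [s3, r, hi', hi2]
      all_goals omega
    · simp [s1, s2, s3]
  refine ⟨fun H ρ hρ i hi' => (key ρ i hi').1 ?_, fun H m hm => ?_⟩
  · have := H (ρ * D.H + i) (by nlinarith)
    rwa [mul_comm ρ, Nat.mul_add_mod, Nat.mod_eq_of_lt hi', Nat.mul_add_div hH,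
      Nat.div_eq_of_lt hi', add_zero, mul_comm D.H] at this
  · have := (key _ _ (Nat.mod_lt m hH)).2
      (H (m / D.H) (Nat.div_lt_of_lt_mul (by omega)) _ (Nat.mod_lt m hH))
    rwa [Nat.div_add_mod'] at this

theorem lb_z {ρ : ℕ} : D.Reg y 0 ρ ↔ ∀ i < D.H, y (ρ * D.H + i) = false := by simp [Reg]

theorem lb_f {ρ : ℕ} : D.Reg y 1 ρ ↔ ∀ i < D.H, D.n ≤ i → y (ρ * D.H + i) = false := by simp [Reg]

theorem lb_0 {ρ : ℕ} : D.Reg y 2 ρ ↔ ∀ i < D.H, y (ρ * D.H + i) = D.E0 y (ρ * D.H + i) := by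
  simp [Reg, E]

theorem lb_0' {ρ : ℕ} :
    D.Reg y 2 ρ ↔ ∀ m, ρ * D.H ≤ m → m < (ρ + 1) * D.H → y m = D.E0 y m := by
  rw [lb_0, add_one_mul]
  refine ⟨fun H m h1 h2 => ?_, fun H i hi => H _ (by omega) (by omega)⟩
  obtain ⟨i, rfl⟩ := Nat.exists_eq_add_of_le h1
  exact H i (by omega)

theorem lb_1 : D.Reg y 3 0 ↔ ∀ i < D.H, y (0 * D.H + i) = y (4 * D.H + i) := by
  refine forall₂_congr fun i hi => ?_
  simp only [E, lb_xorH hi]
  simp

theorem lb_2 : D.Reg y 4 0 ↔ ∀ i < D.H, y (0 * D.H + i) = y (2 * D.H + i) := by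
  refine forall₂_congr fun i hi => ?_
  simp only [E, lb_xorH hi]
  simp

theorem lb_2' : D.Reg y 4 2 ↔ ∀ i < D.H, y (2 * D.H + i) = y (0 * D.H + i) := by
  refine forall₂_congr fun i hi => ?_
  simp only [E, lb_xorH hi]
  simp

theorem lb_eight {p : ℕ → Prop} :
    (∀ ρ < 8, p ρ) ↔ p 0 ∧ p 1 ∧ p 2 ∧ p 3 ∧ p 4 ∧ p 5 ∧ p 6 ∧ p 7 := by
  simp only [Nat.forall_lt_succ_right, Nat.not_lt_zero, IsEmpty.forall_iff, implies_true, true_and,
    and_assoc]

theorem lb_89 : (∀ ρ < 8, D.Reg y (lbc 8 true ρ) ρ) ↔ ∀ ρ < 8, D.Reg y (lbc 9 false ρ) ρ := by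
  rw [lb_eight, lb_eight]
  change D.Reg y 4 0 ∧ D.Reg y 0 1 ∧ D.Reg y 1 2 ∧ _ ↔ D.Reg y 1 0 ∧ D.Reg y 0 1 ∧ D.Reg y 4 2 ∧ _
  rw [lb_2, lb_2', lb_f, lb_f]
  exact ⟨fun ⟨a, b, c, d⟩ => ⟨fun i hi hn => (a i hi).trans (c i hi hn), b,
    fun i hi => (a i hi).symm, d⟩, fun ⟨a, b, c, d⟩ => ⟨fun i hi => (c i hi).symm, b,
    fun i hi hn => (c i hi).trans (a i hi hn), d⟩⟩

theorem lb_other : ∀ φ < 10, φ ≠ 3 → φ ≠ 8 → ∀ ρ < 8,
    lbc φ true ρ = lbc ((φ + 1) % 10) false ρ := by decide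

theorem lb_step {φ : ℕ} (hφ : φ < 10) (h3 : φ ≠ 3) :
    (∀ ρ < 8, D.Reg y (lbc φ true ρ) ρ) ↔ ∀ ρ < 8, D.Reg y (lbc ((φ + 1) % 10) false ρ) ρ := by
  by_cases h8 : φ = 8
  · subst h8
    exact lb_89
  · exact forall₂_congr fun ρ hρ => by rw [lb_other φ hφ h3 h8 ρ hρ]

theorem lb_getD {ρ i : ℕ} (hf : D.Reg y 1 ρ) (hi : i < D.H) :
    (D.part y ρ).getD i false = y (ρ * D.H + i) := by
  by_cases hn : i < D.n
  · simp [part, hn]
  · rw [lb_f.1 hf i hi (not_lt.1 hn), List.getD_eq_default _ _ (by simpa [part] using hn)]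

theorem lb_part (h : D.Ok I) {ρ : ℕ} {v : List Bool} (hv : v.length = D.n)
    (e : ∀ i < D.H, y (ρ * D.H + i) = v.getD i false) : D.part y ρ = v ∧ D.Reg y 1 ρ := by
  refine ⟨List.ext_getElem (by simp [part, hv]) fun i h1 h2 => ?_, lb_f.2 fun i hi hn => ?_⟩
  · simp only [part, List.getElem_map, List.getElem_range]
    rw [e i (by have := h.nH; omega), List.getD_eq_getElem _ _ h2]
  · rw [e i hi, List.getD_eq_default _ _ (by omega)]

theorem lb_S (h : D.Ok I) (hz : ∀ m < 8 * D.H, D.Zc m → y m = false) (h1 : D.Reg y 2 1) :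
    D.Reg y 2 2 ↔ ∀ i < D.H, y (2 * D.H + i) = (I.S.eval (D.part y 0)).getD i false := by
  refine lb_0.trans (forall₂_congr fun i hi => ?_)
  rw [← h.pS y hz (by simpa using lb_0'.1 h1) i hi, E0, lb_bit hi]
  rfl

theorem lb_P (h : D.Ok I) (hz : ∀ m < 8 * D.H, D.Zc m → y m = false) (h3 : D.Reg y 2 3)
    (h4 : D.Reg y 2 4) : ∀ i < D.H, y (4 * D.H + i) = (I.P.eval (D.part y 2)).getD i false := by
  intro i hi
  rw [← h.pP y hz (lb_0'.1 h3) i hi, lb_0.1 h4 i hi, E0, lb_bit hi]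
  rfl

theorem lb_e3 : (∀ ρ < 8, D.Reg y (lbc 3 true ρ) ρ) ↔ D.Reg y 1 0 ∧ D.Reg y 2 1 ∧ D.Reg y 2 2 ∧
    D.Reg y 2 3 ∧ D.Reg y 2 4 ∧ D.Reg y 0 5 ∧ D.Reg y 0 6 ∧ D.Reg y 0 7 := lb_eight

theorem lb_s4 : (∀ ρ < 8, D.Reg y (lbc 4 false ρ) ρ) ↔ D.Reg y 3 0 ∧ D.Reg y 2 1 ∧ D.Reg y 1 2 ∧
    D.Reg y 2 3 ∧ D.Reg y 2 4 ∧ D.Reg y 0 5 ∧ D.Reg y 0 6 ∧ D.Reg y 0 7 := lb_eight

theorem lb_o : D.Shape D.oθ y ↔ ∀ ρ < 8, D.Reg y (lbc 4 false ρ) ρ := lb_shape 4 false

theorem lb_lenS (h : D.Ok I) (v : List Bool) : (I.S.eval v).length = D.n := by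
  simp [BCircuit.eval, h.n, EOL.n]

theorem lb_lenP (h : D.Ok I) (hI : I.Valid) (v : List Bool) : (I.P.eval v).length = D.n := by
  simp [BCircuit.eval, h.n, hI.2.1]

theorem lb_zero (i : ℕ) : I.zero.getD i false = false := by
  rw [EOL.zero, List.getD_eq_getElem?_getD, List.getElem?_replicate]
  split_ifs <;> rfl

theorem lb_nxt (H φ : ℕ) :
    mvp H (φ * (H + 1) + H) 0 = (φ + 1) % 10 * (H + 1) + 0 := by
  rw [mvp, if_pos rfl, nxt, add_assoc, ← add_one_mul, Nat.mul_mod_mul_right, add_zero]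

theorem lb_uniq (h : D.Ok I) {y' : Tape} (hy : D.Shape D.oθ y) (hy' : D.Shape D.oθ y')
    (e : ∀ i < D.H, y (2 * D.H + i) = y' (2 * D.H + i)) : ∀ m < 8 * D.H, y m = y' m := by
  have hz : ∀ c < 8 * D.H, D.Zc c → y c = y' c := fun c hc hZ => by
    rw [zc_false h hy c hc hZ, zc_false h hy' c hc hZ]
  obtain ⟨a0, a1, -, a3, a4, -⟩ := lb_s4.1 (lb_o.1 hy)
  obtain ⟨b0, b1, -, b3, b4, -⟩ := lb_s4.1 (lb_o.1 hy')
  rw [lb_0'] at a1 a3 a4 b1 b3 b4
  have k1 : ∀ m, 2 * D.H ≤ m → m < 8 * D.H → y m = y' m := by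
    intro m
    induction m using Nat.strong_induction_on with
    | _ m ih =>
      intro h1 h2
      by_cases h3 : m < 3 * D.H
      · obtain ⟨i, rfl⟩ := Nat.exists_eq_add_of_le h1
        exact e i (by omega)
      by_cases h5 : 5 * D.H ≤ m
      · exact hz m h2 (Or.inl h5)
      have := lb_read h (m := m) (by omega) (by omega) (Or.inr ⟨rfl, by omega⟩) hz
        fun c hc hl => ih c hc hl (by omega)
      by_cases h4 : m < 4 * D.H
      · rw [a3 m (by omega) h4, b3 m (by omega) h4, this]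
      · rw [a4 m (by omega) (by omega), b4 m (by omega) (by omega), this]
  intro m
  induction m using Nat.strong_induction_on with
  | _ m ih =>
    intro h2
    by_cases h3 : m < D.H
    · have := lb_1.1 a0 m h3
      have := lb_1.1 b0 m h3
      have := k1 (4 * D.H + m) (by omega) (by omega)
      simp_all
    by_cases h4 : 2 * D.H ≤ m
    · exact k1 m h4 h2
    rw [a1 m (by omega) (by omega), b1 m (by omega) (by omega)]
    exact lb_read h (by omega) (by omega) (Or.inl rfl) hz fun c hc _ => ih c hc (by omega)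

theorem lb_fill (h : D.Ok I) {l : List Bool} (hl : l.length = 8 * D.H) {lo : ℕ} (h1 : D.H ≤ lo)
    (hz : ∀ m, D.Zc m → l.getD m false = false) (c : ℕ) (hc : lo + c ≤ 5 * D.H) :
    (D.fill l lo c).length = 8 * D.H ∧
    (∀ m, m < lo ∨ lo + c ≤ m → (D.fill l lo c).getD m false = l.getD m false) ∧
    (∀ m, D.Zc m → (D.fill l lo c).getD m false = false) ∧
    ∀ m, lo ≤ m → m < lo + c →
      (D.fill l lo c).getD m false = D.E0 (fun m => (D.fill l lo c).getD m false) m := by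
  induction c with
  | zero => exact ⟨hl, fun _ _ => rfl, hz, fun m _ _ => by omega⟩
  | succ c ih =>
    obtain ⟨a, b, z, d⟩ := ih (by omega)
    have e : D.fill l lo (c + 1) = (D.fill l lo c).set (lo + c)
        (D.E0 (fun m => (D.fill l lo c).getD m false) (lo + c)) := by
      rw [fill, List.range_succ, List.foldl_append]
      rfl
    have g : ∀ m, (D.fill l lo (c + 1)).getD m false = if m = lo + c then
        D.E0 (fun m => (D.fill l lo c).getD m false) (lo + c) else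
        (D.fill l lo c).getD m false := fun m => by
      rw [e, List.getD_eq_getElem?_getD, List.getElem?_set, List.getD_eq_getElem?_getD]
      by_cases hm : m = lo + c
      · rw [if_pos hm.symm, if_pos hm, if_pos (by omega)]
        rfl
      · rw [if_neg (Ne.symm hm), if_neg hm]
    have z' : ∀ m, D.Zc m → (D.fill l lo (c + 1)).getD m false = false := fun m hm => by
      rw [g]
      split_ifs with h0
      · rcases hm with hm | ⟨hm, hm'⟩
        · omega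
        · rw [← h0, E0, if_pos hm, if_neg (by omega), if_neg (by omega), if_neg (by omega),
            if_neg (by omega)]
      · exact z m hm
    refine ⟨by rw [e, List.length_set, a], fun m hm => ?_, z', fun m m1 m2 => ?_⟩
    · rw [g, if_neg (by omega), b m (by omega)]
    · rw [lb_read h (y' := fun m => (D.fill l lo c).getD m false) (by omega) (by omega)
        (Or.inl rfl) (fun c' _ hZ => by rw [z' c' hZ, z c' hZ])
        fun c' hc' _ => by rw [g, if_neg (by omega)], g]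
      split_ifs with h0
      · rw [h0]
      · exact d m m1 (by omega)

theorem lb_oT (h : D.Ok I) (hI : I.Valid) : D.Shape D.oθ D.oT ∧ D.Reg D.oT 0 0 ∧ D.Reg D.oT 0 2 := by
  have z0 : ∀ m, ((List.range (8 * D.H)).map fun _ => false).getD m false = false := fun m => by
    rw [List.getD_eq_getElem?_getD, List.getElem?_map]
    cases (List.range (8 * D.H))[m]? <;> rfl
  obtain ⟨a, b, z, d⟩ := lb_fill h (l := (List.range (8 * D.H)).map fun _ => false) (by simp)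
    (lo := 3 * D.H) (by omega) (fun m _ => z0 m) (2 * D.H) (by omega)
  obtain ⟨-, b', z', d'⟩ := lb_fill h a le_rfl z D.H (by omega)
  have r0 : ∀ ρ, ρ = 0 ∨ ρ = 2 ∨ 5 ≤ ρ → D.Reg D.oT 0 ρ := fun ρ hρ => lb_z.2 fun i hi => by
    have h5 : 5 ≤ ρ → 5 * D.H ≤ ρ * D.H := Nat.mul_le_mul_right _
    refine (b' _ ?_).trans ((b _ ?_).trans (z0 _)) <;> rcases hρ with rfl | rfl | hρ <;> omega
  have r3 : ∀ m, 3 * D.H ≤ m → m < 5 * D.H → D.oT m = D.E0 D.oT m := fun m m1 m2 =>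
    (b' m (by omega)).trans ((d m m1 (by omega)).trans (lb_read h (by omega) m2 (Or.inr ⟨rfl, m1⟩)
      (fun c _ hZ => (z c hZ).trans (z' c hZ).symm) fun c _ hc => (b' c (by omega)).symm))
  have r3' : D.Reg D.oT 2 3 := lb_0'.2 fun m m1 m2 => r3 m m1 (by omega)
  have r4 : D.Reg D.oT 2 4 := lb_0'.2 fun m m1 m2 => r3 m (by omega) m2
  have r2 := lb_part h (y := D.oT) (ρ := 2) (v := I.zero) (by simp [EOL.zero, h.n]) fun i hi => by
    rw [lb_z.1 (r0 2 (by omega)) i hi, lb_zero]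
  refine ⟨lb_o.2 (lb_s4.2 ⟨lb_1.2 fun i hi => ?_, lb_0'.2 fun m m1 m2 => d' m (by omega) (by omega),
    r2.2, r3', r4, r0 5 (by omega), r0 6 (by omega), r0 7 (by omega)⟩), r0 0 (by omega),
    r0 2 (by omega)⟩
  rw [lb_P h (y := D.oT) (fun m _ => z' m) r3' r4 i hi, r2.1, hI.2.2.1, lb_zero, lb_z.1 (r0 0 (by omega)) i hi]

theorem lb_ix : ix D.H D.oθ = 0 := Nat.mul_mod_left _ _

theorem lb_prv : mvp D.H D.oθ 1 = 3 * (D.H + 1) + D.H := by
  have := mvp_mvp (θ := 3 * (D.H + 1) + D.H) (H := D.H) (w := 0) (by omega) (by omega)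
  rwa [lb_nxt] at this

theorem lb_pt_set {X Y : Type} [Enc X] [Enc Y] {l : X → List Y} {k : X → ℕ} {a : X → Y} (hl : PT l)
    (hk : PT k) (ha : PT a) : PT fun x => (l x).set (k x) (a x) :=
  (pt_ite (pt_decLt hk hl.length) ((pt_take hk hl).append
    (ha.cons (PT.drop (hk.add (PT.const 1)) hl))) hl).congr fun _ =>
      List.set_eq_take_append_cons_drop

theorem lb_sz_set {Y : Type} [Enc Y] (l : List Y) (k : ℕ) (a : Y) :
    sz (l.set k a) ≤ sz l + sz a := by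
  induction l generalizing k with
  | nil => simp
  | cons b l ih =>
    cases k with
    | zero =>
      simp only [List.set_cons_zero, sz_cons]
      omega
    | succ k =>
      have := ih k
      simp only [List.set_cons_succ, sz_cons]
      omega

theorem lb_pt_E0 {X : Type} [Enc X] {D : X → LD} {u : X → List Bool} {m : X → ℕ} (hD : PT D)
    (hu : PT u) (hm : PT m) : PT fun x => (D x).E0 (fun i => (u x).getD i false) (m x) := by
  have h0 : PT fun x => (List.range (D x).ko, (D x).n, (D x).π) := hD.of_enc fun _ => rfl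
  have h1 : PT fun x => (D x).ko := PU.pt h0.fst
  have h2 : PT fun x => (u x).getD ((D x).pi (m x)) false :=
    hu.getD (h0.snd.snd.getD hm (PT.const 0)) (PT.const false)
  have h3 : ∀ c, PT fun x => (u x).getD (m x ^^^ c) false := fun c =>
    hu.getD (Amp.pt_xor hm (PT.const c)) (PT.const false)
  have h4 : PT fun x => m x % 8 := pt_mod hm (PT.const 8)
  exact pt_ite ((Amp.pt_testBit hm h1).congr fun _ => Bool.decide_eq_true)
    (pt_ite (pt_decLt h4 (PT.const 2)) h2 (pt_ite (pt_decEq h4 (PT.const 2)) ((h3 2).and (h3 3))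
      (pt_ite (pt_decEq h4 (PT.const 3)) ((h3 2).or (h3 3))
        (pt_ite (pt_decEq h4 (PT.const 4)) (h3 4).not (PT.const false))))) h2

theorem lb_pt_fill {X : Type} [Enc X] {D : X → LD} {l : X → List Bool} {lo c : X → ℕ} (hD : PT D)
    (hl : PT l) (hlo : PT lo) (hc : PU c) : PT fun x => (D x).fill (l x) (lo x) (c x) := by
  have h1 : PT fun p : X × List Bool × ℕ => lo p.1 + p.2.2 := (hlo.comp PT.fst').add PT.snd'.snd
  exact pt_fold (f := fun x (u : List Bool) i =>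
      u.set (lo x + i) ((D x).E0 (fun m => u.getD m false) (lo x + i))) (fun _ => [()])
    (lb_pt_set PT.snd'.fst h1 (lb_pt_E0 (hD.comp PT.fst') PT.snd'.fst h1)) hc.range hl
    (PT.const _) fun _ _ _ => (lb_sz_set _ _ _).trans (Nat.add_le_add_left (sz_bool _) _)

theorem sink (h : D.Ok I) (hI : I.Valid) (hy : D.Valid θ y) (hn : ¬ D.Mv 0 θ y) :
    I.Sol (D.part y 0) := by
  by_contra hs
  refine hn ⟨hy, fun hb => ?_⟩
  have hφ : ph D.H θ < 10 := Nat.div_lt_of_lt_mul (by have := hy.1; omega)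
  have e : θ = ph D.H θ * (D.H + 1) + D.H := by
    have h1 : ix D.H θ = D.H := by simpa [bdy] using hb
    conv_lhs => rw [← Nat.div_add_mod' θ (D.H + 1)]
    exact congrArg _ h1
  generalize ph D.H θ = φ at hφ e
  subst e
  have h1 := (lb_shape φ true).1 hy.2
  rw [lb_nxt]
  refine (lb_shape _ false).2 ?_
  by_cases h3 : φ = 3
  swap
  · exact (lb_step hφ h3).1 h1
  subst h3
  have hz := zc_false h hy.2
  obtain ⟨a0, a1, a2, a3, a4, a5⟩ := lb_e3.1 h1
  have r2 := lb_part h (lb_lenS h _) ((lb_S h hz a1).1 a2)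
  have e : I.P.eval (I.S.eval (D.part y 0)) = D.part y 0 := by
    by_contra hne
    refine hs ⟨by simp [part, h.n], fun h0 => hne ?_, Or.inl hne⟩
    rw [h0, hI.2.2.2.2]
  refine lb_s4.2 ⟨lb_1.2 fun i hi => ?_, a1, r2.2, a3, a4, a5⟩
  rw [lb_P h hz a3 a4 i hi, r2.1, e, lb_getD a0 hi]

theorem source (h : D.Ok I) (hI : I.Valid) (hy : D.Valid θ y) (hn : ¬ D.Mv 1 θ y) :
    I.Sol (D.part y 2) ∨ (θ = D.oθ ∧ ∀ m < 8 * D.H, y m = D.oT m) := by
  by_contra hs
  rw [not_or] at hs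
  refine hn ⟨hy, fun hb => ?_⟩
  have hφ : ph D.H θ < 10 := Nat.div_lt_of_lt_mul (by have := hy.1; omega)
  obtain ⟨φ, hφ', e⟩ : ∃ φ < 10, θ = (φ + 1) % 10 * (D.H + 1) + 0 := by
    have h1 : ix D.H θ = 0 := by simpa [bdy] using hb
    refine ⟨(ph D.H θ + 9) % 10, by omega, ?_⟩
    rw [show ((ph D.H θ + 9) % 10 + 1) % 10 = ph D.H θ by omega]
    conv_lhs => rw [← Nat.div_add_mod' θ (D.H + 1)]
    exact congrArg _ h1
  subst e
  have h1 := (lb_shape _ false).1 hy.2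
  have h2 := mvp_mvp (θ := φ * (D.H + 1) + D.H) (H := D.H) (w := 0)
    (by have := Nat.mul_le_mul_right (D.H + 1) (Nat.le_of_lt_succ hφ'); omega) (by omega)
  rw [lb_nxt] at h2
  rw [h2]
  refine (lb_shape φ true).2 ?_
  by_cases h3 : φ = 3
  swap
  · exact (lb_step hφ' h3).2 h1
  subst h3
  have hz := zc_false h hy.2
  obtain ⟨a0, a1, a2, a3, a4, a5⟩ := lb_s4.1 h1
  have r0 := lb_part h (lb_lenP h hI _) fun i hi =>
    (lb_1.1 a0 i hi).trans (lb_P h hz a3 a4 i hi)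
  have e : I.S.eval (I.P.eval (D.part y 2)) = D.part y 2 := by
    by_contra hne
    refine hs.1 ⟨by simp [part, h.n], fun h0 => hs.2 ⟨rfl, ?_⟩, Or.inr hne⟩
    refine lb_uniq h hy.2 (lb_oT h hI).1 fun i hi => ?_
    rw [← lb_getD a2 hi, h0, lb_zero, lb_z.1 (lb_oT h hI).2.2 i hi]
  refine lb_e3.2 ⟨r0.2, a1, (lb_S h hz a1).2 fun i hi => ?_, a3, a4, a5⟩
  rw [r0.1, e, lb_getD a2 hi]

theorem o_mv (h : D.Ok I) (hI : I.Valid) : D.Mv 0 D.oθ D.oT := by
  refine ⟨⟨by unfold oθ; omega, (lb_oT h hI).1⟩, fun hb => ?_⟩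
  have hH : 0 < D.H := Nat.two_pow_pos _
  simp only [bdy, lb_ix, if_true, decide_eq_true_eq] at hb
  omega

theorem o_src (h : D.Ok I) (hI : I.Valid) : ¬ D.Mv 1 D.oθ D.oT := by
  intro hm
  have h1 := hm.2 (by simp [bdy, lb_ix])
  rw [lb_prv] at h1
  obtain ⟨-, a1, a2, -⟩ := lb_e3.1 ((lb_shape 3 true).1 h1)
  obtain ⟨-, r0, r2⟩ := lb_oT h hI
  have hz : ∀ ρ, D.Reg D.oT 0 ρ → D.part D.oT ρ = I.zero := fun ρ hρ =>
    (lb_part h (by simp [EOL.zero, h.n]) fun i hi => by rw [lb_z.1 hρ i hi, lb_zero]).1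
  have := (lb_part h (lb_lenS h _) ((lb_S h (zc_false h h1) a1).1 a2)).1
  rw [hz 0 r0, hz 2 r2] at this
  exact hI.2.2.2.1 this.symm

/-- the first step does not change the tape -/
theorem o_stp (h : D.Ok I) (hI : I.Valid) : D.stp 0 D.oθ D.oT = D.oT := by
  have hH : 0 < D.H := Nat.two_pow_pos _
  obtain ⟨k, hk⟩ := lb_dvd h
  have e1 : ph D.H D.oθ = 4 := Nat.mul_div_cancel _ (by omega)
  have e2 : fills D.H D.oθ 0 = false := by simp [fills, e1, lup]
  have e3 : cel D.H D.oθ 0 = 1 * D.H + (D.H - 1) := by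
    simp [cel, e2, ptr, e1, lb_ix, lup, lreg]
  rw [stp, e2, e3, Bool.false_and]
  split_ifs
  · rfl
  · exact Function.update_eq_self_iff.2 (zc_false h (lb_oT h hI).1 _ (by omega)
      (Or.inr ⟨lb_bit (by omega), by omega⟩)).symm

theorem pt_oL {X : Type} [Enc X] {D : X → LD} (hD : PT D) (hH : PU fun x => (D x).H) :
    PT fun x => (D x).oL :=
  lb_pt_fill hD (lb_pt_fill hD (PT.map (f := fun _ _ => false) (PT.const _)
    ((PU.const 8).mul hH).range) ((PU.const 3).mul hH).pt ((PU.const 2).mul hH)) hH.pt hH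

end LD

end Vale.Agent.P330Q
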