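import Vale.Agent.P330Q.Top

/-! Three models of computation below the mathematics of half (a): acyclic circuits (`GC`), pure
circuits on a cube of processors (`SC`), and networks of words with levels (`WN`). -/

namespace Vale.Agent.P330Q

open Vale.Agent.Lib.H23 Vale.Agent.P325 Vale.Agent.P330 Vale.Agent.P330.Amp Finset
open scoped BigOperators

/-! ### acyclic circuits -/

/-- circuits of fan-in `W`: every gate names its input wires and its function -/
abbrev GC (W : ℕ) : Type := List ((Fin W → ℕ) × Code ((Fin W → Bool) → Bool))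

/-- the values of all wires: first the inputs, then one wire for every gate -/
def GC.wires {W : ℕ} (C : GC W) (x : List Bool) : List Bool :=
  C.foldl (fun w g => w ++ [g.2.val fun i => w.getD (g.1 i) false]) x

/-- every gate reads earlier wires; `n` is the number of inputs -/
def GC.Ok {W : ℕ} (C : GC W) (n : ℕ) : Prop := ∀ g (h : g < C.length) (i : Fin W), C[g].1 i < n + g

/-- the code of `x`, padded to `l` bits -/
def labBits {X : Type} [Enc X] (l : ℕ) (x : X) : List Bool :=
  (List.range l).map fun i => (ser (Enc.enc x)).getD i false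

/-- polynomial time functions have uniform circuits of polynomial size; the second argument is
given by its padded code -/
def CLStmt : Prop :=
  ∀ (X : Type) [Enc X] (f : List Bool × X → List Bool), PT f →
    ∃ (W c : ℕ) (cl : List Unit × List Unit → GC W) (out : (List Unit × List Unit) × ℕ → ℕ),
      3 ≤ W ∧ PT cl ∧ PT out ∧ ∀ u v : List Unit,
        (cl (u, v)).length ≤ (u.length + v.length + 2) ^ c ∧ (v ≠ [] →
        (cl (u, v)).Ok (u.length + v.length) ∧
        (∀ i, out ((u, v), i) < u.length + v.length + (cl (u, v)).length) ∧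
        ∀ (l : List Bool) (x : X), l.length = u.length → sz x ≤ v.length →
          ∀ i < (f (l, x)).length, ((cl (u, v)).wires (l ++ labBits v.length x)).getD
            (out ((u, v), i)) false = (f (l, x)).getD i false)

/-! ### pure circuits on a cube -/

/-- The node `(z, a)`, `z < M`, `a` a processor, reads the nodes `(z', a + v)` for
`(z', v) = src z i` through the windows `win z i` and applies `lab z a`. -/
structure SC (W : ℕ) where
  k : ℕ
  M : ℕ
  src : ℕ → Fin W → ℕ × ℕ
  win : ℕ → Fin W → Bool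
  lab : ℕ → ℕ → (Fin W → Bool) → Bool

namespace SC

variable {W : ℕ} (C : SC W)

def sat (x : ℕ → Vec C.k → Val) (z : ℕ) (a : Vec C.k) : Prop :=
  HF (fun i => rd (C.win z i) (x (C.src z i).1 (a + ofN C.k (C.src z i).2))) (C.lab z (toN a))
    (x z a)

def WF : Prop := ∀ z < C.M, ∀ i, (C.src z i).1 < C.M

noncomputable def tab : List ℕ × List ((Fin W → ℕ × ℕ) × (Fin W → Bool)) ×
    List (Code ((Fin W → Bool) → Bool)) :=
  (List.range C.k, (List.range C.M).map fun z => (C.src z, C.win z),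
    (List.range (C.M * 2 ^ C.k)).map fun n => ⟨C.lab (n / 2 ^ C.k) (n % 2 ^ C.k)⟩)

end SC

noncomputable instance encSC {W : ℕ} : Enc (SC W) := ⟨fun C => Enc.enc C.tab⟩

/-- pure circuits on a cube as instances -/
def SCStmt : Prop :=
  ∀ W : ℕ, ∃ (c : ℕ) (R : SC W → Inst 2) (D : (SC W × Asg) × ℕ × ℕ → ℕ), PT R ∧ PT D ∧
    ∀ C : SC W, (R C).b = 0 ∧ 2 ^ (R C).σ ≤ 2 ^ C.k * (C.M + 2) ^ c ∧ 2 ^ (R C).τ ≤ (C.M + 2) ^ c ∧
      (C.WF → ∀ s, (𝔼 a : Vec C.k, ind (∃ z < C.M,
        ¬ C.sat (fun z a => Fin.ofNat 4 (D ((C, s), z, toN a))) z a))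
          ≤ ((C.M + 2) ^ c : ℕ) * (R C).violA s)

/-! ### networks of words -/

/-- a reading of the output of a node: 64 levels of words -/
abbrev Rd : Type := List (List ℕ)

/-- the input of a node: three source rounds, each read at several processors -/
abbrev Inp : Type := List (List Rd)

def wd (ρ : Rd) (j c : ℕ) : ℕ := (ρ.getD j []).getD c 0

def lev (ρ : Rd) (c : ℕ) : ℕ := ((List.range 64).map fun j => wd ρ j c % 2).sum

def rdg (r : Inp) (s l : ℕ) : Rd := (r.getD s []).getD l []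

/-- The node `(t, a)`, `t < T`, has `w` output words of `κ` bits; it reads the rounds `src t s`
(`s < 3`) at the processors `a + V t l` (`l < d`) and has the label `lab t a`. -/
structure WN (X : Type) where
  k : ℕ
  T : ℕ
  w : ℕ
  κ : ℕ
  d : ℕ
  l : ℕ
  src : ℕ → ℕ → ℕ
  V : ℕ → ℕ → ℕ
  lab : ℕ → ℕ → X

namespace WN

variable {X : Type} (N : WN X)

def size : ℕ := N.T + N.w + N.κ + N.d + N.l + 2

def WF [Enc X] : Prop :=
  ∀ t < N.T, (∀ s < 3, N.src t s < N.T) ∧ ∀ a < 2 ^ N.k, sz (N.lab t a) ≤ N.l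

def tab : (List ℕ × List ℕ × List ℕ × List ℕ × List ℕ) × List (List ℕ × List ℕ) × List (List X) :=
  ((List.range N.k, List.range N.w, List.range N.κ, List.range N.d, List.range N.l),
    (List.range N.T).map fun t => ((List.range 3).map (N.src t), (List.range N.d).map (N.V t)),
    (List.range N.T).map fun t => (List.range (2 ^ N.k)).map (N.lab t))

/-- `r` consists of possible readings of the inputs of the node `(t, a)` -/
def Adm (S : ℕ → Vec N.k → Set Rd) (t : ℕ) (a : Vec N.k) (r : Inp) : Prop :=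
  r.length = 3 ∧ ∀ s < 3, (r.getD s []).length = N.d ∧
    ∀ l < N.d, rdg r s l ∈ S (N.src t s) (a + ofN N.k (N.V t l))

end WN

instance encWN {X : Type} [Enc X] : Enc (WN X) := ⟨fun N => Enc.enc N.tab⟩

/-- What an assignment tells about a network with the local function `g`: the possible readings
of every node and the processors without a fault. -/
structure Sys {X : Type} (N : WN X) (g : Inp × X → List ℕ) where
  S : ℕ → Vec N.k → Set Rd
  good : Vec N.k → Prop
  ne : ∀ t a, (S t a).Nonempty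
  shape : ∀ t a, ∀ ρ ∈ S t a, ρ.length = 64 ∧ ∀ u ∈ ρ, u.length = N.w ∧ ∀ n ∈ u, n < 2 ^ N.κ
  hf : ∀ t < N.T, ∀ a, good a → ∀ c < N.w, ∀ n < 2 ^ N.κ,
    (∀ r, N.Adm S t a r → (g (r, N.lab t (toN a))).getD c 0 = n) →
      ∀ ρ ∈ S t a, ∀ j < 64, wd ρ j c = n
  stab : ∀ t < N.T, ∀ a, good a → ∀ c < N.w, ∀ i j l, i < j → j < l → l < 64 →
    ∀ ρ ∈ S t a, ∀ ρ' ∈ S t a, wd ρ i c = wd ρ l c → wd ρ' j c = wd ρ i c
  lev : ∀ t < N.T, ∀ a, good a → ∀ c < N.w, ∃ b, ∀ ρ ∈ S t a, b ≤ lev ρ c ∧ lev ρ c ≤ b + 1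

/-- networks of words as instances -/
def WNStmt : Prop :=
  ∀ (X : Type) [Enc X] (g : Inp × X → List ℕ), PT g →
    ∃ (c : ℕ) (R : WN X → Inst 2) (D : (WN X × Asg) × ℕ × ℕ → Rd), PT R ∧ PT D ∧
      ∀ N : WN X, (R N).b = 0 ∧ 2 ^ (R N).σ ≤ 2 ^ N.k * N.size ^ c ∧ 2 ^ (R N).τ ≤ N.size ^ c ∧
        (N.WF → ∀ s, ∃ Y : Sys N g, (∀ t < N.T, ∀ a, D ((N, s), t, toN a) ∈ Y.S t a) ∧
          (𝔼 a, ind (¬ Y.good a)) ≤ (N.size ^ c : ℕ) * (R N).violA s)

end Vale.Agent.P330Q
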