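import Vale.Agent.P330Q.OSim
import Vale.Agent.P330.Absorb
import Vale.Agent.P330.Merge

/-! Absorb and Merge (task OAbsMrg): copy the last theorems of `P330/Absorb.lean` and `P330/Merge.lean` with the
new `sim`, the data `absD G.toInst`, `mrgD G.toInst` and `pt_toInst`. -/

namespace Vale.Agent.P330O

open Vale.Agent.Lib.H23 Vale.Agent.P333 Vale.Agent.P325 Vale.Agent.P330 Vale.Agent.P330.Amp
open Finset Matrix
open scoped BigOperators

theorem am_lam (G : Inst 2) : 2 ^ (absD G).lam ≤ 26 * (G.σ + 1) ^ 2 :=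
  (abs_size (by positivity)).trans_eq (by ring)

theorem am_abs : (PU fun x : Amp.AbsIn => (absD x.1.1).b) ∧ (PU fun x : Amp.AbsIn => (absD x.1.1).β) ∧
    (PU fun x : Amp.AbsIn => 2 ^ (absD x.1.1).lam) ∧
    (PU fun x : Amp.AbsIn => 2 ^ ((absD x.1.1).b * (absD x.1.1).β)) ∧
    (PT fun x : Amp.AbsIn => (absD x.1.1).h) ∧ (PT fun x : Amp.AbsIn => (absD x.1.1).inst.gtab) ∧
    (PT fun p : Amp.AbsIn × Op => (absD p.1.1.1).wd p.2) ∧
    (PT fun p : Amp.AbsIn × ℕ => idx ((absD p.1.1.1).up (unidx _ _ _ p.2))) ∧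
    (PT fun p : Amp.AbsIn × ℕ => idx ((absD p.1.1.1).dn (unidx _ _ _ p.2))) := by
  have hs : PT fun x : Amp.AbsIn => x.1.1 := (pt_val PT.id).fst
  have hpad : PU fun x : Amp.AbsIn => x.1.2.length := PU.len (pt_val PT.id).snd
  have hb0 := pu_b hs
  have hβ := pu_β hs
  have hσ := pu_σ hs
  have hk := pt_k0 hs
  have hn : PU fun x : Amp.AbsIn => x.1.1.σ / x.1.1.k0 + 1 :=
    (PU.of_le hσ (hσ.pt.div hk) fun _ => Nat.div_le_self _ _).add (PU.const 1)
  have hb : PU fun x : Amp.AbsIn => (absD x.1.1).b := (hb0.add hn).add (PU.const 2)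
  have hsq := (hσ.add (PU.const 1)).pow 2
  have j2 : PT fun q : (Amp.AbsIn × ℕ) × ℕ => q.1.1 := PT.fst'.fst
  have jb := hb0.pt.comp j2
  have jβ := hβ.pt.comp j2
  have jσ := hσ.pt.comp j2
  have jk := hk.comp j2
  have jm : PT fun q : (Amp.AbsIn × ℕ) × ℕ => q.1.2 := PT.fst'.snd
  have jj : PT fun q : (Amp.AbsIn × ℕ) × ℕ => q.2 := PT.snd'
  refine ⟨hb, hβ, ?_, ?_, ((hb0.add hn).add (PU.const 1)).pt, (pt_gtab hs).congr fun _ => rfl,
    ?_, ?_, ?_⟩
  · exact PU.of_le ((PU.const 26).mul hsq) (pt_two_pow (pu_size ((PU.const 13).mul hsq).pt))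
      fun x => am_lam _
  · refine PU.of_le ((pu_nA hs).mul (hpad.pow 3)) (pt_two_pow (hb.mul hβ)) fun x => ?_
    have h1 : 2 ^ (x.1.1.b * x.1.1.β) ≤ x.1.1.nA :=
      Nat.pow_le_pow_right (by omega) (Nat.le_add_left _ _)
    have h2 : 2 ^ x.1.1.β ≤ x.1.2.length := (Nat.pow_le_pow_right (by omega)
      (Nat.le_mul_of_pos_left _ (Nat.succ_pos _))).trans x.2.2
    change 2 ^ ((x.1.1.b + (x.1.1.σ / x.1.1.k0 + 1) + 2) * x.1.1.β) ≤ _
    rw [add_mul, add_mul, pow_add, pow_add, mul_assoc, mul_comm 2 x.1.1.β, pow_mul 2 x.1.1.β 2,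
      pow_succ' x.1.2.length 2]
    exact Nat.mul_le_mul h1 (Nat.mul_le_mul x.2.2 (Nat.pow_le_pow_left h2 2))
  · refine (pt_opCases (X := Amp.AbsIn × Op) PT.snd' (fE := fun _ l l' ρ => [Op.E l l' ρ])
      (fN := fun _ l => [Op.N l]) (fT := fun p v => (absD p.1.1.1).wd (.Tr v))
      (fun ρ => (pt_opE PT.snd'.fst PT.snd'.snd ρ).cons (PT.const _))
      ((pt_opN PT.snd').cons (PT.const _)) ?_).congr fun p => ?_
    · have j : PT fun q : ((Amp.AbsIn × Op) × ℕ) × ℕ => q.1.1.1 := PT.fst'.fst.fst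
      have hs' : PU fun q : ((Amp.AbsIn × Op) × ℕ) × ℕ => q.2 % q.1.1.1.1.1.k0 :=
        PU.of_le (hβ.comp j) (pt_mod PT.snd' (hk.comp j)) fun q =>
          (Nat.mod_lt _ q.1.1.1.2.1.one_le).le.trans q.1.1.1.2.1.le
      have hh : PT fun q : ((Amp.AbsIn × Op) × ℕ) × ℕ =>
          q.1.1.1.1.1.b + (q.1.1.1.1.1.σ / q.1.1.1.1.1.k0 + 1) := (hb0.add hn).pt.comp j
      have hl : PT fun q : ((Amp.AbsIn × Op) × ℕ) × ℕ => q.1.1.1.1.1.b + q.2 / q.1.1.1.1.1.k0 :=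
        (hb0.pt.comp j).add (PT.snd'.div (hk.comp j))
      have hwh : ∀ ρ ρ' : Fin 7, PT fun q : ((Amp.AbsIn × Op) × ℕ) × ℕ =>
          rep (q.2 % q.1.1.1.1.1.k0) (wh (q.1.1.1.1.1.b + q.2 / q.1.1.1.1.1.k0)
            (q.1.1.1.1.1.b + (q.1.1.1.1.1.σ / q.1.1.1.1.1.k0 + 1)) ρ ρ') := fun ρ ρ' =>
        pt_flatMap (PT.comp ((pt_opE hl hh 0).cons ((pt_opE hh hl 0).cons ((pt_opE hl hh 0).cons
          ((pt_opE hl hh ρ).cons ((pt_opE hh hl ρ').cons ((pt_opE hl hh ρ).cons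
            (PT.const []))))))) PT.fst') hs'.range
      exact pt_flatMap (pt_ite ((pt_testBit PT.fst'.snd PT.snd').congr fun _ => Bool.decide_eq_true)
        ((hwh 2 1).append ((pt_opN hl).cons (hwh 1 2))) (PT.const []))
        (hσ.comp PT.fst'.fst).range
    · obtain ⟨x, o⟩ := p
      cases o <;> rfl
  · have e := (((jj.div jβ).sub jb).mul jk).add (pt_mod jj jβ)
    exact pt_idx (((PU.const 0).add (hb.mul hβ)).comp PT.fst')
      (pt_ite (pt_decLt (jj.div jβ) jb) (pt_testBit jm (jσ.add jj))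
        ((pt_decLt (pt_mod jj jβ) jk).and ((pt_decLt e jσ).and (pt_testBit jm e))))
      fun p j hj => bitA_aUp p.2 hj
  · exact pt_idx ((hσ.add (hb0.mul hβ)).comp PT.fst')
      (pt_ite (pt_decLt jj jσ) (pt_testBit jm (((jb.add (jj.div jk)).mul jβ).add (pt_mod jj jk)))
        (pt_testBit jm (jj.sub jσ)))
      fun p j hj => bitA_aDn p.1.2.1.one_le p.1.2.1.le
        ((Nat.lt_succ_self _).trans (Nat.lt_add_of_pos_right two_pos)) p.2 hj

theorem am_mrg : (PU fun x : Amp.MrgIn => (mrgD x.1).b) ∧ (PU fun x : Amp.MrgIn => (mrgD x.1).β) ∧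
    (PU fun x : Amp.MrgIn => 2 ^ (mrgD x.1).lam) ∧
    (PU fun x : Amp.MrgIn => 2 ^ ((mrgD x.1).b * (mrgD x.1).β)) ∧
    (PT fun x : Amp.MrgIn => (mrgD x.1).h) ∧ (PT fun x : Amp.MrgIn => (mrgD x.1).inst.gtab) ∧
    (PT fun p : Amp.MrgIn × Op => (mrgD p.1.1).wd p.2) ∧
    (PT fun p : Amp.MrgIn × ℕ => idx ((mrgD p.1.1).up (unidx _ _ _ p.2))) ∧
    (PT fun p : Amp.MrgIn × ℕ => idx ((mrgD p.1.1).dn (unidx _ _ _ p.2))) := by
  have hs : PT fun x : Amp.MrgIn => x.1 := pt_val PT.id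
  have hb : PU fun x : Amp.MrgIn => x.1.b / 4 + 4 :=
    ((pu_b hs).of_le (PT.div (pu_b hs).pt (PT.const 4)) fun _ => Nat.div_le_self _ _).add
      (PU.const 4)
  have hβ : PU fun x : Amp.MrgIn => 4 * x.1.β := (PU.const 4).mul (pu_β hs)
  have hb4 : PT fun x : Amp.MrgIn => x.1.b / 4 := PT.div (pu_b hs).pt (PT.const 4)
  refine ⟨hb, hβ, PU.const (2 ^ 18), ?_, PT.add hb4 (PT.const 3), ?_, ?_, ?_, ?_⟩
  · refine ((pu_nA hs).pow 17).of_le (pt_two_pow (hb.mul hβ)) fun x => ?_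
    have h1 := x.2.2.2
    change 2 ^ ((x.1.b / 4 + 4) * (4 * x.1.β)) ≤ _
    rw [Inst.nA, ← pow_mul]
    refine Nat.pow_le_pow_right (by omega) ?_
    have h2 : 4 * (x.1.b / 4 + 4) ≤ 17 * x.1.b := by omega
    nlinarith [Nat.mul_le_mul_right x.1.β h2]
  · have hx : PT fun p : (Amp.MrgIn × ℕ) × ℕ => p.1.1.1 := hs.comp PT.fst'.fst
    have hi : PT fun p : (Amp.MrgIn × ℕ) × ℕ => p.1.2 := PT.fst'.snd
    have hj : PT fun p : (Amp.MrgIn × ℕ) × ℕ => p.2 := PT.snd'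
    have hn := (pu_β hx).pt
    refine pt_gtab_of hβ (f := fun x ρ i j =>
      (kind ρ (Fin.ofNat 4 (i / x.1.β)) (Fin.ofNat 4 (j / x.1.β))).elim false
        fun ρ' => gent x.1 ρ' (i % x.1.β) (j % x.1.β)) (fun ρ => ?_) fun x ρ i j => ?_
    · refine pt_caseCode (g := fun (k : Option (Fin 7)) (p : (Amp.MrgIn × ℕ) × ℕ) => k.elim false
        fun ρ' => gent p.1.1.1 ρ' (p.1.2 % p.1.1.1.β) (p.2 % p.1.1.1.β))
        (pt_mk2 (kind ρ) (pt_quarter (PT.div hi hn)) (pt_quarter (PT.div hj hn))) fun k => ?_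
      cases k with
      | none => exact PT.const _
      | some ρ' => exact pt_gent hx ρ' (pt_mod hi hn) (pt_mod hj hn)
    · have e : ∀ i : Fin (4 * x.1.β), Fin.ofNat 4 (i / x.1.β) = i.divNat := fun i =>
        Fin.ofNat_val_eq_self i.divNat
      change decide (mg x.1.gens ρ (Fin.divNat i) (Fin.divNat j) (Fin.modNat i) (Fin.modNat j) = 1)
        = _
      rw [mg_kind x.2.1.g0, e i, e j]
      cases kind ρ (Fin.divNat i) (Fin.divNat j) with
      | none => simp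
      | some ρ' => exact (gent_eq x.1 ρ' (Fin.modNat i) (Fin.modNat j)).symm
  · refine pt_opCases (fE := fun (p : Amp.MrgIn × Op) l l' ρ => if l = l' then [] else
        mrgE (Fin.ofNat 4 l) (Fin.ofNat 4 l') ρ (l / 4) (l' / 4) (p.1.1.b / 4 + 1) (p.1.1.b / 4 + 2))
      (fN := fun p l => mrgN (Fin.ofNat 4 l) (l / 4) (p.1.1.b / 4 + 1) (p.1.1.b / 4 + 2))
      (fT := fun _ _ => []) PT.snd' (fun ρ => ?_) ?_ (PT.const _)
    · have hl : PT fun p : (Amp.MrgIn × Op) × ℕ × ℕ => p.2.1 := PT.snd'.fst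
      have hl' : PT fun p : (Amp.MrgIn × Op) × ℕ × ℕ => p.2.2 := PT.snd'.snd
      have hB : PT fun p : (Amp.MrgIn × Op) × ℕ × ℕ => p.1.1.1.b / 4 := hb4.comp PT.fst'.fst
      have h1 := PT.div hl (PT.const 4)
      have h2 := PT.div hl' (PT.const 4)
      have h3 := PT.add hB (PT.const 1)
      have h4 := PT.add hB (PT.const 2)
      refine pt_ite (pt_decEq hl hl') (PT.const _) (pt_caseCode
        (g := fun (q : Fin 4) (p : (Amp.MrgIn × Op) × ℕ × ℕ) => mrgE q (Fin.ofNat 4 p.2.2) ρ (p.2.1 / 4)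
          (p.2.2 / 4) (p.1.1.1.b / 4 + 1) (p.1.1.1.b / 4 + 2)) (pt_quarter hl) fun q =>
        pt_caseCode (g := fun (q' : Fin 4) (p : (Amp.MrgIn × Op) × ℕ × ℕ) => mrgE q q' ρ (p.2.1 / 4)
          (p.2.2 / 4) (p.1.1.1.b / 4 + 1) (p.1.1.1.b / 4 + 2)) (pt_quarter hl') fun q' => ?_)
      have h5 := PT.append (pt_prodW (diagW q ρ) h1 h3 h4) (pt_prodW (unitW q q') h3 h2 h4)
      exact PT.append h5 h5
    · have hl : PT fun p : (Amp.MrgIn × Op) × ℕ => p.2 := PT.snd'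
      have hB : PT fun p : (Amp.MrgIn × Op) × ℕ => p.1.1.1.b / 4 := hb4.comp PT.fst'.fst
      have h1 := PT.div hl (PT.const 4)
      have h3 := PT.add hB (PT.const 1)
      have h4 := PT.add hB (PT.const 2)
      refine pt_caseCode (g := fun (q : Fin 4) (p : (Amp.MrgIn × Op) × ℕ) => mrgN q (p.2 / 4)
        (p.1.1.1.b / 4 + 1) (p.1.1.1.b / 4 + 2)) (pt_quarter hl) fun q => ?_
      have h5 := PT.append (pt_prodW (unitW q 0) h1 h3 h4) (PT.cons (pt_opN h3) (PT.const []))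
      exact PT.append h5 h5
  · have hx : PT fun p : (Amp.MrgIn × ℕ) × ℕ => p.1.1.1 := hs.comp PT.fst'.fst
    refine pt_idx (((PU.const 0).add (hb.mul hβ)).comp PT.fst')
      (f := fun (p : Amp.MrgIn × ℕ) j => decide (j / p.1.1.β < p.1.1.b) && p.2.testBit (p.1.1.σ + j))
      (PT.and (pt_decLt (PT.div PT.snd' (pu_β hx).pt) (pu_b hx).pt)
        (pt_testBit PT.fst'.snd (PT.add (pu_σ hx).pt PT.snd'))) fun p j hj => ?_
    rcases pos_cases hj with ⟨i, -⟩ | ⟨L, J, rfl⟩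
    · exact i.elim0
    · obtain ⟨⟨G, hG⟩, m⟩ := p
      have hβ : 0 < G.β := hG.1.one_le.trans hG.1.le
      have e : 0 + L * (4 * G.β) + J = (4 * L + J / G.β) * G.β + J % G.β := by
        have := Nat.div_add_mod' J G.β
        change 0 + L * (4 * G.β) + J = _
        nlinarith
      have e' : (0 + L * (4 * G.β) + J) / G.β = 4 * L + J / G.β := by
        rw [e, add_comm, Nat.add_mul_div_right _ _ hβ, Nat.div_eq_of_lt (Nat.mod_lt _ hβ), zero_add]
      rw [bitA_blk]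
      dsimp only
      rw [e', e, ← add_assoc]
      change decide (blk (unidx G.b G.β G.σ m).1 (4 * L + J / G.β) (Fin.modNat J) = 1) = _
      by_cases h : 4 * L.val + J.val / G.β < G.b
      · rw [blk_of_lt _ h, decide_eq_true h, Bool.true_and]
        exact decide_b2 _
      · rw [blk_of_le _ (not_lt.mp h), decide_eq_false h]
        simp
  · have hx : PT fun p : Amp.MrgIn × ℕ => p.1.1 := hs.comp PT.fst'
    refine pt_idx ((pu_σ hx).add ((pu_b hx).mul (pu_β hx)))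
      (f := fun (p : Amp.MrgIn × ℕ) j => p.2.testBit (j - p.1.1.σ))
      (pt_testBit PT.fst'.snd (PT.sub PT.snd' ((pu_σ hx).pt.comp PT.fst'))) fun p j hj => ?_
    obtain ⟨⟨G, hG⟩, m⟩ := p
    rcases pos_cases hj with ⟨i, -⟩ | ⟨l, i, rfl⟩
    · have h1 : i.val < G.σ := i.2
      have := hG.2.1
      omega
    · have hl : l.val < G.b := l.2
      rw [bitA_blk]
      change decide (qt (Fin.ofNat 4 l) (blk (unidx (G.b / 4 + 4) (4 * G.β) 0 m).1 (l / 4)) i = 1) = _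
      rw [blk_of_lt _ (show l.val / 4 < G.b / 4 + 4 by omega)]
      refine (decide_b2 _).trans ?_
      congr 1
      have := Nat.div_add_mod' l 4
      simp only [finProdFinEquiv_apply_val, Fin.val_ofNat]
      rw [add_assoc G.σ, Nat.add_sub_cancel_left]
      nlinarith

theorem absorb (g : ℕ) : AbsorbQ g := by
  let j : AbsIn g → Amp.AbsIn := fun x => ⟨(x.1.1.toInst, x.1.2), x.2.1.inn, x.2.2⟩
  have hs : PT fun x : AbsIn g => x.1.1 := (pt_val PT.id).fst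
  have hj : PT j := ((pt_toInst hs).pair (pt_val PT.id).snd).of_enc fun _ => rfl
  obtain ⟨h1, h2, h3, h4, h5, h6, h7, h8, h9⟩ := am_abs
  have j1 : PT fun p : AbsIn g × Op => (j p.1, p.2) := (hj.comp PT.fst').pair PT.snd'
  have j2 : PT fun p : AbsIn g × ℕ => (j p.1, p.2) := (hj.comp PT.fst').pair PT.snd'
  have k1 := h1.comp hj
  have k2 := h2.comp hj
  have k3 := h3.comp hj
  have k4 := h4.comp hj
  have k5 := h5.comp hj
  have k6 := h6.comp hj
  have k7 := h7.comp j1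
  have k8 := h8.comp j2
  have k9 := h9.comp j2
  refine ⟨104, fun x => simI x.1.1 (absD x.1.1.toInst), fun x => ⟨rfl,
    ⟨x.2.1.inn, x.2.1.out, x.2.1.tau.trans (Nat.le_add_right _ _)⟩, rfl, rfl, rfl,
    Nat.succ_le_succ ((Nat.le_add_right _ _).trans (Nat.le_succ _)),
    show x.1.1.b + (x.1.1.σ / x.1.1.k0 + 1) + 2 ≤ _ by omega, ?_⟩,
    (sim (src := fun x : AbsIn g => x.1.1) (fun x => absD x.1.1.toInst)
      (fun x => absD_ok x.2.1.inn) hs k1 k2 k3 k4 k5 k6 k7 k8 k9).mono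
      fun x v' v hv' _ h => h.trans (mul_le_mul_of_nonneg_right ?_ hv')⟩
  · change 2 ^ (x.1.1.τ + (absD x.1.1.toInst).lam) ≤ _
    rw [pow_add, mul_comm]
    exact Nat.mul_le_mul_right _ ((am_lam _).trans (Nat.mul_le_mul_right _ (by omega)))
  · have k : ((2 ^ (absD x.1.1.toInst).lam : ℕ) : ℝ) ≤ ((26 * (x.1.1.σ + 1) ^ 2 : ℕ) : ℝ) :=
      Nat.cast_le.2 (am_lam _)
    push_cast at k ⊢
    linarith

theorem merge (g : ℕ) : MergeQ g := by
  let j : MrgIn g → Amp.MrgIn := fun x => ⟨x.1.toInst, x.2.1.inn, x.2.2⟩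
  have hs : PT fun x : MrgIn g => x.1 := pt_val PT.id
  have hj : PT j := (pt_toInst hs).of_enc fun _ => rfl
  obtain ⟨h1, h2, h3, h4, h5, h6, h7, h8, h9⟩ := am_mrg
  have j1 : PT fun p : MrgIn g × Op => (j p.1, p.2) := (hj.comp PT.fst').pair PT.snd'
  have j2 : PT fun p : MrgIn g × ℕ => (j p.1, p.2) := (hj.comp PT.fst').pair PT.snd'
  have k1 := h1.comp hj
  have k2 := h2.comp hj
  have k3 := h3.comp hj
  have k4 := h4.comp hj
  have k5 := h5.comp hj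
  have k6 := h6.comp hj
  have k7 := h7.comp j1
  have k8 := h8.comp j2
  have k9 := h9.comp j2
  refine ⟨2 ^ 20, fun x => simI x.1 (mrgD x.1.toInst), fun x => ⟨rfl,
    ⟨good_mgens x.2.1.inn, x.2.1.out, x.2.1.tau.trans (Nat.le_add_right _ _)⟩, rfl, rfl, rfl,
    show x.1.b ≤ 4 * (x.1.b / 4 + 4) by omega, show x.1.b / 4 + 4 ≤ _ by omega,
    show 2 ^ (x.1.τ + 18) ≤ _ by rw [pow_add]; omega⟩,
    (sim (src := fun x : MrgIn g => x.1) (fun x => mrgD x.1.toInst)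
      (fun x => mrgD_ok x.2.1.inn x.2.2.1) hs k1 k2 k3 k4 k5 k6 k7 k8 k9).mono
      fun x v' v _ _ h => h.trans (le_of_eq ?_)⟩
  change (4 : ℝ) * 2 ^ 18 * v' = _
  push_cast
  ring

end Vale.Agent.P330O
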