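import Vale.Agent.P330Q.OProg

/-! From instances with an outer coordinate to runs of programs. -/

namespace Vale.Agent.P330O

open Vale.Agent.Lib.H23 Vale.Agent.P333 Vale.Agent.P325 Vale.Agent.P330 Vale.Agent.P330.Amp
open Finset Matrix
open scoped BigOperators

variable {κ b β σ k0 : ℕ} {gens : Fin 7 → Mat β} {prog : List Ins} {O : Outer}
  {orc : O.V × Big b β → ℕ → Vec σ → Bool}

theorem bq_tr (v : ℕ) (ξ : O.V) : O.mv (xoOf b (.Tr v)) ξ = ξ := Outer.mv_of_ge le_rfl ξ

/-- one layer -/
theorem bq_layer {i : Ins} (hi : i.ok κ σ) (X : O.V × Addr b β σ → Val)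
    (Y : O.V × Big b β → Vec σ → Val) (y : O.V × Big b β) (z : Vec σ)
    (h : HF (fun n : Fin (WW κ) => rd (i.win n)
      (X (O.mv (xoOf b (i.op n)) y.1, act gens (i.op n) (y.2, z))))
      (fun r => i.lab κ (orc y) z r) (Y y z)) :
    i.satB κ (acQ O gens) orc (fun y z => X (y.1, (y.2, z))) Y y z := by
  have key : (∀ n, O.mv (xoOf b (i.op n)) y.1 = y.1) →
      i.satB κ (actB gens) (fun w => orc (y.1, w)) (fun w z => X (y.1, (w, z)))
        (fun w => Y (y.1, w)) y.2 z := fun e =>
    br_layer (orc := fun w => orc (y.1, w)) hi (fun a => X (y.1, a)) (fun w => Y (y.1, w)) y.2 z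
      (by simpa only [e] using h)
  cases i with
  | cell kd p1 w1 p2 w2 c => exact ⟨(key fun n => bq_tr _ _).1, fun o c e => by cases e⟩
  | pur j =>
    refine ⟨(key fun n => ?_).1, fun o c e => by cases e⟩
    simp only [Ins.op]
    split_ifs <;> exact bq_tr _ _
  | mov o c =>
    refine ⟨trivial, fun o' c' e γ hγ => h γ fun r hr => ?_⟩
    cases e
    simp only [Ins.lab]
    split_ifs at hγ ⊢ with hf
    · refine hr _ γ ?_
      have e : O.mv (xoOf b (Ins.op 1 (.mov o c))) y.1 = O.mv (xoOf b o) y.1 := by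
        cases o <;> rfl
      simp only [br_one, br_mov1, e]
      exact (congrArg (rd _) hγ).trans (rd_pv _ _)
    · refine hr _ γ ?_
      have e : O.mv (xoOf b (Ins.op 0 (.mov o c))) y.1 = y.1 := by
        cases o <;> exact bq_tr 0 _
      simp only [br_zero, br_mov0, e]
      exact (congrArg (rd _) hγ).trans (rd_pv _ _)

theorem bq_idle (hσ : 2 ≤ σ) (x : ℕ → O.V × Addr b β σ → Val) {t : ℕ} (ht : prog.length ≤ t)
    {y : O.V × Big b β} {z : Vec σ}
    (h : (progQI κ b β σ k0 gens O prog orc).sat x t (y.1, (y.2, z))) {γ : Bool}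
    (hγ : x ((progQI κ b β σ k0 gens O prog orc).prev t) (y.1, (y.2, z)) = pv γ) :
    x t (y.1, (y.2, z)) = pv γ := by
  have h1 : prog.getD t idleI = idleI := List.getD_eq_default _ _ ht
  have h2 := bq_layer (κ := κ) (gens := gens) (orc := orc) (i := prog.getD t idleI)
    (by rw [h1]; simp [idleI, Ins.ok, hσ]) _ (fun y z => x t (y.1, (y.2, z))) y z h
  rw [h1] at h2
  refine h2.1 γ fun r hr => hr _ γ ?_
  simp only [put_get]
  rw [hγ, rd_pv]

theorem bridge (hσ : 2 ≤ σ) (hok : ∀ i ∈ prog, i.ok κ σ) (x : ℕ → O.V × Addr b β σ → Val) :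
    ∃ (S : O.V × Big b β → Vec σ → Prop) (X Y : O.V × Big b β → Vec σ → Val),
      (∀ y z, X y z = x (2 ^ prog.length.size - 1) (y.1, (y.2, z))) ∧
      RunsB κ (acQ O gens) orc S prog X Y ∧
      (∀ y z γ, ¬ S y z → Y y z = pv γ → X y z = pv γ) ∧ (𝔼 y, 𝔼 z, ind (S y z)) ≤
        2 ^ prog.length.size * (progQI κ b β σ k0 gens O prog orc).viol x := by
  have hL : prog.length < 2 ^ prog.length.size := Nat.lt_size_self _
  have h0 : (progQI κ b β σ k0 gens O prog orc).prev 0 = 2 ^ prog.length.size - 1 :=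
    Inst.prev_zero _
  refine ⟨fun y z => ∃ t < 2 ^ prog.length.size,
      ¬ (progQI κ b β σ k0 gens O prog orc).sat x t (y.1, (y.2, z)), _,
    fun y z => x ((progQI κ b β σ k0 gens O prog orc).prev prog.length) (y.1, (y.2, z)),
    fun _ _ => rfl, ?_, fun y z γ hS hγ => ?_, ?_⟩
  · rw [← h0]
    refine br_runs prog
      (fun n (y : O.V × Big b β) z => x ((progQI κ b β σ k0 gens O prog orc).prev n) (y.1, (y.2, z)))
      fun n hn y z hS => ?_
    have h1 : (progQI κ b β σ k0 gens O prog orc).sat x n (y.1, (y.2, z)) := by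
      by_contra h
      exact hS ⟨n, by omega, h⟩
    have h2 := bq_layer (κ := κ) (gens := gens) (orc := orc) (i := prog.getD n idleI)
      (by rw [List.getD_eq_getElem _ _ hn]; exact hok _ (List.getElem_mem hn)) _
      (fun y z => x n (y.1, (y.2, z))) y z h1
    rw [List.getD_eq_getElem _ _ hn] at h2
    rw [br_prev _ (show n + 1 < 2 ^ prog.length.size by omega)]
    exact h2
  · have h1 : ∀ t < 2 ^ prog.length.size,
        (progQI κ b β σ k0 gens O prog orc).sat x t (y.1, (y.2, z)) := fun t ht => by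
      by_contra h
      exact hS ⟨t, ht, h⟩
    have h2 : ∀ t, prog.length ≤ t → t < 2 ^ prog.length.size → x t (y.1, (y.2, z)) = pv γ := by
      intro t ht
      induction t, ht using Nat.le_induction with
      | base => exact fun h => bq_idle hσ x le_rfl (h1 _ h) hγ
      | succ t ht ih =>
        refine fun h => bq_idle hσ x (by omega) (h1 _ h) ?_
        rw [br_prev _ h]
        exact ih (by omega)
    exact h2 _ (by omega) (by omega)
  · refine le_trans (le_of_eq ?_) ((progQI κ b β σ k0 gens O prog orc).expect_flt x)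
    rw [QI.expect_pair, ← univ_product_univ, expect_product]
    refine expect_congr rfl fun ξ _ => ?_
    exact (expect_product univ univ fun a : Big b β × Vec σ => ind (∃ t < 2 ^ prog.length.size,
      ¬ (progQI κ b β σ k0 gens O prog orc).sat x t (ξ, a))).symm

end Vale.Agent.P330O
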