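import Vale.Agent.P330Q.ORing

/-! A cube of involutions in `SL3` (task OChart).
Plan. The index `j` has the level `i = j / 8 + 1` and the type `j % 8`; `s j = 1 + t ^ i • N (j % 8)` with `N` over `ZMod 2`: the six
`E a b` (`s = el a b (t ^ i)`), `E00 + E01 + E10 + E11` (`s = el 1 0 1 * el 0 1 (t ^ i) * el 1 0 1`) and `E11 + E12 + E21 + E22`
(`el 2 1 1 * el 1 2 (t ^ i) * el 2 1 1`). The eight `N` are linearly independent over `ZMod 2` (`decide`). Words for `el a b (t ^ i)`:
keep a table `T : Fin 3 → Fin 3 → List ℕ` (or a list of nine words) of words for `el a b (t ^ i)`; `sq T a b = T a c ++ T c b ++ T a c ++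
T c b` (`c` the third index, `el_comm`) is the table for `2 i`, and `T a c ++ [ltE c b 1] ++ T a c ++ [ltE c b 1]` the table for `i + 1`;
fold over the bits of `i` from the top (`Nat.bits`, `Nat.binaryRec`), the length is at most `10 ^ size i ≤ C (i + 1) ^ 4`. Injectivity:
for a list of factors `1 + t ^ i • N` (all `1 ≤ i`, any order) the product is congruent modulo `t ^ (i0 + 1)` to the product of the
factors of level `< i0` plus `t ^ i0 •` the sum of the `N` of level `i0` (list induction; congruence: the difference is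
`t ^ (i0 + 1) • Y`; products are `≡ 1` modulo `t`). Strong induction on `i0 ≤ l`: the bits of `c`, `c'` agree on all levels `≤ i0`
(`level`). -/

namespace Vale.Agent.P330O

open Vale.Agent.Lib.H23 Vale.Agent.P333 Vale.Agent.P325 Vale.Agent.P330 Vale.Agent.P330.Amp
open Finset Matrix
open scoped BigOperators

namespace SL

namespace Ch

/-! ### congruences of products -/

section cong

variable {R A : Type} [CommRing R] [Ring A] [Algebra R A] (t : R) {lev : ℕ → ℕ}

theorem prod_one (hl : ∀ j, 1 ≤ lev j) (n : ℕ → A) (js : List ℕ) :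
    ∃ Z, (js.map fun j => 1 + t ^ lev j • n j).prod = 1 + t • Z := by
  induction js with
  | nil => exact ⟨0, by simp⟩
  | cons j js ih =>
    obtain ⟨Z, hZ⟩ := ih
    obtain ⟨e, he⟩ := Nat.exists_eq_add_of_le (hl j)
    refine ⟨Z + t ^ e • (n j * (1 + t • Z)), ?_⟩
    rw [List.map_cons, List.prod_cons, hZ, he, add_mul, one_mul, smul_mul_assoc, pow_add, pow_one,
      smul_add, smul_smul, add_assoc]

theorem prod_sub (hl : ∀ j, 1 ≤ lev j) (n n' : ℕ → A) (i : ℕ) (js : List ℕ)
    (h : ∀ j ∈ js, lev j < i → n j = n' j) :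
    ∃ Y, (js.map fun j => 1 + t ^ lev j • n j).prod - (js.map fun j => 1 + t ^ lev j • n' j).prod =
      t ^ i • (js.map fun j => if lev j = i then n j - n' j else 0).sum + t ^ (i + 1) • Y := by
  induction js with
  | nil => exact ⟨0, by simp⟩
  | cons j js ih =>
    obtain ⟨Y, hY⟩ := ih fun j hj => h j (List.mem_cons_of_mem _ hj)
    obtain ⟨Z, hZ⟩ := prod_one t hl n js
    obtain ⟨Z', hZ'⟩ := prod_one t hl n' js
    simp only [List.map_cons, List.prod_cons, List.sum_cons]
    generalize (js.map fun j => if lev j = i then n j - n' j else 0).sum = S at hY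
    generalize (js.map fun j => 1 + t ^ lev j • n j).prod = P at hY hZ
    generalize (js.map fun j => 1 + t ^ lev j • n' j).prod = P' at hY hZ'
    rcases lt_trichotomy (lev j) i with c | c | c
    · obtain ⟨e, he⟩ := Nat.exists_eq_add_of_le (hl j)
      refine ⟨t ^ e • (n j * S) + (1 + t ^ lev j • n j) * Y, ?_⟩
      rw [← h j List.mem_cons_self c, ← mul_sub, hY, if_neg c.ne, he]
      simp only [add_mul, mul_add, one_mul, smul_mul_assoc, mul_smul_comm]
      module
    · refine ⟨Y + (n j * Z - n' j * Z'), ?_⟩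
      have e : (1 + t ^ lev j • n j) * P - (1 + t ^ lev j • n' j) * P' =
          P - P' + t ^ lev j • (n j * P - n' j * P') := by
        simp only [add_mul, one_mul, smul_mul_assoc]
        module
      rw [e, hY, hZ, hZ', if_pos c, c]
      simp only [mul_add, mul_one, mul_smul_comm]
      module
    · obtain ⟨d, hd⟩ := Nat.exists_eq_add_of_lt c
      refine ⟨Y + t ^ d • (n j * P - n' j * P'), ?_⟩
      have e : (1 + t ^ lev j • n j) * P - (1 + t ^ lev j • n' j) * P' =
          P - P' + t ^ lev j • (n j * P - n' j * P') := by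
        simp only [add_mul, one_mul, smul_mul_assoc]
        module
      rw [e, hY, if_neg c.ne', hd]
      module

end cong

/-! ### tables of words -/

abbrev Tb : Type := Fin 3 → Fin 3 → List ℕ

def th (a b : Fin 3) : Fin 3 := -(a + b)

def sqT (T : Tb) : Tb := fun a b => T a (th a b) ++ T (th a b) b ++ T a (th a b) ++ T (th a b) b

def incT (T : Tb) : Tb := fun a b =>
  T a (th a b) ++ [ltE (th a b) b 1] ++ T a (th a b) ++ [ltE (th a b) b 1]

def step (T : Tb) (c : Bool) : Tb := bif c then incT (sqT T) else sqT T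

def T0 : Tb := fun a b => [ltE a b 0]

def tb (n : ℕ) : Tb := n.bits.reverse.foldl step T0

def Ok (l : ℕ) (T : Tb) (x : Rg l) : Prop := ∀ a b, a ≠ b → ev l (T a b) = el l a b x

def Sm (T : Tb) (L : ℕ) : Prop := ∀ a b, (T a b).length ≤ L ∧ ∀ x ∈ T a b, x ≤ 12

variable {l : ℕ}

theorem ev_append (w w' : List ℕ) : ev l (w ++ w') = ev l w * ev l w' := by
  rw [ev, List.map_append, List.prod_append]
  rfl

theorem ev_one (i : ℕ) : ev l [i] = gen l i := by
  rw [ev, List.map_singleton, List.prod_singleton]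

theorem th_ne : ∀ a b : Fin 3, a ≠ b → a ≠ th a b ∧ b ≠ th a b := by decide

theorem ltE_le : ∀ (a b : Fin 3) (u : Fin 2), ltE a b u ≤ 12 := by decide

theorem Ok.sq {T : Tb} {x : Rg l} (h : Ok l T x) : Ok l (sqT T) (x * x) := fun a b hab => by
  obtain ⟨h1, h2⟩ := th_ne a b hab
  rw [sqT, ev_append, ev_append, ev_append, h _ _ h1, h _ _ h2.symm, el_comm hab h1 h2]

theorem Ok.inc {T : Tb} {x : Rg l} (h : Ok l T x) : Ok l (incT T) (x * tt l) := fun a b hab => by
  obtain ⟨h1, h2⟩ := th_ne a b hab
  rw [incT, ev_append, ev_append, ev_append, h _ _ h1, ev_one, gen_ltE1 h2.symm, el_comm hab h1 h2]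

theorem ok_fold (bs : List Bool) : Ok l (bs.foldl step T0) (tt l ^ valMSB bs) := by
  induction bs using List.reverseRecOn with
  | nil => exact fun a b hab => by rw [List.foldl_nil, T0, ev_one, gen_ltE0 hab]; rfl
  | append_singleton bs c ih =>
    have e : valMSB (bs ++ [c]) = Nat.bit c (valMSB bs) := by
      rw [valMSB, List.foldl_append]
      rfl
    rw [List.foldl_append, e, Nat.bit_val, two_mul, pow_add (tt l), pow_add (tt l)]
    cases c
    · rw [Bool.toNat_false, pow_zero, mul_one]
      exact ih.sq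
    · rw [Bool.toNat_true, pow_one]
      exact ih.sq.inc

theorem ok_tb (n : ℕ) : Ok l (tb n) (tt l ^ n) := by
  have h := ok_fold (l := l) n.bits.reverse
  rwa [valMSB_reverse_bits] at h

theorem Sm.sq {T : Tb} {L : ℕ} (h : Sm T L) : Sm (sqT T) (4 * L) := fun a b => by
  have h1 := h a (th a b)
  have h2 := h (th a b) b
  refine ⟨by simp only [sqT, List.length_append]; omega, fun x hx => ?_⟩
  simp only [sqT, List.mem_append] at hx
  rcases hx with ((hx | hx) | hx) | hx
  exacts [h1.2 x hx, h2.2 x hx, h1.2 x hx, h2.2 x hx]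

theorem Sm.inc {T : Tb} {L : ℕ} (h : Sm T L) : Sm (incT T) (2 * L + 2) := fun a b => by
  have h1 := h a (th a b)
  have h2 : ltE (th a b) b 1 ≤ 12 := ltE_le (th a b) b 1
  refine ⟨by simp only [incT, List.length_append, List.length_singleton]; omega, fun x hx => ?_⟩
  simp only [incT, List.mem_append, List.mem_singleton] at hx
  rcases hx with ((hx | hx) | hx) | hx
  exacts [h1.2 x hx, hx ▸ h2, h1.2 x hx, hx ▸ h2]

theorem Sm.mono {T : Tb} {L L' : ℕ} (h : Sm T L) (hL : L ≤ L') : Sm T L' := fun a b =>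
  ⟨(h a b).1.trans hL, (h a b).2⟩

theorem sm_fold (bs : List Bool) : Sm (bs.foldl step T0) (10 ^ bs.length) := by
  induction bs using List.reverseRecOn with
  | nil => exact fun a b => ⟨le_rfl, fun x hx => List.mem_singleton.1 hx ▸ ltE_le a b 0⟩
  | append_singleton bs c ih =>
    have h1 : 0 < 10 ^ bs.length := by positivity
    rw [List.foldl_append, List.length_append, List.length_singleton, pow_succ]
    cases c
    · exact ih.sq.mono (by omega)
    · exact ih.sq.inc.mono (by omega)

theorem ten_le {n s : ℕ} (h : s ≤ n.size) : 10 ^ s ≤ 16 * (n + 1) ^ 4 := by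
  have h1 : 2 ^ s ≤ 2 * (n + 1) := by
    cases s with
    | zero => omega
    | succ s =>
      have := Nat.lt_size.1 (Nat.lt_of_succ_le h)
      omega
  calc 10 ^ s ≤ (2 ^ 4) ^ s := Nat.pow_le_pow_left (by norm_num) _
    _ = (2 ^ s) ^ 4 := by rw [← pow_mul, ← pow_mul, mul_comm]
    _ ≤ (2 * (n + 1)) ^ 4 := Nat.pow_le_pow_left h1 _
    _ = 16 * (n + 1) ^ 4 := by ring

theorem sm_tb (n : ℕ) : Sm (tb n) (16 * (n + 1) ^ 4) :=
  (sm_fold _).mono (ten_le (by rw [List.length_reverse, Nat.size_eq_bits_len]))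

variable {X : Type} [Enc X]

theorem pt_sqT {T : X → Tb} (h : PT T) : PT fun x => sqT (T x) :=
  pt_pi fun _ => pt_pi fun _ => (((pt_apply (pt_apply h _) _).append
    (pt_apply (pt_apply h _) _)).append (pt_apply (pt_apply h _) _)).append
      (pt_apply (pt_apply h _) _)

theorem pt_incT {T : X → Tb} (h : PT T) : PT fun x => incT (T x) :=
  pt_pi fun _ => pt_pi fun _ => (((pt_apply (pt_apply h _) _).append (PT.const _)).append
    (pt_apply (pt_apply h _) _)).append (PT.const _)

theorem pt_tb {n : X → ℕ} (hn : PU n) : PT fun x => tb (n x) := by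
  have key : PT fun u : List ℕ => tb u.length := by
    refine PT.foldl (f := fun _ T c => step T c) (PT.cond PT.snd'.snd
      (pt_incT (pt_sqT PT.snd'.fst)) (pt_sqT PT.snd'.fst)) PT.id.length.bits.reverse (PT.const _)
      ⟨3 * (3 * (16 * (Polynomial.X + 1) ^ 4 * (4 * 12 + 1 + 1) + 1 + 1) + 1 + 1) + 1,
        fun u k => ?_⟩
    have h1 := (sm_fold (u.length.bits.reverse.take k)).mono ((ten_le (n := u.length) (by
      rw [List.length_take, List.length_reverse, Nat.size_eq_bits_len]
      exact min_le_right _ _)).trans (Nat.mul_le_mul_left 16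
        (Nat.pow_le_pow_left (Nat.add_le_add_right (length_lt_sz u).le 1) 4)))
    simp only [Polynomial.eval_add, Polynomial.eval_mul, Polynomial.eval_X, Polynomial.eval_pow,
      Polynomial.eval_ofNat, Polynomial.eval_one]
    generalize (u.length.bits.reverse.take k).foldl step T0 = T at h1
    exact ip_sz_ofFn (f := T) le_rfl fun a => ip_sz_ofFn (f := T a) le_rfl fun b =>
      ip_sz_list (h1 a b).1 fun x hx => ip_sz_nat ((h1 a b).2 x hx)
  exact (key.comp hn.range).congr fun x => by rw [List.length_range]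

/-! ### the eight types -/

abbrev M2 : Type := Matrix (Fin 3) (Fin 3) (ZMod 2)

def ra : Fin 8 → Fin 3 := ![0, 0, 1, 1, 2, 2, 0, 1]

def rb : Fin 8 → Fin 3 := ![1, 2, 0, 2, 0, 1, 1, 2]

def cw : Fin 8 → List ℕ := ![[], [], [], [], [], [], [ltE 1 0 0], [ltE 2 1 0]]

def cg : Fin 8 → M2 := ![1, 1, 1, 1, 1, 1, transvection 1 0 1, transvection 2 1 1]

def nn (r : Fin 8) : M2 := cg r * single (ra r) (rb r) 1 * cg r

def du : Fin 8 → M2 := ![single 1 0 1 + single 0 0 1, single 2 0 1, single 0 1 1 + single 0 0 1,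
  single 2 1 1 + single 2 2 1, single 0 2 1, single 1 2 1 + single 2 2 1, single 0 0 1, single 2 2 1]

theorem ra_ne : ∀ r, ra r ≠ rb r := by decide

theorem cg_sq : ∀ r, cg r * cg r = 1 := by decide +kernel

theorem du_nn : ∀ r r', trace (du r * nn r') = if r = r' then 1 else 0 := by decide +kernel

theorem cw_len : ∀ r, (cw r).length ≤ 1 := by decide

noncomputable def mp (l : ℕ) : M2 →+* Matrix (Fin 3) (Fin 3) (Rg l) :=
  (algebraMap (ZMod 2) (Rg l)).mapMatrix

theorem mp_single (a b : Fin 3) : mp l (single a b 1) = single a b 1 := by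
  rw [mp, RingHom.mapMatrix_apply, Matrix.map_single, map_one]

theorem mp_tr (a b : Fin 3) : mp l (transvection a b 1) = transvection a b 1 := by
  rw [transvection, map_add, map_one, mp_single, transvection]

noncomputable def co (l : ℕ) : Gp l →* Matrix (Fin 3) (Fin 3) (Rg l) :=
  SpecialLinearGroup.coeMonoidHom

theorem co_el {a b : Fin 3} (h : a ≠ b) (x : Rg l) : co l (el l a b x) = transvection a b x :=
  el_coe h x

theorem ev_cw (r : Fin 8) : co l (ev l (cw r)) = mp l (cg r) := by
  have h0 : co l (ev l []) = mp l 1 := (map_one _).trans (map_one _).symm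
  have h1 : ∀ a b : Fin 3, a ≠ b → co l (ev l [ltE a b 0]) = mp l (transvection a b 1) :=
    fun a b h => by rw [ev_one, gen_ltE0 h, co_el h, mp_tr]
  fin_cases r
  exacts [h0, h0, h0, h0, h0, h0, h1 1 0 (by decide), h1 2 1 (by decide)]

def wd (r : Fin 8) (T : Tb) : List ℕ := cw r ++ T (ra r) (rb r) ++ cw r

theorem ev_wd {T : Tb} {x : Rg l} (h : Ok l T x) (r : Fin 8) :
    co l (ev l (wd r T)) = 1 + x • mp l (nn r) := by
  rw [wd, ev_append, ev_append, h _ _ (ra_ne r), map_mul, map_mul, ev_cw, co_el (ra_ne r),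
    transvection, mul_add, add_mul, mul_one,
    ← map_mul, cg_sq, map_one, nn, map_mul, map_mul, mp_single, ← smul_mul_assoc, ← mul_smul_comm,
    smul_single, smul_eq_mul, mul_one]

theorem wd_sq {T : Tb} {x : Rg l} (h : Ok l T x) (r : Fin 8) :
    ev l (wd r T) * ev l (wd r T) = 1 := by
  have h0 : co l (ev l (cw r) * ev l (cw r)) = co l 1 := by
    rw [map_mul, ev_cw, ← map_mul, cg_sq, map_one, map_one]
  have h1 : ev l (cw r) * ev l (cw r) = 1 := Subtype.ext h0
  rw [wd, ev_append, ev_append, h _ _ (ra_ne r), mul_assoc, mul_assoc, mul_assoc,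
    ← mul_assoc (ev l (cw r)) (ev l (cw r)), h1, one_mul, ← mul_assoc (el ..), el_sq, one_mul, h1]

theorem tr_mp (r r' : Fin 8) :
    trace (mp l (du r) * mp l (nn r')) = if r = r' then 1 else 0 := by
  rw [← map_mul, mp, RingHom.mapMatrix_apply, ← AddMonoidHom.map_trace, du_nn]
  split_ifs
  exacts [map_one _, map_zero _]

/-- the word number `j` -/
def wj (j : ℕ) : List ℕ := wd (Fin.ofNat 8 j) (tb (j / 8 + 1))

/-- the matrices selected by the bits of `c` -/
noncomputable def sel (l c j : ℕ) : Matrix (Fin 3) (Fin 3) (Rg l) :=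
  b2 (c.testBit j) • mp l (nn (Fin.ofNat 8 j))

theorem coe_prod (c : ℕ) (js : List ℕ) :
    co l (js.map fun j => if c.testBit j then ev l (wj j) else 1).prod =
      (js.map fun j => 1 + tt l ^ (j / 8 + 1) • sel l c j).prod := by
  induction js with
  | nil => rfl
  | cons j js ih =>
    rw [List.map_cons, List.prod_cons, List.map_cons, List.prod_cons, map_mul, ih, sel]
    congr 1
    cases c.testBit j
    · simp [b2]
    · rw [if_pos rfl, wj, ev_wd (ok_tb _), b2, if_pos rfl, one_smul]

theorem inj {k : ℕ} (hk : k ≤ 8 * l) {js : List ℕ} (hjs : js.Perm (List.range k)) {c c' : ℕ}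
    (h : (js.map fun j => 1 + tt l ^ (j / 8 + 1) • sel l c j).prod =
      (js.map fun j => 1 + tt l ^ (j / 8 + 1) • sel l c' j).prod) (i : ℕ) :
    ∀ j < k, j / 8 + 1 = i → c.testBit j = c'.testBit j := by
  induction i using Nat.strong_induction_on with
  | _ i ih =>
  intro j hj hi
  obtain ⟨Y, hY⟩ := prod_sub (tt l) (lev := fun j => j / 8 + 1) (fun _ => Nat.le_add_left _ _)
    (sel l c) (sel l c') i js fun j hj hi => by
      rw [sel, sel, ih _ hi j (List.mem_range.1 (hjs.mem_iff.1 hj)) rfl]
  rw [h, sub_self, (hjs.map _).sum_eq, ← List.sum_toFinset _ List.nodup_range,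
    List.toFinset_range] at hY
  have h1 := congrArg (fun U => trace (mp l (du (Fin.ofNat 8 j)) * U)) hY
  simp only [mul_zero, trace_zero, mul_add, mul_smul_comm, trace_add, trace_smul, mul_sum,
    trace_sum] at h1
  rw [sum_eq_single j (fun j' _ hne => ?_) fun hn => absurd (mem_range.2 hj) hn, if_pos hi, sel, sel,
    ← sub_smul, mul_smul_comm, trace_smul, tr_mp, if_pos rfl, smul_eq_mul, mul_smul_comm, mul_one,
    smul_eq_mul] at h1
  · have h2 := level (l := l) (j := i) (by omega) (y := -trace (mp l (du (Fin.ofNat 8 j)) * Y))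
      (by rw [mul_neg]; exact eq_neg_of_add_eq_zero_left h1.symm)
    revert h2
    cases c.testBit j <;> cases c'.testBit j <;> decide
  · split_ifs with e
    · rw [sel, sel, ← sub_smul, mul_smul_comm, trace_smul, tr_mp, if_neg, smul_zero]
      intro e'
      have e2 : j % 8 = j' % 8 := congrArg Fin.val e'
      omega
    · rw [mul_zero, trace_zero]

theorem pt_wj {j : X → ℕ} (hj : PU j) : PT fun x => wj (j x) := by
  have h1 : PU fun x => j x / 8 + 1 :=
    (hj.of_le (hj.pt.div (PT.const 8)) fun _ => Nat.div_le_self _ _).add (PU.const 1)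
  exact pt_cases (k := fun x => Fin.ofNat 8 (j x)) (g := fun r x => wd r (tb (j x / 8 + 1)))
    (fun a => (pt_decEq (pt_mod hj.pt (PT.const 8)) (PT.const (a : ℕ))).congr fun x =>
      decide_eq_decide.2 Fin.ext_iff)
    fun r => ((PT.const _).append (pt_apply (pt_apply (pt_tb h1) _) _)).append (PT.const _)

theorem len_wj {j k : ℕ} (h : j < k) : (wj j).length ≤ 18 * (k + 1) ^ 18 := by
  have h1 := (sm_tb (j / 8 + 1) (ra (Fin.ofNat 8 j)) (rb (Fin.ofNat 8 j))).1
  have h2 := cw_len (Fin.ofNat 8 j)
  have h3 : (j / 8 + 1 + 1) ^ 4 ≤ (k + 1) ^ 18 :=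
    (Nat.pow_le_pow_left (by omega) _).trans (Nat.pow_le_pow_right (by omega) (by norm_num))
  have h4 : 1 ≤ (k + 1) ^ 18 := Nat.one_le_pow _ _ (Nat.succ_pos k)
  rw [wj, wd, List.length_append, List.length_append]
  generalize (k + 1) ^ 18 = P at h3 h4
  generalize (j / 8 + 1 + 1) ^ 4 = Q at h1 h3
  omega

end Ch

theorem chart : ∃ (C : ℕ) (W : ℕ → List (List ℕ)), (PT fun u : List Unit => W u.length) ∧
    ∀ k, (W k).length = k ∧ (∀ w ∈ W k, w.length ≤ C * (k + 1) ^ C) ∧ ∀ l, k ≤ 8 * l →
      (∀ w ∈ W k, ev l w * ev l w = 1) ∧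
      ∀ js : List ℕ, js.Perm (List.range k) → ∀ c < 2 ^ k, ∀ c' < 2 ^ k,
        (js.map fun j => if c.testBit j then ev l ((W k).getD j []) else 1).prod =
          (js.map fun j => if c'.testBit j then ev l ((W k).getD j []) else 1).prod → c = c' := by
  refine ⟨18, fun k => (List.range k).map Ch.wj, ?_, fun k => ⟨by simp, fun w hw => ?_,
    fun l hl => ⟨fun w hw => ?_, fun js hjs c hc c' hc' h => ?_⟩⟩⟩
  · have hu : PU fun u : List Unit => u.length := PU.len PT.id
    refine (PT.map (f := fun (u : List Unit) j => Ch.wj (min j u.length)) (Ch.pt_wj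
      ((hu.comp PT.fst').of_le (pt_min PT.snd' (hu.pt.comp PT.fst')) fun _ => min_le_right _ _))
      hu.range).congr fun u => List.map_congr_left fun j hj => ?_
    rw [min_eq_left (List.mem_range.1 hj).le]
  · obtain ⟨j, hj, rfl⟩ := List.mem_map.1 hw
    exact Ch.len_wj (List.mem_range.1 hj)
  · obtain ⟨j, -, rfl⟩ := List.mem_map.1 hw
    exact Ch.wd_sq (Ch.ok_tb _) _
  · have e : ∀ c : ℕ, (js.map fun j =>
        if c.testBit j then ev l (((List.range k).map Ch.wj).getD j []) else 1) =
        js.map fun j => if c.testBit j then ev l (Ch.wj j) else 1 := fun c =>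
      List.map_congr_left fun j hj => by
        rw [List.getD_eq_getElem _ _ (by simpa using hjs.mem_iff.1 hj), List.getElem_map,
          List.getElem_range]
    rw [e, e] at h
    have h1 := congrArg (Ch.co l) h
    rw [Ch.coe_prod, Ch.coe_prod] at h1
    refine Nat.eq_of_testBit_eq fun j => ?_
    rcases lt_or_ge j k with hj | hj
    · exact Ch.inj hl hjs h1 _ j hj rfl
    · rw [Nat.testBit_lt_two_pow (hc.trans_le (Nat.pow_le_pow_right (by norm_num) hj)),
        Nat.testBit_lt_two_pow (hc'.trans_le (Nat.pow_le_pow_right (by norm_num) hj))]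


end SL

end Vale.Agent.P330O
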