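import Vale.Agent.P330Q.OInstB
import Vale.Agent.P330.Compile

/-! Reduction of the fan-in to two (task OCompile): port of `P330/Compile.lean`.
New instance: `toInst := Cmp.cmpI G.toInst`, `o := G.o`, `xo t := ![64, l]` where `l` is
`G.xo (t / 2 ^ om W) i` if the source of the instruction `Cmp.ins G.toInst t` is `.inr i` and `64` otherwise,
`lb ξ := (Cmp.cmpI (G.fib ξ)).lab`. `Cmp.Step`, `Cmp.prog_sound` are generic in the address type (use
`G.A`, `G.nb t`, `fun a => G.lb a.1 t a.2`); `QI.expect_nb` replaces `expect_act`. Polynomial time: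
`pt_qi`, `Cmp.pt_cmpI`, `Cmp.pt_ins`, the labels by `pt_lab (Cmp.pt_cmpI.comp (pt_fib ..))`; `pt_mkAsgQ`, `pt_valQ`. -/

namespace Vale.Agent.P330O

open Vale.Agent.Lib.H23 Vale.Agent.P333 Vale.Agent.P325 Vale.Agent.P330 Vale.Agent.P330.Amp
open Finset Matrix
open scoped BigOperators

namespace OC

open Cmp

variable {W g : ℕ}

def xoI (I : Ins W) (o : Fin W → ℕ) : ℕ :=
  match I.s with
  | .inl _ => 64
  | .inr i => o i

noncomputable def cq (G : QI W) : QI 2 where
  toInst := cmpI G.toInst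
  o := G.o
  xo t := ![64, xoI (ins G.toInst t) (G.xo (t / 2 ^ om W))]
  lb ξ := (cmpI (G.fib ξ)).lab

variable (G : QI W) (x : ℕ → (cq G).A → Val)

/-- the new address above an old one. -/
noncomputable def uq (a : G.A) (e : Vec (W + 1)) : (cq G).A := (a.1, up a.2 e)

theorem nb_zero (t : ℕ) (a : (cq G).A) : (cq G).nb t 0 a = a :=
  Prod.ext (Outer.mv_of_ge le_rfl _) (act_zero _ _)

theorem step_of_sat (t : ℕ) (Gd : G.A → Prop) (h : ∀ a, Gd a → ∀ e, (cq G).sat x t (uq G a e)) :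
    Step (G.nb (t / 2 ^ om W)) (fun a => G.lb a.1 (t / 2 ^ om W) a.2) Gd (ins G.toInst t)
      (fun a r => x ((cq G).prev t) (uq G a (rc r))) fun a r => x t (uq G a (rc r)) := by
  intro a ha
  have hl : ∀ e, (cq G).lb (uq G a e).1 t (uq G a e).2 =
      labI (ins G.toInst t) e (G.lb a.1 (t / 2 ^ om W) a.2) := fun e => by
    change labI (ins G.toInst t) (ex (up a.2 e)) (G.lb a.1 (t / 2 ^ om W) (dn (up a.2 e))) = _
    rw [ex_up, dn_up]
  refine ⟨fun r γ hr e => h a ha _ γ fun ρ hρ => ?_, fun β hg => h a ha _ β fun ρ hρ => ?_⟩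
  · rw [hl, labI, if_neg fun e' => hr (rc.injective e')]
    exact hρ 0 γ ((congrArg (fun b => rd false (x _ b)) (nb_zero G t _)).trans e)
  · rw [hl, labI, if_pos rfl]
    refine hg _ _ (fun γ e => hρ 0 γ ((congrArg (fun b => rd false (x _ b)) (nb_zero G t _)).trans e))
      fun γ e => hρ 1 γ ?_
    rw [← e]
    change rd true (x _ (G.o.mv (xoI (ins G.toInst t) (G.xo (t / 2 ^ om W))) a.1,
      act G.gens (opI (ins G.toInst t) (G.nop (t / 2 ^ om W))) (up a.2 _))) = _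
    unfold opI src xoI
    cases (ins G.toInst t).s with
    | inl q =>
      refine congrArg (fun b => rd true (x _ b)) (Prod.ext (Outer.mv_of_ge le_rfl _) ?_)
      refine (act_toN G.gens _ a.2 _).trans ?_
      rw [← add_assoc, vec_add_self, zero_add]
      rfl
    | inr i =>
      refine congrArg (fun b => rd true (x _ b)) (Prod.ext rfl ?_)
      refine (act_lift G.gens _ a.2 _).trans ?_
      rw [Inst.nop, act_nrm]
      rfl

/-- the decoded assignment. -/
noncomputable def dec (t : ℕ) (a : G.A) : Val :=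
  x (t * 2 ^ om W + (2 ^ om W - 1)) (uq G a (rc acc))

/-- all new nodes that belong to the old node `(t, a)` are satisfied. -/
def Gd (t : ℕ) (a : G.A) : Prop :=
  ∀ (j : Fin (2 ^ om W)) e, (cq G).sat x (t * 2 ^ om W + j) (uq G a e)

theorem sat_dec {t : ℕ} (ht : t < 2 ^ G.τ) {a : G.A} (ha : Gd G x t a)
    (hi : ∀ i, Gd G x t (G.nb t i a)) : G.sat (dec G x) t a := by
  have hL := Nat.two_pow_pos (om W)
  have hp : ∀ {j}, j < 2 ^ om W → (cq G).prev (t * 2 ^ om W + j + 1) = t * 2 ^ om W + j :=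
    fun hj => prev_add _ (time_lt G.toInst ht hj)
  have hm : (cq G).prev (t * 2 ^ om W) = G.prev t * 2 ^ om W + (2 ^ om W - 1) :=
    prev_mul G.toInst ht
  have h := Ch.of_seq (R := Step (G.nb t) (fun a => G.lb a.1 t a.2) (Gd G x t))
    (prg (G.win t)) skip (fun j a r => x ((cq G).prev (t * 2 ^ om W + j)) (uq G a (rc r)))
    fun j hj => by
      rw [length_prg] at hj
      have h1 : (t * 2 ^ om W + j) / 2 ^ om W = t := by
        rw [add_comm, Nat.add_mul_div_right _ _ hL, Nat.div_eq_of_lt hj, zero_add]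
      have := step_of_sat G x (t * 2 ^ om W + j) (Gd G x t) fun a ha e => ha ⟨j, hj⟩ e
      rw [ins, h1, Nat.mul_add_mod_of_lt hj] at this
      rw [← add_assoc, hp hj]
      exact this
  rw [length_prg, add_zero, hm, show t * 2 ^ om W + 2 ^ om W =
    t * 2 ^ om W + (2 ^ om W - 1) + 1 by omega, hp (by omega)] at h
  exact prog_sound h ha hi

theorem expect_uq (f : (cq G).A → ℝ) : (𝔼 a, f a) = 𝔼 a : G.A, 𝔼 e, f (uq G a e) :=
  ((cq G).expect_pair f).trans ((expect_congr rfl fun ξ _ => expect_up fun a => f (ξ, a)).trans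
    (G.expect_pair fun a => 𝔼 e, f (uq G a e)).symm)

theorem viol_cq : (cq G).viol x = 𝔼 t : Fin (2 ^ G.τ), 𝔼 a : G.A, 𝔼 j : Fin (2 ^ om W), 𝔼 e,
    ind (¬ (cq G).sat x (t * 2 ^ om W + j) (uq G a e)) := by
  refine (expect_time G.τ (om W) fun t => 𝔼 a, ind (¬ (cq G).sat x t a)).trans
    (expect_congr rfl fun t _ => ?_)
  refine Eq.trans (expect_congr rfl fun j _ => ?_) (expect_comm _ _ _)
  exact expect_uq G fun a => ind (¬ (cq G).sat x (t * 2 ^ om W + j) a)

theorem viol_dec (hG : G.o.Good g) :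
    G.viol (dec G x) ≤ ((W + 1) * (2 ^ om W * 2 ^ (W + 1)) : ℕ) * (cq G).viol x := by
  set B : ℕ → G.A → ℝ := fun t a => (2 ^ om W * 2 ^ (W + 1) : ℕ) *
    𝔼 j : Fin (2 ^ om W), 𝔼 e, ind (¬ (cq G).sat x (t * 2 ^ om W + j) (uq G a e)) with hB
  have h0 : ∀ t a, 0 ≤ B t a := fun t a => mul_nonneg (Nat.cast_nonneg _)
    (expect_nonneg fun _ _ => expect_nonneg fun _ _ => ind_nonneg _)
  have h1 : ∀ t a, ¬ Gd G x t a → 1 ≤ B t a := fun t a h => by
    simp only [Gd, not_forall] at h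
    obtain ⟨j, e, h⟩ := h
    have e1 := le_card_mul (f := fun e => ind (¬ (cq G).sat x (t * 2 ^ om W + j) (uq G a e)))
      (fun _ => ind_nonneg _) e
    have e2 := le_card_mul (f := fun j : Fin (2 ^ om W) =>
      𝔼 e, ind (¬ (cq G).sat x (t * 2 ^ om W + j) (uq G a e)))
      (fun _ => expect_nonneg fun _ _ => ind_nonneg _) j
    rw [ind_of h] at e1
    simp only [Fintype.card_fun, ZMod.card, Fintype.card_fin] at e1 e2
    refine e1.trans ((mul_le_mul_of_nonneg_left e2 (Nat.cast_nonneg _)).trans_eq ?_)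
    rw [hB, Nat.cast_mul]
    ring
  have h2 : ∀ (t : Fin (2 ^ G.τ)) a, ind (¬ G.sat (dec G x) t a) ≤
      B t a + ∑ i, B t (G.nb t i a) := fun t a => by
    have hs : 0 ≤ ∑ i, B t (G.nb t i a) := sum_nonneg fun _ _ => h0 _ _
    by_cases ha : Gd G x t a
    · by_cases hi : ∀ i, Gd G x t (G.nb t i a)
      · rw [ind_of_not (not_not.2 (sat_dec G x t.2 ha hi))]
        exact add_nonneg (h0 _ _) hs
      · obtain ⟨i, hi⟩ := not_forall.1 hi
        exact (ind_le_one _).trans ((h1 _ _ hi).trans ((single_le_sum (f := fun i =>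
          B t (G.nb t i a)) (fun _ _ => h0 _ _) (mem_univ i)).trans
          (le_add_of_nonneg_left (h0 _ _))))
    · exact (ind_le_one _).trans ((h1 _ _ ha).trans (le_add_of_nonneg_right hs))
  refine (expect_le_expect fun t _ => expect_le_expect fun a _ => h2 t a).trans_eq ?_
  rw [viol_cq, mul_expect]
  refine expect_congr rfl fun t _ => ?_
  rw [expect_add_distrib, expect_sum_comm]
  simp only [QI.expect_nb hG _ _ (B t), sum_const, card_univ, Fintype.card_fin, nsmul_eq_mul]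
  rw [hB, ← mul_expect, Nat.cast_mul (W + 1), Nat.cast_add_one]
  ring

theorem pt_cq : PT (cq : QI W → QI 2) := by
  have hG : PT fun G : QI W => G := PT.id
  refine pt_qi (pt_cmpI.comp (pt_toInst hG) :) (pt_o hG :)
    (Fin.forall_fin_two.2 ⟨PT.const _, ?_⟩) ?_
  · have h1 := (pt_val (PT.id (α := {p : QI W × ℕ // p.2 < 2 ^ (cq p.1).τ})))
    refine pt_ins (pt_toInst h1.fst) h1.snd (fun x => x.2)
      (g := fun I x => min (xoI I (x.1.1.xo (x.1.2 / 2 ^ om W))) 64) fun I => ?_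
    unfold xoI
    cases I.s with
    | inl q => exact PT.const _
    | inr i => exact pt_xo h1.fst (h1.snd.div (PT.const _)) (fun x => div_lt x.2) i
  · have h1 := (pt_val (PT.id (α := {p : QI W × ℕ × ℕ × ℕ //
      p.2.1 < 2 ^ (cq p.1).τ ∧ p.2.2.2 < (cq p.1).n0})))
    exact pt_lab (pt_cmpI.comp (pt_fib h1.fst (pt_vx (pt_o h1.fst) h1.snd.snd.fst))) h1.snd.fst
      h1.snd.snd.snd (fun x => x.2.1) fun x => x.2.2

theorem pt_dec : PT fun p : QI W × Asg => p.1.mkAsg (dec p.1 ((cq p.1).val p.2)) := by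
  refine pt_mkAsgQ PT.fst' (f := fun p : QI W × Asg => dec p.1 ((cq p.1).val p.2)) ?_
  have h1 := (pt_val (PT.id (α := {p : (QI W × Asg) × ℕ × ℕ × ℕ //
    p.2.1 < 2 ^ p.1.1.τ ∧ p.2.2.2 < p.1.1.n0})))
  refine pt_valQ (pt_cq.comp h1.fst.fst) h1.fst.snd
    ((h1.snd.fst.mul (PT.const (2 ^ om W))).add (PT.const (2 ^ om W - 1)))
    (a := fun x => uq x.1.1.1 (x.1.1.1.o.vx x.1.2.2.1, unidx _ _ _ x.1.2.2.2) (rc acc))
    (pt_vx (pt_o h1.fst.fst) h1.snd.snd.fst)
    (((h1.snd.snd.snd.mul (PT.const (2 ^ (W + 1)))).add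
      (PT.const (toN (rc (W := W) acc)))).congr fun x => ?_)
  have h2 := toN_lt (rc (W := W) acc)
  have h3 : x.1.2.2.2 * 2 ^ (W + 1) + toN (rc (W := W) acc) < (cmpI x.1.1.1.toInst).nA := by
    have h3 : _ < x.1.1.1.toInst.nA := x.2.2
    rw [nA_cmpI]
    nlinarith
  exact (congrArg idx (up_unidx _ _)).trans (idx_unidx h3)

end OC

open Cmp OC in
theorem compile (g : ℕ) : CompileQ g := by
  intro W
  have h1 : 0 < 2 ^ om W := Nat.two_pow_pos _
  have h2 : 0 < 2 ^ (W + 1) := Nat.two_pow_pos _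
  have hv := pt_val (PT.id (α := {G : QI W // G.Good g}))
  refine ⟨(W + 1) * (2 ^ om W * 2 ^ (W + 1)), fun G => cq G.1,
    fun G => ⟨rfl, ⟨G.2.inn, G.2.out, G.2.tau.trans (Nat.le_add_right _ _)⟩, rfl, rfl, rfl, ?_, ?_⟩,
    pt_cq.comp hv, fun p => p.1.1.mkAsg (OC.dec p.1.1 ((cq p.1.1).val p.2)),
    OC.pt_dec.comp ((hv.comp PT.fst').pair PT.snd'), fun G s => ?_⟩
  · change W + 1 + G.1.σ ≤ _
    have := Nat.le_mul_of_pos_right (W + 1) (Nat.mul_pos h1 h2)
    omega
  · change 2 ^ (G.1.τ + om W) ≤ _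
    rw [pow_add, mul_comm]
    exact Nat.mul_le_mul_right _ ((Nat.le_mul_of_pos_right _ h2).trans
      (Nat.le_mul_of_pos_left _ W.succ_pos))
  · exact (G.1.violA_mkAsg _).trans_le (OC.viol_dec G.1 _ G.2.out)

end Vale.Agent.P330O
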