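import Vale.Agent.P330Q.OEmbDefs
import Vale.Agent.P330.SimPath

/-! Soundness of the embedding (task OEmb); compare `P330/SimPath.lean`.
Plan. Fix the old node `(t, a)`, `c = idx a < 2 ^ k`, a track `j`, `v = tr G t j` (`act (op t j) a` has the number
`c ^^^ v`, `v < 2 ^ k`, as `b = 0`: `act_nrm`, the normal forms are `Tr v`). Let `c i = c ^^^ (v / 2 ^ i * 2 ^ i)`, so `c 0 = c ^^^ v`,
`c k = c`, `c (i + 1)` and `c i` differ only in bit `i`, by bit `i` of `v`. Step identity: `pos i (c i) = L ^ e (R ^ (e + v i) (pos (i + 1)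
(c (i + 1))))` with `e =` bit `i` of `c i`, `L = wd (side 0 w)`, `R = wd (side 1 w)`, `w = ws.getD i []` (`List.range'`,
`List.range_succ`, `Chart.inv`, `Good.wd_comm`, `mem_side`; `selW` only sees the listed bits). A defined reading
`γ` of the old input travels as `pv γ` along the path: sublayer `0` at `(pos 0 (c 0), j, e = 0)`; after the layer `(0, i, 0)` at
`(pos i (c i), j, e)` with `e =` bit `i` of `c i` (`e = 0` for `i = k`); along the words (a suffix of the conditional word applied to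
`pos (i + 1) (c (i + 1))`); `inv` inverts `pos` (`Chart.inj`); idle layers copy; the last layer at `(pos 0 c, 0, 0)` reads both
tracks (`Chart.cyc`). It is convenient to define the path BACKWARDS by a pull map: `pull s (ζ, a)` = the address that
the copy layer `s` reads. For fixed `t`, `j` and layer the path node determines `c` (given `e`, undo the moves), so the number
of violated old nodes at time `t` is at most `2 *` the number of violated new nodes in the layers of `t`
(`card_le_card_of_injOn`), and there are `4 * (m + 1) ≤ 4 * C * 2 ^ k` new nodes per layer. -/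

namespace Vale.Agent.P330O

open Vale.Agent.Lib.H23 Vale.Agent.P333 Vale.Agent.P325 Vale.Agent.P330 Vale.Agent.P330.Amp
open Finset Matrix
open scoped BigOperators

namespace Emb

namespace Sd

/-- the small address with the track `j` and the extra bit `e`. -/
def ad (j e : Bool) : Addr 0 0 2 := unidx 0 0 2 ((if j then 1 else 0) + (if e then 2 else 0))

theorem ad_j (j e : Bool) : (idx (ad j e)).testBit 0 = j := by
  rw [ad, idx_unidx (by cases j <;> cases e <;> norm_num)]
  cases j <;> cases e <;> rfl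

theorem ad_e (j e : Bool) : (idx (ad j e)).testBit 1 = e := by
  rw [ad, idx_unidx (by cases j <;> cases e <;> norm_num)]
  cases j <;> cases e <;> rfl

theorem act_ad1 (g : Fin 7 → Mat 0) (j e : Bool) : act g (.Tr 1) (ad j e) = ad (!j) e := by
  refine Prod.ext (Subsingleton.elim _ _) ?_
  change ofN 2 _ + ofN 2 1 = ofN 2 _
  rw [← ofN_xor]
  cases j <;> cases e <;> rfl

theorem act_ad2 (g : Fin 7 → Mat 0) (j e : Bool) : act g (.Tr 2) (ad j e) = ad j (!e) := by
  refine Prod.ext (Subsingleton.elim _ _) ?_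
  change ofN 2 _ + ofN 2 2 = ofN 2 _
  rw [← ofN_xor]
  cases j <;> cases e <;> rfl

theorem ad_inj {j e e' : Bool} (h : ad j e = ad j e') : e = e' := by
  rw [← ad_e j e, h, ad_e]

/-! ### the old addresses -/

theorem idx_small {b β σ : ℕ} (hb : b = 0) (a : Addr b β σ) : idx a = toN a.2 := by
  subst hb
  have h := idx_lt a
  rw [zero_mul, add_zero] at h
  rw [← Nat.mod_eq_of_lt h, ← toN_unidx_small (b := 0) (β := β), unidx_idx]

theorem nrm_tr {b : ℕ} (hb : b = 0) (σ : ℕ) (o : Op) : ∃ v < 2 ^ σ, nrm b σ o = .Tr v := by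
  subst hb
  cases o with
  | E l l' ρ => exact ⟨0, Nat.two_pow_pos _, by simp [nrm]⟩
  | N l => exact ⟨0, Nat.two_pow_pos _, by simp [nrm]⟩
  | Tr v => exact ⟨v % 2 ^ σ, Nat.mod_lt _ (Nat.two_pow_pos _), rfl⟩

theorem tr_lt {G : Inst 2} (hb : G.b = 0) (t : ℕ) (j : Bool) : tr G t j < 2 ^ G.σ := by
  obtain ⟨v, hv, e⟩ := nrm_tr hb G.σ (G.op t (if j then 1 else 0))
  rw [tr, Inst.nop, e]
  exact hv

theorem idx_act {G : Inst 2} (hb : G.b = 0) (t : ℕ) (j : Bool) (a : G.A) :
    idx (act G.gens (G.op t (if j then 1 else 0)) a) = idx a ^^^ tr G t j := by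
  obtain ⟨v, hv, e⟩ := nrm_tr hb G.σ (G.op t (if j then 1 else 0))
  rw [← act_nrm, tr, Inst.nop, e, idx_small hb, idx_small hb]
  change toN (a.2 + ofN G.σ v) = toN a.2 ^^^ v
  rw [toN_add, toN_ofN, Nat.mod_eq_of_lt hv]

theorem idx_lt' {G : Inst 2} (hb : G.b = 0) (a : G.A) : idx a < 2 ^ G.σ := by
  rw [idx_small hb]
  exact toN_lt _

/-! ### the charts -/

theorem selW_cons (s : ℕ) (ws : List (List ℕ)) (c j : ℕ) (js : List ℕ) :
    selW s ws c (j :: js) = (if c.testBit j then side s (ws.getD j []) else []) ++ selW s ws c js :=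
  List.flatMap_cons

theorem selW_congr (s : ℕ) (ws : List (List ℕ)) {c c' : ℕ} {js : List ℕ}
    (h : ∀ j ∈ js, c.testBit j = c'.testBit j) : selW s ws c js = selW s ws c' js :=
  List.flatMap_congr fun j hj => by rw [h j hj]

theorem mem_selW {s : ℕ} (hs : s < 2) {ws : List (List ℕ)} {c l : ℕ} {js : List ℕ}
    (h : l ∈ selW s ws c js) : l % 2 = s := by
  obtain ⟨j, -, hj⟩ := List.mem_flatMap.1 h
  split_ifs at hj
  · exact mem_side hs hj
  · simp at hj

variable {g k C : ℕ} {G : Inst 2} {O : Outer} {ws : List (List ℕ)} {ξ0 : O.V}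

/-- a word that is applied or not. -/
def cw (O : Outer) (e : Bool) (w : List ℕ) (ζ : O.V) : O.V := if e then O.wd w ζ else ζ

theorem wd_ite (e : Bool) (w : List ℕ) (ζ : O.V) : O.wd (if e then w else []) ζ = cw O e w ζ := by
  cases e <;> rfl

theorem pos_step (hO : O.Good g) (hC : Chart k C O ws ξ0) {i c c' : ℕ} (hi : i < k)
    (h : ∀ m, m ≠ i → c.testBit m = c'.testBit m) :
    cw O (c.testBit i) (side 0 (ws.getD i []))
      (cw O (c'.testBit i) (side 1 (ws.getD i [])) (O.pos ws ξ0 (i + 1) c')) = O.pos ws ξ0 i c := by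
  have hw : ws.getD i [] ∈ ws := by
    rw [List.getD_eq_getElem _ _ (by rw [hC.len]; exact hi)]
    exact List.getElem_mem _
  have e1 : ws.length - i = (ws.length - (i + 1)) + 1 := by rw [hC.len]; omega
  have e2 : selW 0 ws c (List.range' (i + 1) (ws.length - (i + 1))) =
      selW 0 ws c' (List.range' (i + 1) (ws.length - (i + 1))) :=
    selW_congr _ _ fun j hj => h j (by have := (List.mem_range'_1.1 hj).1; omega)
  have e3 : selW 1 ws c (List.range i).reverse = selW 1 ws c' (List.range i).reverse :=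
    selW_congr _ _ fun j hj => h j (by
      have := List.mem_range.1 (List.mem_reverse.1 hj); omega)
  unfold Outer.pos
  rw [e1, List.range'_succ, selW_cons, Outer.wd_append, wd_ite, e2, e3, List.range_succ,
    List.reverse_append, List.reverse_singleton, List.singleton_append, selW_cons, Outer.wd_append,
    wd_ite]
  congr 1
  cases c'.testBit i
  · rfl
  · simp only [cw, if_true]
    rw [hO.wd_comm (fun l hl l' hl' => by
      rw [mem_side (by norm_num) hl, mem_selW (by norm_num) hl']; norm_num),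
      hC.inv _ hw 1 (by norm_num)]

theorem inv_pos (hC : Chart k C O ws ξ0) {i c : ℕ} (hi : i ≤ k) (hc : c < 2 ^ k) :
    inv O ws ξ0 i (O.pos ws ξ0 i c) = c := by
  unfold inv
  rw [hC.len]
  have h1 : c ∈ (List.range (2 ^ k)).filter
      fun x => decide (O.pos ws ξ0 i x = O.pos ws ξ0 i c) := by
    simp [List.mem_filter, hc]
  have h2 : ∀ x ∈ (List.range (2 ^ k)).filter
      fun x => decide (O.pos ws ξ0 i x = O.pos ws ξ0 i c), x = c := by
    intro x hx
    obtain ⟨h3, h4⟩ := List.mem_filter.1 hx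
    exact hC.inj i hi x (List.mem_range.1 h3) c hc (of_decide_eq_true h4)
  generalize (List.range (2 ^ k)).filter
      (fun x => decide (O.pos ws ξ0 i x = O.pos ws ξ0 i c)) = l at h1 h2
  cases l with
  | nil => simp at h1
  | cons x l => exact h2 x List.mem_cons_self

/-- the cube point in the chart number `i`. -/
def cc (c v i : ℕ) : ℕ := c ^^^ ((v >>> i) <<< i)

theorem bit_cc (c v i m : ℕ) :
    (cc c v i).testBit m = xor (c.testBit m) (decide (i ≤ m) && v.testBit m) := by
  rw [cc, Nat.testBit_xor, Nat.testBit_shiftLeft, Nat.testBit_shiftRight]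
  by_cases h : i ≤ m
  · rw [Nat.add_sub_cancel' h]
  · simp [h]

theorem cc_lt {c v : ℕ} (hc : c < 2 ^ k) (hv : v < 2 ^ k) (i : ℕ) : cc c v i < 2 ^ k := by
  refine Nat.lt_pow_two_of_testBit _ fun m hm => ?_
  have h := Nat.pow_le_pow_right (show 2 > 0 by norm_num) hm
  rw [bit_cc, Nat.testBit_lt_two_pow (lt_of_lt_of_le hc h),
    Nat.testBit_lt_two_pow (lt_of_lt_of_le hv h)]
  simp

theorem cc_zero (c v : ℕ) : cc c v 0 = c ^^^ v := by simp [cc]

theorem cc_top {c v : ℕ} (hv : v < 2 ^ k) : cc c v k = c := by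
  rw [cc, Nat.shiftRight_eq_div_pow, Nat.div_eq_of_lt hv]
  simp

/-! ### the path -/

/-- the node whose value is copied by the layer `y`. -/
def pull (G : Inst 2) (O : Outer) (ws : List (List ℕ)) (ξ0 : O.V) (t : ℕ) (j : Bool)
    (y : ℕ × ℕ × ℕ) (p : O.V × Bool) : O.V × Bool :=
  if act1 G O ws ξ0 t y p.1 j p.2 then
    (if y.1 = 0 then (p.1, !p.2) else (O.mv y.2.2 p.1, p.2)) else p

theorem pull_zero (t : ℕ) (j : Bool) (i : ℕ) (ζ : O.V) (e : Bool) :
    pull G O ws ξ0 t j (0, i, 0) (ζ, e) =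
      (ζ, decide (i ≠ 0) && (inv O ws ξ0 i ζ ^^^ tr G t j).testBit (i - 1)) := by
  simp only [pull, act1, if_true]
  generalize (decide (i ≠ 0) && (inv O ws ξ0 i ζ ^^^ tr G t j).testBit (i - 1)) = x
  cases e <;> cases x <;> rfl

theorem fold_one (t : ℕ) (j : Bool) (i : ℕ) (w : List ℕ) (ζ : O.V) (e : Bool) :
    (w.map fun l => ((1, i, l) : ℕ × ℕ × ℕ)).foldr (pull G O ws ξ0 t j) (ζ, e) =
      (cw O e w ζ, e) := by
  induction w with
  | nil => cases e <;> rfl
  | cons l w ih =>
    rw [List.map_cons, List.foldr_cons, ih]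
    cases e <;> simp [pull, act1, cw, Outer.wd_cons]

theorem fold_two (t : ℕ) (j : Bool) (i : ℕ) (w : List ℕ) (ζ : O.V) (e : Bool) :
    (w.map fun l => ((2, i, l) : ℕ × ℕ × ℕ)).foldr (pull G O ws ξ0 t j) (ζ, e) =
      (cw O (xor e ((tr G t j).testBit i)) w ζ, e) := by
  induction w with
  | nil => cases xor e ((tr G t j).testBit i) <;> rfl
  | cons l w ih =>
    rw [List.map_cons, List.foldr_cons, ih]
    have : act1 G O ws ξ0 t (2, i, l) (cw O (xor e ((tr G t j).testBit i)) w ζ) j e =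
        xor e ((tr G t j).testBit i) := by simp [act1]
    simp only [pull, this]
    cases xor e ((tr G t j).testBit i) <;> simp [cw, Outer.wd_cons]

theorem fold_tail (hO : O.Good g) (hC : Chart k C O ws ξ0) (t : ℕ) (j : Bool)
    (hv : tr G t j < 2 ^ k) {c : ℕ} (hc : c < 2 ^ k) (e : Bool) (n : ℕ) : ∀ i, i + n = k →
    (((List.range' i n).flatMap fun i => ((0, i, 0) : ℕ × ℕ × ℕ) ::
      ((side 0 (ws.getD i [])).map (fun l => (1, i, l)) ++
        (side 1 (ws.getD i [])).map fun l => (2, i, l))) ++ [(0, k, 0)]).foldr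
        (pull G O ws ξ0 t j) (O.pos ws ξ0 k c, e) =
      (O.pos ws ξ0 i (cc c (tr G t j) i),
        decide (i ≠ 0) && (cc c (tr G t j) i ^^^ tr G t j).testBit (i - 1)) := by
  induction n with
  | zero =>
    intro i hi
    rw [add_zero] at hi
    subst hi
    rw [List.range'_zero, List.flatMap_nil, List.nil_append, List.foldr_cons, List.foldr_nil,
      pull_zero, inv_pos hC le_rfl hc, cc_top hv]
  | succ n ih =>
    intro i hi
    have h1 : (decide (i + 1 ≠ 0) &&
        (cc c (tr G t j) (i + 1) ^^^ tr G t j).testBit (i + 1 - 1)) =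
        (cc c (tr G t j) i).testBit i := by
      rw [Nat.add_sub_cancel, Nat.testBit_xor, bit_cc, bit_cc]
      simp
    have h2 : xor ((cc c (tr G t j) i).testBit i) ((tr G t j).testBit i) =
        (cc c (tr G t j) (i + 1)).testBit i := by
      rw [bit_cc, bit_cc]
      simp
    rw [List.range'_succ, List.flatMap_cons, List.append_assoc, List.foldr_append,
      ih (i + 1) (by omega), h1, List.foldr_cons, List.foldr_append, fold_two, fold_one, h2,
      pos_step hO hC (by omega) fun m hm => ?_, pull_zero,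
      inv_pos hC (by omega) (cc_lt hc hv i)]
    rw [bit_cc, bit_cc]
    congr 2
    exact decide_eq_decide.2 (by omega)

/-- the node of sublayer `s` on the path of the track `j`. -/
def path (G : Inst 2) (O : Outer) (ws : List (List ℕ)) (ξ0 : O.V) (t : ℕ) (j : Bool) (c s : ℕ) :
    O.V × Bool :=
  ((eprog ws).drop s).foldr (pull G O ws ξ0 t j) (O.pos ws ξ0 0 c, false)

theorem path_zero (hO : O.Good g) (hC : Chart k C O ws ξ0) (t : ℕ) (j : Bool)
    (hv : tr G t j < 2 ^ k) {c : ℕ} (hc : c < 2 ^ k) :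
    path G O ws ξ0 t j c 0 = (O.pos ws ξ0 0 (c ^^^ tr G t j), false) := by
  rw [path, List.drop_zero, eprog, hC.len, List.range_eq_range', ← hC.cyc,
    fold_tail hO hC t j hv hc false k 0 (zero_add _), cc_zero]
  simp

theorem path_succ (t : ℕ) (j : Bool) (c s : ℕ) :
    pull G O ws ξ0 t j ((eprog ws).getD s (1, 0, 64)) (path G O ws ξ0 t j c (s + 1)) =
      path G O ws ξ0 t j c s := by
  unfold path
  by_cases h : s < (eprog ws).length
  · rw [List.getD_eq_getElem _ _ h, List.drop_eq_getElem_cons h, List.foldr_cons]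
  · rw [List.getD_eq_default _ _ (by omega), List.drop_of_length_le (by omega),
      List.drop_of_length_le (by omega)]
    simp [pull, act1]

theorem path_end (t : ℕ) (j : Bool) (c : ℕ) {s : ℕ} (h : (eprog ws).length ≤ s) :
    path G O ws ξ0 t j c s = (O.pos ws ξ0 0 c, false) := by
  rw [path, List.drop_of_length_le h, List.foldr_nil]

theorem path_inj (hO : O.Good g) (hC : Chart k C O ws ξ0) (t : ℕ) (j : Bool)
    (hv : tr G t j < 2 ^ k) {c c' : ℕ} (hc : c < 2 ^ k) (hc' : c' < 2 ^ k) (s : ℕ)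
    (h : path G O ws ξ0 t j c s = path G O ws ξ0 t j c' s) : c = c' := by
  induction s with
  | zero =>
    rw [path_zero hO hC t j hv hc, path_zero hO hC t j hv hc'] at h
    have h1 := hC.inj 0 (Nat.zero_le _) _ (Nat.xor_lt_two_pow hc hv) _ (Nat.xor_lt_two_pow hc' hv)
      (congrArg Prod.fst h)
    exact Nat.xor_left_inj.1 h1
  | succ s ih => exact ih (by rw [← path_succ, h, path_succ])

/-- the new address on the path. -/
def node (G : Inst 2) (O : Outer) (ws : List (List ℕ)) (ξ0 : O.V) (t : ℕ) (j : Bool) (c s : ℕ) :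
    (embI G O ws ξ0).A :=
  ((path G O ws ξ0 t j c s).1, ad j (path G O ws ξ0 t j c s).2)

/-! ### times -/

theorem len_lt (ws : List (List ℕ)) : (eprog ws).length + 2 < 2 ^ lam ws := Nat.lt_size_self _

theorem tdiv {L : ℕ} (t : ℕ) {i : ℕ} (hi : i < L) : (t * L + i) / L = t := by
  rw [add_comm, Nat.add_mul_div_right _ _ (by omega), Nat.div_eq_of_lt hi, zero_add]

theorem tmod {L : ℕ} (t : ℕ) {i : ℕ} (hi : i < L) : (t * L + i) % L = i := by
  rw [add_comm, Nat.add_mul_mod_self_right, Nat.mod_eq_of_lt hi]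

theorem tlt {t i : ℕ} (ht : t < 2 ^ G.τ) (hi : i < 2 ^ lam ws) :
    t * 2 ^ lam ws + i < 2 ^ (embI G O ws ξ0).τ := by
  change _ < 2 ^ (G.τ + lam ws)
  rw [pow_add]
  nlinarith [Nat.mul_le_mul_right (2 ^ lam ws) (Nat.succ_le_of_lt ht)]

theorem pmid {t i : ℕ} (ht : t < 2 ^ G.τ) (hi : i + 1 < 2 ^ lam ws) :
    (embI G O ws ξ0).prev (t * 2 ^ lam ws + (i + 1)) = t * 2 ^ lam ws + i :=
  (embI G O ws ξ0).prev_succ (tlt ht hi)

theorem pfirst {t : ℕ} (ht : t < 2 ^ G.τ) :
    (embI G O ws ξ0).prev (t * 2 ^ lam ws + 0) = G.prev t * 2 ^ lam ws + (2 ^ lam ws - 1) := by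
  have hL : 0 < 2 ^ lam ws := by positivity
  cases t with
  | zero =>
    have hT : 0 < 2 ^ G.τ := by positivity
    rw [zero_mul, add_zero, Inst.prev_zero, Inst.prev_zero]
    change 2 ^ (G.τ + lam ws) - 1 = _
    rw [pow_add, Nat.sub_mul, one_mul]
    have := Nat.le_mul_of_pos_left (2 ^ lam ws) hT
    omega
  | succ s =>
    have e : (s + 1) * 2 ^ lam ws + 0 = s * 2 ^ lam ws + (2 ^ lam ws - 1) + 1 := by
      rw [Nat.succ_mul]; omega
    rw [G.prev_succ ht, e, Inst.prev_succ]
    rw [← e]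
    exact tlt ht hL

/-! ### the layers -/

theorem nb_zero (T : ℕ) (a : (embI G O ws ξ0).A) : (embI G O ws ξ0).nb T 0 a = a := by
  refine Prod.ext ?_ ?_
  · simp only [QI.nb, embI, true_or, if_true]
    exact O.mv_of_ge le_rfl _
  · simp only [QI.nb, embI, if_true]
    exact act_zero _ _

theorem nb_end {T : ℕ} (h : T % 2 ^ lam ws = 0 ∨ T % 2 ^ lam ws + 1 = 2 ^ lam ws) (ζ : O.V)
    (j e : Bool) : (embI G O ws ξ0).nb T 1 (ζ, ad j e) = (ζ, ad (!j) e) := by
  refine Prod.ext ?_ ?_
  · simp only [QI.nb, embI]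
    rw [if_pos (by tauto)]
    exact O.mv_of_ge le_rfl _
  · simp only [QI.nb, embI]
    rw [if_neg (by decide), if_pos h]
    exact act_ad1 _ _ _

theorem nb_mid {T : ℕ} (h0 : T % 2 ^ lam ws ≠ 0) (h1 : T % 2 ^ lam ws + 1 ≠ 2 ^ lam ws) (ζ : O.V)
    (j e : Bool) : (embI G O ws ξ0).nb T 1 (ζ, ad j e) =
      if (lay ws T).1 = 0 then (ζ, ad j (!e)) else (O.mv (lay ws T).2.2 ζ, ad j e) := by
  split_ifs with h
  · refine Prod.ext ?_ ?_
    · simp only [QI.nb, embI]
      rw [if_pos (by tauto)]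
      exact O.mv_of_ge le_rfl _
    · simp only [QI.nb, embI]
      rw [if_neg (by decide), if_neg (by tauto), if_pos h]
      exact act_ad2 _ _ _
  · refine Prod.ext ?_ ?_
    · simp only [QI.nb, embI]
      rw [if_neg (by simp [h, h0, h1])]
    · simp only [QI.nb, embI]
      rw [if_neg (by decide), if_neg (by tauto), if_neg h]
      exact act_zero _ _

/-- a pure reading of an old input is carried along the path. -/
theorem carry (hb : G.b = 0) (hO : O.Good g) (hC : Chart G.σ C O ws ξ0)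
    {y : ℕ → (embI G O ws ξ0).A → Val} {t : ℕ} (ht : t < 2 ^ G.τ) {a : G.A} {j : Bool}
    (hs : ∀ s < 2 ^ lam ws,
      (embI G O ws ξ0).sat y (t * 2 ^ lam ws + s) (node G O ws ξ0 t j (idx a) s))
    {γ : Bool} (hγ : rd (G.win t (if j then 1 else 0))
      (dec G O ws ξ0 y (G.prev t) (act G.gens (G.op t (if j then 1 else 0)) a)) = some γ)
    {s : ℕ} (hi : s + 1 < 2 ^ lam ws) :
    y (t * 2 ^ lam ws + s) (node G O ws ξ0 t j (idx a) s) = pv γ := by
  induction s with
  | zero =>
    have h := hs 0 (by omega)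
    have hm : (t * 2 ^ lam ws + 0) % 2 ^ lam ws = 0 := tmod t (by omega)
    have hlab : (embI G O ws ξ0).lb (node G O ws ξ0 t j (idx a) 0).1 (t * 2 ^ lam ws + 0)
        (node G O ws ξ0 t j (idx a) 0).2 = fun r => r (if j then 1 else 0) := by
      funext r
      simp only [embI, node]
      rw [if_neg (by omega), if_pos hm, ad_j]
    unfold QI.sat at h
    rw [hlab] at h
    refine h.copy ?_
    have hw : (embI G O ws ξ0).win (t * 2 ^ lam ws + 0) (if j then 1 else 0) =
        G.win t (if j then 1 else 0) := by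
      simp only [embI]
      rw [if_pos hm, tdiv t (by omega)]
    have hn : (embI G O ws ξ0).nb (t * 2 ^ lam ws + 0) (if j then 1 else 0)
        (node G O ws ξ0 t j (idx a) 0) =
        (O.pos ws ξ0 0 (idx a ^^^ tr G t j), unidx 0 0 2 0) := by
      rw [node, path_zero hO hC t j (tr_lt hb t j) (idx_lt' hb a)]
      cases j
      · exact nb_zero _ _
      · exact nb_end (Or.inl hm) _ _ _
    rw [pfirst ht, hw, hn, ← hγ, dec, idx_act hb]
    rfl
  | succ s ih =>
    have h := hs (s + 1) (by omega)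
    have hm : (t * 2 ^ lam ws + (s + 1)) % 2 ^ lam ws = s + 1 := tmod t (by omega)
    have hy : lay ws (t * 2 ^ lam ws + (s + 1)) = (eprog ws).getD s (1, 0, 64) := by
      rw [lay, hm, Nat.add_sub_cancel]
    have hlab : (embI G O ws ξ0).lb (node G O ws ξ0 t j (idx a) (s + 1)).1
        (t * 2 ^ lam ws + (s + 1)) (node G O ws ξ0 t j (idx a) (s + 1)).2 =
        fun r => r (if act1 G O ws ξ0 t ((eprog ws).getD s (1, 0, 64))
          (path G O ws ξ0 t j (idx a) (s + 1)).1 j (path G O ws ξ0 t j (idx a) (s + 1)).2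
          then 1 else 0) := by
      funext r
      simp only [embI, node]
      rw [if_neg (by omega), if_neg (by omega), ad_j, ad_e, hy, tdiv t (by omega)]
    unfold QI.sat at h
    rw [hlab] at h
    refine h.copy ?_
    have hn : (embI G O ws ξ0).nb (t * 2 ^ lam ws + (s + 1))
        (if act1 G O ws ξ0 t ((eprog ws).getD s (1, 0, 64))
          (path G O ws ξ0 t j (idx a) (s + 1)).1 j (path G O ws ξ0 t j (idx a) (s + 1)).2
          then 1 else 0) (node G O ws ξ0 t j (idx a) (s + 1)) = node G O ws ξ0 t j (idx a) s := by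
      rw [node, node, ← path_succ t j (idx a) s, pull]
      split_ifs with h1 h2
      · rw [nb_mid (by omega) (by omega), hy, if_pos h2]
        rfl
      · rw [nb_mid (by omega) (by omega), hy, if_neg h2]
        rfl
      · exact nb_zero _ _
    rw [pmid ht (by omega), hn, ih (by omega), rd_pv]

theorem sat_dec (hb : G.b = 0) (hO : O.Good g) (hC : Chart G.σ C O ws ξ0)
    {y : ℕ → (embI G O ws ξ0).A → Val} {t : ℕ} (ht : t < 2 ^ G.τ) {a : G.A}
    (hs : ∀ j, ∀ s < 2 ^ lam ws,
      (embI G O ws ξ0).sat y (t * 2 ^ lam ws + s) (node G O ws ξ0 t j (idx a) s)) :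
    G.sat (dec G O ws ξ0 y) t a := by
  have hl := len_lt ws
  obtain ⟨m, hm⟩ : ∃ m, 2 ^ lam ws = m + 2 := ⟨2 ^ lam ws - 2, by omega⟩
  have hp : ∀ j s, m ≤ s →
      node G O ws ξ0 t j (idx a) s = (O.pos ws ξ0 0 (idx a), ad j false) := by
    intro j s hs
    rw [node, path_end t j _ (by omega)]
    rfl
  have h := hs false (m + 1) (by omega)
  have hmod : (t * 2 ^ lam ws + (m + 1)) % 2 ^ lam ws = m + 1 := tmod t (by omega)
  rw [hp false _ (by omega)] at h
  have hlab : (embI G O ws ξ0).lb (O.pos ws ξ0 0 (idx a)) (t * 2 ^ lam ws + (m + 1))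
      (ad false false) = G.lab t a := by
    funext r
    simp only [embI]
    rw [if_pos (by omega), tdiv t (by omega), inv_pos hC (Nat.zero_le _) (idx_lt' hb a), unidx_idx]
  unfold QI.sat at h
  unfold Inst.sat
  rw [pmid ht (by omega), hlab] at h
  have e : dec G O ws ξ0 y t a =
      y (t * 2 ^ lam ws + (m + 1)) (O.pos ws ξ0 0 (idx a), ad false false) := by
    unfold dec
    rw [show 2 ^ lam ws - 1 = m + 1 by omega]
    rfl
  rw [e]
  refine h.mono fun i γ hγ => ?_
  have hj : ∃ j : Bool, i = if j then 1 else 0 := by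
    fin_cases i
    · exact ⟨false, rfl⟩
    · exact ⟨true, rfl⟩
  obtain ⟨j, rfl⟩ := hj
  have hn : (embI G O ws ξ0).nb (t * 2 ^ lam ws + (m + 1)) (if j then 1 else 0)
      (O.pos ws ξ0 0 (idx a), ad false false) = node G O ws ξ0 t j (idx a) m := by
    rw [hp j m le_rfl]
    cases j
    · exact nb_zero _ _
    · exact nb_end (Or.inr (by omega)) _ _ _
  have h2 := carry hb hO hC ht (hs j) hγ (s := m) (by omega)
  rw [← hn] at h2
  exact (congrArg (rd _) h2).trans (rd_pv _ _)

theorem expect_node (hb : G.b = 0) (hO : O.Good g) (hC : Chart G.σ C O ws ξ0) (t : ℕ) (j : Bool)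
    (s : ℕ) (F : (embI G O ws ξ0).A → ℝ) (hF : ∀ x, 0 ≤ F x) :
    (𝔼 a : G.A, F (node G O ws ξ0 t j (idx a) s)) ≤ 4 * C * 𝔼 x, F x := by
  classical
  have inj : Function.Injective fun a : G.A => node G O ws ξ0 t j (idx a) s := by
    intro a a' h
    have h1 : path G O ws ξ0 t j (idx a) s = path G O ws ξ0 t j (idx a') s :=
      Prod.ext (congrArg (fun x : (embI G O ws ξ0).A => x.1) h)
        (ad_inj (congrArg (fun x : (embI G O ws ξ0).A => x.2) h))
    have h2 := path_inj hO hC t j (tr_lt hb t j) (idx_lt' hb a) (idx_lt' hb a') s h1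
    rw [← unidx_idx a, h2, unidx_idx]
  have h1 : ∑ a : G.A, F (node G O ws ξ0 t j (idx a) s) ≤ ∑ x, F x := by
    rw [← sum_image (f := F) (g := fun a : G.A => node G O ws ξ0 t j (idx a) s)
      fun _ _ _ _ h => inj h]
    exact sum_le_sum_of_subset_of_nonneg (subset_univ _) fun x _ _ => hF x
  have c1 : Fintype.card G.A = 2 ^ G.σ := by
    rw [Fintype.card_congr (addrEquiv G.b G.β G.σ), Fintype.card_fin, hb, zero_mul, add_zero]
  have c2 : Fintype.card (embI G O ws ξ0).A = (O.m + 1) * 4 := by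
    rw [Fintype.card_prod, Fintype.card_congr (addrEquiv _ _ _), Fintype.card_fin,
      Fintype.card_fin]
    rfl
  have h2 : ((O.m + 1 : ℕ) : ℝ) ≤ C * 2 ^ G.σ := by exact_mod_cast hC.size
  have h3 : 0 ≤ ∑ x, F x := sum_nonneg fun x _ => hF x
  have h4 : (0 : ℝ) < (O.m + 1 : ℕ) := by positivity
  rw [Fintype.expect_eq_sum_div_card, Fintype.expect_eq_sum_div_card, c1, c2, ← mul_div_assoc,
    div_le_div_iff₀ (by positivity) (by positivity)]
  push_cast at h2 h4 ⊢
  nlinarith [mul_le_mul h1 h2 h4.le h3]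

end Sd

open Sd in
theorem viol_dec {g C : ℕ} {G : Inst 2} {O : Outer} {ws : List (List ℕ)} {ξ0 : O.V} (hb : G.b = 0)
    (hO : O.Good g) (hC : Chart G.σ C O ws ξ0) (y : ℕ → (embI G O ws ξ0).A → Val) :
    G.viol (dec G O ws ξ0 y) ≤ (16 * C * 2 ^ lam ws : ℕ) * (embI G O ws ξ0).viol y := by
  set V : ℕ → ℝ := fun t => 𝔼 c : (embI G O ws ξ0).A, ind (¬ (embI G O ws ξ0).sat y t c) with hV
  have hV0 : ∀ t, 0 ≤ V t := fun t => expect_nonneg fun _ _ => ind_nonneg _
  have h1 : ∀ t < 2 ^ G.τ, (𝔼 a, ind (¬ G.sat (dec G O ws ξ0 y) t a)) ≤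
      8 * C * ∑ i ∈ range (2 ^ lam ws), V (t * 2 ^ lam ws + i) := by
    intro t ht
    calc _ ≤ 𝔼 a : G.A, ∑ j : Bool, ∑ i ∈ range (2 ^ lam ws),
          ind (¬ (embI G O ws ξ0).sat y (t * 2 ^ lam ws + i) (node G O ws ξ0 t j (idx a) i)) := by
          refine expect_le_expect fun a _ => ?_
          by_cases h : G.sat (dec G O ws ξ0 y) t a
          · rw [ind_of_not (not_not.mpr h)]
            exact sum_nonneg fun _ _ => sum_nonneg fun _ _ => ind_nonneg _
          · rw [ind_of h]
            by_contra hc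
            refine h (sat_dec hb hO hC ht fun j i hi => ?_)
            by_contra hn
            refine hc (le_trans ?_ (single_le_sum (f := fun j => ∑ i ∈ range (2 ^ lam ws),
              ind (¬ (embI G O ws ξ0).sat y (t * 2 ^ lam ws + i) (node G O ws ξ0 t j (idx a) i)))
              (fun _ _ => sum_nonneg fun _ _ => ind_nonneg _) (mem_univ j)))
            rw [← ind_of hn]
            exact single_le_sum (f := fun i =>
              ind (¬ (embI G O ws ξ0).sat y (t * 2 ^ lam ws + i) (node G O ws ξ0 t j (idx a) i)))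
              (fun _ _ => ind_nonneg _) (mem_range.mpr hi)
      _ = ∑ j : Bool, ∑ i ∈ range (2 ^ lam ws), 𝔼 a : G.A,
          ind (¬ (embI G O ws ξ0).sat y (t * 2 ^ lam ws + i) (node G O ws ξ0 t j (idx a) i)) := by
          simp only [expect_sum_comm]
      _ ≤ ∑ _j : Bool, ∑ i ∈ range (2 ^ lam ws), 4 * C * V (t * 2 ^ lam ws + i) :=
          sum_le_sum fun j _ => sum_le_sum fun i _ => expect_node hb hO hC t j i
            (fun c => ind (¬ (embI G O ws ξ0).sat y (t * 2 ^ lam ws + i) c)) fun _ => ind_nonneg _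
      _ = _ := by
          rw [← mul_sum, sum_const, card_univ, Fintype.card_bool, nsmul_eq_mul]
          push_cast
          ring
  have h4 : (embI G O ws ξ0).viol y = 𝔼 t : Fin (2 ^ G.τ * 2 ^ lam ws), V t := by
    rw [expect_range _ V, ← pow_add, ← expect_range _ V]; rfl
  have h5 : 0 ≤ 𝔼 t : Fin (2 ^ G.τ * 2 ^ lam ws), V t := expect_nonneg fun _ _ => hV0 _
  unfold Inst.viol
  rw [h4]
  calc _ ≤ 𝔼 t : Fin (2 ^ G.τ), 8 * C * ∑ i ∈ range (2 ^ lam ws), V (t * 2 ^ lam ws + i) :=
        expect_le_expect fun t _ => h1 t t.2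
    _ ≤ _ := by
        rw [← mul_expect, expect_layers _ _ V (by positivity)]
        push_cast
        have : (0 : ℝ) ≤ C * 2 ^ lam ws * 𝔼 t : Fin (2 ^ G.τ * 2 ^ lam ws), V t := by positivity
        nlinarith

end Emb

end Vale.Agent.P330O
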