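import Vale.Agent.P330Q.OInstB

/-! The embedding of an instance without blocks into the outer graph: definitions.
Small bits: bit `0` is the track `j` (the input of the old gate), bit `1` is an extra bit `e`. One old layer
becomes `2 ^ lam` layers: sublayer `0` reads the old values through the old windows, then the layers of `eprog`,
the last sublayer applies the old label. -/

namespace Vale.Agent.P330O

open Vale.Agent.Lib.H23 Vale.Agent.P333 Vale.Agent.P325 Vale.Agent.P330 Vale.Agent.P330.Amp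
open Finset Matrix
open scoped BigOperators

namespace Emb

/-- layers: `(0, i, 0)` both values of `e` take the value of the right one; `(1, i, l)` move along `l` if
`e = 1`; `(2, i, l)` move along `l` if `e` differs from bit `i` of the translation. -/
def eprog (ws : List (List ℕ)) : List (ℕ × ℕ × ℕ) :=
  ((List.range ws.length).flatMap fun i => (0, i, 0) ::
    ((side 0 (ws.getD i [])).map (fun l => (1, i, l)) ++
      (side 1 (ws.getD i [])).map fun l => (2, i, l))) ++ [(0, ws.length, 0)]

def lam (ws : List (List ℕ)) : ℕ := ((eprog ws).length + 2).size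

/-- the layer at the new time `t`. -/
def lay (ws : List (List ℕ)) (t : ℕ) : ℕ × ℕ × ℕ := (eprog ws).getD (t % 2 ^ lam ws - 1) (1, 0, 64)

/-- the inverse of the chart number `i`. -/
def inv (O : Outer) (ws : List (List ℕ)) (ξ0 : O.V) (i : ℕ) (ζ : O.V) : ℕ :=
  ((List.range (2 ^ ws.length)).filter fun c => decide (O.pos ws ξ0 i c = ζ)).headD 0

/-- the translation of the old wiring map. -/
def tr (G : Inst 2) (t : ℕ) (j : Bool) : ℕ := (G.nop t (if j then 1 else 0)).data.2.1

/-- the middle layer `y` takes the value of input `1`. -/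
def act1 (G : Inst 2) (O : Outer) (ws : List (List ℕ)) (ξ0 : O.V) (t : ℕ) (y : ℕ × ℕ × ℕ) (ζ : O.V)
    (j e : Bool) : Bool :=
  if y.1 = 0 then
    xor e (decide (y.2.1 ≠ 0) && (inv O ws ξ0 y.2.1 ζ ^^^ tr G t j).testBit (y.2.1 - 1))
  else if y.1 = 1 then e else xor e ((tr G t j).testBit y.2.1)

def embI (G : Inst 2) (O : Outer) (ws : List (List ℕ)) (ξ0 : O.V) : QI 2 where
  b := 0
  β := 0
  σ := 2
  τ := G.τ + lam ws
  k0 := 0
  gens _ := 0
  op t i := if i = 0 then .Tr 0 else
    if t % 2 ^ lam ws = 0 ∨ t % 2 ^ lam ws + 1 = 2 ^ lam ws then .Tr 1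
    else if (lay ws t).1 = 0 then .Tr 2 else .Tr 0
  win t i := if t % 2 ^ lam ws = 0 then G.win (t / 2 ^ lam ws) i else false
  lab _ _ _ := false
  o := O
  xo t i := if i = 0 ∨ t % 2 ^ lam ws = 0 ∨ t % 2 ^ lam ws + 1 = 2 ^ lam ws ∨ (lay ws t).1 = 0 then 64
    else (lay ws t).2.2
  lb ζ t a r :=
    if t % 2 ^ lam ws + 1 = 2 ^ lam ws then
      G.lab (t / 2 ^ lam ws) (unidx _ _ _ (inv O ws ξ0 0 ζ)) r
    else if t % 2 ^ lam ws = 0 then r (if (idx a).testBit 0 then 1 else 0)
    else r (if act1 G O ws ξ0 (t / 2 ^ lam ws) (lay ws t) ζ ((idx a).testBit 0) ((idx a).testBit 1)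
      then 1 else 0)

/-- the decoded assignment. -/
def dec (G : Inst 2) (O : Outer) (ws : List (List ℕ)) (ξ0 : O.V)
    (y : ℕ → (embI G O ws ξ0).A → Val) (t : ℕ) (a : G.A) : Val :=
  y (t * 2 ^ lam ws + (2 ^ lam ws - 1)) (O.pos ws ξ0 0 (idx a), unidx 0 0 2 0)

end Emb

end Vale.Agent.P330O
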