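import Vale.Agent.P330Q.OEmb

/-! The embedding runs in polynomial time; the statement `EmbStmt` (task OEmbPT).
`pt_qi`, `pt_inst`, `pt_wd`, `pt_side`, `PT.flatMap`/`pt_filter`; `2 ^ ws.length = 2 ^ σ = nA` is unary; `2 ^ lam ≤ 2 * (length + 3)`,
`length (eprog ws) ≤ k * (1 + 2 * C * (k + 1) ^ C) + 1`; decoder `G.mkAsg (dec .. (val s))` by `pt_mkAsg`, `pt_valQ`. -/

namespace Vale.Agent.P330O

open Vale.Agent.Lib.H23 Vale.Agent.P333 Vale.Agent.P325 Vale.Agent.P330 Vale.Agent.P330.Amp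
open Finset Matrix
open scoped BigOperators

namespace Emb

theorem ep_two_pow_le (ws : List (List ℕ)) : 2 ^ lam ws ≤ 2 * ((eprog ws).length + 2) := by
  have h1 : 0 < lam ws := Nat.size_pos.2 (by omega)
  have h2 : 2 ^ (lam ws - 1) ≤ (eprog ws).length + 2 := Nat.lt_size.1 (by unfold lam at h1 ⊢; omega)
  obtain ⟨m, hm⟩ : ∃ m, lam ws = m + 1 := ⟨lam ws - 1, by omega⟩
  rw [hm] at h2 ⊢
  rw [Nat.add_sub_cancel] at h2
  rw [pow_succ]
  omega

theorem ep_lam_pos (ws : List (List ℕ)) : 1 ≤ lam ws := Nat.size_pos.2 (by omega)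

theorem ep_mem_le {ws : List (List ℕ)} {y : ℕ × ℕ × ℕ} (h : y ∈ eprog ws) : y.2.1 ≤ ws.length := by
  rw [eprog, List.mem_append, List.mem_flatMap] at h
  rcases h with ⟨i, hi, h⟩ | h
  · have hi' := (List.mem_range.1 hi).le
    rw [List.mem_cons, List.mem_append, List.mem_map, List.mem_map] at h
    rcases h with rfl | ⟨l, -, rfl⟩ | ⟨l, -, rfl⟩ <;> exact hi'
  · rw [List.mem_singleton.1 h]

theorem ep_lay_le (ws : List (List ℕ)) (t : ℕ) : (lay ws t).2.1 ≤ ws.length := by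
  rw [lay]
  rcases lt_or_ge (t % 2 ^ lam ws - 1) (eprog ws).length with h | h
  · rw [List.getD_eq_getElem _ _ h]
    exact ep_mem_le (List.getElem_mem h)
  · rw [List.getD_eq_default _ _ h]
    exact Nat.zero_le _

theorem ep_inv_lt (O : Outer) (ws : List (List ℕ)) (ξ0 : O.V) (i : ℕ) (ζ : O.V) :
    inv O ws ξ0 i ζ < 2 ^ ws.length := by
  rw [inv]
  rcases headD_mem ((List.range (2 ^ ws.length)).filter fun c => decide (O.pos ws ξ0 i c = ζ)) 0
    with h | h
  · rw [h]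
    exact Nat.two_pow_pos _
  · exact List.mem_range.1 (List.mem_filter.1 h).1

theorem ep_length_le {ws : List (List ℕ)} {B : ℕ} (h : ∀ w ∈ ws, w.length ≤ B) :
    (eprog ws).length ≤ ws.length * (1 + 2 * B) + 1 := by
  rw [eprog, List.length_append, List.length_singleton, List.length_flatMap]
  refine Nat.add_le_add_right ?_ 1
  refine (List.sum_le_card_nsmul _ (1 + 2 * B) fun a ha => ?_).trans ?_
  · obtain ⟨i, hi, rfl⟩ := List.mem_map.1 ha
    have h1 := List.mem_range.1 hi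
    have h2 : (ws.getD i []).length ≤ B := by
      rw [List.getD_eq_getElem _ _ h1]
      exact h _ (List.getElem_mem h1)
    simp only [List.length_cons, List.length_append, List.length_map, side]
    omega
  · rw [List.length_map, List.length_range, smul_eq_mul]

theorem ep_bound {k C : ℕ} {O : Outer} {ws : List (List ℕ)} {ξ : O.V} (h : Chart k C O ws ξ) :
    (16 * C + 1) * 2 ^ lam ws ≤
      (16 * C + 1) * (4 * C + 8) * (k + 1) ^ ((16 * C + 1) * (4 * C + 8)) := by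
  have h1 := ep_two_pow_le ws
  have h2 := ep_length_le h.short
  rw [h.len] at h2
  have h3 : (k + 1) ^ (C + 1) ≤ (k + 1) ^ ((16 * C + 1) * (4 * C + 8)) :=
    Nat.pow_le_pow_right (by omega) (by nlinarith)
  have h4 : 1 ≤ (k + 1) ^ C := Nat.one_le_pow _ _ (by omega)
  have h5 : 2 ^ lam ws ≤ (4 * C + 8) * (k + 1) ^ (C + 1) := by
    rw [pow_succ]
    generalize (k + 1) ^ C = N at *
    have h6 : k ≤ N * k := Nat.le_mul_of_pos_left _ h4
    nlinarith
  rw [mul_assoc]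
  exact Nat.mul_le_mul_left _ (h5.trans (Nat.mul_le_mul_left _ h3))

section pt

variable {X : Type} [Enc X] {G : X → Inst 2} {O : X → Outer} {ws : X → List (List ℕ)}
  {ξ : (x : X) → (O x).V}

theorem ep_selW (s : ℕ) (hw : PT ws) {c : X → ℕ} {js : X → List ℕ} (hc : PT c) (hj : PT js) :
    PT fun x => selW s (ws x) (c x) (js x) :=
  pt_flatMap (f := fun x j => if (c x).testBit j then side s ((ws x).getD j []) else [])
    (pt_ite ((pt_testBit (hc.comp PT.fst') PT.snd').congr fun _ => Bool.decide_eq_true)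
      (pt_side s (PT.getD (hw.comp PT.fst') PT.snd' (PT.const []))) (PT.const [])) hj

theorem ep_pos (hO : PT O) (hw : PT ws) (hξ : PT fun x => (ξ x : ℕ)) {i c : X → ℕ} (hi : PU i)
    (hc : PT c) : PT fun x => ((O x).pos (ws x) (ξ x) (i x) (c x) : ℕ) := by
  have h1 : PT fun x => List.range' (i x) ((ws x).length - i x) :=
    (PT.drop hi.pt (PU.len hw).range).congr fun x => by
      rw [List.range_eq_range', List.drop_range', zero_add, mul_one]
  exact pt_wd hO (ep_selW 0 hw hc h1) (pt_wd hO (ep_selW 1 hw hc hi.range.reverse) hξ)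

theorem ep_inv (hO : PT O) (hw : PT ws) (hξ : PT fun x => (ξ x : ℕ))
    (h2 : PU fun x => 2 ^ (ws x).length) {i : X → ℕ} (hi : PU i) {ζ : (x : X) → (O x).V}
    (hζ : PT fun x => (ζ x : ℕ)) : PT fun x => inv (O x) (ws x) (ξ x) (i x) (ζ x) :=
  PT.headD (pt_filter (f := fun x c => decide ((O x).pos (ws x) (ξ x) (i x) c = ζ x))
    ((pt_decEq (ep_pos (ξ := fun p : X × ℕ => ξ p.1) (hO.comp PT.fst') (hw.comp PT.fst')
      (hξ.comp PT.fst') (hi.comp PT.fst') PT.snd') (hζ.comp PT.fst')).congr fun _ =>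
        decide_eq_decide.2 Fin.ext_iff) h2.range) (PT.const 0)

theorem ep_eprog (hw : PT ws) : PT fun x => eprog (ws x) := by
  have h1 : PT fun p : X × ℕ => (ws p.1).getD p.2 [] :=
    PT.getD (hw.comp PT.fst') PT.snd' (PT.const [])
  have h2 : ∀ s a : ℕ, PT fun p : X × ℕ =>
      (side s ((ws p.1).getD p.2 [])).map fun l => (a, p.2, l) := fun s a =>
    PT.map (f := fun (p : X × ℕ) (l : ℕ) => (a, p.2, l))
      ((PT.const a).pair (PT.fst'.snd.pair PT.snd')) (pt_side s h1)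
  exact PT.append (pt_flatMap (f := fun x i => (0, i, 0) ::
    ((side 0 ((ws x).getD i [])).map (fun l => (1, i, l)) ++
      (side 1 ((ws x).getD i [])).map fun l => (2, i, l)))
    (PT.cons ((PT.const 0).pair (PT.snd'.pair (PT.const 0))) (PT.append (h2 0 1) (h2 1 2)))
    (PU.len hw).range) (PT.cons ((PT.const 0).pair (hw.length.pair (PT.const 0))) (PT.const []))

theorem ep_lam (hw : PT ws) : PU fun x => lam (ws x) :=
  pu_size ((ep_eprog hw).length.add (PT.const 2))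

theorem ep_pow (hw : PT ws) : PU fun x => 2 ^ lam (ws x) :=
  ((PU.const 2).mul ((PU.len (ep_eprog hw)).add (PU.const 2))).of_le (pt_two_pow (ep_lam hw))
    fun x => ep_two_pow_le (ws x)

theorem ep_lay (hw : PT ws) {t : X → ℕ} (ht : PT t) : PT fun x => lay (ws x) (t x) :=
  PT.getD (ep_eprog hw) ((pt_mod ht (ep_pow hw).pt).sub (PT.const 1)) (PT.const _)

theorem ep_tr (hG : PT G) {t : X → ℕ} (ht : PT t) (h : ∀ x, t x < 2 ^ (G x).τ) {j : X → Bool}
    (hj : PT j) : PT fun x => tr (G x) (t x) (j x) :=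
  (PT.cond hj (pt_data (pt_nop hG ht h 1)).snd.fst (pt_data (pt_nop hG ht h 0)).snd.fst).congr
    fun x => by cases j x <;> rfl

theorem ep_act1 (hG : PT G) (hO : PT O) (hw : PT ws) (hξ : PT fun x => (ξ x : ℕ))
    (h2 : PU fun x => 2 ^ (ws x).length) {t : X → ℕ} (ht : PT t) (h : ∀ x, t x < 2 ^ (G x).τ)
    {y : X → ℕ × ℕ × ℕ} (hy : PT y) (hy' : ∀ x, (y x).2.1 ≤ (ws x).length)
    {ζ : (x : X) → (O x).V} (hζ : PT fun x => (ζ x : ℕ)) {j e : X → Bool} (hj : PT j) (he : PT e) :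
    PT fun x => act1 (G x) (O x) (ws x) (ξ x) (t x) (y x) (ζ x) (j x) (e x) := by
  have h1 := ep_tr hG ht h hj
  have h3 := ep_inv hO hw hξ h2 ((PU.len hw).of_le hy.snd.fst hy') hζ
  have h4 : PT fun x => decide ((y x).2.1 ≠ 0) :=
    (pt_decEq hy.snd.fst (PT.const 0)).not.congr fun _ => decide_not
  exact pt_ite (pt_decEq hy.fst (PT.const 0))
    (he.xor (h4.and (pt_testBit (pt_xor h3 h1) (hy.snd.fst.sub (PT.const 1)))))
    (pt_ite (pt_decEq hy.fst (PT.const 1)) he (he.xor (pt_testBit h1 hy.snd.fst)))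

omit [Enc X] in
theorem ep_div_lt {x : X} {t : ℕ} (h : t < 2 ^ (embI (G x) (O x) (ws x) (ξ x)).τ) :
    t / 2 ^ lam (ws x) < 2 ^ (G x).τ :=
  Nat.div_lt_of_lt_mul (by rw [← pow_add, add_comm]; exact h)

theorem ep_inst (hG : PT G) (hw : PT ws) :
    PT fun x => (embI (G x) (O x) (ws x) (ξ x)).toInst := by
  have j : PT fun p : {p : X × ℕ // p.2 < 2 ^ (embI (G p.1) (O p.1) (ws p.1) (ξ p.1)).τ} => p.1 :=
    pt_val PT.id
  have hP := (ep_pow hw).pt.comp j.fst
  have hm := pt_mod j.snd hP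
  refine pt_inst (PU.const 0) (PU.const 0) (PU.const 2) ((pu_τ hG).add (ep_lam hw)) (PT.const 0)
    (PT.const (List.ofFn fun _ : Fin 7 => ([] : List (List Bool))))
    (((pu_T hG).mul (ep_pow hw)).congr fun x => congrArg List.range (pow_add _ _ _))
    (PU.const 4) (fun i => ?_) (fun i => ?_) (PT.const (⟨fun _ => false⟩ : Code ((Fin 2 → Bool) → Bool)))
  · exact pt_ite (PT.const _) (PT.const _) (pt_ite
      (((pt_decEq hm (PT.const 0)).or (pt_decEq (hm.add (PT.const 1)) hP)).congr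
        fun _ => Bool.decide_or ..) (PT.const _)
      (pt_ite (pt_decEq (ep_lay (hw.comp j.fst) j.snd).fst (PT.const 0)) (PT.const _) (PT.const _)))
  · exact pt_ite (pt_decEq hm (PT.const 0))
      (pt_win (hG.comp j.fst) (j.snd.div hP) (fun p => ep_div_lt p.2) i) (PT.const false)

theorem ep_embI (hG : PT G) (hO : PT O) (hw : PT ws) (hξ : PT fun x => (ξ x : ℕ))
    (hl : ∀ x, 2 ^ (ws x).length = (G x).nA) : PT fun x => embI (G x) (O x) (ws x) (ξ x) := by
  have h2 : PU fun x => 2 ^ (ws x).length :=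
    (pu_nA hG).congr fun x => congrArg List.range (hl x)
  refine pt_qi (ep_inst hG hw) hO (fun i => ?_) ?_
  · have j : PT fun p : {p : X × ℕ // p.2 < 2 ^ (embI (G p.1) (O p.1) (ws p.1) (ξ p.1)).τ} =>
        p.1 := pt_val PT.id
    have hP := (ep_pow hw).pt.comp j.fst
    have hm := pt_mod j.snd hP
    have hy := ep_lay (hw.comp j.fst) j.snd
    refine pt_min (pt_ite (((PT.const (decide (i = 0))).or ((pt_decEq hm (PT.const 0)).or
      ((pt_decEq (hm.add (PT.const 1)) hP).or (pt_decEq hy.fst (PT.const 0))))).congr fun _ => ?_)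
      (PT.const 64) hy.snd.snd) (PT.const 64)
    simp only [Bool.decide_or]
  · have j : PT fun p : {p : X × ℕ × ℕ × ℕ //
        p.2.1 < 2 ^ (embI (G p.1) (O p.1) (ws p.1) (ξ p.1)).τ ∧
          p.2.2.2 < (embI (G p.1) (O p.1) (ws p.1) (ξ p.1)).n0} => p.1 := pt_val PT.id
    have hP := (ep_pow hw).pt.comp j.fst
    have hm := pt_mod j.snd.fst hP
    have hd := j.snd.fst.div hP
    have hζ := pt_vx (hO.comp j.fst) j.snd.snd.fst
    have hi := ep_inv (hO.comp j.fst) (hw.comp j.fst) (hξ.comp j.fst) (h2.comp j.fst)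
      (PU.const 0) hζ
    have h0 := pt_testBit j.snd.snd.snd (PT.const 0)
    have h1 := pt_testBit j.snd.snd.snd (PT.const 1)
    have ha := ep_act1 (hG.comp j.fst) (hO.comp j.fst) (hw.comp j.fst) (hξ.comp j.fst)
      (h2.comp j.fst) hd (fun p => ep_div_lt p.2.1) (ep_lay (hw.comp j.fst) j.snd.fst)
      (fun p => ep_lay_le _ _) hζ h0 h1
    have hL := pt_lab (hG.comp j.fst) hd hi (fun p => ep_div_lt p.2.1)
      fun p => (ep_inv_lt _ _ _ _ _).trans_eq (hl _)
    refine (pt_ite (pt_decEq (hm.add (PT.const 1)) hP) hL (pt_ite (pt_decEq hm (PT.const 0))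
      (pt_mk (fun (b : Bool) (r : Fin 2 → Bool) => r (if b then 1 else 0)) (pt_codeBool h0))
      (pt_mk (fun (b : Bool) (r : Fin 2 → Bool) => r (if b then 1 else 0))
        (pt_codeBool ha)))).congr fun p => ?_
    have e : idx (unidx 0 0 2 p.1.2.2.2) = p.1.2.2.2 := idx_unidx p.2.2
    simp only [embI, e]
    split_ifs <;> rfl

theorem ep_dec (hG : PT G) (hO : PT O) (hw : PT ws) (hξ : PT fun x => (ξ x : ℕ))
    (hl : ∀ x, 2 ^ (ws x).length = (G x).nA) {s : X → Asg} (hs : PT s) :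
    PT fun x => (G x).mkAsg (dec (G x) (O x) (ws x) (ξ x)
      ((embI (G x) (O x) (ws x) (ξ x)).val (s x))) := by
  refine pt_mkAsg hG ?_
  have j : PT fun p : {p : X × ℕ × ℕ // p.2.1 < 2 ^ (G p.1).τ ∧ p.2.2 < (G p.1).nA} => p.1 :=
    pt_val PT.id
  have hP := (ep_pow hw).pt.comp j.fst
  exact pt_valQ ((ep_embI hG hO hw hξ hl).comp j.fst) (hs.comp j.fst)
    ((j.snd.fst.mul hP).add (hP.sub (PT.const 1)))
    (ep_pos (hO.comp j.fst) (hw.comp j.fst) (hξ.comp j.fst) (PU.const 0)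
      (j.snd.snd.congr fun p => idx_unidx p.2.2))
    (PT.const (idx (unidx 0 0 2 0)))

end pt

end Emb

theorem emb (g C : ℕ) : EmbStmt g C := by
  have j : PT fun x : EmbIn g C => x.1 := pt_val PT.id
  have hξ := pt_vx j.snd.fst j.snd.snd.snd
  have hl : ∀ x : EmbIn g C, 2 ^ x.1.2.2.1.length = x.1.1.nA := fun x => by
    rw [Inst.nA, x.2.1, x.2.2.2.len, zero_mul, add_zero]
  refine ⟨(16 * C + 1) * (4 * C + 8),
    fun x => Emb.embI x.1.1 x.1.2.1 x.1.2.2.1 (x.1.2.1.vx x.1.2.2.2),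
    fun p => p.1.1.1.mkAsg (Emb.dec p.1.1.1 p.1.1.2.1 p.1.1.2.2.1 (p.1.1.2.1.vx p.1.1.2.2.2)
      ((Emb.embI p.1.1.1 p.1.1.2.1 p.1.1.2.2.1 (p.1.1.2.1.vx p.1.1.2.2.2)).val p.2)),
    Emb.ep_embI j.fst j.snd.fst j.snd.snd.fst hξ hl,
    Emb.ep_dec (j.fst.comp PT.fst') (j.snd.fst.comp PT.fst') (j.snd.snd.fst.comp PT.fst')
      (hξ.comp PT.fst') (fun p => hl p.1) PT.snd', fun x => ⟨rfl, rfl, rfl, ?_, ?_, fun s => ?_⟩⟩
  · exact (Emb.ep_lam_pos _).trans (Nat.le_add_left _ _)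
  · have h := Emb.ep_bound x.2.2.2
    change 2 ^ (x.1.1.τ + Emb.lam x.1.2.2.1) ≤ _
    rw [pow_add, mul_comm]
    exact Nat.mul_le_mul_right _ ((Nat.le_mul_of_pos_left _ (by omega)).trans h)
  · have h := (Nat.mul_le_mul_right (2 ^ Emb.lam x.1.2.2.1) (Nat.le_succ (16 * C))).trans
      (Emb.ep_bound x.2.2.2)
    rw [Inst.violA_mkAsg]
    refine (Emb.viol_dec x.2.1 x.2.2.1 x.2.2.2 _).trans
      (mul_le_mul_of_nonneg_right ?_ (QI.viol_nonneg _ _))
    exact_mod_cast h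

end Vale.Agent.P330O
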