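import Vale.Agent.P330Q.OInstB
import Vale.Agent.P330.Init
import Vale.Agent.P330.Out

/-! The first generators, and instances as pure circuits (task OInit): ports of the last parts of
`P330/Init.lean` (from `newI` on; `toInst := newI G.toInst u`, `lb ξ := (newI (G.fib ξ) u).lab`, same `o`, `xo`;
the decoder is the identity) and `P330/Out.lean` (from `tm` on; nodes are numbered by
`t * nA + ix a`; the inputs by `ix (nb t i a)`; reuse `gates`, `gates_ok`, `gates_lt`, `countP_le`, `pt_gates`). -/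

namespace Vale.Agent.P330O

open Vale.Agent.Lib.H23 Vale.Agent.P333 Vale.Agent.P325 Vale.Agent.P330 Vale.Agent.P330.Amp
open Finset Matrix
open scoped BigOperators

namespace OI

open InitA

/-- the new instance -/
def newQ (G : QI 2) (u : List Unit) : QI 2 where
  toInst := newI G.toInst u
  o := G.o
  xo := G.xo
  lb := fun ξ t a => G.lb ξ t (fun _ => 0, a.2)

theorem n0_eq (G : QI 2) (hb : G.b = 0) (u : List Unit) : (newQ G u).n0 = G.n0 :=
  nA_eq G.toInst hb u

theorem nA_eqQ (G : QI 2) (hb : G.b = 0) (u : List Unit) : (newQ G u).nA = G.nA :=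
  congrArg (fun n => (G.o.m + 1) * n) (n0_eq G hb u)

theorem viol_eqQ (G : QI 2) (hb : G.b = 0) (u : List Unit) (s : Asg) :
    (newQ G u).violA s = G.violA s := by
  have hv : ∀ t (a : (newQ G u).A) (a' : G.A), a.1 = a'.1 → a.2.2 = a'.2.2 →
      (newQ G u).val s t a = G.val s t a' := by
    intro t a a' e1 e
    rw [QI.val, QI.val, nA_eqQ G hb, QI.ix, QI.ix, n0_eq G hb,
      idx_eq (b := (newQ G u).b) rfl a.2, idx_eq hb a'.2, e, e1]
    rfl
  refine expect_congr rfl fun t _ => Fintype.expect_bijective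
    (fun a : (newQ G u).A => ((a.1, (fun _ => 0, a.2.2)) : G.A))
    ⟨fun a a' e => Prod.ext (congrArg (fun z : G.A => z.1) e)
        (addr_ext rfl (congrArg (fun z : G.A => z.2.2) e)),
      fun a => ⟨(a.1, (fun _ => 0, a.2.2)), Prod.ext rfl (addr_ext hb rfl)⟩⟩ _ _ fun a => ?_
  refine ind_congr (not_congr (iff_of_eq ?_))
  unfold QI.sat
  rw [hv t a (a.1, (fun _ => 0, a.2.2)) rfl rfl]
  congr 1
  funext i
  rw [hv _ _ (G.nb t i (a.1, (fun _ => 0, a.2.2))) rfl
    (congrArg Prod.snd (act_nrm G.gens (G.op t i) (fun _ => 0, a.2.2)))]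
  rfl

theorem pt_newQ {X : Type} [Enc X] {G : X → QI 2} {u : X → List Unit} (hG : PT G) (hu : PT u)
    (hb : ∀ x, (G x).b = 0) : PT fun x => newQ (G x) (u x) := by
  have h1 : PT fun x => (⟨((G x).toInst, u x), hb x⟩ : {p : Inst 2 × List Unit // p.1.b = 0}) :=
    pt_sub (p := fun p : Inst 2 × List Unit => p.1.b = 0) (f := fun x => ((G x).toInst, u x))
      ((pt_toInst hG).pair hu) hb
  have h2 := PT.comp pt_newI h1
  refine pt_qi (R := fun x => newQ (G x) (u x)) h2 (pt_o (G := G) hG)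
    (fun i => pt_xo (G := fun p : {p : X × ℕ // p.2 < 2 ^ (newQ (G p.1) (u p.1)).τ} => G p.1.1)
      (hG.comp (pt_val PT.id).fst) (pt_val PT.id).snd (fun p => p.2) i) ?_
  have hG' : PT fun p : {p : X × ℕ × ℕ × ℕ // p.2.1 < 2 ^ (newQ (G p.1) (u p.1)).τ ∧
      p.2.2.2 < (newQ (G p.1) (u p.1)).n0} => G p.1.1 := hG.comp (pt_val PT.id).fst
  refine (pt_lb hG' (a := fun p => ((G p.1.1).o.vx p.1.2.2.1, unidx _ _ _ p.1.2.2.2))
    (pt_val PT.id).snd.fst (fun p => p.2.1) (pt_vx (pt_o hG') (pt_val PT.id).snd.snd.fst)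
    ((pt_val PT.id).snd.snd.snd.congr fun p =>
      idx_unidx (p.2.2.trans_eq (n0_eq _ (hb _) _)))).congr fun p => ?_
  exact congrArg (fun a => (⟨(G p.1.1).lb ((G p.1.1).o.vx p.1.2.2.1) p.1.2.1 a⟩ :
    Code ((Fin 2 → Bool) → Bool))) (addr_ext (hb _) rfl)

end OI

open OI InitA in
theorem init (g : ℕ) : InitQ g := by
  refine ⟨fun x => newQ x.1.1 x.1.2, fun x => ⟨rfl, ⟨?_, x.2.2.1, x.2.2.2⟩, rfl, rfl, rfl, rfl,
    (hh_spec _).2.2, (hh_spec _).2.1⟩,
    pt_newQ (pt_val PT.id).fst (pt_val PT.id).snd fun x => x.2.1, fun p => p.2, PT.snd',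
    fun x s => (viol_eqQ _ x.2.1 _ s).ge⟩
  obtain ⟨l, hl⟩ := (hh_spec x.1.2).1
  change GoodG (2 * hh x.1.2) (gn (hh x.1.2))
  rw [hl]
  exact good l

namespace OO

open Out (clip selF gates sel_lt gates_ok gates_lt countP_le pt_gates)

variable (G : QI 2)

/-- the time of the node number `n` -/
def tm (n : ℕ) : ℕ := n / G.nA % 2 ^ G.τ

/-- the gate that carries the value of the input `i` of the node number `n` -/
def inp (n : ℕ) (i : Fin 2) : ℕ :=
  (G.prev (tm G n) * G.nA + G.ix (G.nb (tm G n) i (G.un (n % G.nA)))) * 16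

/-- the gates of the node number `n` -/
def nodeG (n : ℕ) : List (ℕ × ℕ × ℕ) :=
  gates (G.win (tm G n) 0) (G.win (tm G n) 1)
    (selF false (G.lb (G.un (n % G.nA)).1 (tm G n) (G.un (n % G.nA)).2))
    (selF true (G.lb (G.un (n % G.nA)).1 (tm G n) (G.un (n % G.nA)).2)) (inp G n 0) (inp G n 1)
    (n * 16)

/-- the pure circuit -/
def circ : PC :=
  (List.range (2 ^ G.τ * G.nA * 16)).map fun z => (nodeG G (z / 16)).getD (z % 16) (0, 0, 0)

/-- the decoder -/
def dec (x : List ℕ) : Asg :=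
  (List.range (2 ^ G.τ * G.nA)).map fun n => min (x.getD (n * 16) 0) 3

theorem tm_lt (n : ℕ) : tm G n < 2 ^ G.τ := Nat.mod_lt _ (Nat.two_pow_pos _)

theorem node_lt {t m : ℕ} (ht : t < 2 ^ G.τ) (hm : m < G.nA) : t * G.nA + m < 2 ^ G.τ * G.nA := by
  have := Nat.mul_le_mul_right G.nA (Nat.succ_le_of_lt ht)
  rw [Nat.succ_mul] at this
  omega

theorem circ_length : (circ G).length = 2 ^ G.τ * G.nA * 16 := by simp [circ]

theorem circ_wf : (circ G).WF := by
  have h0 : 0 < 2 ^ G.τ * G.nA := Nat.mul_pos (Nat.two_pow_pos _) G.nA_pos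
  refine ⟨List.ne_nil_of_length_pos (by rw [circ_length]; omega), fun g hg => ?_⟩
  obtain ⟨z, hz, rfl⟩ := List.mem_map.1 hg
  rw [List.mem_range] at hz
  have h1 : ∀ i, inp G (z / 16) i < (circ G).length := fun i => by
    rw [circ_length, inp]
    exact Nat.mul_lt_mul_of_pos_right (node_lt G (G.prev_lt _) (G.ix_lt _)) (by norm_num)
  exact gates_lt (sel_lt _ _) (sel_lt _ _) (h1 0) (h1 1) (by rw [circ_length]; omega) _

theorem val_dec (x : List ℕ) {t : ℕ} (ht : t < 2 ^ G.τ) (a : G.A) :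
    G.val (dec G x) t a = clip (x.getD ((t * G.nA + G.ix a) * 16) 0) := by
  rw [QI.val, dec, List.getD_eq_getElem _ _ (by simpa using node_lt G ht (G.ix_lt a)),
    List.getElem_map, List.getElem_range, clip]

theorem sat_dec (x : List ℕ) {n : ℕ} (hn : n < 2 ^ G.τ * G.nA)
    (h : ∀ i < 16, (circ G).OkAt x (n * 16 + i)) :
    G.sat (G.val (dec G x)) (n / G.nA) (G.un (n % G.nA)) := by
  have h1 : n / G.nA < 2 ^ G.τ := (Nat.div_lt_iff_lt_mul G.nA_pos).2 hn
  have h2 : tm G n = n / G.nA := Nat.mod_eq_of_lt h1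
  have h3 := gates_ok (x := fun z => x.getD z 0) (w := G.win (tm G n)) (p := inp G n)
    (f := G.lb (G.un (n % G.nA)).1 (tm G n) (G.un (n % G.nA)).2) (c := n * 16)
    fun i hi k a b hg => by
      have h4 := h i hi
      rw [PC.OkAt, circ, List.getD_eq_getElem _ _ (by simp; omega), List.getElem_map,
        List.getElem_range, show (n * 16 + i) / 16 = n by omega,
        show (n * 16 + i) % 16 = i by omega, nodeG, hg] at h4
      exact h4
  rw [QI.sat, val_dec G x h1, G.ix_un (Nat.mod_lt _ G.nA_pos), Nat.div_add_mod']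
  simp only [val_dec G x (G.prev_lt _)]
  simp only [inp, h2] at h3
  exact h3

theorem pt_nodeG {X : Type} [Enc X] {G : X → QI 2} {n : X → ℕ} (hG : PT G) (hn : PT n) :
    PT fun x => nodeG (G x) (n x) := by
  have hI := pt_toInst hG
  have hO := pt_o hG
  have hA := (qu_nA hG).pt
  have h0 := (pu_nA hI).pt
  have hT := (pu_T hI).pt
  have ht : PT fun x => tm (G x) (n x) := pt_mod (PT.div hn hA) hT
  have hm : PT fun x => n x % (G x).nA := pt_mod hn hA
  have hv : PT fun x => (((G x).un (n x % (G x).nA)).1 : ℕ) := pt_vx hO (PT.div hm h0)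
  have hu : PT fun x => idx ((G x).un (n x % (G x).nA)).2 :=
    (pt_mod hm h0).congr fun x => idx_unidx (Nat.mod_lt _ (G x).n0_pos)
  have hw := pt_win hI ht fun x => tm_lt (G x) (n x)
  have hl := pt_lb hG ht (fun x => tm_lt (G x) (n x)) hv hu
  have hp : PT fun x => (G x).prev (tm (G x) (n x)) :=
    pt_mod (PT.sub (PT.add ht hT) (PT.const 1)) hT
  have hi : ∀ i, PT fun x => inp (G x) (n x) i := fun i =>
    PT.mul (PT.add (PT.mul hp hA) (pt_ix hG
      ((pt_mv hO (pt_xo hG ht (fun x => tm_lt (G x) (n x)) i) hv).congr fun x =>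
        congrArg Fin.val (Outer.mv_min _ _).symm)
      ((pt_actN hI (pt_nop hI ht (fun x => tm_lt (G x) (n x)) i) (pt_mod hm h0)).congr fun x =>
        congrArg idx (act_nrm _ _ _).symm))) (PT.const 16)
  exact pt_gates (hw 0) (hw 1) (pt_ofFin (selF false) hl) (pt_ofFin (selF true) hl) (hi 0) (hi 1)
    (hn.mul (PT.const 16))

theorem pt_circ : PT circ := by
  have h : PT fun p : QI 2 × ℕ => (nodeG p.1 (p.2 / 16)).getD (p.2 % 16) (0, 0, 0) :=
    PT.getD (pt_nodeG PT.fst' (PT.snd'.div (PT.const 16))) (pt_mod PT.snd' (PT.const 16))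
      (PT.const _)
  exact PT.map (f := fun G z => (nodeG G (z / 16)).getD (z % 16) (0, 0, 0)) h
    (((pu_T (pt_toInst PT.id)).mul (qu_nA PT.id)).mul (PU.const 16))

theorem pt_dec : PT fun p : QI 2 × List ℕ => dec p.1 p.2 := by
  refine PT.map (f := fun (p : QI 2 × List ℕ) n => min (p.2.getD (n * 16) 0) 3) ?_
    ((pu_T (pt_toInst PT.fst')).mul (qu_nA PT.fst'))
  exact pt_min (PT.getD PT.fst'.snd (PT.snd'.mul (PT.const 16)) (PT.const 0)) (PT.const 3)

end OO

open OO in
theorem out : OutQ := by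
  refine ⟨16, circ, fun p => dec p.1 p.2, pt_circ, pt_dec, fun G =>
    ⟨circ_wf G, ((circ_length G).trans (mul_comm _ _)).le, fun x => ?_⟩⟩
  have h0 : (0 : ℝ) < (2 ^ G.τ * G.nA : ℕ) :=
    Nat.cast_pos.2 (Nat.mul_pos (Nat.two_pow_pos _) G.nA_pos)
  have h1 : G.cnt (dec G x) ≤ (circ G).bad x := by
    classical
    rw [PC.bad, circ_length]
    refine Out.countP_le _ _ _ _ fun n hn h => ?_
    by_contra c
    push Not at c
    exact of_decide_eq_true h (sat_dec G x hn fun i hi => by simpa using c i hi)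
  rw [QI.violA_eq, circ_length, Nat.cast_mul _ 16, ← mul_assoc, div_mul_cancel₀ _ h0.ne',
    mul_comm]
  exact mul_le_mul_of_nonneg_left (Nat.cast_le.2 h1) (Nat.cast_nonneg _)

end Vale.Agent.P330O
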