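import Vale.Agent.P330Q.OIterStart

/-! The iteration (task OIter): port of `P330/IterLoop, IterCyc, IterLate, IterEarly, Iter` (put the ports in
new files `OIterLoop.lean` etc. in this namespace; names of this namespace hide the old ones; reuse the
arithmetic lemmas). Changes: `Inst 2` becomes `QI 2`, `Good` becomes `Good g`, the invariants bound the INNER
size `2 ^ τ * n0`. All steps keep `o`, so `red_loop` gets the hypothesis `(new y).1.o = y.1.1.o ∧ ν (new y).2 = ν
y.1.2` (`ν : T → ℕ` the length of the padding) and exports the same for `fin`; the size bound along the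
trajectory is `sz_qi` with `N = sz x`. `late`, `early` export `o` unchanged and `2 ^ τ * n0 ≤` length of the padding
(the invariant of the last state). `start`: the input is `(G, u)`; take `n = σ + τ + size (length u)`,
`L = (2 * 2 ^ τ * n0 * (2 * length u + 2)) ^ ..` (as `2 ^ size m ≤ 2 * (m + 1)`), the conclusion `v * 2 ^ (n + 1) ≤ 1` gives
`v * length u ≤ 1`; finally `L ≤ (2 ^ τ * n0 + length u + 2) ^ C`. -/

namespace Vale.Agent.P330O

open Vale.Agent.Lib.H23 Vale.Agent.P333 Vale.Agent.P325 Vale.Agent.P330 Vale.Agent.P330.Amp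
open Finset Matrix
open scoped BigOperators

theorem iter {g : ℕ} (hI : InitQ g) (hA : AbsorbQ g) (hM : MergeQ g) (hC : CompileQ g)
    (hR : RoundQ g) : IterQ g := by
  obtain ⟨A, E, C, R, h1, h2, h3⟩ := cyc hA hC hR
  obtain ⟨D, K, b0, γ, R', h4, h5, h6, s3, r3⟩ := late h1 h2 h3 hM
  obtain ⟨fin, h7, s2, r2⟩ := early (K := K) (b0 := b0) h1 h2 h3 h4 h5
  obtain ⟨M, j, h8, s1, r1⟩ := start (C := C) (b0 := b0) h1 h5 hI hA
  refine ⟨γ, M, fun x => R' (fin (j x)), h6, fun x => ⟨(s3 _).1.trans ((s2 _).1.trans (s1 x).1),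
    (s3 _).2.trans ((s2 _).2.le.trans (s1 x).2)⟩,
    ((r1.comp r2 h8 fun _ => rfl).comp r3 (h7.comp h8) fun _ => rfl).mono ?_⟩
  rintro x v' v - h0 ⟨v2, -, e2, v1, -, e1, e0⟩ h9
  refine le_trans (mul_le_mul_of_nonneg_left ?_ h0) (e0 (e1 (e2 h9)))
  have a1 : x.1.2.length ≤ 2 ^ (x.1.1.σ + x.1.1.τ + x.1.2.length.size + 1) :=
    (Nat.lt_size_self _).le.trans (Nat.pow_le_pow_right two_pos (by omega))
  exact_mod_cast a1

end Vale.Agent.P330O
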