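import Vale.Agent.P330Q.ORing

/-! The Cayley graph of `SL3` as tables (task OTab).
Plan. A number `n < 2 ^ (9 (l + 1))` codes the matrix with the entries `toR l (n / 2 ^ ((3 a + b) (l + 1)))`. Define on
numbers the matrix product `mmul` (entries: xor of three `cmul`; pack with `Nat.ofBits` or a sum of nine terms), the
determinant (`Matrix.det_fin_three`, signs do not matter by `add_self`), the codes of the generators; `vs l` = the list of
the `n < 2 ^ (9 (l + 1))` with determinant one (no duplicates, contains the code of `1`); `m = length - 1`, the move `k < 64`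
sends the position `ξ` to the position (`List.idxOf`) of `mmul (gen (k / 2)) vs[ξ]` (`k` even), `mmul vs[ξ] (gen (k / 2))`
(`k` odd). The map `ξ ↦ matrix of vs[ξ]` is a bijection onto `Gp l` (`toR_inj`, `io_bij`). Polynomial time: `pt_outer`, `pt_cmul`,
`pt_filter`, position by `countP`. -/

namespace Vale.Agent.P330O

open Vale.Agent.Lib.H23 Vale.Agent.P333 Vale.Agent.P325 Vale.Agent.P330 Vale.Agent.P330.Amp
open Finset Matrix
open scoped BigOperators

namespace SL

namespace Tb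

/-- the entry `(a, b)` of the matrix coded by `n`. -/
def ent (l n a b : ℕ) : ℕ :=
  Nat.ofBits fun j : Fin (l + 1) => n.testBit (j + (3 * a + b) * (l + 1))

/-- the matrix coded by `n`. -/
noncomputable def mat (l n : ℕ) : Matrix (Fin 3) (Fin 3) (Rg l) :=
  Matrix.of fun a b => toR l (ent l n a b)

/-- the code of the matrix with given entries. -/
def pack (l : ℕ) (f : ℕ → ℕ → ℕ) : ℕ :=
  Nat.ofBits fun i : Fin (9 * (l + 1)) =>
    (f (i / (l + 1) / 3) (i / (l + 1) % 3)).testBit (i % (l + 1))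

def mmul (l n m : ℕ) : ℕ := pack l fun a b =>
  cmul l (ent l n a 0) (ent l m 0 b) ^^^ cmul l (ent l n a 1) (ent l m 1 b) ^^^
    cmul l (ent l n a 2) (ent l m 2 b)

def tri (l n a b c : ℕ) : ℕ := cmul l (cmul l (ent l n 0 a) (ent l n 1 b)) (ent l n 2 c)

def dt (l n : ℕ) : ℕ :=
  tri l n 0 1 2 ^^^ tri l n 0 2 1 ^^^ tri l n 1 0 2 ^^^ tri l n 1 2 0 ^^^ tri l n 2 0 1 ^^^
    tri l n 2 1 0

def isV (l n : ℕ) : Bool := decide (dt l n % 2 ^ (l + 1) = 1 % 2 ^ (l + 1))

def gE (i a b : ℕ) : ℕ :=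
  if a = b then 1 else if a = rowL i then
    (if b = colL i then (if i < 12 then (if i % 2 = 0 then 1 else 2) else 0) else 0) else 0

def gc (l i : ℕ) : ℕ := pack l (gE i)

def vs (l : ℕ) : List ℕ := (List.range (2 ^ (9 * (l + 1)))).filter (isV l)

def pos (l n : ℕ) : ℕ := (vs l).countP fun x => decide (x < n)

def mvN (l k n : ℕ) : ℕ := if k % 2 = 0 then mmul l (gc l (k / 2)) n else mmul l n (gc l (k / 2))

def out (l : ℕ) : Outer :=
  ⟨(vs l).length - 1, fun k ξ => Fin.ofNat _ (pos l (mvN l k ((vs l).getD ξ 0)))⟩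

variable {l : ℕ}

theorem toR_congr {a b : ℕ} (h : ∀ j < l + 1, a.testBit j = b.testBit j) : toR l a = toR l b :=
  congrArg (io l) (funext fun j => congrArg b2 (h j j.2))

theorem testBit_ent (n a b : ℕ) {j : ℕ} (h : j < l + 1) :
    (ent l n a b).testBit j = n.testBit (j + (3 * a + b) * (l + 1)) :=
  Nat.testBit_ofBits_lt _ _ h

theorem pack_lt (f : ℕ → ℕ → ℕ) : pack l f < 2 ^ (9 * (l + 1)) := Nat.ofBits_lt_two_pow _

theorem mat_pack (f : ℕ → ℕ → ℕ) (a b : Fin 3) : mat l (pack l f) a b = toR l (f a b) := by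
  refine toR_congr fun j hj => ?_
  have ha := a.2
  have hb := b.2
  have h1 : j + (3 * a + b) * (l + 1) < 9 * (l + 1) := by
    have : (3 * (a : ℕ) + b) * (l + 1) ≤ 8 * (l + 1) := Nat.mul_le_mul_right _ (by omega)
    omega
  have h2 : (j + (3 * a + b) * (l + 1)) / (l + 1) = 3 * a + b := by
    rw [Nat.add_mul_div_right _ _ (Nat.succ_pos l), Nat.div_eq_of_lt hj, zero_add]
  have h3 : (j + (3 * a + b) * (l + 1)) % (l + 1) = j := by
    rw [Nat.add_mul_mod_self_right, Nat.mod_eq_of_lt hj]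
  rw [testBit_ent _ _ _ hj, pack, Nat.testBit_ofBits_lt _ _ h1]
  dsimp only
  rw [h2, h3, show (3 * (a : ℕ) + b) / 3 = a by omega, show (3 * (a : ℕ) + b) % 3 = b by omega]

theorem mat_inj {n n' : ℕ} (hn : n < 2 ^ (9 * (l + 1))) (hn' : n' < 2 ^ (9 * (l + 1)))
    (h : mat l n = mat l n') : n = n' := by
  refine Nat.eq_of_testBit_eq fun i => ?_
  rcases lt_or_ge i (9 * (l + 1)) with hi | hi
  · have hq : i / (l + 1) < 9 := (Nat.div_lt_iff_lt_mul (Nat.succ_pos l)).2 hi
    have hj : i % (l + 1) < l + 1 := Nat.mod_lt _ (Nat.succ_pos l)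
    have h1 := toR_inj (congrFun (congrFun h ⟨i / (l + 1) / 3, by omega⟩)
      ⟨i / (l + 1) % 3, by omega⟩)
    have h2 := congrArg (fun x => Nat.testBit x (i % (l + 1))) h1
    simp only [Nat.testBit_mod_two_pow, hj, decide_true, Bool.true_and] at h2
    rw [testBit_ent _ _ _ hj, testBit_ent _ _ _ hj, Nat.div_add_mod, mul_comm,
      Nat.mod_add_div] at h2
    exact h2
  · have h1 := Nat.pow_le_pow_right (show 0 < 2 by omega) hi
    rw [Nat.testBit_lt_two_pow (hn.trans_le h1), Nat.testBit_lt_two_pow (hn'.trans_le h1)]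

theorem mat_surj (M : Matrix (Fin 3) (Fin 3) (Rg l)) : ∃ n < 2 ^ (9 * (l + 1)), mat l n = M := by
  choose v hv using fun a b => (io_bij l).2 (M a b)
  refine ⟨pack l fun a b => toN (v (Fin.ofNat 3 a) (Fin.ofNat 3 b)), pack_lt _, ?_⟩
  ext a b
  rw [mat_pack, toR, ofN_toN, Fin.ofNat_val_eq_self, Fin.ofNat_val_eq_self, hv]

theorem mat_mmul (n m : ℕ) : mat l (mmul l n m) = mat l n * mat l m := by
  ext a b
  rw [mmul, mat_pack, Matrix.mul_apply, Fin.sum_univ_three, toR_xor, toR_xor, toR_cmul, toR_cmul,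
    toR_cmul]
  rfl

theorem toR_dt (n : ℕ) : toR l (dt l n) = (mat l n).det := by
  have h : ∀ x y : Rg l, x - y = x + y := fun x y => by
    rw [sub_eq_add_neg, neg_eq_of_add_eq_zero_right (add_self y)]
  rw [Matrix.det_fin_three, h, h, h]
  simp only [dt, tri, toR_xor, toR_cmul]
  rfl

theorem isV_iff (n : ℕ) : isV l n = true ↔ (mat l n).det = 1 := by
  rw [isV, decide_eq_true_eq, ← toR_dt, ← toR_one]
  refine ⟨fun h => ?_, toR_inj⟩
  rw [toR, toR, ← ofN_mod, h, ofN_mod]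

theorem mem_vs {n : ℕ} : n ∈ vs l ↔ n < 2 ^ (9 * (l + 1)) ∧ (mat l n).det = 1 := by
  rw [vs, List.mem_filter, List.mem_range, isV_iff]

theorem row_ne_col : ∀ i < 12, rowL i ≠ colL i := by decide

theorem mat_gc (i : ℕ) : mat l (gc l i) = (gen l i : Matrix (Fin 3) (Fin 3) (Rg l)) := by
  ext a b
  rw [gc, mat_pack, gE, gen]
  by_cases hi : i < 12
  · have hne := row_ne_col i hi
    rw [if_pos hi, if_pos hi, el_coe hne, Matrix.transvection, Matrix.add_apply, Matrix.one_apply,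
      Matrix.single_apply]
    simp only [Fin.val_inj]
    by_cases hab : a = b
    · subst hab
      rw [if_pos rfl, if_pos rfl, if_neg (fun h => hne (h.1.trans h.2.symm)), add_zero, toR_one]
    · rw [if_neg hab, if_neg hab, zero_add]
      by_cases ha : a = rowL i
      · by_cases hb : b = colL i
        · rw [if_pos ha, if_pos hb, if_pos (And.intro ha.symm hb.symm)]
          split_ifs
          exacts [toR_one l, toR_two l]
        · rw [if_pos ha, if_neg hb, if_neg (fun h => hb h.2.symm), toR_zero]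
      · rw [if_neg ha, if_neg (fun h => ha h.1.symm), toR_zero]
  · rw [if_neg hi, if_neg hi, Matrix.SpecialLinearGroup.coe_one, Matrix.one_apply]
    simp only [Fin.val_inj, ite_self]
    split_ifs
    exacts [toR_one l, toR_zero l]

theorem gc_mem (i : ℕ) : gc l i ∈ vs l := mem_vs.2 ⟨pack_lt _, by rw [mat_gc]; exact (gen l i).2⟩

theorem mmul_mem {n m : ℕ} (hn : n ∈ vs l) (hm : m ∈ vs l) : mmul l n m ∈ vs l :=
  mem_vs.2 ⟨pack_lt _, by rw [mat_mmul, Matrix.det_mul, (mem_vs.1 hn).2, (mem_vs.1 hm).2, one_mul]⟩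

theorem len_vs (l : ℕ) : (vs l).length - 1 + 1 = (vs l).length :=
  Nat.sub_add_cancel (List.length_pos_of_mem (gc_mem 12))

theorem sorted_vs (l : ℕ) : (vs l).Pairwise (· < ·) := List.pairwise_lt_range.filter _

theorem cnt_sorted : ∀ L : List ℕ, L.Pairwise (· < ·) → ∀ (i : ℕ) (h : i < L.length),
    (L.countP fun x => decide (x < L[i])) = i
  | [], _, _, h => absurd h (Nat.not_lt_zero _)
  | a :: L, hL, 0, _ => by
    rw [List.countP_eq_zero]
    intro x hx
    rcases List.mem_cons.1 hx with rfl | hx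
    · simp
    · have := List.rel_of_pairwise_cons hL hx
      simp only [List.getElem_cons_zero, decide_eq_true_eq]
      omega
  | a :: L, hL, i + 1, h => by
    have hi : i < L.length := Nat.lt_of_succ_lt_succ h
    have h1 := List.rel_of_pairwise_cons hL (List.getElem_mem hi)
    simp only [List.getElem_cons_succ]
    rw [List.countP_cons_of_pos (by simpa using h1), cnt_sorted L hL.of_cons i hi]

theorem lt_len (ξ : (out l).V) : (ξ : ℕ) < (vs l).length := ξ.2.trans_eq (len_vs l)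

theorem getD_mem (ξ : (out l).V) : (vs l).getD ξ 0 ∈ vs l := by
  rw [List.getD_eq_getElem _ _ (lt_len ξ)]
  exact List.getElem_mem _

theorem getD_pos {n : ℕ} (h : n ∈ vs l) : (vs l).getD ((out l).vx (pos l n)) 0 = n := by
  obtain ⟨i, hi, rfl⟩ := List.getElem_of_mem h
  rw [pos, cnt_sorted _ (sorted_vs l) i hi, Outer.val_vx (hi.trans_eq (len_vs l).symm),
    List.getD_eq_getElem _ _ hi]

/-- the group element of a vertex. -/
noncomputable def toG (l : ℕ) (ξ : (out l).V) : Gp l :=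
  ⟨mat l ((vs l).getD ξ 0), (mem_vs.1 (getD_mem ξ)).2⟩

theorem toG_pos {n : ℕ} (h : n ∈ vs l) :
    (toG l ((out l).vx (pos l n)) : Matrix (Fin 3) (Fin 3) (Rg l)) = mat l n :=
  congrArg (mat l) (getD_pos h)

theorem toG_bij (l : ℕ) : Function.Bijective (toG l) := by
  constructor
  · intro ξ ζ h
    have h1 := mat_inj (mem_vs.1 (getD_mem ξ)).1 (mem_vs.1 (getD_mem ζ)).1
      (congrArg Subtype.val h)
    rw [List.getD_eq_getElem _ _ (lt_len ξ), List.getD_eq_getElem _ _ (lt_len ζ)] at h1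
    have h2 := cnt_sorted _ (sorted_vs l) ξ (lt_len ξ)
    rw [h1, cnt_sorted _ (sorted_vs l) ζ (lt_len ζ)] at h2
    exact Fin.ext h2.symm
  · intro g
    obtain ⟨n, hn, hg⟩ := mat_surj (g : Matrix (Fin 3) (Fin 3) (Rg l))
    have h : n ∈ vs l := mem_vs.2 ⟨hn, by rw [hg]; exact g.2⟩
    exact ⟨_, Subtype.ext ((toG_pos h).trans hg)⟩

theorem mv_eq {k : ℕ} (hk : k < 64) (ξ : (out l).V) :
    (out l).mv k ξ = (out l).vx (pos l (mvN l k ((vs l).getD ξ 0))) := dif_pos hk

theorem toG_even {i : ℕ} (hi : i < 32) (ξ : (out l).V) :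
    toG l ((out l).mv (2 * i) ξ) = gen l i * toG l ξ := by
  refine Subtype.ext ?_
  rw [mv_eq (by omega), mvN, if_pos (by omega), show 2 * i / 2 = i by omega]
  refine (toG_pos (mmul_mem (gc_mem i) (getD_mem ξ))).trans ?_
  rw [mat_mmul, mat_gc]
  rfl

theorem toG_odd {i : ℕ} (hi : i < 32) (ξ : (out l).V) :
    toG l ((out l).mv (2 * i + 1) ξ) = toG l ξ * gen l i := by
  refine Subtype.ext ?_
  rw [mv_eq (by omega), mvN, if_neg (by omega), show (2 * i + 1) / 2 = i by omega]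
  refine (toG_pos (mmul_mem (getD_mem ξ) (gc_mem i))).trans ?_
  rw [mat_mmul, mat_gc]
  rfl

section pt

variable {X : Type} [Enc X] {l n m a b c : X → ℕ}

theorem pt_ent (hl : PU l) (hn : PT n) (ha : PT a) (hb : PT b) :
    PT fun x => ent (l x) (n x) (a x) (b x) := by
  have h1 : PT fun x => (3 * a x + b x) * (l x + 1) :=
    (((PT.const 3).mul ha).add hb).mul (hl.pt.add (PT.const 1))
  exact pt_ofBits (f := fun x j => (n x).testBit (j + (3 * a x + b x) * (l x + 1)))
    (hl.add (PU.const 1)) (pt_testBit (hn.comp PT.fst') (PT.snd'.add (h1.comp PT.fst')))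

theorem pt_pack {f : X → ℕ → ℕ → ℕ} (hl : PU l)
    (hf : PT fun p : X × ℕ × ℕ => f p.1 p.2.1 p.2.2) : PT fun x => pack (l x) (f x) := by
  have h1 : PT fun p : X × ℕ => l p.1 + 1 := (hl.pt.add (PT.const 1)).comp PT.fst'
  have h2 : PT fun p : X × ℕ => p.2 / (l p.1 + 1) := PT.div PT.snd' h1
  have h3 : PT fun p : X × ℕ => f p.1 (p.2 / (l p.1 + 1) / 3) (p.2 / (l p.1 + 1) % 3) :=
    hf.comp (PT.fst'.pair ((h2.div (PT.const 3)).pair (pt_mod h2 (PT.const 3))))
  exact pt_ofBits (f := fun x i => (f x (i / (l x + 1) / 3) (i / (l x + 1) % 3)).testBit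
    (i % (l x + 1))) ((PU.const 9).mul (hl.add (PU.const 1)))
    (pt_testBit h3 (pt_mod PT.snd' h1))

theorem pt_mmul (hl : PU l) (hn : PT n) (hm : PT m) : PT fun x => mmul (l x) (n x) (m x) := by
  have hl' : PU fun p : X × ℕ × ℕ => l p.1 := hl.comp PT.fst'
  have h : ∀ k : ℕ, PT fun p : X × ℕ × ℕ =>
      cmul (l p.1) (ent (l p.1) (n p.1) p.2.1 k) (ent (l p.1) (m p.1) k p.2.2) := fun k =>
    pt_cmul hl' (pt_ent hl' (hn.comp PT.fst') PT.snd'.fst (PT.const k))
      (pt_ent hl' (hm.comp PT.fst') (PT.const k) PT.snd'.snd)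
  exact pt_pack hl (pt_xor (pt_xor (h 0) (h 1)) (h 2))

theorem pt_tri (hl : PU l) (hn : PT n) (a b c : ℕ) : PT fun x => tri (l x) (n x) a b c :=
  pt_cmul hl (pt_cmul hl (pt_ent hl hn (PT.const 0) (PT.const a))
    (pt_ent hl hn (PT.const 1) (PT.const b))) (pt_ent hl hn (PT.const 2) (PT.const c))

theorem pt_isV (hl : PU l) (hn : PT n) : PT fun x => isV (l x) (n x) := by
  have h := pt_tri hl hn
  have h1 : PT fun x => dt (l x) (n x) :=
    pt_xor (pt_xor (pt_xor (pt_xor (pt_xor (h _ _ _) (h _ _ _)) (h _ _ _)) (h _ _ _)) (h _ _ _))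
      (h _ _ _)
  have h2 : PT fun x => 2 ^ (l x + 1) := pt_two_pow (hl.add (PU.const 1))
  exact pt_decEq (pt_mod h1 h2) (pt_mod (PT.const 1) h2)

theorem pt_gc (hl : PU l) (i : ℕ) : PT fun x => gc (l x) i := by
  have ha : PT fun p : X × ℕ × ℕ => p.2.1 := PT.snd'.fst
  have hb : PT fun p : X × ℕ × ℕ => p.2.2 := PT.snd'.snd
  exact pt_pack (f := fun _ => gE i) hl (pt_ite (pt_decEq ha hb) (PT.const 1)
    (pt_ite (pt_decEq ha (PT.const _)) (pt_ite (pt_decEq hb (PT.const _)) (PT.const _)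
      (PT.const 0)) (PT.const 0)))

theorem pt_mvN (hl : PU l) (hn : PT n) (k : ℕ) : PT fun x => mvN (l x) k (n x) := by
  unfold mvN
  split_ifs
  exacts [pt_mmul hl (pt_gc hl _) hn, pt_mmul hl hn (pt_gc hl _)]

theorem pt_vs (hl : PU l) (hN : PU fun x => 2 ^ (9 * (l x + 1))) : PT fun x => vs (l x) :=
  pt_filter (f := fun x => isV (l x)) (pt_isV (hl.comp PT.fst') PT.snd') hN.range

theorem pt_pos (hv : PT fun x => vs (l x)) (hn : PT n) : PT fun x => pos (l x) (n x) :=
  pt_countP (f := fun x y => decide (y < n x)) (pt_decLt PT.snd' (hn.comp PT.fst')) hv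

theorem pt_out (hl : PU l) (hv : PT fun x => vs (l x)) : PT fun x => out (l x) := by
  have hm : PU fun x => (out (l x)).m + 1 := PU.of_len hv fun x => (len_vs _).symm
  refine pt_outer hm fun k => ?_
  have h1 : PT fun p : X × ℕ => (out (l p.1)).m + 1 := hm.pt.comp PT.fst'
  have h2 : PT fun p : X × ℕ => vs (l p.1) := hv.comp PT.fst'
  have h3 : PT fun p : X × ℕ => (vs (l p.1)).getD (p.2 % ((out (l p.1)).m + 1)) 0 :=
    PT.getD h2 (pt_mod PT.snd' h1) (PT.const 0)
  exact pt_mod (pt_pos (l := fun p : X × ℕ => l p.1) h2 (pt_mvN (hl.comp PT.fst') h3 k)) h1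

end pt

end Tb

open Tb in
theorem tab : ∃ F : ℕ → Outer × ℕ,
    (PT fun p : {p : ℕ × List Unit // 2 ^ (9 * (p.1 + 1)) ≤ p.2.length} => F p.1.1) ∧
    ∀ l, ∃ e : (F l).1.V ≃ Gp l, e ((F l).1.vx (F l).2) = 1 ∧ ∀ i < 32, ∀ ξ,
      e ((F l).1.mv (2 * i) ξ) = gen l i * e ξ ∧ e ((F l).1.mv (2 * i + 1) ξ) = e ξ * gen l i := by
  refine ⟨fun l => (out l, pos l (gc l 12)), ?_, fun l =>
    ⟨Equiv.ofBijective _ (toG_bij l), ?_, fun i hi ξ => ⟨toG_even hi ξ, toG_odd hi ξ⟩⟩⟩
  · have h0 : PT fun p : {p : ℕ × List Unit // 2 ^ (9 * (p.1 + 1)) ≤ p.2.length} => p.1 :=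
      pt_val PT.id
    have hl : PU fun p : {p : ℕ × List Unit // 2 ^ (9 * (p.1 + 1)) ≤ p.2.length} => p.1.1 :=
      (PU.len h0.snd).of_le h0.fst fun p => by
        have h1 := p.2
        have h2 : 9 * (p.1.1 + 1) < 2 ^ (9 * (p.1.1 + 1)) := Nat.lt_two_pow_self
        omega
    have hN : PU fun p : {p : ℕ × List Unit // 2 ^ (9 * (p.1 + 1)) ≤ p.2.length} =>
        2 ^ (9 * (p.1.1 + 1)) :=
      (PU.len h0.snd).of_le (pt_two_pow ((PU.const 9).mul (hl.add (PU.const 1)))) fun p => p.2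
    have hv := pt_vs hl hN
    exact (pt_out hl hv).pair (pt_pos hv (pt_gc hl 12))
  · refine Subtype.ext ((toG_pos (gc_mem 12)).trans ?_)
    rw [mat_gc, gen_ge le_rfl]

end SL

end Vale.Agent.P330O
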