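import Vale.Agent.P330Q.OGap
import Vale.Agent.P330Q.OTab
import Vale.Agent.P330Q.OChart

/-! The outer graphs (task OOuter). Take `l = (k + 7) / 8`, the tables of `SL.tab` and the words of `SL.chart`. With the bijection
`e`: `e (mv (2 i) ξ) = gen i * e ξ`, `e (mv (2 i + 1) ξ) = e ξ * gen i` for ALL `i` (`mv_of_ge`, `gen_ge`), `e (wd (side 0 w) ξ) = ev w * e ξ`,
`e (wd (side 1 w) ξ) = e ξ * (ev w)⁻¹` (`gen_sq`), so `e (pos i c)` is the product over `range' i (k - i) ++ range i`; `Good` by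
`gen_sq`, associativity, `SL.gap` (`Fintype.expect_equiv`); `m + 1 = card ≤ 2 ^ (8 l + 9) ≤ 2 ^ 16 * 2 ^ k`. Polynomial time:
`2 ^ (9 (l + 1)) ≤ (2 ^ 9 * 2 ^ k) ^ 9` or similar is unary (`PU.pow`, `st_unit` of `P330/Iter.lean`), `k ≤ 2 ^ k`. -/

namespace Vale.Agent.P330O

open Vale.Agent.Lib.H23 Vale.Agent.P333 Vale.Agent.P325 Vale.Agent.P330 Vale.Agent.P330.Amp
open Finset Matrix
open scoped BigOperators

namespace OO

open SL

theorem unit {X : Type} [Enc X] {f : X → ℕ} (h : PU f) : PT fun x => List.replicate (f x) () :=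
  (PT.map (f := fun _ _ => ()) (PT.const ()) h.range).congr fun x => by simp

variable {l : ℕ} {O : Outer} (e : O.V ≃ Gp l)

theorem ev_cons (i : ℕ) (w : List ℕ) : ev l (i :: w) = gen l i * ev l w := List.prod_cons

theorem wd0 (h0 : ∀ i ξ, e (O.mv (2 * i) ξ) = gen l i * e ξ) (w : List ℕ) (ξ : O.V) :
    e (O.wd (side 0 w) ξ) = ev l w * e ξ := by
  induction w with
  | nil => exact (one_mul _).symm
  | cons i w ih =>
    rw [ev_cons, mul_assoc, ← ih, ← h0]
    rfl

theorem wd1 (h1 : ∀ i ξ, e (O.mv (2 * i + 1) ξ) = e ξ * gen l i) (w : List ℕ) (ξ : O.V) :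
    e (O.wd (side 1 w) ξ) = e ξ * (ev l w)⁻¹ := by
  induction w with
  | nil => exact (by simp [ev] : e ξ = e ξ * (ev l [])⁻¹)
  | cons i w ih =>
    rw [ev_cons, _root_.mul_inv_rev, ← mul_assoc, ← ih, inv_eq_of_mul_eq_one_left (gen_sq i), ← h1]
    rfl

theorem sel0 (h0 : ∀ i ξ, e (O.mv (2 * i) ξ) = gen l i * e ξ) (ws : List (List ℕ)) (c : ℕ)
    (js : List ℕ) (ξ : O.V) : e (O.wd (selW 0 ws c js) ξ) =
      (js.map fun j => if c.testBit j then ev l (ws.getD j []) else 1).prod * e ξ := by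
  induction js with
  | nil => exact (one_mul _).symm
  | cons j js ih =>
    rw [List.map_cons, List.prod_cons, mul_assoc, ← ih, selW, List.flatMap_cons, Outer.wd_append]
    split_ifs
    · exact wd0 e h0 _ _
    · exact (one_mul _).symm

theorem sel1 (h1 : ∀ i ξ, e (O.mv (2 * i + 1) ξ) = e ξ * gen l i) {ws : List (List ℕ)}
    (hw : ∀ w ∈ ws, ev l w * ev l w = 1) (c : ℕ) (js : List ℕ) (ξ : O.V) :
    e (O.wd (selW 1 ws c js.reverse) ξ) =
      e ξ * (js.map fun j => if c.testBit j then ev l (ws.getD j []) else 1).prod := by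
  induction js generalizing ξ with
  | nil => exact (mul_one _).symm
  | cons j js ih =>
    rw [List.map_cons, List.prod_cons, List.reverse_cons, selW, List.flatMap_append,
      Outer.wd_append, ← mul_assoc]
    refine (ih _).trans (congrArg (· * _) ?_)
    rw [List.flatMap_singleton]
    split_ifs
    · rw [wd1 e h1]
      refine congrArg _ (inv_eq_of_mul_eq_one_left ?_)
      rcases lt_or_ge j ws.length with h | h
      · rw [List.getD_eq_getElem _ _ h]
        exact hw _ (List.getElem_mem h)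
      · rw [List.getD_eq_default _ _ h]
        exact one_mul _
    · exact (mul_one _).symm

theorem good (h0 : ∀ i ξ, e (O.mv (2 * i) ξ) = gen l i * e ξ)
    (h1 : ∀ i ξ, e (O.mv (2 * i + 1) ξ) = e ξ * gen l i) {g : ℕ}
    (hg : ∀ f : Gp l → ℝ, (𝔼 x, f x) = 0 →
      (𝔼 x, (𝔼 i : Fin 32, f (gen l i * x)) ^ 2) ≤ (1 - 1 / g) * (𝔼 x, f x ^ 2) ∧
      (𝔼 x, (𝔼 i : Fin 32, f (x * gen l i)) ^ 2) ≤ (1 - 1 / g) * (𝔼 x, f x ^ 2)) :
    O.Good g := by
  refine ⟨fun a ξ => e.injective ?_, fun a a' ξ ha ha' => e.injective ?_, fun s hs f hf => ?_⟩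
  · obtain ⟨i, rfl | rfl⟩ := Nat.even_or_odd' a
    · rw [h0, h0, ← mul_assoc, gen_sq, one_mul]
    · rw [h1, h1, mul_assoc, gen_sq, mul_one]
  · obtain ⟨i, rfl⟩ : ∃ i, a = 2 * i := ⟨a / 2, by omega⟩
    obtain ⟨j, rfl⟩ : ∃ j, a' = 2 * j + 1 := ⟨a' / 2, by omega⟩
    rw [h0, h1, h1, h0, mul_assoc]
  · have tr : ∀ F : Gp l → ℝ, (𝔼 ξ, F (e ξ)) = 𝔼 x, F x := fun F =>
      Fintype.expect_equiv e _ _ fun _ => rfl
    obtain ⟨a, b⟩ := hg (fun x => f (e.symm x)) (by rw [← tr, ← hf]; simp)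
    rw [← tr, ← tr fun x => f (e.symm x) ^ 2] at a b
    simp only [← h0, ← h1, Equiv.symm_apply_apply] at a b
    interval_cases s
    exacts [a, b]

end OO

open SL in

theorem outer : OuterStmt := by
  obtain ⟨g, hg1, hg⟩ := SL.gap
  obtain ⟨T, hT, hT'⟩ := SL.tab
  obtain ⟨C, W, hW, hW'⟩ := SL.chart
  refine ⟨g, max C (2 ^ 16), fun k => ((T ((k + 7) / 8)).1, W k, (T ((k + 7) / 8)).2), hg1, ?_,
    fun k => ?_⟩
  · have hv : PT fun p : KIn => p.1 := pt_val PT.id
    have hu : PU fun p : KIn => p.1.2.length := PU.len hv.snd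
    have hk : PU fun p : KIn => p.1.1 :=
      hu.of_le hv.fst fun p => Nat.lt_two_pow_self.le.trans p.2
    have h1 : PT fun p : KIn => T ((p.1.1 + 7) / 8) :=
      hT.comp (pt_sub (p := fun p : ℕ × List Unit => 2 ^ (9 * (p.1 + 1)) ≤ p.2.length)
        (((hv.fst.add (PT.const 7)).div (PT.const 8)).pair
          (OO.unit (((PU.const 2).mul hu).pow 9))) fun p => by
            rw [List.length_replicate, mul_comm 9, pow_mul]
            refine Nat.pow_le_pow_left ?_ 9
            rw [pow_succ']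
            exact Nat.mul_le_mul_left 2
              ((Nat.pow_le_pow_right two_pos (by dsimp only; omega)).trans p.2))
    have h2 : PT fun p : KIn => W p.1.1 := (hW.comp (OO.unit hk)).congr fun p => by simp
    exact h1.fst.pair (h2.pair h1.snd)
  · obtain ⟨e, he, hm⟩ := hT' ((k + 7) / 8)
    obtain ⟨w1, w2, w3⟩ := hW' k
    obtain ⟨w4, w5⟩ := w3 ((k + 7) / 8) (by omega)
    have hc := card_Gp ((k + 7) / 8)
    rw [← Fintype.card_congr e, Fintype.card_fin] at hc
    dsimp only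
    generalize (T ((k + 7) / 8)).1.vx (T ((k + 7) / 8)).2 = ξ at he
    generalize (T ((k + 7) / 8)).1 = O at *
    have h0 : ∀ i ζ, e (O.mv (2 * i) ζ) = gen _ i * e ζ := fun i ζ => by
      rcases lt_or_ge i 32 with h | h
      · exact (hm i h ζ).1
      · rw [Outer.mv_of_ge (by omega), gen_ge (by omega), one_mul]
    have h1 : ∀ i ζ, e (O.mv (2 * i + 1) ζ) = e ζ * gen _ i := fun i ζ => by
      rcases lt_or_ge i 32 with h | h
      · exact (hm i h ζ).2
      · rw [Outer.mv_of_ge (by omega), gen_ge (by omega), mul_one]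
    have hp : ∀ i c, e (O.pos (W k) ξ i c) = ((List.range' i (k - i) ++ List.range i).map
        fun j => if c.testBit j then ev _ ((W k).getD j []) else 1).prod := fun i c => by
      rw [Outer.pos, OO.sel0 e h0, OO.sel1 e h1 w4, he, one_mul, w1, List.map_append,
        List.prod_append]
    refine ⟨OO.good e h0 h1 (hg _), ?_, w1, fun w hw => (w2 w hw).trans ?_,
      fun w hw s hs ζ => e.injective ?_, fun i hi c hc c' hc' h => ?_, fun c => e.injective ?_⟩
    · refine hc.trans (le_trans ?_ (Nat.mul_le_mul_right _ (le_max_right _ _)))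
      rw [← pow_add]
      exact Nat.pow_le_pow_right two_pos (by omega)
    · exact Nat.mul_le_mul (le_max_left _ _) (Nat.pow_le_pow_right k.succ_pos (le_max_left _ _))
    · interval_cases s
      · rw [OO.wd0 e h0, OO.wd0 e h0, ← mul_assoc, w4 w hw, one_mul]
      · rw [OO.wd1 e h1, OO.wd1 e h1, mul_assoc, ← _root_.mul_inv_rev, w4 w hw, inv_one, mul_one]
    · refine w5 (List.range' i (k - i) ++ List.range i) (List.perm_append_comm.trans ?_) c hc c'
        hc' (by rw [← hp, ← hp, h])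
      have := List.range'_append_1 (s := 0) (m := i) (n := k - i)
      rw [zero_add, Nat.add_sub_cancel' hi] at this
      rw [List.range_eq_range', List.range_eq_range', this]
    · rw [hp, hp]
      simp [List.range_eq_range']

end Vale.Agent.P330O
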