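import Vale.Agent.P330Q.OWords

/-! The round and its decoder run in polynomial time (task ORoundPT): port of the second half of
`P330/RoundPT.lean`; the structure `RP κ (fun x => (G x).toInst) c` and its lemmas are reused. `pt_roundI`:
`pt_qi`; `toInst` by `RP.inst` with the trivial oracle and `pt_prog`; `xo` by `pt_opCases` from the instruction
(see `pt_progInst` in `P330/BridgePT.lean` for `Ins.op`; do NOT use `nop`, it forgets the outer moves); the labels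
above `ξ` are the labels of `progInst .. (fun y => orcR G L (ξ, y))`, so `pt_lab (RP.inst ..)` on `X × ℕ`; `cfx` as
`RP.cfx`, `RP.lab` with `pt_lb`, `pt_wd`, `pt_ltr`; `newT` by `pt_natL`, `pt_ofBits`, `pt_xo`. Decoder: the opinions above
`ξ'` only need the slice `drop (T * nA + ξ' * n0) s` of the list; as in `RP.cls`, but `pt_run` is applied inside
the sum over `e`, to the slice above `wd (ow t e).reverse ξ`. -/

namespace Vale.Agent.P330O

open Vale.Agent.Lib.H23 Vale.Agent.P333 Vale.Agent.P325 Vale.Agent.P330 Vale.Agent.P330.Amp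
open Finset Matrix
open scoped BigOperators

section aux

variable {X : Type} [Enc X]

theorem rq_xoOf {B : X → ℕ} {o : X → Op} (hB : PT B) (ho : PT o) :
    PT fun x => xoOf (B x) (o x) := by
  have hd := pt_data ho
  refine (pt_ite (pt_decEq hd.fst (PT.const 1))
    (pt_ite (pt_decLe hB hd.snd.fst) (hd.snd.fst.sub hB) (PT.const 64)) (PT.const 64)).congr
    fun x => ?_
  cases o x <;> rfl

theorem rq_cd {k i l : X → ℕ} (hk : PT k) (hi : PT i) (hl : PT l) :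
    PT fun x => cd (k x) (i x) (l x) := by
  change PT fun x => Nat.pair (3 + k x)
    (Nat.pair (i x) (Nat.pair (l x) (Nat.pair 0 0 + 1) + 1) + 1) + 1 + 5
  fun_prop

theorem rq_aN {σ n : X → ℕ} {z : (x : X) → Vec (σ x)} {q : X → ℕ → ℕ} (hn : PU n)
    (hz : PT fun x => toN (z x)) (hq : PT fun p : X × ℕ => q p.1 p.2) :
    PT fun x => aN (q x) (n x) (z x) :=
  pt_ofBits (f := fun x s => decide (fld (z x) (q x s) 1 = 1)) hn
    (pt_decEq (pt_fld (σ := fun p : X × ℕ => σ p.1) (z := fun p => z p.1) (hz.comp PT.fst') hq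
      (PT.const 1)) (PT.const 1))

theorem rq_dig {a i : X → ℕ} (ha : PT a) (hi : PT i) : PT fun x => a x / 32 ^ i x % 32 :=
  (pt_mod (bp_div_pow ha ((PT.const 5).mul hi)) (PT.const 32)).congr fun x => by
    rw [pow_mul]
    rfl

theorem rq_mem {m : X → ℕ} {l : X → List ℕ} (hm : PT m) (hl : PT l) :
    PT fun x => decide (m x ∈ l x) :=
  (PT.any (f := fun x y => decide (y = m x)) (pt_decEq PT.snd' (hm.comp PT.fst')) hl).congr
    fun x => by
      rw [Bool.eq_iff_iff]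
      simp

/-- the standing assumptions. -/
structure RQ (κ : ℕ) (G : X → QI 2) (c : X → ℕ) : Prop where
  hG : PT G
  R : RP κ (fun x => (G x).toInst) c

/-- the layout. -/
abbrev loQ (κ ck : ℕ) (G : X → QI 2) (c : X → ℕ) (x : X) : Lo := ⟨κ, c x, ck, (G x).τ⟩

namespace RQ

variable {κ : ℕ} (ck : ℕ) {G : X → QI 2} {c : X → ℕ} (Q : RQ κ G c)
include Q

theorem comp {Y : Type} [Enc Y] {j : Y → X} (hj : PT j) :
    RQ κ (fun y => G (j y)) fun y => c (j y) := ⟨Q.hG.comp hj, Q.R.comp hj⟩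

theorem pu5 : PU fun x => (loQ κ ck G c x).n / 5 :=
  PU.of_le (Q.R.pun ck) (PT.div (Q.R.pun ck).pt (PT.const 5)) fun _ => Nat.div_le_self _ _

theorem ow {t a : X → ℕ} (ht : PT t) (ha : PT a) :
    PT fun x => ow (loQ κ ck G c x) (t x) (a x) :=
  pt_ltr (pt_mod ht (PT.const 2)) (Q.pu5 ck) ha

theorem lab {ξ : (x : X) → (G x).o.V} {a m : X → ℕ} (hξ : PT fun x => (ξ x : ℕ)) (ha : PT a)
    (hm : PT m) (i : Fin 4) :
    PT fun x => decide (anfc ((G x).lb ((G x).o.wd (P330O.ow (loQ κ ck G c x) (fld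
      (unidx ((G x).b + 2) (G x).β (loQ κ ck G c x).σ (m x)).2 (loQ κ ck G c x).pt (G x).τ) (a x))
        (ξ x)) (fld
      (unidx ((G x).b + 2) (G x).β (loQ κ ck G c x).σ (m x)).2 (loQ κ ck G c x).pt (G x).τ)
      (fstB (pullB (actB (G x).gens) (fun _ _ => false) (ofN (loQ κ ck G c x).n (a x))
      (addL (G x).b id (loQ κ ck G c x).n)
      (unidx ((G x).b + 2) (G x).β (loQ κ ck G c x).σ (m x)).1), 0)) i = 1) := by
  have R := Q.R
  have ht := pt_fld (R.small ck hm) (R.ppt ck) (pu_τ R.hG).pt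
  have hd := rp_dig (R.pull ck ha hm) (R.puσ ck).pt ((pu_b R.hG).mul (pu_β R.hG))
  have hl := pt_lb Q.hG (a := fun x => (_, unidx (G x).b (G x).β (G x).σ _)) ht (fun _ => fld_lt)
    (pt_wd (pt_o Q.hG) (Q.ow ck ht ha) hξ) (hd.congr fun x => idx_unidx (by
      rw [R.hσ x, Nat.zero_add]
      exact Nat.mod_lt _ (by positivity)))
  refine (pt_ofFin (fun f => decide (anfc f i = 1)) hl).congr fun x => ?_
  dsimp only
  rw [rp_fst (R.hσ x)]
  rfl

theorem cfx {ξ : (x : X) → (G x).o.V} {m : X → ℕ} (hξ : PT fun x => (ξ x : ℕ)) (hm : PT m)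
    (i : Fin 4) :
    PT fun x => decide (cfx (G x) (loQ κ ck G c x)
      (ξ x, (unidx ((G x).b + 2) (G x).β (loQ κ ck G c x).σ (m x)).1) i
      (unidx ((G x).b + 2) (G x).β (loQ κ ck G c x).σ (m x)).2 = 1) := by
  have R := Q.R
  have Q1 := Q.comp (PT.fst' (β := ℕ))
  have R1 := Q1.R
  have R2 := R1.comp (PT.fst' (β := ℕ))
  have h1 := pt_decEq (pt_fld (R2.small ck (hm.comp PT.fst'.fst))
    ((R2.ppA ck PT.snd').add (RP.dig ck (G := fun y : (X × ℕ) × ℕ => (G y.1.1).toInst)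
      (c := fun y => c y.1.1) (κ := κ) PT.fst'.snd PT.snd')) (PT.const 1)) (PT.const 1)
  have h2 := PT.all (f := fun (p : X × ℕ) (d : ℕ) => decide (fld
    (unidx ((G p.1).b + 2) (G p.1).β (loQ κ ck G c p.1).σ (m p.1)).2 ((loQ κ ck G c p.1).pA d +
      p.2 / (loQ κ ck G c p.1).k ^ d % (loQ κ ck G c p.1).k) 1 = 1)) h1 R1.puc.range
  have h3 := h2.and (Q1.lab ck (ξ := fun p => ξ p.1) (hξ.comp PT.fst') PT.snd' (hm.comp PT.fst') i)
  refine (rp_countP (R.pu2n ck) h3).bodd.congr fun x => ip_dec ?_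
  rw [← ip_parity, P330O.cfx]
  refine sum_congr rfl fun a ha => ?_
  rw [rp_prod _ fun _ => fld_lt, rp_and]
  generalize (unidx ((G x).b + 2) (G x).β (loQ κ ck G c x).σ (m x)).1 = y
  conv_rhs => rw [← join_fst_snd y, R.pull_eq ck x (mem_range.1 ha), fstB_join]
  rfl

theorem newT {z : (x : X) → Vec (loQ κ ck G c x).σ} (hz : PT fun x => toN (z x)) :
    PT fun x => newT (G x) (loQ κ ck G c x) (z x) := by
  have R := Q.R
  have R1 := R.comp (PT.fst' (β := ℕ))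
  have ht := pt_fld hz (R.ppt ck) (pu_τ R.hG).pt
  have hi := pt_decEq (pt_fld hz (R.ppG ck) (PT.const 1)) (PT.const 1)
  have hx : PT fun x => min ((G x).xo (fld (z x) (loQ κ ck G c x).pt (G x).τ)
      ((loQ κ ck G c x).gi (z x))) 64 :=
    (pt_ite hi (pt_xo Q.hG ht (fun _ => fld_lt) 1) (pt_xo Q.hG ht (fun _ => fld_lt) 0)).congr
      fun x => by rw [Lo.gi, apply_ite ((G x).xo _), apply_ite (min · 64)]
  have d1 : PT fun p : X × ℕ => p.2 / κ := PT.div PT.snd' (PT.const κ)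
  have d2 : PT fun p : X × ℕ => p.2 % κ := pt_mod PT.snd' (PT.const κ)
  have hA := rq_aN (q := fun x => (loQ κ ck G c x).qA) (R.pun ck) hz ((R1.ppA ck d1).add d2)
  have hE := rq_aN (q := fun x => (loQ κ ck G c x).qE) (R.pun ck) hz
    (((R1.ppA ck R1.hc).add (d1.mul (PT.const (2 ^ κ)))).add d2)
  have ht' := ht.comp (PT.fst' (β := ℕ))
  have k0 := rq_cd (PT.const 0) PT.snd' (((PT.const 2).mul (rq_dig (hA.comp PT.fst')
    PT.snd')).add (pt_mod ht' (PT.const 2)))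
  have k1 := rq_cd (PT.const 1) PT.snd' (((PT.const 2).mul (rq_dig (hE.comp PT.fst')
    PT.snd')).add (pt_mod (ht'.add (PT.const 1)) (PT.const 2)))
  exact ((PT.map (f := fun x i => cd 0 i (2 * (aN (loQ κ ck G c x).qA (loQ κ ck G c x).n (z x) /
      32 ^ i % 32) + fld (z x) (loQ κ ck G c x).pt (G x).τ % 2)) k0 (Q.pu5 ck).range).append
    (PT.map (f := fun x i => cd 1 i (2 * (aN (loQ κ ck G c x).qE (loQ κ ck G c x).n (z x) /
      32 ^ i % 32) + (fld (z x) (loQ κ ck G c x).pt (G x).τ + 1) % 2)) k1 (Q.pu5 ck).range)).append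
    ((rq_cd ((PT.const 2).add (pt_mod (hx.add ht) (PT.const 2))) (PT.const 0) hx).cons
      (PT.const []))

theorem orcR {ξ : (x : X) → (G x).o.V} {m n : X → ℕ} (hξ : PT fun x => (ξ x : ℕ)) (hm : PT m)
    (hn : PT n) :
    PT fun x => orcR (G x) (loQ κ ck G c x)
      (ξ x, (unidx ((G x).b + 2) (G x).β (loQ κ ck G c x).σ (m x)).1) (n x)
      (unidx ((G x).b + 2) (G x).β (loQ κ ck G c x).σ (m x)).2 := by
  have h1 := pt_cases (k := fun x => Fin.ofNat 4 (n x))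
    (fun a => (pt_decEq (pt_mod hn (PT.const 4)) (PT.const (a : ℕ))).congr fun x =>
      decide_eq_decide.2 Fin.ext_iff) fun i => Q.cfx ck hξ hm i
  have hz := Q.R.small ck hm
  refine (pt_ite (pt_decLt hn (PT.const 4)) h1
    ((Q.R.orc0 ck hz hn).or (rq_mem hn (Q.newT ck hz)))).congr fun p => ?_
  rw [P330O.orcR]
  split_ifs with h
  · rw [show Fin.ofNat 4 (n p) = ⟨n p, h⟩ from Fin.ext (Nat.mod_eq_of_lt h)]
  · rfl

theorem ok (x : X) (t : ℕ) :
    ((prog (loQ κ ck G c x) (G x).b).getD t idleI).ok κ (loQ κ ck G c x).σ := by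
  rcases lt_or_ge t (prog (loQ κ ck G c x) (G x).b).length with h | h
  · rw [List.getD_eq_getElem _ _ h]
    exact prog_ok (loQ κ ck G c x) Q.R.hκ (Q.R.h1 x) (G x).b _ (List.getElem_mem h)
  · rw [List.getD_eq_default _ _ h]
    refine ⟨?_, Or.inl rfl, Or.inl rfl, Nat.zero_le _, Nat.zero_le _, Or.inl le_rfl,
      Nat.zero_le _⟩
    simp only [Lo.σ, Lo.pt, Lo.pE, Lo.pA, Lo.pP, Lo.pR, Lo.pT, Lo.pK, Lo.pG, Lo.pV]
    omega

theorem ins {t : X → ℕ} (ht : PT t) :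
    PT fun x => (prog (loQ κ ck G c x) (G x).b).getD (t x) idleI :=
  PT.getD (pt_prog κ ck Q.R.puc (pu_τ Q.R.hG) (pu_b Q.R.hG)) ht (PT.const idleI)

theorem xo {t : X → ℕ} (ht : PT t) (i : Fin (WW κ)) :
    PT fun x => min ((roundI (G x) (loQ κ ck G c x)).xo (t x) i) 64 :=
  pt_min (rq_xoOf ((pu_b Q.R.hG).pt.add (PT.const 2))
    (bp_op (Q.R.puσ ck) (Q.ins ck ht) (fun x => Q.ok ck x _) i)) (PT.const 64)

theorem lb {t n m : X → ℕ} (ht : PT t) (hn : PT n) (hm : PT m) :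
    PT fun x => (⟨(roundI (G x) (loQ κ ck G c x)).lb ((G x).o.vx (n x)) (t x)
      (unidx ((G x).b + 2) (G x).β (loQ κ ck G c x).σ (m x))⟩ :
        Code ((Fin (WW κ) → Bool) → Bool)) := by
  have Q1 := Q.comp (PT.fst' (β := ℕ))
  have j := Q1.orcR ck (pt_vx (pt_o Q1.hG) (hn.comp PT.fst')) (hm.comp PT.fst') PT.snd'
  exact bp_lab κ (σ := fun x => (loQ κ ck G c x).σ)
    (z := fun x => (unidx ((G x).b + 2) (G x).β _ (m x)).2)
    (orc := fun x => P330O.orcR (G x) (loQ κ ck G c x) ((G x).o.vx (n x),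
      (unidx ((G x).b + 2) (G x).β (loQ κ ck G c x).σ (m x)).1))
    (Q.R.small ck hm) (Q.ins ck ht) (fun x => Q.ok ck x _) j

theorem round : PT (β := QI (WW κ)) fun x => roundI (G x) (loQ κ ck G c x) := by
  have R := Q.R
  have hO := pt_o Q.hG
  refine pt_qi (R.inst ck (orc := fun _ _ _ _ => false)
    (pt_prog κ ck R.puc (pu_τ R.hG) (pu_b R.hG))
    (fun x => prog_ok (loQ κ ck G c x) R.hκ (R.h1 x) (G x).b) (PT.const false)) hO (fun i => ?_) ?_
  · have v := pt_val (PT.id (α := {p : X × ℕ // p.2 < 2 ^ (roundI (G p.1) (loQ κ ck G c p.1)).τ}))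
    exact (Q.comp v.fst).xo ck v.snd i
  · have v := pt_val (PT.id (α := {p : X × ℕ × ℕ × ℕ //
      p.2.1 < 2 ^ (roundI (G p.1) (loQ κ ck G c p.1)).τ ∧
        p.2.2.2 < (roundI (G p.1) (loQ κ ck G c p.1)).n0}))
    exact (Q.comp v.fst).lb ck v.snd.fst v.snd.snd.fst v.snd.snd.snd

theorem cls {ξ : (x : X) → (G x).o.V} {s : X → List ℕ} {N t my : X → ℕ}
    (hξ : PT fun x => (ξ x : ℕ)) (hs : PT s) (hN : PT N) (ht : PT t) (hy : PT my)
    (h : ∀ x, my x < (G x).n0) :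
    PT fun x => (cls (fr (G x) (loQ κ ck G c x)
      (fun y z => Fin.ofNat 4 ((s x).getD (y.1 * N x + idx (y.2, z)) 0)) (t x)
      (ξ x, (unidx (G x).b (G x).β (G x).σ (my x)).1)) : ℕ) := by
  have R := Q.R
  have j : PT fun q : ((X × ℕ) × ℕ) × ℕ => q.1.1.1 := PT.fst'.fst.fst
  have R3 := R.comp j
  have hw := pt_wd ((pt_o Q.hG).comp j) ((Q.comp j).ow ck (ht.comp j) PT.fst'.snd).reverse
    (ξ := fun q => ξ q.1.1.1) (hξ.comp j)
  have hT := pt_run (R3.dec ck) (pt_dprog κ ck R3.puc (pu_τ R3.hG)).length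
    (fun x => (Nat.lt_size_self _).le) (PT.drop (hw.mul (hN.comp j)) (hs.comp j))
  have h1 := pt_decEq (PT.getD hT (R3.addr ck (ht.comp j) PT.snd' PT.fst'.snd
    (hy.comp j) PT.fst'.fst.snd fun _ => h _) (PT.const 0)) (PT.const 3)
  have uP : PU fun x => 2 ^ (2 * (loQ κ ck G c x).n) :=
    PU.of_le ((R.pu2n ck).pow 2) (pt_two_pow ((PU.const 2).mul (R.pun ck))) fun x => by
      rw [mul_comm, pow_mul]
  have uJ : PU fun x => 2 ^ (0 + 2 * (G x).β) :=
    PU.of_le (R.pu2β.pow 2) (pt_two_pow ((PU.const 0).add ((PU.const 2).mul (pu_β R.hG))))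
      fun x => by rw [Nat.zero_add, mul_comm, pow_mul]
  have h2 := rp_sum (uP.comp PT.fst'.fst) (PT.cond h1 (PT.const 1) (PT.const 0))
  have h3 := rp_sum ((R.pu2n ck).comp PT.fst') h2
  have h4 := rp_sum uJ h3
  have hM := (uJ.pt.mul (R.pu2n ck).pt).mul uP.pt
  refine (pt_ite (pt_decLe ((PT.const 10).mul h4) ((PT.const 3).mul hM)) (PT.const 0)
    (pt_ite (pt_decLt ((PT.const 2).mul h4) hM) (PT.const 1)
      (pt_ite (pt_decLt ((PT.const 10).mul h4) ((PT.const 7).mul hM)) (PT.const 2)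
        (PT.const 3)))).congr fun x => ?_
  refine Eq.trans (congrArg (fun y => (Amp.cls y : ℕ)) ?_) (rp_cls _ _ (by positivity))
  rw [fr, rp_big]
  refine (rp_count _ _ _ fun j e p => opin (G x) (loQ κ ck G c x)
    (fun y z => Fin.ofNat 4 ((s x).getD (y.1 * N x + idx (y.2, z)) 0))
    (grp (G x) (loQ κ ck G c x) (t x) (ξ x, (unidx (G x).b (G x).β (G x).σ (my x)).1)
      (unidx 2 (G x).β 0 j).1 e) ((loQ κ ck G c x).hpt (t x) p e)).trans ?_
  refine congrArg (fun y : ℕ => (y : ℝ) / _) (sum_congr rfl fun j _ => sum_congr rfl fun e he =>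
    sum_congr rfl fun p _ => ?_)
  dsimp only
  rw [R.pull_eq ck x (mem_range.1 he), ← RP.opin_eq]
  refine congrArg (fun y => bif Amp.opin _ _ y _ then 1 else 0) (funext fun a => ?_)
  rw [List.getD_eq_getElem?_getD, List.getElem?_drop, ← List.getD_eq_getElem?_getD]
  rfl

end RQ

end aux

variable {X : Type} [Enc X] (κ ck : ℕ) (hκ : 6 ≤ κ) {G : X → QI 2} {c : X → ℕ} (hG : PT G) (hc : PT c)
  (hg : ∀ x, (G x).toInst.Good) (hσ : ∀ x, (G x).σ = 0) (hb : ∀ x, 1 ≤ (G x).b) (h1 : ∀ x, 1 ≤ c x)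
  (h2 : ∀ x, c x ≤ (G x).β)
include hκ hG hc hg hσ hb h1 h2

theorem pt_roundI : PT (β := QI (WW κ)) fun x => roundI (G x) ⟨κ, c x, ck, (G x).τ⟩ := by
  exact RQ.round ck ⟨hG, hκ, pt_toInst hG, hc, hg, hσ, hb, h1, h2⟩

theorem pt_decA : PT fun p : X × Asg => (G p.1).mkAsg (decA (G p.1) ⟨κ, c p.1, ck, (G p.1).τ⟩
    ((roundI (G p.1) ⟨κ, c p.1, ck, (G p.1).τ⟩).val p.2)) := by
  have Q : RQ κ G c := ⟨hG, hκ, pt_toInst hG, hc, hg, hσ, hb, h1, h2⟩
  refine pt_mkAsgQ (hG.comp PT.fst') ?_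
  have j : PT fun q : {p : (X × Asg) × ℕ × ℕ × ℕ //
      p.2.1 < 2 ^ (G p.1.1).τ ∧ p.2.2.2 < (G p.1.1).n0} => q.1 := pt_val PT.id
  have Q1 := Q.comp j.fst.fst
  have hR := Q1.round ck
  have hI := pt_toInst hR
  refine (Q1.cls ck (pt_vx (pt_o Q1.hG) j.snd.snd.fst)
    (PT.drop (((pu_T hI).pt.sub (PT.const 1)).mul (qu_nA hR).pt) j.fst.snd) (pu_nA hI).pt
    j.snd.fst j.snd.snd.snd fun q => q.2.2).congr fun q => ?_
  refine congrArg (fun y => (cls (fr _ _ y _ _) : ℕ)) (funext fun a => funext fun z => ?_)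
  rw [List.getD_eq_getElem?_getD, List.getElem?_drop, ← List.getD_eq_getElem?_getD]
  rfl

end Vale.Agent.P330O
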