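import Vale.Agent.P330Q.OInstB
import Vale.Agent.P330.Unit

/-! The product sampler (task OUnit); compare `P330/Unit.lean`.
Plan. `T (ξ, y) = 𝔼 j a, φ (B a ξ, y + Lv a j) j` with bijections `B a = wd (ltr s (m / 5) a).reverse`. Fourier
expansion in `y` for every `ξ`: the coefficient of `T` at `χ` is `𝔼 a, c χ a (B a ξ)`, `c χ a ξ = 𝔼 j, φhat χ ξ j *
character (form χ a) j`. For `χ ≠ 0`: Jensen in `a`, `expect_wd`, then `𝔼 a, (c χ a ξ) ^ 2 ≤ b / 2 ^ m * 𝔼 j, φhat χ ξ j ^ 2`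
(`UnitA.expect_psi_sq`, `card_form_le`). For `χ = 0`: `𝔼 a, f (B a ξ)` with `f ξ = 𝔼 y j, φ (ξ, y) j`; the digits of a
uniform `a < 2 ^ m` in base 32 are independent and uniform (induction on the number `n` of letters with
`5 n ≤ m`: `a = d + 32 a'`), every letter contracts the variance by `1 - 1 / g` (`Good.gap`, the mean is kept by
`expect_mv`). So `𝔼 (T - μ) ^ 2 ≤ (b / 2 ^ m + (1 - 1 / g) ^ (m / 5)) * 𝔼 φ ^ 2 ≤ (..) * μ` (Parseval); Chebyshev (`UnitA.cheb`). -/

namespace Vale.Agent.P330O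

open Vale.Agent.Lib.H23 Vale.Agent.P333 Vale.Agent.P325 Vale.Agent.P330 Vale.Agent.P330.Amp
open Finset Matrix
open scoped BigOperators

namespace OU

theorem ltr_succ (s n a : ℕ) : ltr s (n + 1) a = (2 * (a % 32) + s) :: ltr s n (a / 32) := by
  unfold ltr side
  rw [List.range_succ_eq_map, List.map_cons, List.map_cons, List.map_map, List.map_map,
    List.map_map]
  congr 1
  · simp
  · refine List.map_congr_left fun i _ => ?_
    simp only [Function.comp_apply, Nat.succ_eq_add_one]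
    rw [pow_succ', Nat.div_div_eq_div_mul]

theorem expect_fin_mul (M : ℕ) (F : ℕ → ℝ) :
    (𝔼 a : Fin (M * 32), F a) = 𝔼 d : Fin 32, 𝔼 a : Fin M, F (d + 32 * a) := by
  rw [expect_comm, ← expect_product' univ univ fun (a : Fin M) (d : Fin 32) => F (d + 32 * a),
    univ_product_univ]
  exact (Fintype.expect_equiv finProdFinEquiv _ _ fun x => rfl).symm

theorem sq_expect_le {ι : Type*} [Fintype ι] [Nonempty ι] (F : ι → ℝ) :
    (𝔼 a, F a) ^ 2 ≤ 𝔼 a, F a ^ 2 := by
  have := expect_mul_sq_le_sq_mul_sq univ F fun _ => (1 : ℝ)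
  simpa using this

theorem contr {O : Outer} {g s : ℕ} (hg : 1 ≤ g) (h : O.Good g) (hs : s < 2) (f : O.V → ℝ)
    (hf : (𝔼 ξ, f ξ) = 0) (n : ℕ) : ∀ M : ℕ, 0 < M → 32 ^ n ∣ M →
    (𝔼 ξ, (𝔼 a : Fin M, f (O.wd (ltr s n a).reverse ξ)) ^ 2) ≤ (1 - 1 / g) ^ n * 𝔼 ξ, f ξ ^ 2 := by
  have h0 : (0 : ℝ) ≤ 1 - 1 / g := by
    rw [sub_nonneg, div_le_one (by exact_mod_cast hg)]
    exact_mod_cast hg
  induction n with
  | zero =>
    intro M hM _
    have : Nonempty (Fin M) := ⟨⟨0, hM⟩⟩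
    simp [ltr, side, Outer.wd_nil]
  | succ n ih =>
    intro M hM hd
    obtain ⟨k, rfl⟩ := hd
    have e : 32 ^ (n + 1) * k = 32 ^ n * k * 32 := by ring
    have hk : 0 < 32 ^ n * k := by rw [e] at hM; omega
    have hd : 32 ^ n ∣ 32 ^ n * k := Dvd.intro _ rfl
    rw [e]
    generalize 32 ^ n * k = M at hk hd
    have e2 : ∀ ξ, (𝔼 a : Fin (M * 32), f (O.wd (ltr s (n + 1) a).reverse ξ))
        = 𝔼 d : Fin 32, 𝔼 a : Fin M, f (O.wd (ltr s n a).reverse (O.mv (2 * d + s) ξ)) := by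
      intro ξ
      rw [expect_fin_mul M fun a => f (O.wd (ltr s (n + 1) a).reverse ξ)]
      refine expect_congr rfl fun d _ => expect_congr rfl fun a _ => ?_
      have h1 : ((d : ℕ) + 32 * a) % 32 = d := by omega
      have h2 : ((d : ℕ) + 32 * a) / 32 = a := by omega
      rw [ltr_succ, h1, h2, List.reverse_cons, Outer.wd_append, Outer.wd_cons, Outer.wd_nil]
    simp only [e2]
    refine (h.gap s hs (fun ξ => 𝔼 a : Fin M, f (O.wd (ltr s n a).reverse ξ)) ?_).trans ?_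
    · rw [expect_comm]
      simp only [h.expect_wd _ f, hf]
      exact expect_const_zero _
    · rw [pow_succ', mul_assoc]
      exact mul_le_mul_of_nonneg_left (ih M hk hd) h0

theorem sum_comp_le {ι κ : Type*} [Fintype ι] [Fintype κ] [DecidableEq κ] (F : ι → κ) {b : ℕ}
    (h : ∀ c, (univ.filter fun a => F a = c).card ≤ b) (u : κ → ℝ) (hu : ∀ c, 0 ≤ u c) :
    ∑ a, u (F a) ≤ b * ∑ c, u c := by
  rw [← sum_fiberwise univ F fun a => u (F a), mul_sum]
  refine sum_le_sum fun c _ => ?_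
  rw [sum_congr rfl fun a ha => congrArg u (mem_filter.1 ha).2, sum_const, nsmul_eq_mul]
  exact mul_le_mul_of_nonneg_right (by exact_mod_cast h c) (hu c)

open UnitA in
theorem coef_le {b β m : ℕ} {A : Mat β} (hu : ∀ a, 0 < a → a < 2 ^ m → IsUnit (alpha A m a))
    {χ : Big b β} (hχ : χ ≠ 0) (u : Vec β → ℝ) :
    (𝔼 a : Fin (2 ^ m), hatB dotProduct u (form A m χ a) ^ 2) ≤ (b : ℝ) / 2 ^ m * 𝔼 j, u j ^ 2 := by
  classical
  rw [← perf_dot.parseval u, expect_eq_sum_div_card, card_univ, Fintype.card_fin,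
    div_mul_eq_mul_div]
  push_cast
  refine div_le_div_of_nonneg_right ?_ (by positivity)
  refine sum_comp_le (fun a : Fin (2 ^ m) => form A m χ a) (fun c => ?_)
    (fun c => hatB dotProduct u c ^ 2) fun _ => sq_nonneg _
  convert card_form_le hu hχ c

theorem var_eq {W V : Type*} [AddCommGroup W] [AddCommGroup V] [Fintype W] [Fintype V]
    [DecidableEq W] {p : W → V → ZMod 2} (h : Perf p) (S : V → ℝ) (μ : ℝ) :
    (𝔼 y, (S y - μ) ^ 2) = ((𝔼 z, S z) - μ) ^ 2 + ∑ χ ∈ univ.erase 0, hatB p S χ ^ 2 := by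
  have : Nonempty V := ⟨0⟩
  rw [← UnitA.var_eq_sum h]
  simp only [sub_sq, expect_add_distrib, expect_sub_distrib, ← expect_mul, ← mul_expect,
    Fintype.expect_const]
  ring

end OU

open UnitA OU in
theorem unit {g : ℕ} (hg : 1 ≤ g) : UnitQ g := by
  intro O hO s hs b β m A hu φ hφ r hr hμ
  classical
  have hpair : ∀ F : O.V × Big b β → ℝ, (𝔼 x, F x) = 𝔼 ξ, 𝔼 y, F (ξ, y) := fun F => by
    rw [← expect_product' univ univ fun ξ a => F (ξ, a), univ_product_univ]
  have h0 : (0 : ℝ) ≤ 1 - 1 / g := by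
    rw [sub_nonneg, div_le_one (by exact_mod_cast hg)]
    exact_mod_cast hg
  set μ := 𝔼 x, 𝔼 j, φ x j with hμdef
  set B : ℕ → O.V → O.V := fun a => O.wd (ltr s (m / 5) a).reverse with hB
  set T : O.V × Big b β → ℝ := fun y =>
    𝔼 j, 𝔼 a : Fin (2 ^ m), φ (B a y.1, y.2 + Lv b A m a j) j with hT
  set f : O.V → ℝ := fun ξ => 𝔼 y, 𝔼 j, φ (ξ, y) j with hf
  have hfμ : (𝔼 ξ, f ξ) = μ := (hpair fun x => 𝔼 j, φ x j).symm
  have hmean : ∀ ξ, (𝔼 y, T (ξ, y)) - μ = 𝔼 a : Fin (2 ^ m), (f (B a ξ) - μ) := by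
    intro ξ
    rw [expect_sub_distrib, Fintype.expect_const]
    congr 1
    simp only [hT, hf]
    calc (𝔼 y, 𝔼 j, 𝔼 a : Fin (2 ^ m), φ (B a ξ, y + Lv b A m a j) j)
        = 𝔼 j, 𝔼 a : Fin (2 ^ m), 𝔼 y, φ (B a ξ, y + Lv b A m a j) j := by
          rw [expect_comm]
          exact expect_congr rfl fun j _ => expect_comm _ _ _
      _ = 𝔼 j, 𝔼 a : Fin (2 ^ m), 𝔼 y, φ (B a ξ, y) j :=
          expect_congr rfl fun j _ => expect_congr rfl fun a _ =>
            expect_add_right' (fun y => φ (B a ξ, y) j) _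
      _ = _ := by
          rw [expect_comm]
          exact expect_congr rfl fun a _ => expect_comm _ _ _
  have hhat : ∀ ξ χ, hatB bb (fun y => T (ξ, y)) χ = 𝔼 a : Fin (2 ^ m),
      hatB dotProduct (fun j => hatB bb (fun y => φ (B a ξ, y) j) χ) (form A m χ a) := by
    intro ξ χ
    have e : ∀ a : Fin (2 ^ m),
        hatB dotProduct (fun j => hatB bb (fun y => φ (B a ξ, y) j) χ) (form A m χ a)
        = 𝔼 j, 𝔼 y, φ (B a ξ, y + Lv b A m a j) j * chi (bb χ y) := fun a =>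
      expect_congr rfl fun j _ => by
        rw [← bb_Lv, ← perf_bb.hatB_shift]
        rfl
    simp only [e]
    simp only [hatB, hT, expect_mul]
    rw [expect_comm, expect_comm univ univ fun (a : Fin (2 ^ m)) j =>
      𝔼 y, φ (B a ξ, y + Lv b A m a j) j * chi (bb χ y)]
    exact expect_congr rfl fun j _ => expect_comm _ _ _
  have h1 : (𝔼 ξ, ((𝔼 y, T (ξ, y)) - μ) ^ 2) ≤ (1 - 1 / g) ^ (m / 5) * μ := by
    simp only [hmean]
    have hd : 32 ^ (m / 5) ∣ 2 ^ m := by
      rw [show 32 = 2 ^ 5 from rfl, ← pow_mul]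
      exact pow_dvd_pow _ (Nat.mul_div_le _ _)
    refine (contr hg hO hs (fun ξ => f ξ - μ)
      (by rw [expect_sub_distrib, Fintype.expect_const, hfμ, sub_self]) (m / 5) (2 ^ m)
      (by positivity) hd).trans (mul_le_mul_of_nonneg_left ?_ (pow_nonneg h0 _))
    have h2 : (𝔼 ξ, f ξ ^ 2) ≤ μ := by
      rw [← hfμ]
      refine expect_le_expect fun ξ _ => ?_
      have h3 : 0 ≤ f ξ := expect_nonneg fun _ _ => expect_nonneg fun _ _ => (hφ _ _).1
      have h4 : f ξ ≤ 1 :=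
        expect_le univ_nonempty fun _ _ => expect_le univ_nonempty fun _ _ => (hφ _ _).2
      nlinarith
    simp only [sub_sq, expect_add_distrib, expect_sub_distrib, ← expect_mul, ← mul_expect,
      Fintype.expect_const, hfμ]
    nlinarith [sq_nonneg μ]
  have h2 : (𝔼 ξ, ∑ χ ∈ univ.erase 0, hatB bb (fun y => T (ξ, y)) χ ^ 2) ≤ (b : ℝ) / 2 ^ m * μ := by
    rw [expect_sum_comm]
    calc ∑ χ ∈ univ.erase 0, 𝔼 ξ, hatB bb (fun y => T (ξ, y)) χ ^ 2
        ≤ ∑ χ ∈ univ.erase 0, (b : ℝ) / 2 ^ m *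
            𝔼 ξ, 𝔼 j, hatB bb (fun y => φ (ξ, y) j) χ ^ 2 := by
          refine sum_le_sum fun χ hχ => ?_
          simp only [hhat]
          refine (expect_le_expect fun ξ _ => sq_expect_le _).trans ?_
          rw [expect_comm]
          have e : ∀ a : Fin (2 ^ m), (𝔼 ξ,
              hatB dotProduct (fun j => hatB bb (fun y => φ (B a ξ, y) j) χ) (form A m χ a) ^ 2)
              = 𝔼 ξ, hatB dotProduct (fun j => hatB bb (fun y => φ (ξ, y) j) χ)
                (form A m χ a) ^ 2 := fun a => hO.expect_wd _ fun ξ =>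
            hatB dotProduct (fun j => hatB bb (fun y => φ (ξ, y) j) χ) (form A m χ a) ^ 2
          simp only [e]
          rw [expect_comm, mul_expect]
          exact expect_le_expect fun ξ _ => coef_le hu (ne_of_mem_erase hχ) _
      _ ≤ ∑ χ, (b : ℝ) / 2 ^ m * 𝔼 ξ, 𝔼 j, hatB bb (fun y => φ (ξ, y) j) χ ^ 2 :=
          sum_le_sum_of_subset_of_nonneg (erase_subset _ _) fun χ _ _ =>
            mul_nonneg (by positivity)
              (expect_nonneg fun _ _ => expect_nonneg fun _ _ => sq_nonneg _)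
      _ = (b : ℝ) / 2 ^ m * 𝔼 ξ, 𝔼 j, 𝔼 y, φ (ξ, y) j ^ 2 := by
          rw [← mul_sum, ← expect_sum_comm]
          simp only [← expect_sum_comm, perf_bb.parseval]
      _ ≤ _ := by
          refine mul_le_mul_of_nonneg_left ?_ (by positivity)
          rw [← hfμ]
          refine expect_le_expect fun ξ _ => ?_
          rw [expect_comm]
          refine expect_le_expect fun x _ => expect_le_expect fun j _ => ?_
          have := hφ (ξ, x) j
          nlinarith [this.1, this.2]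
  have hvar : (𝔼 y, (T y - μ) ^ 2) ≤ ((b : ℝ) / 2 ^ m + (1 - 1 / g) ^ (m / 5)) * μ := by
    rw [hpair]
    simp only [var_eq perf_bb (fun y => T (_, y)) μ, expect_add_distrib]
    linarith
  have h := cheb (fun y => T y - μ) (fun y => r ≤ T y) (half_pos hr)
    (fun y hy => le_trans (by linarith) (le_abs_self _))
  refine h.trans ((div_le_div_of_nonneg_right hvar (by positivity)).trans (le_of_eq ?_))
  field_simp
  norm_num

end Vale.Agent.P330O
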