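import Vale.Agent.P330Q.OTop
import Vale.Agent.P330Q.OOuter
import Vale.Agent.P330Q.OEmbPT
import Vale.Agent.P330Q.OIter
import Vale.Agent.P330Q.OInit
import Vale.Agent.P330Q.OAbsMrg
import Vale.Agent.P330Q.OCompile
import Vale.Agent.P330Q.ORound
import Vale.Agent.P330Q.OUnit
import Vale.Agent.P330.Exp

/-! Half (b) of the quasi-linear form. -/

namespace Vale.Agent.P330O

theorem ampQ_holds : Vale.Agent.P330Q.AmpQ :=
  ampQ outer emb (fun g hg => iter (init g) (absorb g) (merge g) (compile g)
    (round hg Vale.Agent.P330.Amp.expander (unit hg))) out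

end Vale.Agent.P330O
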