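import Vale.Agent.P330Q.OGen
import Vale.Agent.P330.Exp

/-! The spectral gap of `SL3 (F2[t] / t ^ (l + 1))` (task OGap), after Shalom and Kassabov; compare `P330/Exp.lean`.
Plan. Write `N f = 𝔼 x, f x ^ 2`, `ε s = 𝔼 x, (f x - f (s * x)) ^ 2`, `E = 7 * ∑ i < 12, ε (gen i)`. Fix distinct `a b c`. For
`u : Big 2 (l + 1)` let `U u = el a c (io (u 0)) * el b c (io (u 1))` (additive in `u`: these matrices commute). For a
character `χ : Big 2 (l + 1)` let `P χ f x = hatB bb (fun u => f (U u * x)) χ` and `F χ = sqrt (N (P χ f))` for `χ ≠ 0`,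
`F 0 = 0`. Parseval in `u` for every `x`: `∑ χ, N (P χ f) = N f`. For `s = el a b r` (`r = 1` or `t`, the matrix `g = 1` or `shf l`):
`s * U u * s = U (actB gens (.E 0 1 ρ) u)` (`el_comm`, `io_shf`), hence `N (P (dE 0 1 g χ) (f ∘ s)) = N (P χ f)` up to the
side of `dE` (it is an involution that fixes `0`), and `|F χ - F (dE χ)| ≤ sqrt (N (P χ (f - f ∘ s)))` (triangle inequality), so
`∑ χ, (F χ - F (dE χ)) ^ 2 ≤ ε s`. For the translations `U (single k (ofN 1))` = `el a c 1`, `el b c 1`: `P χ (f - f ∘ s) = 2 P χ f` if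
`χ k ⬝ᵥ ofN 1 ≠ 0`, so `P F sD ≤ E`. `ExpA.core` with `spans`: `∑ χ ≠ 0, N (P χ f) ≤ 106 E`, so `ε (U u) ≤ 4 * 106 E` for all
`u`, i.e. for all elementary matrices (`io_bij`). `bdd_gen`: `ε (s * s') ≤ (sqrt (ε s) + sqrt (ε s')) ^ 2`, so `ε M ≤ K ^ 2 * 424 E`
for all `M` (or `ε (s * s') ≤ 2 ε s + 2 ε s'`, constant `4 ^ K`); averaging over `M` gives `2 N f` for mean zero. Lazy walk:
letters `16 ≤ i` are the identity, so `𝔼 i : Fin 32, f (gen i * x) = 𝔼 i : Fin 16, (f x + f (gen i * x)) / 2`, Jensen, and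
`N ((f + f ∘ s) / 2) = N f - ε s / 4`. The right version follows with `x ↦ x⁻¹` (`gen_sq`). -/

namespace Vale.Agent.P330O

open Vale.Agent.Lib.H23 Vale.Agent.P333 Vale.Agent.P325 Vale.Agent.P330 Vale.Agent.P330.Amp
open Finset Matrix
open scoped BigOperators

namespace GapA

open ExpA UnitA

variable {G : Type} [Group G] [Fintype G] {β : ℕ}

/-- squared displacement of `f` under a left translation -/
noncomputable def ep (f : G → ℝ) (s : G) : ℝ := 𝔼 x, (f x - f (s * x)) ^ 2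

theorem ep_nonneg (f : G → ℝ) (s : G) : 0 ≤ ep f s := expect_nonneg fun _ _ => sq_nonneg _

theorem ep_one (f : G → ℝ) : ep f 1 = 0 := by simp [ep]

theorem ex_left (f : G → ℝ) (s : G) : (𝔼 x, f (s * x)) = 𝔼 x, f x :=
  Finset.expect_equiv (Equiv.mulLeft s) (by simp) (by simp)

theorem ex_right (f : G → ℝ) (s : G) : (𝔼 x, f (x * s)) = 𝔼 x, f x :=
  Finset.expect_equiv (Equiv.mulRight s) (by simp) (by simp)

theorem ex_inv (f : G → ℝ) : (𝔼 x, f x⁻¹) = 𝔼 x, f x :=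
  Finset.expect_equiv (Equiv.inv G) (by simp) (by simp)

theorem ep_mul (f : G → ℝ) (s s' : G) : ep f (s * s') ≤ 2 * ep f s + 2 * ep f s' := by
  rw [ep, ep, ← ex_left (fun x => (f x - f (s * x)) ^ 2) s', ep, mul_expect, mul_expect,
    ← expect_add_distrib]
  refine expect_le_expect fun x _ => ?_
  rw [mul_assoc]
  nlinarith [sq_nonneg (f x + f (s * (s' * x)) - 2 * f (s' * x))]

theorem ep_prod (f : G → ℝ) {B : ℝ} (L : List G) (h : ∀ s ∈ L, ep f s ≤ B) :
    ep f L.prod + 2 * B ≤ 2 ^ (L.length + 1) * B := by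
  induction L with
  | nil => simp [ep_one]
  | cons s L ih =>
    have h1 := ih fun t ht => h t (List.mem_cons_of_mem _ ht)
    have h2 := h s List.mem_cons_self
    have h3 := ep_mul f s L.prod
    rw [List.prod_cons, List.length_cons, pow_succ]
    linarith

theorem ep_avg (f : G → ℝ) (hf : (𝔼 x, f x) = 0) : (𝔼 s, ep f s) = 2 * 𝔼 x, f x ^ 2 := by
  unfold ep
  rw [expect_comm, mul_expect]
  have e : ∀ x, (𝔼 s, (f x - f (s * x)) ^ 2) = f x ^ 2 + 𝔼 y, f y ^ 2 := fun x => by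
    rw [ex_right (fun y => (f x - f y) ^ 2) x]
    have e2 : ∀ y, (f x - f y) ^ 2 = f x ^ 2 - 2 * f x * f y + f y ^ 2 := fun y => by ring
    simp only [e2]
    rw [expect_add_distrib, expect_sub_distrib, ← mul_expect, hf, Fintype.expect_const]
    ring
  simp only [e]
  rw [expect_add_distrib, Fintype.expect_const, ← mul_expect]
  ring

theorem sqrt_sub (a b : G → ℝ) :
    (√(𝔼 x, a x ^ 2) - √(𝔼 x, b x ^ 2)) ^ 2 ≤ 𝔼 x, (a x - b x) ^ 2 := by
  have ha : 0 ≤ 𝔼 x, a x ^ 2 := expect_nonneg fun _ _ => sq_nonneg _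
  have hb : 0 ≤ 𝔼 x, b x ^ 2 := expect_nonneg fun _ _ => sq_nonneg _
  have h1 := Real.le_sqrt_of_sq_le (expect_mul_sq_le_sq_mul_sq univ a b)
  rw [Real.sqrt_mul ha] at h1
  have e2 : ∀ x, (a x - b x) ^ 2 = a x ^ 2 - 2 * (a x * b x) + b x ^ 2 := fun x => by ring
  simp only [e2]
  rw [expect_add_distrib, expect_sub_distrib, ← mul_expect, sub_sq, Real.sq_sqrt ha,
    Real.sq_sqrt hb]
  linarith

variable (U : Big 2 β → G)

/-- the component of `f` for the character `χ` -/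
noncomputable def pr (f : G → ℝ) (χ : Big 2 β) (x : G) : ℝ := hatB bb (fun u => f (U u * x)) χ

open Classical in
/-- the norm of a component -/
noncomputable def FF (f : G → ℝ) (χ : Big 2 β) : ℝ :=
  if χ = 0 then 0 else √(𝔼 x, pr U f χ x ^ 2)

theorem pr_pars (f : G → ℝ) : ∑ χ, (𝔼 x, pr U f χ x ^ 2) = 𝔼 x, f x ^ 2 := by
  rw [← expect_sum_comm]
  simp only [pr, perf_bb.parseval]
  rw [expect_comm]
  simp only [ex_left fun x => f x ^ 2]
  exact Fintype.expect_const _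

theorem ep_pars (f : G → ℝ) (s : G) :
    ep f s = ∑ χ, 𝔼 x, (pr U f χ x - pr U (fun y => f (s * y)) χ x) ^ 2 := by
  rw [ep, ← pr_pars U]
  simp only [pr, hatB_sub]

theorem ep_E {gens : Fin 7 → Mat β} {l l' : Fin 2} (h : l ≠ l') (ρ : Fin 7) (f : G → ℝ) {s : G}
    (hs : ∀ u, s * U u = U (actB gens (.E l l' ρ) u) * s) :
    ∑ χ, (FF U f χ - FF U f (dE l l' (gens ρ) χ)) ^ 2 ≤ ep f s := by
  rw [ep_pars U]
  refine sum_le_sum fun χ _ => ?_
  have e : ∀ x, pr U (fun y => f (s * y)) χ x = pr U f (dE l l' (gens ρ) χ) (s * x) := fun x => by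
    simp only [pr, ← mul_assoc, hs]
    rw [hatB, ← expect_actB (gens := gens) (.E l l' ρ), hatB]
    simp only [actB_actB, bb_E h]
  have e0 : dE l l' (gens ρ) (0 : Big 2 β) = 0 := by simp [dE]
  by_cases h0 : χ = 0
  · rw [h0, e0, sub_self, zero_pow two_ne_zero]
    exact expect_nonneg fun _ _ => sq_nonneg _
  have h1 : dE l l' (gens ρ) χ ≠ 0 := fun k => h0 (dE_inj h (fun _ => gens ρ) (k.trans e0.symm))
  rw [FF, FF, if_neg h0, if_neg h1, ← ex_left (fun x => pr U f (dE l l' (gens ρ) χ) x ^ 2) s]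
  simp only [e]
  exact sqrt_sub _ _

theorem ep_U (hU : ∀ u v, U (u + v) = U u * U v) (f : G → ℝ) (k : Big 2 β) :
    ep f (U k) = ∑ χ, (1 - chi (bb χ k)) ^ 2 * FF U f χ ^ 2 := by
  rw [ep_pars U]
  refine sum_congr rfl fun χ _ => ?_
  have e : ∀ x, pr U (fun y => f (U k * y)) χ x = pr U f χ x * chi (bb χ k) := fun x => by
    simp only [pr, ← mul_assoc, ← hU, add_comm k]
    exact perf_bb.hatB_shift (fun u => f (U u * x)) k χ
  simp only [e]
  by_cases h0 : χ = 0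
  · simp [h0, perf_bb.zero_left]
  rw [FF, if_neg h0, Real.sq_sqrt (expect_nonneg fun _ _ => sq_nonneg _), mul_expect]
  exact expect_congr rfl fun x _ => by ring

theorem rel {gens : Fin 7 → Mat β} (h0 : gens 0 = 1) (hsp : Spans gens)
    (hU : ∀ u v, U (u + v) = U u * U v) (f : G → ℝ) {S : ℝ}
    (hs : ∀ l l' : Fin 2, l ≠ l' → ∀ ρ, ∃ s, ep f s ≤ S ∧
      ∀ u, s * U u = U (actB gens (.E l l' ρ) u) * s)
    (hN : ∀ l, ep f (U (Pi.single l (ofN β 1))) ≤ S) (k : Big 2 β) : ep f (U k) ≤ 2968 * S := by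
  have hE : ∀ l l' : Fin 2, l ≠ l' →
      ∑ ρ, ∑ χ, (FF U f χ - FF U f (dE l l' (gens ρ) χ)) ^ 2 ≤ 7 * S := fun l l' h => by
    refine (sum_le_card_nsmul _ _ S fun ρ _ => ?_).trans (by simp)
    obtain ⟨s, h1, h2⟩ := hs l l' h ρ
    exact (ep_E U h ρ f h2).trans h1
  have hP : ∀ l, 4 * (ExpA.P (FF U f) fun χ => χ l ⬝ᵥ ofN β 1 ≠ 0) ≤ S := fun l => by
    refine le_of_eq_of_le ?_ (hN l)
    rw [ep_U U hU, ExpA.P, mul_sum]
    refine sum_congr rfl fun χ _ => ?_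
    have e2 : bb χ (Pi.single l (ofN β 1)) = χ l ⬝ᵥ ofN β 1 := by
      rw [bb, sum_eq_single l (fun i _ hi => by simp [hi]) (by simp)]
      simp
    rw [e2]
    rcases z2_cases (χ l ⬝ᵥ ofN β 1) with h | h
    · rw [ind_neg (not_not.2 h), h]; simp
    · rw [ind_pos (z2_ne_zero.2 h), h, chi_one]; ring
  have hS : 0 ≤ S := (ep_nonneg _ _).trans (hN 0)
  have h1 := P_le_add (FF U f) (Z := sD) (Z1 := fun χ => χ 0 ⬝ᵥ ofN β 1 ≠ 0)
    (Z2 := fun χ => χ 1 ⬝ᵥ ofN β 1 ≠ 0) fun χ h => Or.inr (Fin.exists_fin_two.1 h)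
  have h2 := core (FF U f) h0 hsp (if_pos rfl) (hE 0 1 zero_ne_one) (hE 1 0 one_ne_zero)
    (by linarith [hP 0, hP 1])
  have h3 : ep f (U k) ≤ 4 * ∑ χ, FF U f χ ^ 2 := by
    rw [ep_U U hU, mul_sum]
    refine sum_le_sum fun χ _ => mul_le_mul_of_nonneg_right ?_ (sq_nonneg _)
    rcases z2_cases (bb χ k) with h | h <;> rw [h] <;> norm_num
  linarith

theorem lazy (g : ℕ → G) (hg : ∀ i, 16 ≤ i → g i = 1) (f : G → ℝ) :
    (𝔼 x, (𝔼 i : Fin 32, f (g i * x)) ^ 2) ≤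
      (𝔼 x, f x ^ 2) - (∑ i ∈ range 16, ep f (g i)) / 64 := by
  have hM : ∀ x, (𝔼 i : Fin 32, f (g i * x)) = (∑ i ∈ range 16, (f x + f (g i * x))) / 32 := by
    intro x
    rw [expect_eq_sum_div_card, card_univ, Fintype.card_fin,
      Fin.sum_univ_eq_sum_range (fun i => f (g i * x)) 32,
      show 32 = 16 + 16 from rfl, sum_range_add, sum_add_distrib, add_comm]
    congr 2
    exact sum_congr rfl fun i _ => by rw [hg _ (Nat.le_add_right _ _), one_mul]
  have h1 : ∀ x, (𝔼 i : Fin 32, f (g i * x)) ^ 2 ≤ ∑ i ∈ range 16,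
      (2 * f x ^ 2 + 2 * f (g i * x) ^ 2 - (f x - f (g i * x)) ^ 2) / 64 := by
    intro x
    have h := sq_sum_le_card_mul_sum_sq (s := range 16) (f := fun i => f x + f (g i * x))
    have e : ∑ i ∈ range 16, (2 * f x ^ 2 + 2 * f (g i * x) ^ 2 - (f x - f (g i * x)) ^ 2) / 64
        = (∑ i ∈ range 16, (f x + f (g i * x)) ^ 2) / 64 := by
      rw [sum_div]
      exact sum_congr rfl fun i _ => by ring
    rw [card_range] at h
    push_cast at h
    rw [hM, e, div_pow]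
    linarith
  refine (expect_le_expect fun x _ => h1 x).trans ?_
  rw [expect_sum_comm]
  have e : ∀ i, (𝔼 x, (2 * f x ^ 2 + 2 * f (g i * x) ^ 2 - (f x - f (g i * x)) ^ 2) / 64)
      = (4 * (𝔼 x, f x ^ 2) - ep f (g i)) / 64 := by
    intro i
    rw [← expect_div, expect_sub_distrib, expect_add_distrib, ← mul_expect, ← mul_expect,
      ex_left (fun x => f x ^ 2) (g i), ep]
    ring
  simp only [e]
  rw [← sum_div, sum_sub_distrib, sum_const, card_range, nsmul_eq_mul]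
  push_cast
  linarith

end GapA

namespace SL

open GapA

variable {l : ℕ}

theorem ga_comm {a b c d : Fin 3} (h1 : a ≠ b) (h2 : c ≠ d) (h3 : b ≠ c) (h4 : d ≠ a)
    (r r' : Rg l) : el l a b r * el l c d r' = el l c d r' * el l a b r := by
  refine Subtype.ext ?_
  change (el l a b r : Matrix (Fin 3) (Fin 3) (Rg l)) * el l c d r' = el l c d r' * el l a b r
  rw [el_coe h1, el_coe h2]
  simp only [transvection, mul_add, add_mul, one_mul, mul_one, single_mul_single_of_ne _ _ _ _ h3,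
    single_mul_single_of_ne _ _ _ _ h4]
  abel

theorem ga_conj {a b c : Fin 3} (hab : a ≠ b) (hac : a ≠ c) (hbc : b ≠ c) (r x y : Rg l) :
    el l a b r * (el l a c x * el l b c y) = el l a c (x + r * y) * el l b c y * el l a b r := by
  have h1 := el_comm hac hab hbc.symm r y
  rw [el_add, ← h1, ← mul_assoc, ga_comm hab hac hab.symm hac.symm]
  have h2 := el_sq b c y
  have h3 := el_sq a b r
  calc el l a c x * el l a b r * el l b c y
      = el l a c x * el l a b r * el l b c y * (el l a b r * (el l b c y * el l b c y) *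
        el l a b r) := by rw [h2, mul_one, h3, mul_one]
    _ = _ := by simp only [mul_assoc]

theorem ga_io (l : ℕ) (ρ : Fin 7) : ∃ r : Rg l, (r = 1 ∨ r = tt l) ∧
    ∀ v, io l ((if ρ = 1 then shf l else 1) *ᵥ v) = r * io l v := by
  split_ifs
  · exact ⟨_, Or.inr rfl, io_shf⟩
  · exact ⟨_, Or.inl rfl, fun v => by rw [one_mulVec, one_mul]⟩

theorem ga_zero (l : ℕ) : io l 0 = 0 := by simp [io]

theorem ga_gen (f : Gp l → ℝ) {a b : Fin 3} (h : a ≠ b) {r : Rg l} (hr : r = 1 ∨ r = tt l) :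
    ep f (el l a b r) ≤ ∑ i ∈ range 16, ep f (gen l i) := by
  have k : ∀ u < 2, ep f (gen l (ltE a b u)) ≤ ∑ i ∈ range 16, ep f (gen l i) := fun u hu =>
    single_le_sum (f := fun i => ep f (gen l i)) (fun _ _ => ep_nonneg _ _)
      (mem_range.2 ((ltE_lt h hu).trans (by norm_num)))
  rcases hr with rfl | rfl
  · exact gen_ltE0 (l := l) h ▸ k 0 two_pos
  · exact gen_ltE1 (l := l) h ▸ k 1 one_lt_two

theorem ga_el (f : Gp l → ℝ) (a c : Fin 3) (r : Rg l) :
    ep f (el l a c r) ≤ 2968 * ∑ i ∈ range 16, ep f (gen l i) := by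
  by_cases hac : a = c
  · rw [show el l a c r = 1 from dif_pos hac, ep_one]
    exact mul_nonneg (by norm_num) (sum_nonneg fun _ _ => ep_nonneg _ _)
  obtain ⟨b, hab, hbc⟩ : ∃ b, a ≠ b ∧ b ≠ c := by
    revert a c
    decide
  obtain ⟨v, rfl⟩ := (io_bij l).2 r
  have cm := ga_comm (l := l) hac hbc hbc.symm (Ne.symm hac)
  have key := rel (fun u : Big 2 (l + 1) => el l a c (io l (u 0)) * el l b c (io l (u 1)))
    (gens := fun ρ : Fin 7 => if ρ = 1 then shf l else 1) rfl (spans l) (fun u v => ?_) f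
    (S := ∑ i ∈ range 16, ep f (gen l i)) (fun k k' h ρ => ?_) (fun k => ?_) (Pi.single 0 v)
  · simpa [ga_zero, el_zero] using key
  · simp only [Pi.add_apply, io_add, el_add, mul_assoc]
    rw [← mul_assoc (el l a c (io l (v 0))), cm, mul_assoc]
  · obtain ⟨r, h1, h2⟩ := ga_io l ρ
    have hl : (k = 0 ∧ k' = 1) ∨ (k = 1 ∧ k' = 0) := by omega
    rcases hl with ⟨rfl, rfl⟩ | ⟨rfl, rfl⟩
    · refine ⟨el l a b r, ga_gen f hab h1, fun u => ?_⟩
      rw [ga_conj hab hac hbc, ← h2, ← io_add]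
      rfl
    · refine ⟨el l b a r, ga_gen f hab.symm h1, fun u => ?_⟩
      rw [cm, ga_conj hab.symm hbc hac, ← h2, ← io_add, ← cm]
      rfl
  · have e : io l (ofN (l + 1) 1) = 1 := toR_one l
    fin_cases k
    · simpa [ga_zero, el_zero, e] using ga_gen f hac (Or.inl rfl)
    · simpa [ga_zero, el_zero, e] using ga_gen f hbc (Or.inl rfl)

theorem gap : ∃ g : ℕ, 1 ≤ g ∧ ∀ (l : ℕ) (f : Gp l → ℝ), (𝔼 x, f x) = 0 →
    (𝔼 x, (𝔼 i : Fin 32, f (gen l i * x)) ^ 2) ≤ (1 - 1 / g) * (𝔼 x, f x ^ 2) ∧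
    (𝔼 x, (𝔼 i : Fin 32, f (x * gen l i)) ^ 2) ≤ (1 - 1 / g) * (𝔼 x, f x ^ 2) := by
  obtain ⟨K, hK⟩ := bdd_gen
  have key : ∀ (l : ℕ) (f : Gp l → ℝ), (𝔼 x, f x) = 0 →
      (𝔼 x, (𝔼 i : Fin 32, f (gen l i * x)) ^ 2) ≤
        (1 - 1 / (189952 * 2 ^ K : ℕ)) * (𝔼 x, f x ^ 2) := by
    intro l f hf
    have h1 := lazy (gen l) (fun i hi => gen_ge (by omega)) f
    set S := ∑ i ∈ range 16, ep f (gen l i)
    have hS : 0 ≤ S := sum_nonneg fun _ _ => ep_nonneg _ _
    have h2 : ∀ M, ep f M ≤ 2 ^ (K + 1) * (2968 * S) := fun M => by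
      obtain ⟨L, k1, rfl⟩ := hK l M
      have k2 := ep_prod f (L.map fun e => el l e.1 e.2.1 e.2.2) (B := 2968 * S) fun s hs => by
        obtain ⟨e, -, rfl⟩ := List.mem_map.1 hs
        exact ga_el f _ _ _
      rw [List.length_map] at k2
      have k3 : (2 : ℝ) ^ (L.length + 1) ≤ 2 ^ (K + 1) := pow_le_pow_right₀ one_le_two (by omega)
      have k4 := mul_le_mul_of_nonneg_right k3 (show 0 ≤ 2968 * S by positivity)
      linarith
    have h3 := expect_le (s := univ) (f := ep f) univ_nonempty fun M _ => h2 M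
    rw [ep_avg f hf, pow_succ] at h3
    have h4 : (𝔼 x, f x ^ 2) / (189952 * 2 ^ K) ≤ S / 64 := by
      rw [div_le_iff₀ (by positivity)]
      linarith
    push_cast
    rw [sub_mul, one_mul, one_div_mul_eq_div]
    linarith
  refine ⟨189952 * 2 ^ K, Nat.succ_le_of_lt (by positivity), fun l f hf => ⟨key l f hf, ?_⟩⟩
  have h := key l (fun x => f x⁻¹) (by rw [ex_inv, hf])
  rw [ex_inv fun x => f x ^ 2] at h
  rw [← ex_inv fun x => (𝔼 i : Fin 32, f (x * gen l i)) ^ 2]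
  simpa only [_root_.mul_inv_rev, fun i => inv_eq_of_mul_eq_one_right (gen_sq (l := l) i)] using h

end SL

end Vale.Agent.P330O
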