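import Vale.Agent.P330Q.ORing

/-! Bounded generation of `SL3` of a local ring by elementary matrices (task OGen).
Plan. Let `B n M` mean that `M` is a product of at most `n` elementary matrices; `B n (el * M) → B (n + 1) M` (`el_sq`), the
same on the right. In a local ring a unit that is a sum has a unit summand, so the first column of `M` (expand
the determinant) has a unit entry. With at most three row operations make the entry `(0, 0)` equal to `1` (first
make the entry `(1, 0)` a unit, then add `(1 - M 0 0) / M 1 0` times row 1 to row 0), clear the first column and the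
first row (4 operations). The lower block has determinant one: make its entry `(2, 1)` a unit (if it is not, the
entry `(1, 1)` is a unit; add row 1 to row 2), make `(1, 1)` equal to `1`, clear; then `(2, 2) = 1`. -/

namespace Vale.Agent.P330O

open Vale.Agent.Lib.H23 Vale.Agent.P333 Vale.Agent.P325 Vale.Agent.P330 Vale.Agent.P330.Amp
open Finset Matrix
open scoped BigOperators

namespace SL

variable {l : ℕ}

/-- products of at most `n` elementary matrices -/
def OgB (n : ℕ) (M : Gp l) : Prop := ∃ L : List (Fin 3 × Fin 3 × Rg l),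
  L.length ≤ n ∧ (L.map fun e => el l e.1 e.2.1 e.2.2).prod = M

theorem og_mono {n : ℕ} {M : Gp l} (h : OgB n M) : OgB (n + 1) M :=
  let ⟨L, h1, h2⟩ := h
  ⟨L, h1.trans n.le_succ, h2⟩

theorem og_step {n : ℕ} {M : Gp l} {a b : Fin 3} (hab : a ≠ b) (r : Rg l)
    (h : ∀ M' : Gp l, (∀ j, M' a j = M a j + r * M b j) → (∀ i, i ≠ a → ∀ j, M' i j = M i j) →
      OgB n M') : OgB (n + 1) M := by
  have e : (el l a b r * M).1 = transvection a b r * M.1 := by
    rw [← el_coe hab]; rfl
  obtain ⟨L, h1, h2⟩ := h (el l a b r * M)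
    (fun j => (congrFun (congrFun e a) j).trans (transvection_mul_apply_same _ _ _ _ _))
    fun i hi j => (congrFun (congrFun e i) j).trans (transvection_mul_apply_of_ne _ _ _ _ hi _ _)
  refine ⟨(a, b, r) :: L, by simpa using h1, ?_⟩
  rw [List.map_cons, List.prod_cons, h2, ← mul_assoc, el_sq, one_mul]

theorem og_det (M : Gp l) : M 0 0 * M 1 1 * M 2 2 - M 0 0 * M 1 2 * M 2 1 - M 0 1 * M 1 0 * M 2 2 +
    M 0 1 * M 1 2 * M 2 0 + M 0 2 * M 1 0 * M 2 1 - M 0 2 * M 1 1 * M 2 0 = 1 := by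
  rw [← det_fin_three]
  exact M.2

theorem og_unit {x y : Rg l} (hx : ¬ IsUnit x) (hy : IsUnit y) : IsUnit (x + 1 * y) := by
  have := isLocal l
  have : IsUnit (x + 1 * y + -x) := by simpa using hy
  exact (IsLocalRing.isUnit_or_isUnit_of_isUnit_add this).resolve_right (by simpa using hx)

theorem og_A {M : Gp l} (h0 : M 0 0 = 1) (h1 : M 1 0 = 0) (h2 : M 2 0 = 0) (h3 : M 0 1 = 0)
    (h4 : M 1 1 = 1) (h5 : M 2 1 = 0) : OgB 2 M := by
  have h6 : M 2 2 = 1 := by simpa [h0, h1, h2, h3, h4, h5] using og_det M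
  refine og_step (a := 0) (b := 2) (by decide) (-M 0 2) fun N a1 a2 => ?_
  refine og_step (a := 1) (b := 2) (by decide) (-M 1 2) fun K b1 b2 => ⟨[], le_rfl, ?_⟩
  have c0 := b2 0 (by decide)
  have c1 := a2 1 (by decide)
  have c2 := a2 2 (by decide)
  have c3 := b2 2 (by decide)
  ext i j
  fin_cases i <;> fin_cases j <;> simp [a1, b1, c0, c1, c2, c3, h0, h1, h2, h3, h4, h5, h6]

theorem og_B {M : Gp l} (h0 : M 0 0 = 1) (h1 : M 1 0 = 0) (h2 : M 2 0 = 0) (h4 : M 1 1 = 1) :
    OgB 4 M := by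
  refine og_step (a := 0) (b := 1) (by decide) (-M 0 1) fun N a1 a2 => ?_
  refine og_step (a := 2) (b := 1) (by decide) (-M 2 1) fun K b1 b2 => ?_
  have c0 := b2 0 (by decide)
  have c1 := a2 1 (by decide)
  have c2 := a2 2 (by decide)
  have c3 := b2 1 (by decide)
  apply og_A <;> simp [a1, b1, c0, c1, c2, c3, h0, h1, h2, h4]

theorem og_C {M : Gp l} (h0 : M 0 0 = 1) (h1 : M 1 0 = 0) (h2 : M 2 0 = 0) (h4 : IsUnit (M 2 1)) :
    OgB 5 M := by
  obtain ⟨u, hu⟩ := h4.exists_left_inv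
  refine og_step (a := 1) (b := 2) (by decide) ((1 - M 1 1) * u) fun N a1 a2 => ?_
  have c0 := a2 0 (by decide)
  have c2 := a2 2 (by decide)
  apply og_B <;> simp [a1, c0, c2, h0, h1, h2, mul_assoc, hu]

theorem og_D {M : Gp l} (h0 : M 0 0 = 1) (h1 : M 1 0 = 0) (h2 : M 2 0 = 0) : OgB 6 M := by
  have := isLocal l
  by_cases h : IsUnit (M 2 1)
  · exact og_mono (og_C h0 h1 h2 h)
  have d : IsUnit (M 1 1 * M 2 2 + M 2 1 * -M 1 2) := by
    have : M 1 1 * M 2 2 + M 2 1 * -M 1 2 = 1 := by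
      have e := og_det M
      rw [h0, h1, h2] at e
      linear_combination e
    rw [this]; exact isUnit_one
  have h' : IsUnit (M 1 1) := isUnit_of_mul_isUnit_left
    ((IsLocalRing.isUnit_or_isUnit_of_isUnit_add d).resolve_right
      fun e => h (isUnit_of_mul_isUnit_left e))
  refine og_step (a := 2) (b := 1) (by decide) 1 fun N a1 a2 => ?_
  refine og_C ?_ ?_ ?_ (by rw [a1]; exact og_unit h h') <;>
    simp [a1, a2 0 (by decide), a2 1 (by decide), h0, h1, h2]

theorem og_E {M : Gp l} (h0 : M 0 0 = 1) : OgB 8 M := by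
  refine og_step (a := 1) (b := 0) (by decide) (-M 1 0) fun N a1 a2 => ?_
  refine og_step (a := 2) (b := 0) (by decide) (-M 2 0) fun K b1 b2 => ?_
  have c0 := b2 0 (by decide)
  have c1 := a2 0 (by decide)
  have c2 := a2 2 (by decide)
  have c3 := b2 1 (by decide)
  apply og_D <;> simp [a1, b1, c0, c1, c2, c3, h0]

theorem og_F {M : Gp l} (h : IsUnit (M 1 0)) : OgB 9 M := by
  obtain ⟨u, hu⟩ := h.exists_left_inv
  refine og_step (a := 0) (b := 1) (by decide) ((1 - M 0 0) * u) fun N a1 _ => og_E ?_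
  simp [a1, mul_assoc, hu]

theorem og_G (M : Gp l) : OgB 10 M := by
  have := isLocal l
  by_cases h : IsUnit (M 1 0)
  · exact og_mono (og_F h)
  have d : IsUnit (M 0 0 * (M 1 1 * M 2 2 - M 1 2 * M 2 1) + M 2 0 * (M 0 1 * M 1 2 - M 0 2 * M 1 1) +
      M 1 0 * (M 0 2 * M 2 1 - M 0 1 * M 2 2)) := by
    have : M 0 0 * (M 1 1 * M 2 2 - M 1 2 * M 2 1) + M 2 0 * (M 0 1 * M 1 2 - M 0 2 * M 1 1) +
        M 1 0 * (M 0 2 * M 2 1 - M 0 1 * M 2 2) = 1 := by
      linear_combination og_det M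
    rw [this]; exact isUnit_one
  rcases IsLocalRing.isUnit_or_isUnit_of_isUnit_add
    ((IsLocalRing.isUnit_or_isUnit_of_isUnit_add d).resolve_right
      fun e => h (isUnit_of_mul_isUnit_left e)) with e | e
  · refine og_step (a := 1) (b := 0) (by decide) 1 fun N a1 _ => og_F ?_
    rw [a1]; exact og_unit h (isUnit_of_mul_isUnit_left e)
  · refine og_step (a := 1) (b := 2) (by decide) 1 fun N a1 _ => og_F ?_
    rw [a1]; exact og_unit h (isUnit_of_mul_isUnit_left e)

theorem bdd_gen : ∃ K : ℕ, ∀ (l : ℕ) (M : Gp l), ∃ L : List (Fin 3 × Fin 3 × Rg l),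
    L.length ≤ K ∧ (L.map fun e => el l e.1 e.2.1 e.2.2).prod = M :=
  ⟨10, fun _ M => og_G M⟩

end SL

end Vale.Agent.P330O
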