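import Vale.Agent.P330.InstPT

/-!
Instances with an outer expander coordinate: models and interfaces of half (b) of the
quasi-linear form (see notes/P330O.md). The chain of `Vale/Agent/P330` is repeated with addresses
`(ξ, a)`, where `ξ` is a vertex of a fixed outer graph with 64 involutions (32 even moves commute
with 32 odd moves) and `a` is an old address.
-/

namespace Vale.Agent.P330O

open Vale.Agent.Lib.H23 Vale.Agent.P325 Vale.Agent.P330 Vale.Agent.P330.Amp Finset Matrix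
open scoped BigOperators

/-! ### the outer graph -/

structure Outer where
  m : ℕ
  p : Fin 64 → Fin (m + 1) → Fin (m + 1)

namespace Outer

variable (O : Outer)

abbrev V : Type := Fin (O.m + 1)

/-- the vertex with a given number. -/
def vx (n : ℕ) : O.V := Fin.ofNat _ n

/-- move number `l` (the identity for `64 ≤ l`). -/
def mv (l : ℕ) (ξ : O.V) : O.V := if h : l < 64 then O.p ⟨l, h⟩ ξ else ξ

/-- a word of moves (the last letter acts first). -/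
def wd (w : List ℕ) (ξ : O.V) : O.V := w.foldr O.mv ξ

structure Good (g : ℕ) : Prop where
  inv : ∀ l ξ, O.mv l (O.mv l ξ) = ξ
  comm : ∀ l l' ξ, l % 2 = 0 → l' % 2 = 1 → O.mv l (O.mv l' ξ) = O.mv l' (O.mv l ξ)
  gap : ∀ s < 2, ∀ f : O.V → ℝ, (𝔼 ξ, f ξ) = 0 →
    (𝔼 ξ, (𝔼 i : Fin 32, f (O.mv (2 * i + s) ξ)) ^ 2) ≤ (1 - 1 / g) * 𝔼 ξ, f ξ ^ 2

def tab : List (List ℕ) := List.ofFn fun l => List.ofFn fun ξ => (O.p l ξ : ℕ)

end Outer

instance encOuter : Enc Outer := ⟨fun O => Enc.enc O.tab⟩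

/-- the moves of side `s` with the given letters. -/
def side (s : ℕ) (w : List ℕ) : List ℕ := w.map fun i => 2 * i + s

/-- the word of side `s` given by the first `n` digits of `a` in base 32. -/
def ltr (s n a : ℕ) : List ℕ := side s ((List.range n).map fun i => a / 32 ^ i % 32)

/-! ### instances -/

/-- The node `(t, ξ, a)` reads the nodes `(t - 1, mv (xo t i) ξ, act (op t i) a)` through the windows
`win t i` and applies `lb ξ t a` (the field `lab` is not used). -/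
structure QI (W : ℕ) extends Inst W where
  o : Outer
  xo : ℕ → Fin W → ℕ
  lb : o.V → ℕ → Addr b β σ → (Fin W → Bool) → Bool

namespace QI

variable {W : ℕ} (G : QI W)

abbrev A : Type := G.o.V × Addr G.b G.β G.σ

/-- number of inner addresses. -/
abbrev n0 : ℕ := G.toInst.nA

/-- number of addresses. -/
def nA : ℕ := (G.o.m + 1) * G.n0

/-- the instance with the labels above `ξ`. -/
def fib (ξ : G.o.V) : Inst W := { G.toInst with lab := G.lb ξ }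

/-- the node that is read at time `t` by the input `i`. -/
def nb (t : ℕ) (i : Fin W) (a : G.A) : G.A := (G.o.mv (G.xo t i) a.1, act G.gens (G.op t i) a.2)

def sat (x : ℕ → G.A → Val) (t : ℕ) (a : G.A) : Prop :=
  HF (fun i => rd (G.win t i) (x (G.prev t) (G.nb t i a))) (G.lb a.1 t a.2) (x t a)

/-- fraction of violated nodes. -/
noncomputable def viol (x : ℕ → G.A → Val) : ℝ :=
  𝔼 t : Fin (2 ^ G.τ), 𝔼 a : G.A, ind (¬ G.sat x t a)

def ix (a : G.A) : ℕ := a.1 * G.n0 + idx a.2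

def un (n : ℕ) : G.A := (G.o.vx (n / G.n0), unidx _ _ _ (n % G.n0))

/-- the assignment described by a list. -/
def val (s : Asg) (t : ℕ) (a : G.A) : Val := Fin.ofNat 4 (s.getD (t * G.nA + G.ix a) 0)

/-- the list describing an assignment. -/
def mkAsg (x : ℕ → G.A → Val) : Asg :=
  (List.range (2 ^ G.τ * G.nA)).map fun n => (x (n / G.nA) (G.un (n % G.nA))).val

noncomputable def violA (s : Asg) : ℝ := G.viol (G.val s)

/-- the instance as data. -/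
noncomputable def tab : Inst W × Outer × List (Fin W → ℕ) × List (Code ((Fin W → Bool) → Bool)) :=
  (G.toInst, G.o, (List.range (2 ^ G.τ)).map fun t i => min (G.xo t i) 64,
    (List.range (2 ^ G.τ * G.nA)).map fun n =>
      ⟨G.lb (G.un (n % G.nA)).1 (n / G.nA) (G.un (n % G.nA)).2⟩)

structure Good (g : ℕ) : Prop where
  inn : G.toInst.Good
  out : G.o.Good g
  tau : 1 ≤ G.τ

end QI

noncomputable instance encQI {W : ℕ} : Enc (QI W) := ⟨fun G => Enc.enc G.tab⟩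

/-- `R` is a polynomial time reduction with a polynomial time decoder; `Φ x v' v` relates the
violation `v'` of an assignment of `R x` and the violation `v` of the decoded assignment. -/
def Red {X : Type} [Enc X] {W W' : ℕ} (src : X → QI W) (R : X → QI W')
    (Φ : X → ℝ → ℝ → Prop) : Prop :=
  PT R ∧ ∃ D : X × Asg → Asg, PT D ∧
    ∀ x s, Φ x ((R x).violA s) ((src x).violA (D (x, s)))

/-! ### transformations of instances -/

/-- Instances as pure circuits. -/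
def OutQ : Prop :=
  ∃ (c : ℕ) (R : QI 2 → PC) (D : QI 2 × List ℕ → Asg), PT R ∧ PT D ∧
    ∀ G, (R G).WF ∧ (R G).length ≤ c * (2 ^ G.τ * G.nA) ∧
      ∀ x, G.violA (D (G, x)) * (R G).length ≤ c * (R G).bad x

/-- Reduction of the fan-in. -/
def CompileQ (g : ℕ) : Prop :=
  ∀ W : ℕ, ∃ (C : ℕ) (R : {G : QI W // G.Good g} → QI 2), (∀ G, (R G).o = G.1.o ∧ (R G).Good g ∧
      (R G).b = G.1.b ∧ (R G).β = G.1.β ∧ (R G).k0 = G.1.k0 ∧ (R G).σ ≤ G.1.σ + C ∧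
      2 ^ (R G).τ ≤ C * 2 ^ G.1.τ) ∧
    Red (fun G => G.1) R fun _ v' v => v ≤ C * v'

abbrev IniIn (g : ℕ) : Type := {p : QI 2 × List Unit // p.1.b = 0 ∧ p.1.o.Good g ∧ 1 ≤ p.1.τ}

/-- Choice of the block size and the first generators. -/
def InitQ (g : ℕ) : Prop :=
  ∃ R : IniIn g → QI 2, (∀ x, (R x).o = x.1.1.o ∧ (R x).Good g ∧ (R x).b = 0 ∧
      (R x).σ = x.1.1.σ ∧ (R x).τ = x.1.1.τ ∧ (R x).β = (R x).k0 ∧ x.1.2.length ≤ (R x).k0 ∧
      (R x).k0 ≤ 3 * x.1.2.length + 2) ∧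
    Red (fun x => x.1.1) R fun _ v' v => v ≤ v'

abbrev AbsIn (g : ℕ) : Type :=
  {p : QI 2 × List Unit // p.1.Good g ∧ 2 ^ ((p.1.σ / p.1.k0 + 1) * p.1.β) ≤ p.2.length}

/-- The small bits are moved into new blocks. -/
def AbsorbQ (g : ℕ) : Prop :=
  ∃ (C : ℕ) (R : AbsIn g → QI 2), (∀ x, (R x).o = x.1.1.o ∧ (R x).Good g ∧ (R x).σ = 0 ∧
      (R x).β = x.1.1.β ∧ (R x).k0 = x.1.1.k0 ∧ x.1.1.b + 1 ≤ (R x).b ∧
      (R x).b ≤ x.1.1.b + x.1.1.σ / x.1.1.k0 + C ∧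
      2 ^ (R x).τ ≤ C * (x.1.1.σ + 1) ^ 2 * 2 ^ x.1.1.τ) ∧
    Red (fun x => x.1.1) R fun x v' v => v ≤ C * (x.1.1.σ + 1) ^ 2 * v'

abbrev MrgIn (g : ℕ) : Type := {G : QI 2 // G.Good g ∧ G.σ = 0 ∧ 1 ≤ G.b}

/-- Four blocks are merged into one. -/
def MergeQ (g : ℕ) : Prop :=
  ∃ (C : ℕ) (R : MrgIn g → QI 2), (∀ x, (R x).o = x.1.o ∧ (R x).Good g ∧ (R x).σ = 0 ∧
      (R x).β = 4 * x.1.β ∧ (R x).k0 = x.1.k0 ∧ x.1.b ≤ 4 * (R x).b ∧ (R x).b ≤ x.1.b / 4 + C ∧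
      2 ^ (R x).τ ≤ C * 2 ^ x.1.τ) ∧
    Red (fun x => x.1) R fun _ v' v => v ≤ C * v'

abbrev RIn (g C : ℕ) : Type :=
  {p : QI 2 × ℕ // p.1.Good g ∧ p.1.σ = 0 ∧ 1 ≤ p.1.b ∧ 1 ≤ p.2 ∧ C * p.2 ≤ p.1.k0}

/-- One round of gap amplification. -/
def RoundQ (g : ℕ) : Prop :=
  ∃ (W A C : ℕ) (R : RIn g C → QI W), 1 ≤ A ∧ (∀ x, (R x).o = x.1.1.o ∧ (R x).Good g ∧
      (R x).b = x.1.1.b + 2 ∧ (R x).β = x.1.1.β ∧ (R x).k0 = x.1.1.k0 ∧
      (R x).σ ≤ x.1.1.τ + C * x.1.2 ∧ 2 ^ (R x).τ ≤ C * (x.1.1.b + x.1.1.τ + x.1.2) ^ C) ∧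
    Red (fun x => x.1.1) R fun x v' v =>
      v' * 2 ^ x.1.1.τ * rLoss A C x.1.1.b x.1.1.τ x.1.2 ≤ 1 →
        v ≤ v' * rLoss A C x.1.1.b x.1.1.τ x.1.2 * x.1.1.b / 2 ^ (100 * A * x.1.2)

/-- Constant gap by iteration; the inner size grows polynomially. -/
def IterQ (g : ℕ) : Prop :=
  ∃ (γ : ℝ) (C : ℕ) (R : IniIn g → QI 2), 0 < γ ∧
    (∀ x, (R x).o = x.1.1.o ∧
      2 ^ (R x).τ * (R x).n0 ≤ (2 ^ x.1.1.τ * x.1.1.n0 + x.1.2.length + 2) ^ C) ∧
    Red (fun x => x.1.1) R fun x v' v => v' ≤ γ → v * x.1.2.length ≤ 1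

/-- The incidence of nodes and units is a sampler. -/
def UnitQ (g : ℕ) : Prop :=
  ∀ O : Outer, O.Good g → ∀ s < 2, ∀ (b β m : ℕ) (A : Mat β),
    (∀ a, 0 < a → a < 2 ^ m → IsUnit (alpha A m a)) →
    ∀ φ : O.V × Big b β → Vec β → ℝ, (∀ x j, 0 ≤ φ x j ∧ φ x j ≤ 1) → ∀ r : ℝ, 0 < r →
      (𝔼 x, 𝔼 j, φ x j) ≤ r / 2 →
      (𝔼 y : O.V × Big b β, ind (r ≤ 𝔼 j, 𝔼 a : Fin (2 ^ m),
          φ (O.wd (ltr s (m / 5) a).reverse y.1, y.2 + Lv b A m a j) j))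
        ≤ 4 * (b / 2 ^ m + (1 - 1 / g) ^ (m / 5)) * (𝔼 x, 𝔼 j, φ x j) / r ^ 2

/-! ### the outer graph with a cube in it -/

/-- the words selected by the bits of `c`. -/
def selW (s : ℕ) (ws : List (List ℕ)) (c : ℕ) (js : List ℕ) : List ℕ :=
  js.flatMap fun j => if c.testBit j then side s (ws.getD j []) else []

/-- the position of the cube point `c` in the chart number `i`. -/
def Outer.pos (O : Outer) (ws : List (List ℕ)) (ξ : O.V) (i c : ℕ) : O.V :=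
  O.wd (selW 0 ws c (List.range' i (ws.length - i))) (O.wd (selW 1 ws c (List.range i).reverse) ξ)

structure Chart (k C : ℕ) (O : Outer) (ws : List (List ℕ)) (ξ : O.V) : Prop where
  size : O.m + 1 ≤ C * 2 ^ k
  len : ws.length = k
  short : ∀ w ∈ ws, w.length ≤ C * (k + 1) ^ C
  inv : ∀ w ∈ ws, ∀ s < 2, ∀ ζ, O.wd (side s w) (O.wd (side s w) ζ) = ζ
  inj : ∀ i ≤ k, ∀ c < 2 ^ k, ∀ c' < 2 ^ k, O.pos ws ξ i c = O.pos ws ξ i c' → c = c'
  cyc : ∀ c, O.pos ws ξ k c = O.pos ws ξ 0 c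

abbrev KIn : Type := {p : ℕ × List Unit // 2 ^ p.1 ≤ p.2.length}

/-- Expanding outer graphs of size `O (2 ^ k)` that contain a cube of dimension `k`. -/
def OuterStmt : Prop :=
  ∃ (g C : ℕ) (F : ℕ → Outer × List (List ℕ) × ℕ), 1 ≤ g ∧ (PT fun p : KIn => F p.1.1) ∧
    ∀ k, (F k).1.Good g ∧ Chart k C (F k).1 (F k).2.1 ((F k).1.vx (F k).2.2)

abbrev EmbIn (g C : ℕ) : Type :=
  {p : Inst 2 × Outer × List (List ℕ) × ℕ //
    p.1.b = 0 ∧ p.2.1.Good g ∧ Chart p.1.σ C p.2.1 p.2.2.1 (p.2.1.vx p.2.2.2)}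

/-- The small bits of an instance without blocks are moved to the outer graph. -/
def EmbStmt (g C : ℕ) : Prop :=
  ∃ (E : ℕ) (R : EmbIn g C → QI 2) (D : EmbIn g C × Asg → Asg), PT R ∧ PT D ∧ ∀ x,
    (R x).o = x.1.2.1 ∧ (R x).b = 0 ∧ (R x).σ = 2 ∧ 1 ≤ (R x).τ ∧
      2 ^ (R x).τ ≤ E * (x.1.1.σ + 1) ^ E * 2 ^ x.1.1.τ ∧
      ∀ s, x.1.1.violA (D (x, s)) ≤ E * (x.1.1.σ + 1) ^ E * (R x).violA s

end Vale.Agent.P330O
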