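import Vale.Agent.P330Q.OInst

/-! Basic lemmas on outer graphs and instances with an outer coordinate, and the polynomial time
kit (task OInstB). Port of the second half of `P330/InstB.lean` and of `P330/InstPT.lean`; the old
lemmas apply to `G.toInst` and `G.fib ξ`. Add whatever is useful, never change a statement. -/

namespace Vale.Agent.P330O

open Vale.Agent.Lib.H23 Vale.Agent.P333 Vale.Agent.P325 Vale.Agent.P330 Vale.Agent.P330.Amp
open Finset Matrix Enc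
open scoped BigOperators

namespace Outer

variable {O : Outer} {g : ℕ}

theorem vx_val (ξ : O.V) : O.vx ξ = ξ := Fin.ext (Nat.mod_eq_of_lt ξ.2)

theorem val_vx {n : ℕ} (h : n < O.m + 1) : (O.vx n : ℕ) = n := Nat.mod_eq_of_lt h

theorem mv_of_ge {l : ℕ} (h : 64 ≤ l) (ξ : O.V) : O.mv l ξ = ξ := dif_neg (not_lt.2 h)

theorem mv_min (l : ℕ) (ξ : O.V) : O.mv (min l 64) ξ = O.mv l ξ := by
  rcases le_total l 64 with h | h
  · rw [min_eq_left h]
  · rw [min_eq_right h, mv_of_ge h, mv_of_ge le_rfl]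

theorem wd_nil (ξ : O.V) : O.wd [] ξ = ξ := rfl

theorem wd_cons (l : ℕ) (w : List ℕ) (ξ : O.V) : O.wd (l :: w) ξ = O.mv l (O.wd w ξ) := rfl

theorem wd_append (w w' : List ℕ) (ξ : O.V) : O.wd (w ++ w') ξ = O.wd w (O.wd w' ξ) :=
  List.foldr_append

theorem Good.wd_reverse (h : O.Good g) (w : List ℕ) (ξ : O.V) :
    O.wd w.reverse (O.wd w ξ) = ξ := by
  induction w generalizing ξ with
  | nil => rfl
  | cons l w ih => rw [List.reverse_cons, wd_append, wd_cons, wd_cons, wd_nil, h.inv, ih]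

theorem Good.wd_reverse' (h : O.Good g) (w : List ℕ) (ξ : O.V) :
    O.wd w (O.wd w.reverse ξ) = ξ := by
  have := h.wd_reverse w.reverse ξ
  rwa [List.reverse_reverse] at this

theorem Good.expect_mv (h : O.Good g) (l : ℕ) (f : O.V → ℝ) : (𝔼 ξ, f (O.mv l ξ)) = 𝔼 ξ, f ξ :=
  Fintype.expect_bijective _ (Function.Involutive.bijective (h.inv l)) _ _ fun _ => rfl

theorem Good.wd_bij (h : O.Good g) (w : List ℕ) : Function.Bijective (O.wd w) :=
  ⟨Function.LeftInverse.injective (h.wd_reverse w),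
    Function.RightInverse.surjective (h.wd_reverse' w)⟩

theorem Good.expect_wd (h : O.Good g) (w : List ℕ) (f : O.V → ℝ) :
    (𝔼 ξ, f (O.wd w ξ)) = 𝔼 ξ, f ξ :=
  Fintype.expect_bijective _ (h.wd_bij w) _ _ fun _ => rfl

theorem Good.mv_comm (h : O.Good g) {l l' : ℕ} (hl : l % 2 ≠ l' % 2) (ξ : O.V) :
    O.mv l (O.mv l' ξ) = O.mv l' (O.mv l ξ) := by
  rcases Nat.mod_two_eq_zero_or_one l with e | e
  · exact h.comm l l' ξ e (by omega)
  · exact (h.comm l' l ξ (by omega) e).symm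

theorem Good.mv_wd (h : O.Good g) {l : ℕ} {w : List ℕ} (hl : ∀ l' ∈ w, l % 2 ≠ l' % 2) (ξ : O.V) :
    O.mv l (O.wd w ξ) = O.wd w (O.mv l ξ) := by
  induction w with
  | nil => rfl
  | cons l' w ih =>
    rw [wd_cons, wd_cons, h.mv_comm (hl l' List.mem_cons_self),
      ih fun l hl' => hl l (List.mem_cons_of_mem _ hl')]

/-- words of different sides commute. -/
theorem Good.wd_comm (h : O.Good g) {w w' : List ℕ} (hl : ∀ l ∈ w, ∀ l' ∈ w', l % 2 ≠ l' % 2)
    (ξ : O.V) : O.wd w (O.wd w' ξ) = O.wd w' (O.wd w ξ) := by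
  induction w with
  | nil => rfl
  | cons l w ih =>
    rw [wd_cons, wd_cons, ih fun l hl' => hl l (List.mem_cons_of_mem _ hl'),
      h.mv_wd (hl l List.mem_cons_self)]

end Outer

theorem mem_side {s l : ℕ} {w : List ℕ} (hs : s < 2) (h : l ∈ side s w) : l % 2 = s := by
  obtain ⟨i, -, rfl⟩ := List.mem_map.1 h
  omega

theorem mem_ltr {s n a l : ℕ} (hs : s < 2) (h : l ∈ ltr s n a) : l % 2 = s ∧ l < 64 := by
  refine ⟨mem_side hs h, ?_⟩
  obtain ⟨i, hi, rfl⟩ := List.mem_map.1 h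
  obtain ⟨j, -, rfl⟩ := List.mem_map.1 hi
  omega

namespace QI

variable {W g : ℕ} (G : QI W)

theorem n0_pos : 0 < G.n0 := G.toInst.nA_pos

theorem nA_pos : 0 < G.nA := Nat.mul_pos (Nat.succ_pos _) G.n0_pos

theorem ix_lt (a : G.A) : G.ix a < G.nA := by
  have h1 : idx a.2 < G.n0 := idx_lt a.2
  have h2 := Nat.mul_le_mul_right G.n0 (Nat.succ_le_of_lt a.1.2)
  rw [Nat.succ_mul] at h2
  rw [ix, nA]
  omega


theorem un_ix (a : G.A) : G.un (G.ix a) = a := by
  have h1 : idx a.2 < G.n0 := idx_lt a.2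
  rw [un, ix, Nat.mul_add_mod_of_lt h1, add_comm, Nat.add_mul_div_right _ _ G.n0_pos,
    Nat.div_eq_of_lt h1, zero_add, unidx_idx, Outer.vx_val]


theorem ix_un {n : ℕ} (h : n < G.nA) : G.ix (G.un n) = n := by
  have h1 : n / G.n0 < G.o.m + 1 := (Nat.div_lt_iff_lt_mul G.n0_pos).2 h
  have h2 : idx (unidx G.b G.β G.σ (n % G.n0)) = n % G.n0 := idx_unidx (Nat.mod_lt _ G.n0_pos)
  change (G.o.vx (n / G.n0) : ℕ) * G.n0 + idx (unidx G.b G.β G.σ (n % G.n0)) = n
  rw [Outer.val_vx h1, h2, Nat.div_add_mod']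


theorem expect_un (f : G.A → ℝ) : (𝔼 a, f a) = 𝔼 n : Fin G.nA, f (G.un n) := by
  exact Fintype.expect_equiv (⟨fun a => ⟨G.ix a, G.ix_lt a⟩, fun n => G.un n, G.un_ix,
    fun n => Fin.ext (G.ix_un n.2)⟩ : G.A ≃ Fin G.nA) _ _ fun a => congrArg f (G.un_ix a).symm


theorem expect_pair (f : G.A → ℝ) : (𝔼 a, f a) = 𝔼 ξ, 𝔼 a, f (ξ, a) := by
  rw [← expect_product' univ univ fun ξ a => f (ξ, a), univ_product_univ]

variable {G} in
theorem nb_nb (h : G.o.Good g) (t : ℕ) (i : Fin W) (a : G.A) : G.nb t i (G.nb t i a) = a :=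
  Prod.ext (h.inv _ _) (act_act _ _ _)

variable {G} in
theorem expect_nb (h : G.o.Good g) (t : ℕ) (i : Fin W) (f : G.A → ℝ) :
    (𝔼 a, f (G.nb t i a)) = 𝔼 a, f a :=
  Fintype.expect_bijective _ (Function.Involutive.bijective (nb_nb h t i)) _ _ fun _ => rfl

theorem val_mkAsg (x : ℕ → G.A → Val) {t : ℕ} (h : t < 2 ^ G.τ) (a : G.A) :
    G.val (G.mkAsg x) t a = x t a := by
  have h1 := G.ix_lt a
  have h2 : t * G.nA + G.ix a < 2 ^ G.τ * G.nA := by
    have := Nat.mul_le_mul_right G.nA (Nat.succ_le_of_lt h)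
    rw [Nat.succ_mul] at this
    omega
  have h3 : (t * G.nA + G.ix a) / G.nA = t := by
    rw [add_comm, Nat.add_mul_div_right _ _ G.nA_pos, Nat.div_eq_of_lt h1, zero_add]
  have h4 : (t * G.nA + G.ix a) % G.nA = G.ix a := Nat.mul_add_mod_of_lt h1
  rw [val, mkAsg, List.getD_eq_getElem _ _ (by simpa using h2), List.getElem_map,
    List.getElem_range, h3, h4, un_ix]
  exact Fin.ext (Nat.mod_eq_of_lt (x t a).2)


theorem sat_congr {x y : ℕ → G.A → Val} (h : ∀ t < 2 ^ G.τ, ∀ a, x t a = y t a) {t : ℕ}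
    (ht : t < 2 ^ G.τ) (a : G.A) : G.sat x t a ↔ G.sat y t a := by
  simp only [sat, h t ht, h _ (G.prev_lt t)]

theorem viol_congr {x y : ℕ → G.A → Val} (h : ∀ t < 2 ^ G.τ, ∀ a, x t a = y t a) :
    G.viol x = G.viol y :=
  expect_congr rfl fun t _ => expect_congr rfl fun a _ => by rw [G.sat_congr h t.2]

theorem violA_mkAsg (x : ℕ → G.A → Val) : G.violA (G.mkAsg x) = G.viol x :=
  G.viol_congr fun _ h a => G.val_mkAsg x h a

theorem viol_nonneg (x : ℕ → G.A → Val) : 0 ≤ G.viol x :=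
  expect_nonneg fun _ _ => expect_nonneg fun _ _ => ind_nonneg _

theorem viol_le_one (x : ℕ → G.A → Val) : G.viol x ≤ 1 :=
  expect_le univ_nonempty fun _ _ => expect_le univ_nonempty fun _ _ => ind_le_one _

theorem viol_eq_sum (x : ℕ → G.A → Val) : G.viol x =
    (∑ m ∈ range (2 ^ G.τ * G.nA), ind (¬ G.sat x (m / G.nA) (G.un (m % G.nA)))) /
      (2 ^ G.τ * G.nA : ℕ) := by
  rw [viol]
  simp only [expect_un]
  exact ib_expect2 (2 ^ G.τ) G.nA fun t m => ind (¬ G.sat x t (G.un m))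


/-- the addresses that are violated at some time. -/
theorem expect_flt (x : ℕ → G.A → Val) :
    (𝔼 a : G.A, ind (∃ t < 2 ^ G.τ, ¬ G.sat x t a)) ≤ 2 ^ G.τ * G.viol x := by
  have hT : (0 : ℝ) < 2 ^ G.τ := by positivity
  rw [viol, expect_eq_sum_div_card (s := (univ : Finset (Fin (2 ^ G.τ)))), card_univ,
    Fintype.card_fin, Nat.cast_pow, Nat.cast_ofNat, mul_div_cancel₀ _ hT.ne', ← expect_sum_comm]
  refine expect_le_expect fun a _ => ?_
  by_cases c : ∃ t < 2 ^ G.τ, ¬ G.sat x t a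
  · obtain ⟨t, ht, c'⟩ := c
    refine (ind_le_one _).trans ?_
    have := single_le_sum (f := fun t : Fin (2 ^ G.τ) => ind (¬ G.sat x t a))
      (fun _ _ => ind_nonneg _) (mem_univ ⟨t, ht⟩)
    rwa [ind, if_pos c'] at this
  · rw [ind, if_neg c]
    exact sum_nonneg fun _ _ => ind_nonneg _


open Classical in
/-- the number of violated nodes. -/
noncomputable def cnt (s : Asg) : ℕ :=
  (List.range (2 ^ G.τ * G.nA)).countP fun m =>
    decide (¬ G.sat (G.val s) (m / G.nA) (G.un (m % G.nA)))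

theorem violA_eq (s : Asg) : G.violA s = G.cnt s / (2 ^ G.τ * G.nA : ℕ) := by
  classical
  rw [cnt, ib_countP fun m => ¬ G.sat (G.val s) (m / G.nA) (G.un (m % G.nA)), violA,
    viol_eq_sum]


end QI

/-! ### polynomial time kit -/

variable {X Y : Type} [Enc X] [Enc Y] {W W' W'' : ℕ}

theorem ob_row (O : Outer) (l : Fin 64) :
    O.tab.getD l [] = List.ofFn fun ξ => (O.p l ξ : ℕ) := by
  rw [Outer.tab, List.getD_eq_getElem _ _ (by rw [List.length_ofFn]; exact l.2), List.getElem_ofFn]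

theorem ob_mv (O : Outer) (l : ℕ) (ξ : O.V) : (O.mv l ξ : ℕ) = (O.tab.getD l []).getD ξ ξ := by
  by_cases h : l < 64
  · rw [Outer.mv, dif_pos h, ob_row O ⟨l, h⟩,
      List.getD_eq_getElem _ _ (by rw [List.length_ofFn]; exact ξ.2), List.getElem_ofFn]
  · rw [Outer.mv, dif_neg h, List.getD_eq_default O.tab _
      (by rw [Outer.tab, List.length_ofFn]; omega)]
    rfl

theorem ob_wd (O : Outer) (w : List ℕ) (ξ : O.V) :
    (O.wd w ξ : ℕ) = w.reverse.foldl (fun s l => (O.mv l (O.vx s) : ℕ)) ξ := by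
  rw [List.foldl_reverse]
  induction w with
  | nil => rfl
  | cons l w ih => rw [List.foldr_cons, ← ih, Outer.vx_val, Outer.wd_cons]

theorem ob_m_le (O : Outer) : O.m + 1 ≤ sz O := by
  have h1 : (List.ofFn fun ξ => (O.p 0 ξ : ℕ)) ∈ O.tab := List.mem_ofFn.2 ⟨0, rfl⟩
  have h2 := length_lt_sz (List.ofFn fun ξ => (O.p 0 ξ : ℕ))
  rw [List.length_ofFn] at h2
  exact (h2.trans (sz_lt_of_mem h1)).le

theorem ob_table {T A B : X → ℕ} (hT : PU T) (hA : PU A) (hB : PT B) (h0 : ∀ x, 0 < T x)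
    (h1 : ∀ x, 0 < A x) (h2 : ∀ x, 0 < B x) {f : X → ℕ → ℕ → ℕ → Y}
    (hf : PT fun p : {p : X × ℕ × ℕ × ℕ // p.2.1 < T p.1 ∧ p.2.2.2 < B p.1} =>
      f p.1.1 p.1.2.1 p.1.2.2.1 p.1.2.2.2) :
    PT fun x => (List.range (T x * A x)).map fun n =>
      f x (n / A x) (n % A x / B x) (n % A x % B x) := by
  have j : PT fun p : {p : X × ℕ × ℕ // p.2.1 < T p.1 ∧ p.2.2 < A p.1} => p.1 := pt_val PT.id
  exact ip_table hT hA h0 h1 (f := fun x t m => f x t (m / B x) (m % B x)) (hf.comp (pt_sub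
    (f := fun p : {p : X × ℕ × ℕ // p.2.1 < T p.1 ∧ p.2.2 < A p.1} =>
      (p.1.1, p.1.2.1, p.1.2.2 / B p.1.1, p.1.2.2 % B p.1.1))
    (j.fst.pair (j.snd.fst.pair ((j.snd.snd.div (hB.comp j.fst)).pair
      (pt_mod j.snd.snd (hB.comp j.fst))))) fun p => ⟨p.2.1, Nat.mod_lt _ (h2 _)⟩))

section outer

variable {O : X → Outer} (hO : PT O)
include hO

theorem ob_otab : PT fun x => (O x).tab := hO.of_enc fun _ => rfl

theorem pu_m : PU fun x => (O x).m + 1 := by
  exact PU.of_len (PT.getD (ob_otab hO) (PT.const ((0 : Fin 64) : ℕ)) (PT.const []))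
    fun x => by rw [ob_row, List.length_ofFn]


theorem pt_vx {n : X → ℕ} (hn : PT n) : PT fun x => ((O x).vx (n x) : ℕ) := by
  exact pt_mod hn (pu_m hO).pt


theorem pt_mv {l : X → ℕ} {ξ : (x : X) → (O x).V} (hl : PT l) (hξ : PT fun x => (ξ x : ℕ)) :
    PT fun x => ((O x).mv (l x) (ξ x) : ℕ) := by
  exact (PT.getD (PT.getD (ob_otab hO) hl (PT.const [])) hξ hξ).congr fun x => ob_mv _ _ _


theorem pt_wd {w : X → List ℕ} {ξ : (x : X) → (O x).V} (hw : PT w) (hξ : PT fun x => (ξ x : ℕ)) :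
    PT fun x => ((O x).wd (w x) (ξ x) : ℕ) := by
  have hO' : PT fun p : X × ℕ × ℕ => O p.1 := hO.comp PT.fst'
  refine (pt_fold (f := fun x (s l : ℕ) => ((O x).mv l ((O x).vx s) : ℕ))
    (fun p : X × ℕ => List.range ((O p.1).m + 1))
    (pt_mv hO' PT.snd'.snd (pt_vx hO' PT.snd'.fst)) hw.reverse hξ
    ((pu_m hO).comp PT.fst').range fun x s a => ?_).congr fun x => ob_wd _ _ _
  exact (sz_lt_of_mem (List.mem_range.2 (Fin.is_lt _))).le.trans (Nat.le_add_left _ _)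


omit hO in
theorem pt_side (s : ℕ) {w : X → List ℕ} (hw : PT w) : PT fun x => side s (w x) := by
  exact PT.map (f := fun _ i => 2 * i + s) (by fun_prop) hw


omit hO in
theorem pt_ltr {s n a : X → ℕ} (hs : PT s) (hn : PU n) (ha : PT a) :
    PT fun x => ltr (s x) (n x) (a x) := by
  have h1 : PU fun p : X × ℕ => 5 * min p.2 (n p.1) := (PU.const 5).mul ((hn.comp PT.fst').of_le
    (pt_min PT.snd' (hn.pt.comp PT.fst')) fun _ => min_le_right _ _)
  refine (PT.map (f := fun x i => 2 * (a x / 2 ^ (5 * min i (n x)) % 32) + s x)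
    (((PT.const 2).mul (pt_mod ((ha.comp PT.fst').div (pt_two_pow h1)) (PT.const 32))).add
      (hs.comp PT.fst')) hn.range).congr fun x => ?_
  rw [ltr, side, List.map_map]
  refine List.map_congr_left fun i hi => ?_
  rw [min_eq_left (List.mem_range.1 hi).le, pow_mul]
  rfl


omit hO in
/-- construction of outer graphs. -/
theorem pt_outer (hm : PU fun x => (O x).m + 1)
    (hp : ∀ l : Fin 64, PT fun p : X × ℕ => ((O p.1).p l ((O p.1).vx p.2) : ℕ)) : PT O := by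
  refine (pt_ofFn (pt_pi (f := fun x (l : Fin 64) => List.ofFn fun ξ => ((O x).p l ξ : ℕ))
    fun l => (PT.map (f := fun x n => ((O x).p l ((O x).vx n) : ℕ)) (hp l) hm.range).congr
      fun x => ?_)).of_enc fun _ => rfl
  refine List.ext_getElem (by rw [List.length_ofFn, List.length_map, List.length_range])
    fun i h1 h2 => ?_
  rw [List.getElem_ofFn, List.getElem_map, List.getElem_range]
  exact congrArg (fun ξ => ((O x).p l ξ : ℕ)) (Outer.vx_val (O := O x) ⟨i, _⟩).symm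


end outer

section acc

variable {G : X → QI W} (hG : PT G)
include hG

theorem ob_tab : PT fun x => (G x).tab := hG.of_enc fun _ => rfl

theorem pt_toInst : PT fun x => (G x).toInst := by
  exact (ob_tab hG).fst


theorem pt_o : PT fun x => (G x).o := by
  exact (ob_tab hG).snd.fst


theorem qu_nA : PU fun x => (G x).nA := by
  exact (pu_m (pt_o hG)).mul (pu_nA (pt_toInst hG))


theorem pt_xo {t : X → ℕ} (ht : PT t) (h : ∀ x, t x < 2 ^ (G x).τ) (i : Fin W) :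
    PT fun x => min ((G x).xo (t x) i) 64 := by
  refine pt_apply (f := fun x i => min ((G x).xo (t x) i) 64) ?_ i
  exact (pt_get (ob_tab hG).snd.snd.fst ht fun x => by simpa [QI.tab] using h x).congr fun x => by
    simp only [QI.tab, List.getElem_map, List.getElem_range]


theorem pt_ix {a : (x : X) → (G x).A} (h1 : PT fun x => ((a x).1 : ℕ))
    (h2 : PT fun x => idx (a x).2) : PT fun x => (G x).ix (a x) := by
  exact (h1.mul (pu_nA (pt_toInst hG)).pt).add h2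


theorem pt_lb {t : X → ℕ} {a : (x : X) → (G x).A} (ht : PT t) (h : ∀ x, t x < 2 ^ (G x).τ)
    (h1 : PT fun x => ((a x).1 : ℕ)) (h2 : PT fun x => idx (a x).2) :
    PT fun x => (⟨(G x).lb (a x).1 (t x) (a x).2⟩ : Code ((Fin W → Bool) → Bool)) := by
  refine (pt_get (ob_tab hG).snd.snd.snd ((ht.mul (qu_nA hG).pt).add (pt_ix hG h1 h2))
    fun x => ?_).congr fun x => ?_
  · have h3 := Nat.mul_le_mul_right (G x).nA (Nat.succ_le_of_lt (h x))
    have h4 := (G x).ix_lt (a x)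
    simp only [QI.tab, List.length_map, List.length_range]
    rw [Nat.succ_mul] at h3
    omega
  · have h4 := (G x).ix_lt (a x)
    simp only [QI.tab, List.getElem_map, List.getElem_range]
    rw [Nat.mul_add_mod_of_lt h4, add_comm, Nat.add_mul_div_right _ _ (by omega),
      Nat.div_eq_of_lt h4, zero_add, QI.un_ix]


theorem pt_fib {ξ : (x : X) → (G x).o.V} (hξ : PT fun x => (ξ x : ℕ)) :
    PT fun x => (G x).fib (ξ x) := by
  have hI := pt_toInst hG
  have j : PT fun p : {p : X × ℕ × ℕ // p.2.1 < 2 ^ (G p.1).τ ∧ p.2.2 < (G p.1).n0} => p.1 :=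
    pt_val PT.id
  have h2 := ip_table (pu_T hI) (pu_nA hI) (fun x => Nat.two_pow_pos _) (fun x => (G x).n0_pos)
    (f := fun x t m => (⟨(G x).lb (ξ x) t (unidx _ _ _ m)⟩ : Code ((Fin W → Bool) → Bool)))
    (pt_lb (hG.comp j.fst) (a := fun p => (ξ p.1.1, unidx _ _ _ p.1.2.2)) j.snd.fst
      (fun p => p.2.1) (hξ.comp j.fst) (j.snd.snd.congr fun p => idx_unidx p.2.2))
  exact ((ip_tab hI).fst.pair ((ip_tab hI).snd.fst.pair
    ((ip_tab hI).snd.snd.fst.pair h2))).of_enc fun _ => rfl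


theorem pt_valQ {s : X → Asg} {t : X → ℕ} {a : (x : X) → (G x).A} (hs : PT s) (ht : PT t)
    (h1 : PT fun x => ((a x).1 : ℕ)) (h2 : PT fun x => idx (a x).2) :
    PT fun x => ((G x).val (s x) (t x) (a x) : ℕ) := by
  exact pt_mod (PT.getD hs ((ht.mul (qu_nA hG).pt).add (pt_ix hG h1 h2)) (PT.const 0)) (PT.const 4)


open Classical in
theorem ob_sat {s : X → Asg} {t : X → ℕ} {a : (x : X) → (G x).A} (hs : PT s) (ht : PT t)
    (h : ∀ x, t x < 2 ^ (G x).τ) (a1 : PT fun x => ((a x).1 : ℕ)) (a2 : PT fun x => idx (a x).2) :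
    PT fun x => decide (¬ (G x).sat ((G x).val (s x)) (t x) (a x)) := by
  have hI := pt_toInst hG
  have hT := (pu_T hI).pt
  have hp : PT fun x => (G x).prev (t x) := by unfold Inst.prev; fun_prop
  have h1 := pt_codeFun fun i => pt_codeBool (pt_win hI ht h i)
  have h2 := pt_codeFun fun i => pt_codeFin (pt_valQ hG (a := fun x => (G x).nb (t x) i (a x)) hs hp
    ((pt_mv (pt_o hG) (pt_xo hG ht h i) a1).congr fun x => by rw [Outer.mv_min]; rfl)
    ((pt_actN hI (pt_nop hI ht h i) a2).congr fun x => by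
      rw [Inst.actN, unidx_idx, Inst.nop, act_nrm]; rfl))
  have h3 := pt_lb hG ht h a1 a2
  have h4 := pt_codeFin (pt_valQ hG hs ht a1 a2)
  exact (pt_ofFin (fun c : ((Fin W → Bool) × (Fin W → Val)) × ((Fin W → Bool) → Bool) × Val =>
    decide (¬ HF (fun i => rd (c.1.1 i) (c.1.2 i)) c.2.1 c.2.2))
    (pt_mk2 Prod.mk (pt_mk2 Prod.mk h1 h2) (pt_mk2 Prod.mk h3 h4))).congr fun x =>
      decide_eq_decide.2 Iff.rfl

theorem pt_cntQ {s : X → Asg} (hs : PT s) : PT fun x => (G x).cnt (s x) := by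
  have hI := pt_toInst hG
  have hG' : PT fun p : X × ℕ => G p.1 := hG.comp PT.fst'
  have hT : PT fun p : X × ℕ => 2 ^ (G p.1).τ := (pu_T hI).pt.comp PT.fst'
  have hA : PT fun p : X × ℕ => (G p.1).nA := (qu_nA hG).pt.comp PT.fst'
  have hB : PT fun p : X × ℕ => (G p.1).n0 := (pu_nA hI).pt.comp PT.fst'
  classical
  refine (pt_countP (f := fun x n => decide (¬ (G x).sat ((G x).val (s x))
    (n / (G x).nA % 2 ^ (G x).τ) ((G x).un (n % (G x).nA))))
    (ob_sat hG' (hs.comp PT.fst') (t := fun p : X × ℕ => p.2 / (G p.1).nA % 2 ^ (G p.1).τ)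
      (a := fun p => (G p.1).un (p.2 % (G p.1).nA)) (pt_mod (PT.snd'.div hA) hT)
      (fun p => Nat.mod_lt _ (Nat.two_pow_pos _))
      (pt_vx (pt_o hG') ((pt_mod PT.snd' hA).div hB))
      ((pt_mod (pt_mod PT.snd' hA) hB).congr fun p => idx_unidx (Nat.mod_lt _ (G p.1).n0_pos)))
    ((pu_T hI).mul (qu_nA hG)).range).congr fun x => ?_
  refine List.countP_congr fun n hn => ?_
  rw [Nat.mod_eq_of_lt (a := n / (G x).nA)
    (Nat.div_lt_of_lt_mul (by rw [mul_comm]; exact List.mem_range.1 hn))]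


theorem pt_mkAsgQ {f : (x : X) → ℕ → (G x).A → Val}
    (hf : PT fun p : {p : X × ℕ × ℕ × ℕ // p.2.1 < 2 ^ (G p.1).τ ∧ p.2.2.2 < (G p.1).n0} =>
      (f p.1.1 p.1.2.1 ((G p.1.1).o.vx p.1.2.2.1, unidx _ _ _ p.1.2.2.2) : ℕ)) :
    PT fun x => (G x).mkAsg (f x) := by
  have hI := pt_toInst hG
  exact ob_table (pu_T hI) (qu_nA hG) (pu_nA hI).pt (fun x => Nat.two_pow_pos _)
    (fun x => (G x).nA_pos) (fun x => (G x).n0_pos)
    (f := fun x t ξ m => (f x t ((G x).o.vx ξ, unidx _ _ _ m) : ℕ)) hf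


end acc

/-- construction of instances. -/
theorem pt_qi {R : X → QI W} (hI : PT fun x => (R x).toInst) (hO : PT fun x => (R x).o)
    (hx : ∀ i, PT fun p : {p : X × ℕ // p.2 < 2 ^ (R p.1).τ} => min ((R p.1.1).xo p.1.2 i) 64)
    (hl : PT fun p : {p : X × ℕ × ℕ × ℕ // p.2.1 < 2 ^ (R p.1).τ ∧ p.2.2.2 < (R p.1).n0} =>
      (⟨(R p.1.1).lb ((R p.1.1).o.vx p.1.2.2.1) p.1.2.1 (unidx _ _ _ p.1.2.2.2)⟩ :
        Code ((Fin W → Bool) → Bool))) : PT R := by
  have hT := pu_T hI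
  have j : PT fun p : X × ℕ => (⟨(p.1, p.2 % 2 ^ (R p.1).τ), Nat.mod_lt _ (Nat.two_pow_pos _)⟩ :
      {p : X × ℕ // p.2 < 2 ^ (R p.1).τ}) :=
    pt_sub (PT.fst'.pair (pt_mod PT.snd' (hT.pt.comp PT.fst'))) _
  have h1 : PT fun x => (List.range (2 ^ (R x).τ)).map fun t i => min ((R x).xo t i) 64 := by
    refine (PT.map (f := fun x t i => min ((R x).xo (t % 2 ^ (R x).τ) i) 64)
      (pt_pi fun i => (hx i).comp j) hT.range).congr fun x => ?_
    refine List.map_congr_left fun n hn => ?_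
    rw [Nat.mod_eq_of_lt (List.mem_range.1 hn)]
  have h2 := ob_table hT ((pu_m hO).mul (pu_nA hI)) (pu_nA hI).pt (fun x => Nat.two_pow_pos _)
    (fun x => (R x).nA_pos) (fun x => (R x).n0_pos)
    (f := fun x t ξ m => (⟨(R x).lb ((R x).o.vx ξ) t (unidx _ _ _ m)⟩ :
      Code ((Fin W → Bool) → Bool))) hl
  exact (hI.pair (hO.pair (h1.pair h2))).of_enc fun _ => rfl


/-- the size of the code of an instance. -/
theorem sz_qi (W : ℕ) : ∃ C : ℕ, ∀ G : QI W, ∀ N : ℕ, G.b ≤ N → G.β ≤ N → G.k0 ≤ N →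
    2 ^ G.τ * G.n0 ≤ N → sz G.o ≤ N → sz G ≤ (N + 2) ^ C := by
  let c := Fintype.card ((Fin W → Bool) → Bool)
  obtain ⟨C, hC⟩ := sz_inst W
  obtain ⟨k, hk⟩ := eval_le_pow ((Polynomial.X + 2) ^ C + Polynomial.X +
    (Polynomial.X * (Polynomial.C W * (4 * 64 + 1 + 1) + 1 + 1) + 1) +
    (Polynomial.X * Polynomial.X * (4 * Polynomial.C c + 1 + 1) + 1) + 3)
  refine ⟨k, fun G N hb hβ hk0 hN ho => le_trans ?_ (hk N)⟩
  have hT : 2 ^ G.τ ≤ N := (Nat.le_mul_of_pos_right _ G.n0_pos).trans hN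
  have h1 := hC G.toInst N hb hβ hk0 hN
  have h2 : sz G.tab.2.2.1 ≤ N * (W * (4 * 64 + 1 + 1) + 1 + 1) + 1 := by
    refine ip_sz_list (by simpa [QI.tab] using hT) fun a ha => ?_
    obtain ⟨t, -, rfl⟩ := List.mem_map.1 ha
    exact ip_sz_ofFn (f := fun i => min (G.xo t i) 64) le_rfl fun _ => ip_sz_nat (min_le_right _ _)
  have h3 : 2 ^ G.τ * G.nA ≤ N * N := by
    rw [QI.nA, mul_left_comm]
    exact Nat.mul_le_mul ((ob_m_le G.o).trans ho) hN
  have h4 : sz G.tab.2.2.2 ≤ N * N * (4 * c + 1 + 1) + 1 :=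
    ip_sz_list (by simpa [QI.tab] using h3) fun a _ =>
      ip_sz_nat (n := Fintype.equivFin _ a.val) (Fin.is_lt _).le
  have e : sz G = sz (G.toInst, G.o, G.tab.2.2.1, G.tab.2.2.2) := rfl
  simp only [e, sz_pair, Polynomial.eval_add, Polynomial.eval_mul, Polynomial.eval_X,
    Polynomial.eval_C, Polynomial.eval_ofNat, Polynomial.eval_one, Polynomial.eval_pow]
  omega


theorem Red.comp {src : X → QI W} {R : X → QI W'} {Φ : X → ℝ → ℝ → Prop}
    {src' : Y → QI W'} {R' : Y → QI W''} {Φ' : Y → ℝ → ℝ → Prop} (h : Red src R Φ)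
    (h' : Red src' R' Φ') {j : X → Y} (hj : PT j) (e : ∀ x, src' (j x) = R x) :
    Red src (fun x => R' (j x)) fun x v'' v => ∃ v', 0 ≤ v' ∧ Φ' (j x) v'' v' ∧ Φ x v' v := by
  obtain ⟨-, D, hD, h1⟩ := h
  obtain ⟨hR', D', hD', h2⟩ := h'
  refine ⟨hR'.comp hj, fun p => D (p.1, D' (j p.1, p.2)),
    hD.comp (PT.fst'.pair (hD'.comp ((hj.comp PT.fst').pair PT.snd'))), fun x s => ?_⟩
  refine ⟨(R x).violA (D' (j x, s)), QI.viol_nonneg _ _, ?_, h1 x _⟩
  rw [← e]
  exact h2 _ _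

theorem Red.mono {src : X → QI W} {R : X → QI W'} {Φ Ψ : X → ℝ → ℝ → Prop} (h : Red src R Φ)
    (hh : ∀ x v' v, 0 ≤ v' → 0 ≤ v → Φ x v' v → Ψ x v' v) : Red src R Ψ := by
  obtain ⟨hR, D, hD, h1⟩ := h
  exact ⟨hR, D, hD, fun x s => hh _ _ _ (QI.viol_nonneg _ _) (QI.viol_nonneg _ _) (h1 x s)⟩

theorem Red.pre {src : Y → QI W} {R : Y → QI W'} {Φ : Y → ℝ → ℝ → Prop} (h : Red src R Φ)
    {j : X → Y} (hj : PT j) :
    Red (fun x => src (j x)) (fun x => R (j x)) fun x => Φ (j x) := by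
  obtain ⟨h1, D, h2, h3⟩ := h
  exact ⟨h1.comp hj, fun p => D (j p.1, p.2), h2.comp ((hj.comp PT.fst').pair PT.snd'),
    fun x s => h3 _ _⟩

end Vale.Agent.P330O
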