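import Vale.Agent.P330Q.OIterLoop

/-! One cycle: Round, Compile, Absorb (port of `P330/IterCyc`). -/

namespace Vale.Agent.P330O

open Vale.Agent.Lib.H23 Vale.Agent.P333 Vale.Agent.P325 Vale.Agent.P330 Vale.Agent.P330.Amp
open Finset Polynomial
open scoped BigOperators

/-- side conditions of a cycle. -/
def CycOk (g A E C : ℕ) (p : QI 2 × List Unit × ℕ) : Prop :=
  p.1.Good g ∧ p.1.σ = 0 ∧ 1 ≤ p.1.b ∧ 1 ≤ p.2.2 ∧ C * p.2.2 ≤ p.1.k0 ∧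
    (p.1.b + p.1.τ + p.2.2 + 2) ^ E ≤ 2 ^ (A * p.2.2) ∧
    2 ^ ((p.1.τ / p.1.k0 + C) * p.1.β) ≤ p.2.1.length

/-- properties of a cycle. -/
def CycP (g A E C : ℕ) (R : {p // CycOk g A E C p} → QI 2) : Prop :=
  (∀ x, (R x).o = x.1.1.o ∧ (R x).Good g ∧ (R x).σ = 0 ∧ (R x).β = x.1.1.β ∧ (R x).k0 = x.1.1.k0 ∧
    x.1.1.b + 1 ≤ (R x).b ∧ (R x).b ≤ x.1.1.b + x.1.1.τ / x.1.1.k0 + C ∧
    (R x).τ ≤ A * x.1.2.2) ∧
  Red (fun x => x.1.1) R fun x v' v =>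
    v' * 2 ^ (x.1.1.τ + 2 * (A * x.1.2.2)) ≤ 1 → v * 2 ^ (98 * (A * x.1.2.2)) ≤ v'

theorem cyc {g : ℕ} (hA : AbsorbQ g) (hC : CompileQ g) (hR : RoundQ g) :
    ∃ (A E C : ℕ) (R : {p // CycOk g A E C p} → QI 2), 1 ≤ A ∧ 1 ≤ C ∧ CycP g A E C R := by
  obtain ⟨W, A, c1, R1, hA1, p1, r1⟩ := hR
  obtain ⟨c2, R2, p2, r2⟩ := hC W
  obtain ⟨c3, R3, p3, r3⟩ := hA
  obtain ⟨E, hE⟩ := eval_le_pow (Polynomial.C (c2 * c3) *
    (Polynomial.C (c1 + 1) * X + Polynomial.C (c2 + 1)) ^ 2 * (Polynomial.C c1 * X ^ c1) * X)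
  simp only [eval_mul, eval_pow, eval_add, eval_C, eval_X] at hE
  let j1 : {p // CycOk g A E (c1 + c2 + c3 + 3) p} → RIn g c1 := fun x =>
    ⟨(x.1.1, x.1.2.2), x.2.1, x.2.2.1, x.2.2.2.1, x.2.2.2.2.1,
      (Nat.mul_le_mul_right _ (by omega)).trans x.2.2.2.2.2.1⟩
  have hv : PT fun x : {p // CycOk g A E (c1 + c2 + c3 + 3) p} => x.1 := pt_val PT.id
  have hj1 : PT j1 := pt_sub (hv.fst.pair hv.snd.snd) _
  let j2 : {p // CycOk g A E (c1 + c2 + c3 + 3) p} → {G : QI W // G.Good g} := fun x =>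
    ⟨R1 (j1 x), (p1 (j1 x)).2.1⟩
  have hj2 : PT j2 := pt_sub (r1.1.comp hj1) _
  have k1 : ∀ x, (R2 (j2 x)).σ ≤ x.1.1.τ + c1 * x.1.2.2 + c2 := fun x =>
    (p2 _).2.2.2.2.2.1.trans (Nat.add_le_add_right (p1 (j1 x)).2.2.2.2.2.1 _)
  have k2 : ∀ x, (R2 (j2 x)).k0 = x.1.1.k0 := fun x =>
    (p2 _).2.2.2.2.1.trans (p1 (j1 x)).2.2.2.2.1
  have k3 : ∀ x, (R2 (j2 x)).β = x.1.1.β := fun x =>
    (p2 _).2.2.2.1.trans (p1 (j1 x)).2.2.2.1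
  have k4 : ∀ x, (R2 (j2 x)).σ / (R2 (j2 x)).k0 ≤ x.1.1.τ / x.1.1.k0 + c2 + 1 :=
    fun x => by
      rw [k2]
      exact (Nat.div_le_div_right (k1 x)).trans (ic_div x.2.1.inn.one_le (j1 x).2.2.2.2.2)
  let j3 : {p // CycOk g A E (c1 + c2 + c3 + 3) p} → AbsIn g := fun x =>
    ⟨(R2 (j2 x), x.1.2.1), (p2 _).2.1, by
      refine le_trans (Nat.pow_le_pow_right two_pos ?_) x.2.2.2.2.2.2.2
      dsimp only
      rw [k3]
      exact Nat.mul_le_mul_right _ (by have := k4 x; omega)⟩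
  have hj3 : PT j3 := pt_sub ((r2.1.comp hj2).pair hv.snd.fst) _
  have k5 : ∀ x : {p // CycOk g A E (c1 + c2 + c3 + 3) p},
      c2 * c3 * ((R2 (j2 x)).σ + 1) ^ 2 * (c1 * (x.1.1.b + x.1.1.τ + x.1.2.2) ^ c1) * x.1.1.b
        ≤ 2 ^ (A * x.1.2.2) := fun x => by
    refine le_trans ?_ ((hE _).trans x.2.2.2.2.2.2.1)
    have a1 := k1 x
    have a2 := Nat.mul_le_mul_left c1 (Nat.le_add_left x.1.2.2 (x.1.1.b + x.1.1.τ))
    refine Nat.mul_le_mul (Nat.mul_le_mul_right _ (Nat.mul_le_mul_left _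
      (Nat.pow_le_pow_left ?_ 2))) (by omega)
    rw [add_one_mul]
    omega
  refine ⟨A, E, _, fun x => R3 (j3 x), hA1, by omega, fun x => ?_, ?_⟩
  · obtain ⟨q0, q1, q2, q3, q4, q5, q6, q7⟩ := p3 (j3 x)
    have q8 : (R2 (j2 x)).b = x.1.1.b + 2 := (p2 _).2.2.1.trans (p1 (j1 x)).2.2.1
    have q9 := k4 x
    dsimp only [j3] at q3 q4 q5 q6 q7
    refine ⟨q0.trans ((p2 _).1.trans (p1 (j1 x)).1), q1, q2, q3.trans (k3 x), q4.trans (k2 x),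
      by dsimp only [j3]; omega,
      by dsimp only [j3]; omega, (Nat.pow_le_pow_iff_right one_lt_two).1 (q7.trans ?_)⟩
    refine le_trans ?_ ((Nat.le_mul_of_pos_right _ x.2.2.2.1).trans (k5 x))
    have a1 := (p2 (j2 x)).2.2.2.2.2.2
    have a2 := Nat.mul_le_mul_left c2 (p1 (j1 x)).2.2.2.2.2.2
    refine (Nat.mul_le_mul_left _ (a1.trans a2)).trans (le_of_eq ?_)
    dsimp only [j1]
    ring
  · refine (((r1.pre hj1).comp r2 hj2 fun _ => rfl).comp r3 hj3 fun _ => rfl).mono ?_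
    rintro x v3 v h3 - ⟨v2, -, e2, v1, -, e1, e0⟩ e4
    dsimp only [j1, j3, rLoss] at e0 e1 e2
    have k6 : ((c2 * c3 * ((R2 (j2 x)).σ + 1) ^ 2 : ℕ) : ℝ) *
        ((c1 * (x.1.1.b + x.1.1.τ + x.1.2.2) ^ c1 : ℕ) : ℝ) * x.1.1.b ≤ 2 ^ (A * x.1.2.2) := by
      exact_mod_cast k5 x
    rw [mul_comm 98, pow_mul]
    refine ic_real (v1 := v1) h3 (Nat.cast_nonneg _) (by exact_mod_cast x.2.2.2.1)
      (pow_nonneg zero_le_two x.1.1.τ) (by positivity) (Nat.cast_nonneg _) ?_ k6 ?_ ?_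
    · refine e1.trans ((mul_le_mul_of_nonneg_left e2 (Nat.cast_nonneg _)).trans (le_of_eq ?_))
      push_cast
      ring
    · rw [mul_assoc 100, mul_comm 100, pow_mul _ (A * _) 100] at e0
      push_cast
      exact e0
    · rwa [pow_add, mul_comm 2, pow_mul] at e4

end Vale.Agent.P330O
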