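import Vale.Agent.P330Q.OInstB
import Vale.Agent.P330.Iter

/-! Iterating a reduction polynomially many times (port of `P330/IterLoop`). -/

namespace Vale.Agent.P330O

open Vale.Agent.Lib.H23 Vale.Agent.P333 Vale.Agent.P325 Vale.Agent.P330 Vale.Agent.P330.Amp
open Finset Polynomial
open scoped BigOperators

variable {X Y S : Type} [Enc X] [Enc Y] [Enc S] {W W' : ℕ}

theorem il_norm {src : S → QI W} (h : PT src) :
    PT fun p : S × Asg => (src p.1).mkAsg ((src p.1).val p.2) :=
  pt_mkAsgQ (G := fun p : S × Asg => src p.1) (h.comp PT.fst')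
    (pt_valQ (h.comp (pt_val PT.id).fst.fst) (pt_val PT.id).fst.snd (pt_val PT.id).snd.fst
      (pt_vx (pt_o (h.comp (pt_val PT.id).fst.fst)) (pt_val PT.id).snd.snd.fst)
      ((pt_val PT.id).snd.snd.snd.congr fun q => idx_unidx q.2.2))

theorem il_o (G : QI W) : sz G.o ≤ sz G := by
  have e : sz G = sz G.tab := rfl
  rw [e, QI.tab]
  simp only [sz_pair]
  omega

theorem il_sz (G : QI W) (x : ℕ → G.A → Val) : sz (G.mkAsg x) ≤ 2 ^ G.τ * G.nA * 10 + 1 := by
  have := sz_list_le (l := G.mkAsg x) (B := 9) fun a ha => by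
    obtain ⟨n, -, rfl⟩ := List.mem_map.1 ha
    exact sz_nat_le (k := 2) (Fin.is_lt _)
  simpa [QI.mkAsg] using this

theorem red_iter {src : S → QI W} {step : S → S} {P : S → ℝ → Prop}
    (h : Red src (fun y => src (step y)) fun y v' v => P (step y) v' → P y v) (hsrc : PT src)
    (hs : PT step) {μ : S → ℕ} (hμ : PU μ)
    (hsz : ∃ Q : ℕ[X], ∀ x i, sz (step^[i] x) ≤ Q.eval (sz x)) :
    PT (fun x => step^[μ x] x) ∧ Red src (fun x => src (step^[μ x] x))
      fun x v' v => P (step^[μ x] x) v' → P x v := by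
  obtain ⟨-, D, hD, h⟩ := h
  have h0 := il_iter hs hsz
  have h1 : PT fun x => step^[μ x] x :=
    (h0.comp (PT.id.pair hμ.range)).congr fun x => by simp
  let y : S → ℕ → S := fun x i => step^[((List.range (μ x)).take i).length] x
  have hy : PT fun p : S × ℕ => y p.1 p.2 :=
    h0.comp (PT.fst'.pair (pt_take PT.snd' (hμ.range.comp PT.fst')))
  let F : S × Asg → Asg → ℕ → Asg := fun p s i =>
    (src (y p.1 i)).mkAsg ((src (y p.1 i)).val (D (y p.1 i, s)))
  refine ⟨h1, hsrc.comp h1, fun p => (List.range (μ p.1)).reverse.foldl (F p) p.2, ?_, ?_⟩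
  · have h2 : PT fun q : (S × Asg) × Asg × ℕ => y q.1.1 q.2.2 :=
      hy.comp (PT.fst'.fst.pair PT.snd'.snd)
    have h3 : PT fun q : (S × Asg) × ℕ => src (y q.1.1 q.2) :=
      hsrc.comp (hy.comp (PT.fst'.fst.pair PT.snd'))
    obtain ⟨Q, hQ⟩ := ((pu_T (pt_toInst h3)).mul (qu_nA h3)).range.size_le
    refine PT.foldl' ((il_norm hsrc).comp (h2.pair (hD.comp (h2.pair PT.snd'.fst))))
      (hμ.range.comp PT.fst').reverse PT.snd' ⟨Q.comp (X + 1) * 10 + 1, fun p s i => ?_⟩
    have h4 := (length_lt_sz _).le.trans (hQ (p, i))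
    rw [List.length_range, sz_pair] at h4
    dsimp only at h4
    refine (il_sz _ _).trans ?_
    simp only [eval_add, eval_mul, eval_comp, eval_X, eval_one, eval_ofNat]
    omega
  · intro x
    have key : ∀ k ≤ μ x, ∀ s t, P (step^[k] x) ((src (step^[k] x)).violA s) →
        P x ((src x).violA ((List.range k).reverse.foldl (F (x, t)) s)) := by
      intro k
      induction k with
      | zero => exact fun _ _ _ h => h
      | succ k ih =>
        intro hk s t hP
        rw [List.range_succ, List.reverse_append, List.reverse_singleton, List.singleton_append,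
          List.foldl_cons]
        refine ih (by omega) _ t ?_
        have e : y x k = step^[k] x := by
          simp only [y, List.length_take, List.length_range, min_eq_left (by omega : k ≤ μ x)]
        dsimp only [F]
        rw [e, QI.violA_mkAsg]
        rw [Function.iterate_succ_apply'] at hP
        exact h _ _ hP
    exact fun s => key _ le_rfl s s

theorem red_loop {T : Type} [Enc T] {I : QI 2 × T → Prop} {new : {p // I p} → QI 2 × T}
    {P : QI 2 × T → ℝ → Prop} {μ : QI 2 × T → ℕ} (ν : T → ℕ)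
    (h : Red (fun y => y.1.1) (fun y => (new y).1)
      fun y v' v => 0 < μ y.1 → P (new y) v' → P y.1 v)
    (hs : PT fun y => (new y).2) (hμ : PU μ)
    (h1 : ∀ y, 0 < μ y.1 → I (new y) ∧ μ (new y) < μ y.1) (h2 : ∀ y, sz (new y).2 ≤ sz y.1.2)
    (h3 : ∀ p, I p → p.1.b ≤ sz p.2 ∧ p.1.β ≤ sz p.2 ∧ p.1.k0 ≤ sz p.2 ∧
      2 ^ p.1.τ * p.1.n0 ≤ sz p.2)
    (h4 : ∀ y, (new y).1.o = y.1.1.o ∧ ν (new y).2 = ν y.1.2) :
    ∃ fin : {p // I p} → {p // I p ∧ μ p = 0}, PT fin ∧
      (∀ x, (fin x).1.1.o = x.1.1.o ∧ ν (fin x).1.2 = ν x.1.2) ∧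
      Red (fun y => y.1.1) (fun x => (fin x).1.1) fun x v' v => P (fin x).1 v' → P x.1 v := by
  obtain ⟨hR, D, hD, h⟩ := h
  let step : {p // I p} → {p // I p} := fun y =>
    ⟨if 0 < μ y.1 then new y else y.1, by
      split_ifs with h0
      · exact (h1 y h0).1
      · exact y.2⟩
  have hv : PT fun y : {p // I p} => y.1 := pt_val PT.id
  have hc : PT fun y : {p // I p} => decide (0 < μ y.1) := pt_decLt (PT.const 0) (hμ.pt.comp hv)
  have hst : PT step := pt_sub (pt_ite hc (hR.pair hs) hv) _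
  have e1 : ∀ y, 0 < μ y.1 → (step y).1 = new y := fun y h0 => if_pos h0
  have e2 : ∀ y, ¬ 0 < μ y.1 → step y = y := fun y h0 => Subtype.ext (if_neg h0)
  obtain ⟨C, hC⟩ := sz_qi 2
  have k1 : ∀ x i, sz (step^[i] x).1.2 ≤ sz x.1.2 := fun x i => by
    induction i with
    | zero => exact le_rfl
    | succ i ih =>
      rw [Function.iterate_succ_apply']
      by_cases h0 : 0 < μ (step^[i] x).1
      · rw [e1 _ h0]; exact (h2 _).trans ih
      · rwa [e2 _ h0]
  have k0 : ∀ x i, (step^[i] x).1.1.o = x.1.1.o ∧ ν (step^[i] x).1.2 = ν x.1.2 := fun x i => by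
    induction i with
    | zero => exact ⟨rfl, rfl⟩
    | succ i ih =>
      rw [Function.iterate_succ_apply']
      by_cases h0 : 0 < μ (step^[i] x).1
      · rw [e1 _ h0]; exact ⟨(h4 _).1.trans ih.1, (h4 _).2.trans ih.2⟩
      · rwa [e2 _ h0]
  have k2 : ∀ i x, μ (step^[i] x).1 ≤ μ x.1 - i := fun i x => by
    induction i with
    | zero => exact le_rfl
    | succ i ih =>
      rw [Function.iterate_succ_apply']
      by_cases h0 : 0 < μ (step^[i] x).1
      · rw [e1 _ h0]
        have := (h1 _ h0).2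
        omega
      · rw [e2 _ h0]
        omega
  obtain ⟨k3, k4⟩ := red_iter (src := fun y : {p // I p} => y.1.1) (step := step)
    (P := fun y => P y.1) ⟨(pt_val hst).fst, fun q => if 0 < μ q.1.1 then D q else q.2,
      pt_ite (hc.comp PT.fst') hD PT.snd', fun y s => by
        dsimp only
        by_cases h0 : 0 < μ y.1
        · rw [e1 y h0, if_pos h0]
          exact h y s h0
        · rw [e2 y h0, if_neg h0]
          exact id⟩ hv.fst hst (hμ.comp hv) ⟨(X + 2) ^ C + X + 1, fun x i => by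
      obtain ⟨a1, a2, a3, a4⟩ := h3 _ (step^[i] x).2
      have a6 : sz x = sz x.1.1 + sz x.1.2 + 1 := sz_prod x.1
      have a7 : sz (step^[i] x).1.2 ≤ sz x := (k1 x i).trans (by omega)
      have a5 := hC _ (sz x) (a1.trans a7) (a2.trans a7) (a3.trans a7) (a4.trans a7) (by
        rw [(k0 x i).1]
        exact (il_o _).trans (by omega))
      have a8 : sz (step^[i] x) = sz (step^[i] x).1.1 + sz (step^[i] x).1.2 + 1 :=
        sz_prod (step^[i] x).1
      simp only [eval_add, eval_pow, eval_X, eval_one, eval_ofNat]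
      omega⟩
  exact ⟨fun x => ⟨(step^[μ x.1] x).1, (step^[μ x.1] x).2, by have := k2 (μ x.1) x; omega⟩,
    pt_sub (pt_val k3) _, fun x => k0 x _, k4⟩

end Vale.Agent.P330O
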