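import Vale.Agent.P330Q.OIterEarly

/-! The start of the iteration (port of the first part of `P330/Iter`). -/

namespace Vale.Agent.P330O

open Vale.Agent.Lib.H23 Vale.Agent.P333 Vale.Agent.P325 Vale.Agent.P330 Vale.Agent.P330.Amp
open Finset Matrix
open scoped BigOperators

theorem os_len (a l : ℕ) : 2 * a * (2 * (l + 1)) ≤ (a + l + 2) ^ 2 := by
  nlinarith [two_mul_le_add_sq a (l + 1)]

theorem os_k {k C D u : ℕ} (h : k ≤ 3 * (C * (D * (4 * u))) + 2) (hu : 1 ≤ u) :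
    k ≤ (12 * (C * D) + 2) * u := by
  nlinarith

theorem os_phi {z d f D u M : ℕ} (h : z ≤ (d + 1) * M + f * u) (h' : (f + 4 * D + 2) * u ≤ M)
    (hu : 1 ≤ u) : z + D * (4 * u) + 2 ≤ (d + 2) * M := by
  nlinarith

theorem start {g A C D b0 : ℕ} (hA : 1 ≤ A) (hD : 1 ≤ D) (hI : InitQ g) (hB : AbsorbQ g) :
    ∃ (K : ℕ) (j : IniIn g → {p // EarlyOk g A C D b0 p}), PT j ∧
      (∀ x, (j x).1.1.o = x.1.1.o ∧
        (j x).1.2.1.length ≤ (2 ^ x.1.1.τ * x.1.1.n0 + x.1.2.length + 2) ^ K) ∧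
      Red (fun x => x.1.1) (fun x => (j x).1.1) fun x v' v =>
        v' * 2 ^ (3 * (A * (D * (4 * (j x).1.2.2.2))) +
          98 * (A * (D * (4 * (j x).1.2.2.2)) * (j x).1.2.2.1.length)) ≤ 1 →
        v * 2 ^ (x.1.1.σ + x.1.1.τ + x.1.2.length.size + 1) ≤ 1 := by
  obtain ⟨R1, p1, r1⟩ := hI
  obtain ⟨c, R2, p2, r2⟩ := hB
  obtain ⟨e, he⟩ : ∃ e, e = 12 * (C * D) + 2 := ⟨_, rfl⟩
  obtain ⟨d, hd⟩ : ∃ d, d = (C + A) * e := ⟨_, rfl⟩
  obtain ⟨H, hH⟩ : ∃ H, H = c * e + c + 4 + 3 * d + 4 * D + 2 + (d + 2) + b0 + e := ⟨_, rfl⟩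
  let n : IniIn g → ℕ := fun x => x.1.1.σ + x.1.1.τ + x.1.2.length.size
  let u : IniIn g → ℕ := fun x => (n x).size / 2 + (H + 4)
  let L : IniIn g → ℕ := fun x =>
    (2 * (2 ^ x.1.1.τ * x.1.1.n0) * (2 * (x.1.2.length + 1))) ^
      (3 * ((d + 2) * 2 ^ (2 * (H + 4) + 1)))
  have hv : PT fun x : IniIn g => x.1 := pt_val PT.id
  have hw : PT fun x : IniIn g => x.1.1.toInst := pt_toInst hv.fst
  have hn : PU n := ((pu_σ hw).add (pu_τ hw)).add (pu_size hv.snd.length)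
  have hu : PU u := (((pu_size hn.pt).of_le (hn.pt.size.div (PT.const 2))
    fun _ => Nat.div_le_self _ _)).add (PU.const _)
  have hL : PU L := (((PU.const 2).mul ((pu_T hw).mul (pu_nA hw))).mul
    ((PU.const 2).mul ((PU.len hv.snd).add (PU.const 1)))).pow _
  have f0 : ∀ x, H + 4 ≤ u x := fun x => Nat.le_add_left _ _
  have f1 : ∀ x, n x < 2 ^ (2 * u x) := fun x => Nat.size_le.1 (by dsimp only [u]; omega)
  have f2 : ∀ x, 2 ^ (2 * u x) ≤ 2 ^ (2 * (H + 4) + 1) * (n x + 1) := fun x => by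
    refine (Nat.pow_le_pow_right two_pos (show _ ≤ 2 * (H + 4) + (n x).size by
      dsimp only [u]; omega)).trans ?_
    rw [pow_add _ _ (n x).size, pow_succ _ (2 * (H + 4)), mul_assoc]
    exact Nat.mul_le_mul_left _ (st_size _)
  have f3 : ∀ x, H * u x ≤ 2 ^ u x := fun x => it_exp (f0 x)
  have f4 : ∀ x, 2 ^ u x ≤ 2 ^ (2 * u x) := fun x => Nat.pow_le_pow_right two_pos (by omega)
  have f5 : ∀ x, 2 ^ (3 * ((d + 2) * 2 ^ (2 * u x))) ≤ L x := fun x => by
    have : 2 ^ (n x + 1) ≤ 2 * (2 ^ x.1.1.τ * x.1.1.n0) * (2 * (x.1.2.length + 1)) := by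
      refine le_trans (le_of_eq ?_) (Nat.mul_le_mul_left _ (st_size _))
      rw [QI.n0, Inst.nA, x.2.1]; dsimp only [n]; ring
    dsimp only [L]
    refine le_trans ?_ (Nat.pow_le_pow_left this _)
    rw [← pow_mul, mul_comm (n x + 1), mul_assoc, mul_assoc]
    exact Nat.pow_le_pow_right two_pos (Nat.mul_le_mul_left _ (Nat.mul_le_mul_left _ (f2 x)))
  have hM : PU fun x => 2 ^ (2 * u x) := ((PU.const _).mul (hn.add (PU.const 1))).of_le
    (pt_two_pow ((PU.const 2).mul hu)) f2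
  have hr : PU fun x => 2 ^ (2 * u x) / u x + 2 :=
    (hM.of_le (hM.pt.div hu.pt) fun _ => Nat.div_le_self _ _).add (PU.const 2)
  let j1 : IniIn g → IniIn g := fun x =>
    ⟨(x.1.1, List.replicate (C * (D * (4 * u x))) ()), x.2⟩
  have hj1 : PT j1 := pt_sub (hv.fst.pair
    (st_unit ((PU.const C).mul ((PU.const D).mul ((PU.const 4).mul hu))))) _
  have k1 : ∀ x, (R1 (j1 x)).k0 ≤ e * u x := fun x => by
    have a1 := (p1 (j1 x)).2.2.2.2.2.2.2
    have a2 := f0 x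
    dsimp only [j1] at a1 ⊢
    rw [List.length_replicate] at a1
    rw [he]
    exact os_k a1 (by omega)
  have k2 : ∀ x (a : ℕ), a ≤ H → a * u x ≤ 2 ^ u x := fun x a ha =>
    (Nat.mul_le_mul_right _ ha).trans (f3 x)
  let j2 : IniIn g → AbsIn g := fun x =>
    ⟨(R1 (j1 x), List.replicate (L x) ()), (p1 _).2.1, by
      obtain ⟨-, -, -, q1, -, q2, -⟩ := p1 (j1 x)
      have a1 := Nat.div_mul_le_self (R1 (j1 x)).σ (R1 (j1 x)).k0
      have a2 := ((k1 x).trans (k2 x e (by omega))).trans (f4 x)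
      have a3 := f1 x
      have a4 : (R1 (j1 x)).σ = x.1.1.σ := q1
      dsimp only
      rw [List.length_replicate, q2, add_one_mul]
      refine le_trans (Nat.pow_le_pow_right two_pos ?_) (f5 x)
      rw [add_mul]
      dsimp only [n] at a3
      omega⟩
  have hj2 : PT j2 := pt_sub ((r1.1.comp hj1).pair (st_unit hL)) _
  have k3 : ∀ x, c * ((R1 (j1 x)).σ + 1) ^ 2 ≤ 2 ^ (c + 4 * u x) := fun x => by
    have a4 : (R1 (j1 x)).σ = x.1.1.σ := (p1 (j1 x)).2.2.2.1
    have a3 := f1 x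
    rw [pow_add, a4, show 4 * u x = 2 * u x * 2 by ring, pow_mul]
    exact Nat.mul_le_mul Nat.lt_two_pow_self.le
      (Nat.pow_le_pow_left (by dsimp only [n] at a3; omega) 2)
  have k4 : ∀ x, c + 4 * u x + n x + 1 ≤ A * (D * (4 * u x)) * (2 ^ (2 * u x) / u x + 1) :=
    fun x => by
      have a1 := f0 x
      have a2 := Nat.lt_mul_div_succ (2 ^ (2 * u x)) (show 0 < u x by omega)
      have a3 := (k2 x (c + 4) (by omega)).trans (f4 x)
      have a4 := f1 x
      have a5 := Nat.le_mul_of_pos_right c (show 0 < u x by omega)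
      refine le_trans ?_ (Nat.mul_le_mul_right _
        ((Nat.le_mul_of_pos_left _ hD).trans (Nat.le_mul_of_pos_left _ hA)))
      rw [add_mul] at a3
      rw [mul_assoc]
      omega
  have k5 : ∀ x, EarlyOk g A C D b0 (R2 (j2 x), List.replicate (L x) (),
      List.replicate (2 ^ (2 * u x) / u x + 2) (), u x) := fun x => by
    obtain ⟨-, -, q1, q2, q3, q4, q5, -⟩ := p1 (j1 x)
    obtain ⟨-, q6, q7, q8, q9, q10, q11, q12⟩ := p2 (j2 x)
    change (R2 (j2 x)).β = (R1 (j1 x)).β at q8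
    change (R2 (j2 x)).k0 = (R1 (j1 x)).k0 at q9
    change (R2 (j2 x)).b ≤ (R1 (j1 x)).b + (R1 (j1 x)).σ / (R1 (j1 x)).k0 + c at q11
    change (R1 (j1 x)).σ = x.1.1.σ at q2
    change (R1 (j1 x)).τ = x.1.1.τ at q3
    have a0 := f0 x
    have a1 : (R2 (j2 x)).τ ≤ c + 4 * u x + x.1.1.τ := by
      refine (Nat.pow_le_pow_iff_right one_lt_two).1 (q12.trans ?_)
      rw [pow_add _ _ x.1.1.τ, ← q3]
      exact Nat.mul_le_mul_right _ (k3 x)
    have a2 : (R2 (j2 x)).b * (R1 (j1 x)).k0 ≤ x.1.1.σ + c * (R1 (j1 x)).k0 := by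
      refine (Nat.mul_le_mul_right _ q11).trans ?_
      rw [q1, zero_add, add_mul, q2]
      exact Nat.add_le_add_right (Nat.div_mul_le_self _ _) _
    have a3 := st_phi (δ := C + A) (c := c) (b := (R2 (j2 x)).b * (R1 (j1 x)).k0)
      (t := (R2 (j2 x)).τ) (k1 x) (by dsimp only [n]; omega) (f1 x).le (by omega)
    have a4 := (k2 x (c * e + c + 4 + 3 * d + 4 * D + 2) (by omega)).trans (f4 x)
    have a5 : ePhi A C (R2 (j2 x), List.replicate (L x) (),
        List.replicate (2 ^ (2 * u x) / u x + 2) (), u x) + D * (4 * u x) + 2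
        ≤ (d + 2) * 2 ^ (2 * u x) := by
      dsimp only [ePhi]
      rw [List.length_replicate, q9]
      rw [← hd] at a3
      exact os_phi a3 a4 (by omega)
    have a6 := k4 x
    refine ⟨q6, q7, le_trans (Nat.le_add_left _ _) q10, q8.trans (q4.trans q9.symm),
      by dsimp only; omega, ?_, ?_, a5.trans ?_, ?_, ?_, ?_⟩
    · rw [List.length_replicate] at q5
      exact q5.trans q9.ge
    · dsimp only [n] at a6 ⊢
      rw [List.length_replicate, show 2 ^ (2 * u x) / u x + 2 - 1 = 2 ^ (2 * u x) / u x + 1 from rfl]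
      omega
    · rw [show 4 * u x = 2 * u x + 2 * u x by ring, pow_add]
      exact Nat.mul_le_mul_right _ (((Nat.le_mul_of_pos_right _ (by omega)).trans
        (k2 x (d + 2) (by omega))).trans (f4 x))
    · dsimp only
      rw [List.length_replicate]
      exact le_trans (Nat.pow_le_pow_right two_pos (by omega)) (f5 x)
    · dsimp only
      rw [List.length_replicate]
      refine le_trans ?_ ((Nat.le_add_right _ 2).trans (Nat.le_add_left _ _))
      rw [Nat.le_div_iff_mul_le (by omega), two_mul, pow_add _ (u x) (u x)]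
      exact Nat.mul_le_mul_left _ Nat.lt_two_pow_self.le
    · exact (Nat.le_mul_of_pos_right _ (by omega)).trans (k2 x b0 (by omega))
  refine ⟨2 * (3 * ((d + 2) * 2 ^ (2 * (H + 4) + 1))), fun x => ⟨_, k5 x⟩, pt_sub ((r2.1.comp hj2).pair
    ((st_unit hL).pair ((st_unit hr).pair hu.pt))) _,
    fun x => ⟨(p2 _).1.trans (p1 (j1 x)).1, ?_⟩, ((r1.pre hj1).comp r2 hj2 fun _ => rfl).mono ?_⟩
  · dsimp only [L]
    rw [List.length_replicate, pow_mul _ 2 (3 * _)]
    exact Nat.pow_le_pow_left (os_len _ _) _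
  rintro x v2 v h2 - ⟨v1, -, e1, e0⟩ h3
  refine it_real (c := c * ((R1 (j1 x)).σ + 1) ^ 2) h2 (e0.trans (by exact_mod_cast e1)) (k3 x)
    ?_ h3
  have a1 := k4 x
  dsimp only [n] at a1 ⊢
  rw [List.length_replicate, show 2 ^ (2 * u x) / u x + 2 = 2 ^ (2 * u x) / u x + 1 + 1 from rfl,
    mul_add_one]
  omega

end Vale.Agent.P330O
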