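import Vale.Agent.P330Q.ONodeDefs
import Vale.Agent.P330Q.OBridge

/-! The trace of an assignment, invariances, the decoder (task Node0).
Plan. `trace_exists`: `bridge`, `runsB_append`, `RunsB.runs`, `tick_spec` (choose the fault sets for all
big addresses), `mov_spec`; the fault set of the trace is the union (`Runs.mono`); densities by
`expect_flt`, `expect_pullB`; `1 + τ + |move1| + |move2| ≤ length + 1 ≤ 2 ^ size`.
`p1_congr`, `p2_congr`: the conditions only read the listed bits (use `pull_move1` and, for `p2`,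
`pull_move12`-style formulas or directly the conditions). `op_eq`: `bridge_ideal`, `sweep_spec`
with the empty fault set, error zero means equality at every point of the region. -/

namespace Vale.Agent.P330O

open Vale.Agent.P330 Vale.Agent.P330.Amp
open Vale.Agent.Lib.H23 Vale.Agent.P325 Finset Matrix
open scoped BigOperators

variable {G : QI 2} {L : Lo}

theorem orcR_four (x : BB G) (z : Vec L.σ) :
    Cond.ev (orcR G L x) z (.orc 4) = G.win (fld z L.pt L.τ) (L.gi z) := by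
  have h : 4 ∉ newT G L z := by
    simp only [newT, cd, List.mem_append, List.mem_map, List.mem_singleton]
    rintro ((⟨i, -, e⟩ | ⟨i, -, e⟩) | e) <;> omega
  change (Amp.orc0 G.toInst L 4 z || decide (4 ∈ newT G L z)) = _
  rw [decide_eq_false h, Bool.or_false]
  rfl

theorem trace_exists (h : Ass G L) (x : ℕ → (roundI G L).A → Val) :
    ∃ T : Trace G L, (∀ y z, T.X0 y z = x (2 ^ (roundI G L).τ - 1) (y.1, (y.2, z))) ∧
      (𝔼 y, 𝔼 z, ind (T.S y z)) ≤ 4 ^ (roundI G L).τ * (roundI G L).viol x := by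
  have q := n0_pos L
  have hτ : (roundI G L).τ = (prog L G.b).length.size := rfl
  obtain ⟨S0, X0, X9, hX0, hr', h90', ha'⟩ := bridge (κ := L.κ) (b := G.b + 2) (β := G.β)
    (σ := L.σ) (k0 := G.k0) (gens := G.gens) (prog := prog L G.b) (O := G.o) (orc := orcR G L) (by omega)
    (prog_ok L h.hκ h.hc G.b) x
  have ha : (𝔼 y, 𝔼 z, ind (S0 y z)) ≤ 2 ^ (roundI G L).τ * (roundI G L).viol x := by
    rw [hτ]; exact ha'
  unfold prog at hr'
  obtain ⟨X8, hr', h89⟩ := runsB_append.1 hr'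
  obtain ⟨X7, hr', h78⟩ := runsB_append.1 hr'
  obtain ⟨X6, hr', h67⟩ := runsB_append.1 hr'
  obtain ⟨X5, hr', h56⟩ := runsB_append.1 hr'
  obtain ⟨X4, hr', h45⟩ := runsB_append.1 hr'
  obtain ⟨X3, hr', h34⟩ := runsB_append.1 hr'
  obtain ⟨X2, hr', h23⟩ := runsB_append.1 hr'
  obtain ⟨X1, h01, h12⟩ := runsB_append.1 hr'
  choose S1 d1 g1 using fun y => tick_spec (p := L.pt) (τ := L.τ) (by omega) (by omega) (h01.runs y)
  obtain ⟨S2, d2, g2⟩ := mov_spec h.inv (move1_orc G L) h12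
  obtain ⟨S4, d4, g4⟩ := mov_spec h.inv (move2_orc G L) h45
  refine ⟨⟨fun y z => ((S0 y z ∨ S1 (p1 G L z y) z) ∨ S2 y z) ∨ S4 y z, X0, X2, X3, X4, X5, X6, X7,
    X8, X9, fun y z γ hn hx => g2 y z γ (fun c => hn (.inl (.inr c)))
      (g1 _ z γ (fun c => hn (.inl (.inl (.inr c)))) hx),
    fun y => (h23.runs y).mono fun z c => .inl (.inl (.inl c)),
    fun y => (h34.runs y).mono fun z c => .inl (.inl (.inl c)),
    fun y z γ hn hx => g4 y z γ (fun c => hn (.inr c)) hx,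
    fun y => (h56.runs y).mono fun z c => .inl (.inl (.inl c)),
    fun y => (h67.runs y).mono fun z c => .inl (.inl (.inl c)),
    fun y => (h78.runs y).mono fun z c => .inl (.inl (.inl c)),
    fun y => (h89.runs y).mono fun z c => .inl (.inl (.inl c)),
    fun y z γ hn hx => h90' y z γ (fun c => hn (.inl (.inl (.inl c)))) hx⟩,
    fun y z => by rw [hτ]; exact hX0 y z, ?_⟩
  have e1 : (𝔼 y, 𝔼 z, ind (S1 (p1 G L z y) z)) ≤ L.τ * 𝔼 y, 𝔼 z, ind (S0 y z) := by
    rw [expect_comm]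
    have : ∀ z, (𝔼 y, ind (S1 (p1 G L z y) z)) = 𝔼 y, ind (S1 y z) := fun z =>
      expect_pullB h.inv z _ fun y => ind (S1 y z)
    simp only [this]
    rw [expect_comm, mul_expect]
    exact expect_le_expect fun y _ => d1 y
  have e2 : (𝔼 y, 𝔼 z, ind (S2 y z)) ≤ (move1 L G.b).length * 𝔼 y, 𝔼 z, ind (S0 y z) := by
    rw [expect_comm, expect_comm univ univ fun y z => ind (S0 y z), mul_expect]
    exact expect_le_expect fun z _ => d2 z
  have e4 : (𝔼 y, 𝔼 z, ind (S4 y z)) ≤ (move2 L G.b).length * 𝔼 y, 𝔼 z, ind (S0 y z) := by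
    rw [expect_comm, expect_comm univ univ fun y z => ind (S0 y z), mul_expect]
    exact expect_le_expect fun z _ => d4 z
  have e5 : (𝔼 y, 𝔼 z, ind (((S0 y z ∨ S1 (p1 G L z y) z) ∨ S2 y z) ∨ S4 y z)) ≤
      (𝔼 y, 𝔼 z, ind (S0 y z)) + (𝔼 y, 𝔼 z, ind (S1 (p1 G L z y) z)) +
        (𝔼 y, 𝔼 z, ind (S2 y z)) + 𝔼 y, 𝔼 z, ind (S4 y z) := by
    simp only [← expect_add_distrib]
    refine expect_le_expect fun y _ => expect_le_expect fun z _ => ?_
    linarith [n0_or ((S0 y z ∨ S1 (p1 G L z y) z) ∨ S2 y z) (S4 y z),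
      n0_or (S0 y z ∨ S1 (p1 G L z y) z) (S2 y z), n0_or (S0 y z) (S1 (p1 G L z y) z)]
  have e6 : 1 + L.τ + (move1 L G.b).length + (move2 L G.b).length ≤ 2 ^ (roundI G L).τ := by
    have h1 : (prog L G.b).length < 2 ^ (roundI G L).τ := by rw [hτ]; exact Nat.lt_size_self _
    simp only [prog, List.length_append, tick, mv, List.length_map, List.length_range] at h1
    omega
  have e7 : (1 + L.τ + (move1 L G.b).length + (move2 L G.b).length : ℝ) ≤
      2 ^ (roundI G L).τ := by exact_mod_cast e6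
  have e8 : 0 ≤ 𝔼 y, 𝔼 z, ind (S0 y z) :=
    expect_nonneg fun _ _ => expect_nonneg fun _ _ => ind_nonneg _
  have e9 : (4 : ℝ) ^ (roundI G L).τ = 2 ^ (roundI G L).τ * 2 ^ (roundI G L).τ := by
    rw [← mul_pow]; norm_num
  refine e5.trans ?_
  rw [e9, mul_assoc]
  refine le_trans ?_ (mul_le_mul_of_nonneg_left ha (by positivity))
  refine le_trans ?_ (mul_le_mul_of_nonneg_right e7 e8)
  linarith

theorem inR_std (h : Ass G L) {t p e : ℕ} (ht : t < 2 ^ L.τ) (hp : p < 2 ^ (2 * L.n))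
    {ρ : Vec L.σ} : InR (pos L.dStd) (L.hpt t p e) ρ ↔ Home L.u ρ ∧ L.tm ρ = t ∧ L.th ρ = p :=
  Amp.inR_std h.old ht hp

theorem inR_time (h : Ass G L) {t : ℕ} (ht : t < 2 ^ L.τ) {ρ : Vec L.σ} :
    InR (Set.Iio L.pt) (L.hpt t 0 0) ρ ↔ L.tm ρ = t :=
  Amp.inR_time h.old ht

theorem tm_tk (h : Ass G L) (ρ : Vec L.σ) : L.tm (tk L.pt L.τ ρ) = L.pr (L.tm ρ) :=
  Amp.tm_tk h.old ρ

theorem th_tk (h : Ass G L) (ρ : Vec L.σ) : L.th (tk L.pt L.τ ρ) = L.th ρ :=
  Amp.th_tk h.old ρ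

theorem home_tk (h : Ass G L) {ρ : Vec L.σ} (h0 : Home L.u ρ) : Home L.u (tk L.pt L.τ ρ) :=
  Amp.home_tk h.old h0

theorem tk_inR (h : Ass G L) {P : Set ℕ} (hP : ∀ j ∈ P, j < L.pt) {z z' : Vec L.σ}
    (hz : InR P z z') : InR P (tk L.pt L.τ z) (tk L.pt L.τ z') :=
  Amp.tk_inR h.old hP hz

theorem av_tk (h : Ass G L) {P : Set ℕ} (hP : ∀ j ∈ P, j < L.pt) (f : Vec L.σ → ℝ) (z : Vec L.σ) :
    av P (fun y => f (tk L.pt L.τ y)) z = av P f (tk L.pt L.τ z) :=
  Amp.av_tk h.old hP f z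

theorem hp_hpt (h : Ass G L) {t p e : ℕ} (hp : p < 2 ^ (2 * L.n)) : HP L.dStd (L.hpt t p e) :=
  Amp.hp_hpt h.old hp

theorem expect_bt (h : Ass G L) (T : Trace G L) :
    (𝔼 t : Fin (2 ^ L.τ), 𝔼 x, T.bt x t) = 𝔼 y, 𝔼 z, ind (T.S y z) := by
  rw [expect_comm]
  refine expect_congr rfl fun x _ => ?_
  have h1 := expect_get (n0_pos L).2.2.2.2.2.ge fun s : Vec L.τ => T.bt x (toN s)
  rw [expect_vec (fun s : Vec L.τ => T.bt x (toN s))] at h1
  rw [← expect_av (P := Set.Iio L.pt)]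
  refine Eq.trans (expect_congr rfl fun t _ => ?_) (h1.symm.trans (expect_congr rfl fun z _ => ?_))
  · rw [toN_ofN, Nat.mod_eq_of_lt t.2]
  · exact (av_base ((inR_time h fld_lt).2 rfl)).symm

theorem op_eq (h : Ass G L) (T : Trace G L) {x : BB G} {w z : Vec L.σ} {F : Vec L.σ → ZMod 2}
    (h0 : Home L.u w) (hF : Valid (eV L.M) L.dStd (T.X0 x) w F) (hz : InR (pos L.dStd) w z)
    (hH : HP L.dStd z) : b2 (T.op x z) = F z := by
  have hr := (bridge_ideal (b := G.b + 2) (β := G.β) (k0 := G.k0) (gens := G.gens)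
    (orc := fun _ _ _ => false) (L.dprog_ok h.hκ h.hc) fun a => T.X0 (x.1, a.1) a.2).runs x.2
  have hM := (L.par h.hκ h.hc).hM
  have he : err L.dStd (T.X0 x) F w < (1 / 32) ^ L.dStd.length :=
    calc _ ≤ (1 / 64 : ℝ) ^ L.M := hF.2
      _ < (1 / 32) ^ L.M := pow_lt_pow_left₀ (by norm_num) (by norm_num) (by omega)
      _ ≤ _ := pow_le_pow_of_le_one (by norm_num) (by norm_num) (L.length_std h.hκ h.hc)
  obtain ⟨F', h1, -, h2⟩ := sweep_spec (by have := h.hκ; omega) (L.lay_std h.hκ h.hc) h0 hF.1 he hr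
  rw [av_congr (g := fun _ => 0) fun _ _ => ind_of_not not_false, av_const, mul_zero,
    ← err_base hz] at h1
  have h3 := le_av_list (z := z) (f := fun z => ind ((decI G.toInst L).run L.dprog.length
    (fun a => T.X0 (x.1, a.1) a.2) (x.2, z) ≠ pz (F' z))) (fun _ => ind_nonneg _) (bitsOf L.dStd)
    (pos L.dStd) fun j hj => mem_bitsOf.2 hj
  have h4 : (decI G.toInst L).run L.dprog.length (fun a => T.X0 (x.1, a.1) a.2) (x.2, z) = pz (F' z) := by
    by_contra hc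
    rw [ind_of hc] at h3
    have h5 := mul_le_mul_of_nonneg_left h1 (show (0 : ℝ) ≤ 2 ^ (bitsOf L.dStd).length by
      positivity)
    rw [mul_zero] at h5
    exact absurd (h3.trans h5) (by norm_num)
  have h6 : T.op x z = decide (pz (F' z) = pv true) :=
    congrArg (fun v => decide (v = pv true)) h4
  rw [h6, h2 z hz hH, pz]
  simp only [pv_inj, decide_eq_true_eq]
  exact b2_decide _

theorem StdP.valid (h : Ass G L) {T : Trace G L} {x : BB G} {t p : ℕ} {F : Vec L.σ → ZMod 2}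
    (hF : T.StdP x t p F) : Valid (eV L.M / 4) L.dStd (T.X0 x) (L.hpt t p 0) F := by
  refine ⟨hF.1, hF.2.1.trans ((mul_le_mul_of_nonneg_left hF.2.2.1 (by positivity)).trans ?_)⟩
  have h1 : (2 : ℝ) ^ (4 * L.u) * (1 / 2) ^ (5 * L.u) = (1 / 2) ^ L.u := by
    rw [show 5 * L.u = 4 * L.u + L.u by ring, pow_add, ← mul_assoc, ← mul_pow]; norm_num
  have h2 : eV L.M / 4 = (1 / 2 : ℝ) ^ (6 * L.M + 2) := by
    rw [eV, pow_add, pow_mul]; norm_num; ring
  rw [h1, h2]
  exact pow_le_pow_of_le_one (by norm_num) (by norm_num) (by unfold Lo.u; omega)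

/-- polynomial factors are below `2 ^ u`. -/
theorem poly_le (h : Ass G L) : (L.M * L.κ + 1) ^ 8 ≤ 2 ^ L.u ∧ L.c * L.k ≤ 2 ^ L.u :=
  Amp.poly_le h.old

end Vale.Agent.P330O
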