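import Vale.Agent.P330Q.ONode0

/-! The output of a group (task NodeA).
Plan. For `g : Fin 2` let `w g = put (hpt t 0 0) pG 1 (ofN 1 g)`. `sans_ok` averaged over the other
version positions (`av_av`, `av_flt`) bounds `nOK` of `X6` by `k ^ (-c) + c 2 ^ (4u) * 2 bt`;
`group_spec` (the oracle bit 4 is `win t g` on the region; `countP = c`, `Ps.length = 2 c`), `poly_le`,
`av_P`. For a threshold `p` that is `GroupGood` for both inputs and has `flt ≤ 2 ^ (-5u)` (Markov):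
glue the two codewords by the bit `pG`, `plBin_valid`, `PolyD.anf` with `cfx_poly` (the codeword
does not see the bit `pG`), `swap_valid` with `mem_std`, `h90`. The value at `hpt t p a`: its
exchange agrees with `spl As ρ` in the dimensions `As` (`hpt_A`, `get_spl_As`, `PolyD.eq_of_copy`);
`cfx_spl`, `anf_anfc` with `r g = decide (F g (...) = 1)`; `frac` does not see copy positions. -/

namespace Vale.Agent.P330O

open Vale.Agent.P330 Vale.Agent.P330.Amp
open Vale.Agent.Lib.H23 Vale.Agent.P325 Finset Matrix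
open scoped BigOperators

variable {G : QI 2} {L : Lo}

theorem nOK_le_nA (h : Ass G L) (T : Trace G L) (x : BB G) {w : Vec L.σ} (h0 : Home L.u w) :
    nOK L.M (vd L.κ L.pV :: L.dW) L.W (T.X6 x) w ≤ 1 / (2 ^ L.κ) ^ L.c + L.c * (2 ^ (4 * L.u) *
      flt L.u (T.S x) (pos ((L.pT 0 :: L.qs ++ L.Ps).map (vd L.κ) ++ vd L.κ L.pV :: L.dW)) w) := by
  have hl := L.lay_group h.hκ h.hc
  have hR : pos (L.Rs.map (vd L.κ)) ⊆ L.W := pos_mono fun e he => by
    obtain ⟨a, ha, rfl⟩ := List.mem_map.1 he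
    exact List.mem_map_of_mem (List.mem_append_left _ (List.mem_cons_of_mem _
      (List.mem_append_right _ ha)))
  have hlen : L.Rs.length = L.c := by simp [Lo.Rs]
  have h1 : nOK L.M (vd L.κ L.pV :: L.dW) L.W (T.X6 x) w =
      av L.W (nOK L.M (vd L.κ L.pV :: L.dW) (pos (L.Rs.map (vd L.κ))) (T.X6 x)) w := by
    unfold nOK
    rw [av_av, Set.union_eq_self_of_subset_right hR]
  have h2 : L.W ∪ pos (L.Rs.map (vd L.κ) ++ vd L.κ L.pV :: L.dW) =
      pos ((L.pT 0 :: L.qs ++ L.Ps).map (vd L.κ) ++ vd L.κ L.pV :: L.dW) := by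
    rw [pos_append, pos_append, ← Set.union_assoc, Set.union_eq_self_of_subset_right hR]
    rfl
  rw [h1, ← h2, ← av_flt, ← av_mul, ← av_mul, ← av_const (P := L.W) (z0 := w) (1 / _), ← av_add]
  refine av_mono fun y hy => ?_
  have h3 := sans_ok (L.par h.hκ h.hc) (L.lay_sans h.hκ h.hc) (by
    rw [hlen, List.length_cons, L.len_dW_nA, Lo.M]
    omega) ((hl.sublist (List.sublist_append_left _ _)).home h0 hy) (T.h56 x)
  rwa [hlen] at h3

theorem grp_arith_nA {N ν c U φ b Q A : ℝ} (h2 : N ≤ ν + c * (U ^ 4 * φ)) (h3 : φ ≤ 2 * b)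
    (h4 : Q ≤ U) (h5 : c ≤ U) (h7 : A ≤ ν) (hU : 1 ≤ U) (hν : 0 ≤ ν) (hf : 0 ≤ φ)
    (hN : 0 ≤ N) : A + 4 * U * Q * (N + U ^ 5 * φ) ≤ 8 * U ^ 2 * ν + 16 * U ^ 7 * b := by
  have g1 : c * (U ^ 4 * φ) ≤ U * (U ^ 4 * φ) := mul_le_mul_of_nonneg_right h5 (by positivity)
  have g2 : U ^ 5 * φ ≤ U ^ 5 * (2 * b) := mul_le_mul_of_nonneg_left h3 (by positivity)
  have g3 : N + U ^ 5 * φ ≤ ν + 4 * U ^ 5 * b := by linarith
  have g4 : 4 * U * Q * (N + U ^ 5 * φ) ≤ 4 * U * U * (ν + 4 * U ^ 5 * b) :=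
    mul_le_mul (mul_le_mul_of_nonneg_left h4 (by positivity)) g3 (by positivity) (by positivity)
  have g5 : 1 * ν ≤ U ^ 2 * ν := mul_le_mul_of_nonneg_right (one_le_pow₀ hU) hν
  linarith

theorem grp_le_nA (h : Ass G L) (T : Trace G L) (x : BB G) {t : ℕ} (ht : t < 2 ^ L.τ) (g : Fin 2) :
    av (pos (L.Ps.map (vd L.κ))) (fun y => ind (¬ GroupGood L.κ L.M L.pV L.dW (L.pT 0 :: L.qs) L.Ps
      (G.win t g) (T.X6 x) (T.X7 x) y)) (put (L.hpt t 0 0) L.pG 1 (ofN 1 g)) ≤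
      2 ^ (2 * L.u + 3) / 2 ^ L.n + 2 ^ (7 * L.u + 4) * T.bt x t := by
  obtain ⟨f1, f2, f3, f4, f5, f6, f7⟩ := L.pos_facts_nA
  have hc := h.hc
  have hpg := L.pos_group h.hκ h.hc
  have h0 : Home L.u (put (L.hpt t 0 0) L.pG 1 (ofN 1 g)) := fun j hj =>
    (put_out _ (by omega)).trans (hpt_home L h.hκ h.hc j hj)
  have hP : L.Ps.length = 2 * L.c := by simp [Lo.Ps]
  have hq := L.len_qs_nA hc
  have h1 := group_spec (c0 := G.win t g) (L.par h.hκ h.hc) (L.lay_group h.hκ h.hc) (by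
    rw [L.len_dW_nA, Lo.M]
    omega) (fun a => by
      rw [a] at hP
      simp at hP
      omega) h0 (T.h67 x) fun z hz => by
        rw [orcR_four, L.gi_congr_nA hz fun a => ((hpg _).1 a).2.2 rfl, L.gi_put_nA, fld,
          hz.get fun j a _ b => absurd ((hpg _).1 b).2.1 (by omega),
          get_put_disj (Or.inl (by omega)), ← fld, hpt_t L h.hκ h.hc ht (by positivity)]
  have h2 := nOK_le_nA h T x h0
  have h3 : flt L.u (T.S x) (pos ((L.pT 0 :: L.qs ++ L.Ps).map (vd L.κ) ++ vd L.κ L.pV :: L.dW))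
      (put (L.hpt t 0 0) L.pG 1 (ofN 1 g)) ≤ 2 ^ [L.pG].length * T.bt x t := by
    refine av_slice (fun _ => ind_nonneg _) [L.pG] (fun j hj => ?_) (fun j hj => ?_)
      (InR.refl.put (fun j a b => Set.mem_Iio.2 (by omega)) _)
    · rw [Set.mem_union, hpg, List.mem_singleton, Set.mem_Iio]
      rw [Set.mem_Iio] at hj
      omega
    · rw [Set.mem_union, hpg, Set.mem_Iio] at hj
      rw [Set.mem_Iio]
      omega
  obtain ⟨p1, p2⟩ := poly_le h
  have h4 : (((L.qs.length : ℝ) + L.Ps.length + 1) * L.κ + 1) ^ 8 ≤ 2 ^ L.u := by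
    have h5 : ((L.qs.length + L.Ps.length + 1) * L.κ + 1) ^ 8 ≤ 2 ^ L.u :=
      le_trans (Nat.pow_le_pow_left (Nat.add_le_add_right (Nat.mul_le_mul_right _ (by
        rw [Lo.M]
        omega)) 1) 8) p1
    exact_mod_cast h5
  have h5 : (L.c : ℝ) ≤ 2 ^ L.u := by
    have h6 : L.c ≤ 2 ^ L.u := le_trans (Nat.le_mul_of_pos_right _ (by
      rw [Lo.k]
      positivity)) p2
    exact_mod_cast h6
  have h6 : ((2 : ℝ) ^ L.κ) ^ L.c = 2 ^ L.n := by rw [← pow_mul, Lo.n, Nat.mul_comm]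
  have h7 : ((2 : ℝ) ^ L.κ) ^ L.dW.countP (fun e => e.1) / (2 ^ L.κ) ^ L.Ps.length ≤ 1 / 2 ^ L.n := by
    rw [hP, two_mul, pow_add, h6, div_le_div_iff₀ (by positivity) (by positivity), one_mul]
    refine mul_le_mul_of_nonneg_right (le_trans ?_ h6.le) (by positivity)
    exact pow_le_pow_right₀ (one_le_pow₀ (by norm_num)) L.count_dW_nA
  have hf := flt_nonneg (u := L.u) (P := pos ((L.pT 0 :: L.qs ++ L.Ps).map (vd L.κ) ++
    vd L.κ L.pV :: L.dW)) (z := put (L.hpt t 0 0) L.pG 1 (ofN 1 g)) (T.S x)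
  rw [h6] at h2
  rw [List.length_singleton, pow_one] at h3
  refine h1.trans ?_
  change _ + _ * (nOK L.M (vd L.κ L.pV :: L.dW) L.W (T.X6 x) _ + _) ≤ _
  have hN : 0 ≤ nOK L.M (vd L.κ L.pV :: L.dW) L.W (T.X6 x) (put (L.hpt t 0 0) L.pG 1 (ofN 1 g)) :=
    av_ind_nonneg _
  have e1 : (2 : ℝ) ^ (2 * L.u + 3) / 2 ^ L.n = 8 * (2 ^ L.u) ^ 2 * (1 / 2 ^ L.n) := by ring
  have e2 : (2 : ℝ) ^ (7 * L.u + 4) = 16 * (2 ^ L.u) ^ 7 := by ring
  have e3 : (2 : ℝ) ^ (L.u + 2) = 4 * 2 ^ L.u := by ring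
  have e4 : (2 : ℝ) ^ (5 * L.u) = (2 ^ L.u) ^ 5 := by ring
  have e5 : (2 : ℝ) ^ (4 * L.u) = (2 ^ L.u) ^ 4 := by ring
  rw [e1, e2, e3, e4]
  rw [e5] at h2
  have hU : (1 : ℝ) ≤ 2 ^ L.u := one_le_pow₀ (by norm_num)
  have hν : (0 : ℝ) ≤ 1 / 2 ^ L.n := by positivity
  exact grp_arith_nA h2 h3 h4 h5 h7 hU hν hf hN

theorem std_of_nA (h : Ass G L) (T : Trace G L) (x : BB G) {t p : ℕ} (ht : t < 2 ^ L.τ)
    (hp : p < 2 ^ (2 * L.n)) {w : Vec L.σ} (hw : InR (pos L.dStd) (L.hpt t p 0) w)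
    (hg : ∀ g : Fin 2, GroupGood L.κ L.M L.pV L.dW (L.pT 0 :: L.qs) L.Ps (G.win t g) (T.X6 x)
      (T.X7 x) (put w L.pG 1 (ofN 1 g)))
    (hβ : flt L.u (T.S x) (pos L.dStd) w ≤ (1 / 2) ^ (5 * L.u)) : T.StdGood x t p := by
  obtain ⟨f1, f2, f3, f4, f5, f6, f7⟩ := L.pos_facts_nA
  have hc := h.hc
  have hκ := h.hκ
  have hn : 0 < L.n := Nat.mul_pos (by omega) (by omega)
  have hl := L.lay_gate hκ hc
  have hpg := L.pos_gate hκ hc
  have hps : pos L.dStd = pos ((false, L.pG, 1) :: vd L.κ L.pV :: L.dG) :=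
    Set.ext fun j => (L.pos_std hκ hc j).trans (hpg j).symm
  have h0 : Home L.u w := ((inR_std h ht hp).1 hw).1
  have hq := L.len_qs_nA hc
  have hu := (L.par hκ hc).hu
  have hk : L.κ < 2 ^ L.κ := Nat.lt_two_pow_self
  have hperm : ∀ e, e ∈ (L.pT 0 :: L.qs).map (vd L.κ) ++ vd L.κ L.pV :: L.dW ↔
      e ∈ vd L.κ L.pV :: L.dG := fun e => List.perm_middle.mem_iff
  have hG : L.pG ∉ pos (vd L.κ L.pV :: L.dG) :=
    Lay.disj (ds := [(false, L.pG, 1)]) hl ⟨_, List.mem_cons_self, le_rfl, Nat.lt_succ_self _⟩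
  choose F hF hF' using hg
  obtain ⟨F', g1, g2, g3⟩ := plBin_valid (L.par hκ hc) hl (by
    rw [Lo.dG, List.length_append, List.length_map, List.length_cons, L.len_dW_nA, Lo.M]
    omega) h0 (T.h78 x) (hps ▸ hβ.trans (pow_le_pow_of_le_one (by norm_num) (by norm_num)
      (by omega))) (F := fun z => F (L.gi z) z) fun s => by
    have e : ofN 1 ((⟨toN s, toN_lt s⟩ : Fin 2) : ℕ) = s := ofN_toN s
    rw [← e]
    refine ((hF _).perm hperm).congr_nA fun z hz => ?_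
    rw [L.gi_congr_nA hz hG, L.gi_put_nA]
  have e1 : ∀ z, coef (orcR G L x) true L.pG (fun i => Cond.orc i) z = fun i => cfx G L x i z :=
    fun z => funext fun i => by
      show b2 (orcR G L x i z) = _
      rw [orcR, dif_pos i.2, b2_decide]
  simp only [e1] at g3
  have g4 := PolyD.anf (fun i => cfx_poly G L hκ hc x i w) (polyD_put_nA hl (g1 (ofN 1 0)))
    (polyD_put_nA hl (g1 (ofN 1 1)))
  have hE : vd L.κ (L.pE 0) ∈ (false, L.pG, 1) :: vd L.κ L.pV :: L.dG :=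
    List.mem_cons_of_mem _ (List.mem_cons_of_mem _ (List.mem_append_left _ (List.mem_map_of_mem
      (List.mem_cons_of_mem _ (List.mem_append_left _ (List.mem_append_left _
        (List.mem_append_right _ (List.mem_map_of_mem (List.mem_range.2 hc)))))))))
  obtain ⟨g5, g6⟩ := swap_valid (a := L.pA 0) (n := L.c * L.k) (by omega) (by omega) h0 (fun e he => by
    have k1 := hl.1 e he
    have k2 := (hpg (e.2.1 + e.2.2 - 1)).1 ⟨e, he, by omega, by omega⟩
    have k3 : ¬ (e.2.1 ≤ L.pA 0 - 1 ∧ L.pA 0 - 1 < e.2.1 + e.2.2) := fun a => by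
      have := (hpg _).1 ⟨e, he, a⟩
      omega
    by_cases k4 : e = vd L.κ (L.pE 0)
    · rw [k4] at k2 ⊢
      simp only [vd] at k2 ⊢
      omega
    · have k5 := @List.Pairwise.forall _ _ _ ⟨fun _ _ a => Or.symm a⟩ hl.2 _ he _ hE k4
      simp only [vd] at k5
      omega) hl (fun j a b => (hpg j).2 (by omega)) (f5 ▸ T.h89 x) g4
  have hm : ∀ e, e ∈ L.dStd ↔
      e ∈ ((false, L.pG, 1) :: vd L.κ L.pV :: L.dG).map (swd (L.pA 0) (L.c * L.k)) := fun e =>
    (L.mem_std hκ hc e).trans (List.mem_map.trans (exists_congr fun _ =>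
      and_congr_right fun _ => eq_comm)).symm
  have hm' := Set.Subset.antisymm (pos_mono fun e => (hm e).1) (pos_mono fun e => (hm e).2)
  refine ⟨_, (g5.sub (fun e => (hm e).1) InR.refl).base hw.symm, ?_, (flt_base _ hw).symm.trans_le hβ,
    fun ρ hρ => ?_⟩
  · rw [← err_base hw, ← flt_base _ hw]
    rw [← err_set hm', ← hps] at g6
    rw [← hps] at g3
    generalize (fun z => anf (fun i => cfx G L x i (sw (L.pA 0) (L.pA 0 + L.c * L.k) (L.c * L.k) z))
      _ _) = H at g6 ⊢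
    have k1 : err L.dStd (T.X0 x) H w ≤
        err L.dStd (T.X9 x) H w + av (pos L.dStd) (fun z => ind (T.S x z)) w := by
      refine le_trans (av_mono fun z _ => (ind_mono fun a => ?_).trans (ind_or_le _ _)) av_add.le
      by_contra hn
      rw [not_or, not_not] at hn
      exact a (T.h90 x z _ hn.2 hn.1)
    have k2 := av_le_flt (P := pos L.dStd) (z := w) (u := L.u) (T.S x)
    have k3 := flt_nonneg (P := pos L.dStd) (z := w) (u := L.u) (T.S x)
    have k4 : ((L.c * L.k : ℕ) : ℝ) ≤ 2 ^ L.u := by exact_mod_cast (poly_le h).2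
    have k5 : (0 : ℝ) ≤ av (pos L.dStd) (fun z => ind (T.S x z)) w := av_ind_nonneg _
    have k6 : (2 : ℝ) ^ (3 * L.u + L.κ + 3) * 2 ≤ 2 ^ (4 * L.u) := by
      rw [← pow_succ]
      exact pow_le_pow_right₀ (by norm_num) (by omega)
    have k7 : (2 : ℝ) ^ L.u * 2 * 2 ^ (L.u + 2) * 2 ≤ 2 ^ (4 * L.u) := by
      rw [← pow_succ, ← pow_add, ← pow_succ]
      exact pow_le_pow_right₀ (by norm_num) (by omega)
    have hU : (1 : ℝ) ≤ 2 ^ L.u := one_le_pow₀ (by norm_num)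
    have k8 := mul_le_mul_of_nonneg_right k4 k5
    have k9 := mul_le_mul_of_nonneg_right hU k5
    have k10 := mul_le_mul_of_nonneg_left k2 (show (0 : ℝ) ≤ 2 ^ L.u * 2 by positivity)
    have k11 := mul_le_mul_of_nonneg_right k6 k3
    have k12 := mul_le_mul_of_nonneg_right k7 k3
    linarith
  · have hA : ∀ i < L.c, L.pA i ∈ L.As := fun i hi => List.mem_map_of_mem (List.mem_range.2 hi)
    have k1 : InR (pos ((false, L.pG, 1) :: vd L.κ L.pV :: L.dG)) w (spl L.κ L.As ρ) :=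
      (hps ▸ hw.symm.trans hρ).trans ((inR_spl_As L hκ hc ρ).mono fun j a => (hpg j).2 (by
        rw [Set.mem_Ico] at a
        omega))
    have k2 : InR (pos ((false, L.pG, 1) :: vd L.κ L.pV :: L.dG)) w
        (sw (L.pA 0) (L.pA 0 + L.c * L.k) (L.c * L.k) (L.hpt t p (aN L.qA L.n ρ))) := by
      have k3 : InR (pos L.dStd) (L.hpt t p 0) (L.hpt t p (aN L.qA L.n ρ)) :=
        (inR_std h ht hp).2 ⟨hpt_home L hκ hc, hpt_t L hκ hc ht hp, hpt_p L hκ hc hp⟩
      exact ((hps ▸ hw.symm.trans k3).put (fun j a b => (hpg j).2 (by omega)) _).put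
        (fun j a b => (hpg j).2 (by omega)) _
    have k3 := g4.eq_of_copy hl k1 (z' := sw (L.pA 0) (L.pA 0 + L.c * L.k) (L.c * L.k)
      (L.hpt t p (aN L.qA L.n ρ))) fun j hj => by
        by_cases k4 : j.val ∈ pos ((false, L.pG, 1) :: vd L.κ L.pV :: L.dG)
        · obtain ⟨e, he, k5⟩ := k4
          have k6 : e.1 = true := by
            by_contra k7
            exact hj ⟨e, List.mem_filter.2 ⟨he, by simpa using k7⟩, k5⟩
          rcases List.mem_cons.1 he with rfl | he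
          · cases k6
          rcases List.mem_cons.1 he with rfl | he
          · cases k6
          obtain ⟨i, hi, rfl⟩ := L.msg_dG_nA he k6
          have k7 : (i + 1) * L.k ≤ L.c * L.k := Nat.mul_le_mul_right _ hi
          have k8 := L.pA_eq_nA i
          rw [Nat.succ_mul] at k7
          refine eq_of_get_nA (p := L.pA i) (w := 2 ^ L.κ) ?_ k5
          rw [get_sw_lo_nA (by omega) (by omega) (by change L.pA i + L.k ≤ _; omega), ← L.pE_eq_nA,
            hpt_A L hκ hc hp ρ hi, get_spl_As L hκ hc ρ (hA i hi)]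
        · exact (k2 j k4).trans (k1 j k4).symm
    have k4 : ∀ s, HP L.dG (put (spl L.κ L.As ρ) L.pG 1 s) := fun s e he k5 => by
      obtain ⟨i, hi, rfl⟩ := L.msg_dG_nA he k5
      have k8 := L.pA_eq_nA i
      refine ⟨fld ρ (L.pA i) L.κ, fld_lt, ?_⟩
      exact (get_put_disj (Or.inl (by change _ ≤ L.pA i; omega)) s).trans
        (get_spl_As L hκ hc ρ (hA i hi))
    have k5 : ∀ g : Fin 2, F' (put (spl L.κ L.As ρ) L.pG 1 (ofN 1 g)) =
        b2 (decide (F g (put (spl L.κ L.As ρ) L.pG 1 (ofN 1 g)) = 1)) := fun g => by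
      rw [b2_decide, g2 _ (k1.put_dim List.mem_cons_self _) (k4 _), L.gi_put_nA]
    refine ⟨fun g => decide (F g (put (spl L.κ L.As ρ) L.pG 1 (ofN 1 g)) = 1), fun g δ hδ => ?_, ?_⟩
    · rw [Trace.fq, spl_put_nA (fun a ha => by
        obtain ⟨i, _, rfl⟩ := List.mem_map.1 ha
        have k8 := L.pA_eq_nA i
        omega)] at hδ
      rw [pos_cons] at k1
      have k6 := hF' g _ ((k1.put_union_nA _).mono (pos_mono fun e => (hperm e).2))
        (fun e he => k4 _ e (List.mem_append_right _ he)) δ hδ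
      dsimp only
      rw [k6]
      cases δ <;> rfl
    · refine k3.trans ?_
      have k6 := k5 0
      have k7 := k5 1
      have k8 : fld ρ L.pt L.τ = t := ((inR_std h ht hp).1 hρ).2.1
      simp only [cfx_spl G L hκ hc, k8]
      exact (congrArg₂ _ k6 k7).trans (anf_anfc _
        fun g => decide (F g (put (spl L.κ L.As ρ) L.pG 1 (ofN 1 g)) = 1))

theorem std_good (h : Ass G L) (T : Trace G L) (x : BB G) {t : ℕ} (ht : t < 2 ^ L.τ) :
    (𝔼 p : Fin (2 ^ (2 * L.n)), ind (¬ T.StdGood x t p)) ≤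
      2 ^ (2 * L.u + 4) / 2 ^ L.n + 2 ^ (8 * L.u) * T.bt x t := by
  obtain ⟨f1, f2, f3, f4, f5, f6, f7⟩ := L.pos_facts_nA
  have hc := h.hc
  have hκ := h.hκ
  have hP := L.pos_Ps hκ hc
  have hu := (L.par hκ hc).hu
  have hs : (0 : ℝ) < (1 / 2) ^ (5 * L.u) := by positivity
  rw [← av_P L hκ hc (fun p => ind (¬ T.StdGood x t p)) (L.hpt t 0 0)]
  have h1 := grp_le_nA h T x ht 0
  have h2 := grp_le_nA h T x ht 1
  have h3 := av_markov (P := pos (L.Ps.map (vd L.κ))) (z0 := L.hpt t 0 0)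
    (f := flt L.u (T.S x) (pos L.dStd)) (fun _ => flt_nonneg _) hs
  have h4 : av (pos (L.Ps.map (vd L.κ))) (flt L.u (T.S x) (pos L.dStd)) (L.hpt t 0 0) = T.bt x t := by
    rw [av_flt]
    refine av_set fun j _ => ?_
    rw [Set.mem_union, Set.mem_union, hP, L.pos_std hκ hc, Set.mem_Iio, Set.mem_Iio]
    omega
  have h5 : ∀ j, L.pG ≤ j → j < L.pG + 1 → j ∉ pos (L.Ps.map (vd L.κ)) := fun j a b c => by
    rw [hP] at c
    omega
  rw [← av_put h5] at h1 h2
  rw [h4, one_div, inv_pow, div_inv_eq_mul] at h3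
  refine le_trans (av_mono fun ρ hρ => ?_) (le_trans (av_add.trans (congrArg (· + _) av_add)).le
    (le_trans (add_le_add (add_le_add h1 h2) h3) ?_))
  · refine (ind_mono fun a => ?_).trans ((ind_or_le _ _).trans (add_le_add_left (ind_or_le _ _) _))
    by_contra hn
    rw [not_or, not_or, not_not, not_not, not_le] at hn
    refine a (std_of_nA h T x ht fld_lt ((inR_std h ht fld_lt).2 ⟨hρ.home (fun j b => ?_)
      (hpt_home L hκ hc), ?_, rfl⟩) (Fin.forall_fin_two.2 hn.1) ?_)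
    · rw [hP] at b
      omega
    · rw [Lo.tm, fld, hρ.get fun j b _ c => absurd ((hP j).1 c).2 (by omega), ← fld,
        hpt_t L hκ hc ht (by positivity)]
    · rw [one_div, inv_pow]
      exact hn.2.le
  · have hb : 0 ≤ T.bt x t := av_ind_nonneg _
    have k1 : (2 : ℝ) ^ (7 * L.u + 4) * 2 * 2 ≤ 2 ^ (8 * L.u) := by
      rw [← pow_succ, ← pow_succ]
      exact pow_le_pow_right₀ (by norm_num) (by omega)
    have k2 : (2 : ℝ) ^ (5 * L.u) * 2 ≤ 2 ^ (8 * L.u) := by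
      rw [← pow_succ]
      exact pow_le_pow_right₀ (by norm_num) (by omega)
    have k3 := mul_le_mul_of_nonneg_right k1 hb
    have k4 := mul_le_mul_of_nonneg_right k2 hb
    have k5 : (2 : ℝ) ^ (2 * L.u + 4) / 2 ^ L.n = 2 * (2 ^ (2 * L.u + 3) / 2 ^ L.n) := by ring
    linarith

end Vale.Agent.P330O
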