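import Vale.Agent.P330Q.ONode0

/-! The charge of the columns (task NodeD).
Plan. Invariance: the three events are invariant on the region of `vd pV :: dW` (`InR.trans`,
`av_base`, `p2_congr`), and `av W` commutes with such a change of the base point (general lemma:
if `f` is invariant under `InR Q` then so is `av P f`: `f = av Q f`, `av_av`, `av_base`). Means:
exchange `𝔼 x` and `av W`, `expect_pullB` for fixed `ρ'`, then `av W = av W ∘ av Es` and `split_msg`;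
`av_markov`, `av_le_flt`; `sans_msg`; `av_flt`, `flt_slice` (the bit `pG`: factor 2). -/

namespace Vale.Agent.P330O

open Vale.Agent.P330 Vale.Agent.P330.Amp
open Vale.Agent.Lib.H23 Vale.Agent.P325 Finset Matrix
open scoped BigOperators

variable {G : QI 2} {L : Lo}

theorem nd_ind_nonneg (p : Prop) : 0 ≤ ind p := by unfold ind; split_ifs <;> norm_num

theorem nd_ind_le_one (p : Prop) : ind p ≤ 1 := by unfold ind; split_ifs <;> norm_num

theorem nd_av_inv {σ : ℕ} {P D : Set ℕ} {f : Vec σ → ℝ} (hf : ∀ z z', InR D z z' → f z' = f z)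
    (z : Vec σ) : av P f z = av (P ∪ D) f z := by
  rw [← av_av]
  refine av_congr fun y _ => ?_
  rw [av_congr (g := fun _ => f y) fun y' hy => hf y y' hy, av_const]

theorem nd_av_sub {σ : ℕ} {P D : Set ℕ} (h : D ⊆ P) (f : Vec σ → ℝ) (z : Vec σ) :
    av P f z = av P (av D f) z := by
  rw [av_av, Set.union_eq_left.2 h]

theorem nd_group (L : Lo) :
    pos ((L.pT 0 :: L.qs ++ L.Ps).map (vd L.κ) ++ vd L.κ L.pV :: L.dW) =
      L.W ∪ pos (vd L.κ L.pV :: L.dW) := pos_append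

theorem nd_disj (h : Ass G L) {j : ℕ} (hj : j ∈ L.W) : j ∉ pos (vd L.κ L.pV :: L.dW) :=
  (L.lay_group h.hκ h.hc).disj hj

theorem nd_mem (h : Ass G L) (j : ℕ) :
    j ∈ L.W ∪ pos (vd L.κ L.pV :: L.dW) ↔ L.pV ≤ j ∧ j < L.pt ∧ j ≠ L.pG := by
  rw [← nd_group, L.pos_group h.hκ h.hc]

theorem nd_sub_W {l : List ℕ} (hl : ∀ p ∈ l, p ∈ L.pT 0 :: L.qs ++ L.Ps) :
    pos (l.map (vd L.κ)) ⊆ L.W := by
  refine pos_mono fun e he => ?_
  obtain ⟨p, hp, rfl⟩ := List.mem_map.1 he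
  exact List.mem_map_of_mem (hl p hp)

theorem nd_Es_W : pos (L.Es.map (vd L.κ)) ⊆ L.W := nd_sub_W fun p hp => by simp [Lo.qs, hp]

theorem nd_Ks_W : pos (L.Ks.map (vd L.κ)) ⊆ L.W := nd_sub_W fun p hp => by simp [Lo.qs, hp]

theorem nd_Rs_W : pos (L.Rs.map (vd L.κ)) ⊆ L.W := nd_sub_W fun p hp => by simp [Lo.qs, hp]

theorem nd_As_Q : pos (L.As.map (vd L.κ)) ⊆ pos (vd L.κ L.pV :: L.dW) := by
  rintro j ⟨e, he, h1, h2⟩
  obtain ⟨p, hp, rfl⟩ := List.mem_map.1 he
  have : L.κ < 2 ^ L.κ := Nat.lt_two_pow_self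
  refine ⟨md L.κ p, by simp [Lo.dW, List.mem_map_of_mem hp], h1, ?_⟩
  simp only [vd, md] at h2 ⊢
  omega

theorem nd_W_home (h : Ass G L) {ρ ρ' : Vec L.σ} (h0 : Home L.u ρ) (hz : InR L.W ρ ρ') :
    Home L.u ρ' :=
  hz.home (fun j hj => ((nd_mem h j).1 (Or.inl hj)).1) h0

theorem nd_Q_col : pos (vd L.κ L.pV :: L.dW) ⊆ pos (L.hi L.Es ++ L.d1) :=
  pos_mono fun e he => by
    simp only [Lo.dW, Lo.d1, List.mem_cons, List.mem_append] at he ⊢
    tauto

theorem nd_col_sub : pos (L.hi L.Es ++ L.d1) ⊆ L.W ∪ pos (vd L.κ L.pV :: L.dW) := by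
  rintro j ⟨e, he, h1, h2⟩
  simp only [Lo.d1, List.mem_cons, List.mem_append, List.not_mem_nil, or_false] at he
  rcases he with he | (he | he) | he
  · exact Or.inr ⟨e, by simp [Lo.dW, he], h1, h2⟩
  · exact Or.inr ⟨e, by simp only [Lo.dW, List.mem_cons, List.mem_append]; tauto, h1, h2⟩
  · exact Or.inl (nd_Rs_W ⟨e, he, h1, h2⟩)
  · exact Or.inr ⟨e, by simp [he], h1, h2⟩

theorem nd_col_split : pos (L.hi L.Es ++ L.d1) ⊆ pos (L.Es.map (md L.κ) ++ L.d1) := by
  rintro j ⟨e, he, h1, h2⟩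
  rcases List.mem_append.1 he with he | he
  · obtain ⟨p, hp, rfl⟩ := List.mem_map.1 he
    have : L.κ < 2 ^ L.κ := Nat.lt_two_pow_self
    refine ⟨md L.κ p, List.mem_append_left _ (List.mem_map_of_mem hp), ?_, ?_⟩
    · simp only [md] at h1 ⊢; omega
    · simp only [md] at h2 ⊢; omega
  · exact ⟨e, List.mem_append_right _ he, h1, h2⟩

theorem nd_split_sub : pos (L.Es.map (md L.κ) ++ L.d1) ⊆ L.W ∪ pos (vd L.κ L.pV :: L.dW) := by
  rintro j ⟨e, he, h1, h2⟩
  rcases List.mem_append.1 he with he | he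
  · obtain ⟨p, hp, rfl⟩ := List.mem_map.1 he
    simp only [md] at h1 h2
    by_cases h3 : j < p + L.κ
    · exact Or.inl (nd_Es_W ⟨vd L.κ p, List.mem_map_of_mem hp, h1, h3⟩)
    · refine nd_col_sub ⟨(false, p + L.κ, 2 ^ L.κ - L.κ),
        List.mem_append_left _ (List.mem_map_of_mem hp), ?_, ?_⟩
      · simp only; omega
      · simp only; omega
  · exact nd_col_sub ⟨e, List.mem_append_right _ he, h1, h2⟩

theorem nd_bt_nonneg (T : Trace G L) (x : BB G) (t : ℕ) : 0 ≤ T.bt x t := av_ind_nonneg _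

theorem nd_flt (h : Ass G L) (T : Trace G L) (x : BB G) (ρ : Vec L.σ) {P : Set ℕ}
    (hP : P ⊆ L.W ∪ pos (vd L.κ L.pV :: L.dW)) (hQ : pos (vd L.κ L.pV :: L.dW) ⊆ P) :
    av L.W (flt L.u (T.S x) P) ρ ≤ 2 * T.bt x (L.tm ρ) := by
  have h1 : L.W ∪ P = L.W ∪ pos (vd L.κ L.pV :: L.dW) :=
    Set.Subset.antisymm (Set.union_subset Set.subset_union_left hP) (Set.union_subset_union_right _ hQ)
  rw [av_flt, h1]
  have h2 := flt_slice (u := L.u) (T.S x) [L.pG] (P := L.W ∪ pos (vd L.κ L.pV :: L.dW))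
    (Q := Set.Ico L.pV L.pt) (z0 := ρ) (z := ρ) (fun j hj => by
      by_cases h3 : j = L.pG
      · exact Or.inr (by simp [h3])
      · exact Or.inl ((nd_mem h j).2 ⟨hj.1, hj.2, h3⟩))
    (fun j hj => ⟨((nd_mem h j).1 hj).1, ((nd_mem h j).1 hj).2.1⟩) InR.refl
  refine h2.trans (le_of_eq ?_)
  have h4 : Set.Ico L.pV L.pt ∪ Set.Iio (L.u + 2) = Set.Iio L.pt := by
    have h5 : L.pV ≤ L.pt := by
      unfold Lo.pt Lo.pE Lo.pA Lo.pP Lo.pR Lo.pT Lo.pK Lo.pG; omega
    ext j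
    simp only [Set.mem_union, Set.mem_Ico, Set.mem_Iio]
    unfold Lo.pV at h5 ⊢
    omega
  unfold flt Trace.bt
  rw [h4, av_base ((inR_time h (t := L.tm ρ) fld_lt).2 rfl)]
  simp

theorem nd_p2 (h : Ass G L) {z z' : Vec L.σ} (hz : InR (pos (vd L.κ L.pV :: L.dW)) z z')
    (x : BB G) : p2 G L z' x = p2 G L z x := by
  refine p2_congr h (hz.mono fun j hj => ?_) x
  have h1 := (nd_mem h j).1 (Or.inr hj)
  rintro (((h2 | h2) | h2) | h2)
  · exact nd_disj h (nd_Es_W h2) hj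
  · exact nd_disj h (nd_Ks_W h2) hj
  · exact h1.2.2 h2
  · exact absurd h1.2.1 (not_lt.2 h2)

theorem nd_forall_congr {σ : ℕ} {P : Set ℕ} {z z' : Vec σ} (hz : InR P z z') (q : Vec σ → Prop) :
    (¬ ∀ y, InR P z' y → q y) = ¬ ∀ y, InR P z y → q y := by
  refine propext (not_congr ⟨fun h y hy => h y (hz.symm.trans hy), fun h y hy => h y (hz.trans hy)⟩)

theorem nd_u (L : Lo) : 8 ≤ L.u ∧ 6 * L.M + 1 ≤ L.u ∧ L.c ≤ L.u := by
  unfold Lo.u Lo.M; omega

theorem colT_congr (h : Ass G L) (T : Trace G L) (x : BB G) {ρ ρ' : Vec L.σ}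
    (hz : InR (pos (vd L.κ L.pV :: L.dW) ∪ L.W) ρ ρ') : T.colT x ρ' = T.colT x ρ := by
  have hf : ∀ z z', InR (pos (vd L.κ L.pV :: L.dW)) z z' →
      ind (T.CB (p2 G L z' x) z') + ind (T.MB x z') + ind (T.SB x z') =
        ind (T.CB (p2 G L z x) z) + ind (T.MB x z) + ind (T.SB x z) := by
    intro z z' hzz
    have h1 : T.CB (p2 G L z' x) z' = T.CB (p2 G L z x) z := by
      rw [nd_p2 h hzz]
      exact nd_forall_congr (hzz.mono nd_Q_col) _
    have h2 : T.MB x z' = T.MB x z := by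
      unfold Trace.MB
      rw [av_base (hzz.mono nd_Q_col)]
    have h3 : T.SB x z' = T.SB x z := nd_forall_congr hzz _
    rw [h1, h2, h3]
  unfold Trace.colT
  rw [nd_av_inv hf, nd_av_inv hf ρ, Set.union_comm, av_base hz]

theorem colT_le (T : Trace G L) (x : BB G) (ρ : Vec L.σ) : 0 ≤ T.colT x ρ ∧ T.colT x ρ ≤ 3 := by
  constructor
  · exact av_nonneg fun z => add_nonneg (add_nonneg (nd_ind_nonneg _) (nd_ind_nonneg _))
      (nd_ind_nonneg _)
  · refine av_le fun z _ => ?_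
    linarith [nd_ind_le_one (T.CB (p2 G L z x) z), nd_ind_le_one (T.MB x z),
      nd_ind_le_one (T.SB x z)]

theorem colT_mean (h : Ass G L) (T : Trace G L) {ρ : Vec L.σ} (h0 : Home L.u ρ) :
    (𝔼 x, T.colT x ρ) ≤ T.mu (L.tm ρ) := by
  have hpar := L.par h.hκ h.hc
  obtain ⟨hu1, hu2, hu3⟩ := nd_u L
  have e1 : (𝔼 x, T.colT x ρ) = 𝔼 x, (av L.W (fun ρ' => ind (T.CB x ρ')) ρ +
      av L.W (fun ρ' => ind (T.MB x ρ')) ρ + av L.W (fun ρ' => ind (T.SB x ρ')) ρ) := by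
    have e0 : (𝔼 x, av L.W (fun ρ' => ind (T.CB (p2 G L ρ' x) ρ')) ρ) =
        𝔼 x, av L.W (fun ρ' => ind (T.CB x ρ')) ρ := by
      rw [← av_expect (fun x ρ' => ind (T.CB (p2 G L ρ' x) ρ')),
        ← av_expect (fun x ρ' => ind (T.CB x ρ'))]
      exact av_congr fun z _ => expect_pullB h.inv z _ fun x => ind (T.CB x z)
    unfold Trace.colT
    simp only [av_add, Finset.expect_add_distrib, e0]
  have b1 : ∀ x, av L.W (fun ρ' => ind (T.CB x ρ')) ρ ≤ 2 ^ (2 * L.u) * (2 * T.bt x (L.tm ρ)) := by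
    intro x
    rw [nd_av_sub nd_Es_W]
    refine le_trans (av_mono (g := fun z => 2 ^ (2 * L.u) *
      flt L.u (T.S x) (pos (L.Es.map (md L.κ) ++ L.d1)) z) fun z hz => ?_) ?_
    · exact split_msg hpar (L.lay_split h.hκ h.hc)
        (by simp only [Lo.Es, Lo.d1, Lo.As, Lo.Rs, Lo.M, List.length_append, List.length_map,
          List.length_range, List.length_singleton]; omega) (nd_W_home h h0 hz) (T.h34 x)
    · rw [av_mul]
      exact mul_le_mul_of_nonneg_left (nd_flt h T x ρ nd_split_sub (nd_Q_col.trans nd_col_split))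
        (by positivity)
  have b2 : ∀ x, av L.W (fun ρ' => ind (T.MB x ρ')) ρ ≤
      2 ^ L.u * 2 ^ (L.u + 2) * (2 * T.bt x (L.tm ρ)) := by
    intro x
    refine le_trans (av_mono (g := fun z => 2 ^ L.u * 2 ^ (L.u + 2) *
      flt L.u (T.S x) (pos (L.hi L.Es ++ L.d1)) z) fun z _ => ?_) ?_
    · have h1 := av_le_flt (u := L.u) (P := pos (L.hi L.Es ++ L.d1)) (z := z) (T.S x)
      have h2 := flt_nonneg (u := L.u) (P := pos (L.hi L.Es ++ L.d1)) (z := z) (T.S x)
      by_cases hM : T.MB x z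
      · have h3 : eV L.M / 2 ≤ 2 ^ (L.u + 2) * flt L.u (T.S x) (pos (L.hi L.Es ++ L.d1)) z :=
          le_trans hM h1
        have h4 : (1 : ℝ) ≤ 2 ^ L.u * (eV L.M / 2) := by
          have h5 : (2 : ℝ) ^ (6 * L.M + 1) ≤ 2 ^ L.u := pow_le_pow_right₀ (by norm_num) hu2
          have h6 : (2 : ℝ) ^ (6 * L.M + 1) * (eV L.M / 2) = 1 := by
            unfold eV
            rw [pow_succ, pow_mul, one_div, inv_pow]
            norm_num
            field_simp
          rw [← h6]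
          exact mul_le_mul_of_nonneg_right h5 (by have := eV_pos L.M; positivity)
        have h7 : ind (T.MB x z) = 1 := if_pos hM
        rw [h7, mul_assoc]
        exact h4.trans (mul_le_mul_of_nonneg_left h3 (by positivity))
      · have h7 : ind (T.MB x z) = 0 := if_neg hM
        rw [h7]
        positivity
    · rw [av_mul]
      exact mul_le_mul_of_nonneg_left (nd_flt h T x ρ nd_col_sub nd_Q_col) (by positivity)
  have b3 : ∀ x, av L.W (fun ρ' => ind (T.SB x ρ')) ρ ≤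
      2 ^ L.u * 2 ^ (4 * L.u) * (2 * T.bt x (L.tm ρ)) := by
    intro x
    rw [nd_av_sub nd_Rs_W]
    refine le_trans (av_mono (g := fun z => 2 ^ L.u * 2 ^ (4 * L.u) *
      flt L.u (T.S x) (pos (L.Rs.map (vd L.κ) ++ vd L.κ L.pV :: L.dW)) z) fun z hz => ?_) ?_
    · refine le_trans (sans_msg hpar (L.lay_sans h.hκ h.hc)
        (by simp only [Lo.Es, Lo.dW, Lo.hi, Lo.As, Lo.Rs, Lo.M, List.length_append, List.length_map,
          List.length_range, List.length_cons]; omega) (nd_W_home h h0 hz) (T.h56 x)) ?_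
      rw [mul_assoc]
      refine mul_le_mul_of_nonneg_right ?_ (mul_nonneg (by positivity) (flt_nonneg _))
      have h1 : L.Rs.length ≤ 2 ^ L.u := by
        simp only [Lo.Rs, List.length_map, List.length_range]
        exact hu3.trans Nat.lt_two_pow_self.le
      exact_mod_cast h1
    · rw [av_mul]
      refine mul_le_mul_of_nonneg_left (nd_flt h T x ρ ?_ ?_) (by positivity)
      · rw [pos_append]
        exact Set.union_subset_union_left _ nd_Rs_W
      · rw [pos_append]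
        exact Set.subset_union_right
  rw [e1]
  have hE : 0 ≤ 𝔼 x, T.bt x (L.pr (L.tm ρ)) := Finset.expect_nonneg fun x _ => nd_bt_nonneg T x _
  have hK : (2 : ℝ) * (2 ^ (2 * L.u) + 2 ^ L.u * 2 ^ (L.u + 2) + 2 ^ L.u * 2 ^ (4 * L.u)) ≤
      2 ^ (10 * L.u) := by
    have h1 : (2 : ℝ) ^ (2 * L.u) ≤ 2 ^ (9 * L.u) := pow_le_pow_right₀ (by norm_num) (by omega)
    have h2 : (2 : ℝ) ^ L.u * 2 ^ (L.u + 2) ≤ 2 ^ (9 * L.u) := by
      rw [← pow_add]; exact pow_le_pow_right₀ (by norm_num) (by omega)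
    have h3 : (2 : ℝ) ^ L.u * 2 ^ (4 * L.u) ≤ 2 ^ (9 * L.u) := by
      rw [← pow_add]; exact pow_le_pow_right₀ (by norm_num) (by omega)
    have h4 : (2 : ℝ) ^ (9 * L.u + 3) ≤ 2 ^ (10 * L.u) := pow_le_pow_right₀ (by norm_num) (by omega)
    rw [pow_add] at h4
    have h5 : (0 : ℝ) ≤ 2 ^ (9 * L.u) := by positivity
    linarith
  refine le_trans (Finset.expect_le_expect (g := fun x => 2 ^ (10 * L.u) * T.bt x (L.tm ρ))
    fun x _ => ?_) ?_
  · have h1 := mul_le_mul_of_nonneg_right hK (nd_bt_nonneg T x (L.tm ρ))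
    linarith [b1 x, b2 x, b3 x]
  · rw [← Finset.mul_expect]
    exact mul_le_mul_of_nonneg_left (by linarith) (by positivity)

end Vale.Agent.P330O
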