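import Vale.Agent.P330Q.OWords

/-! The trace of a round and the events of the analysis of a node. -/

namespace Vale.Agent.P330O

open Vale.Agent.Lib.H23 Vale.Agent.P325 Vale.Agent.P330 Vale.Agent.P330.Amp Finset Matrix
open scoped BigOperators

variable (G : QI 2) (L : Lo)

/-- the states between the phases of a round. -/
structure Trace where
  S : BB G → Vec L.σ → Prop
  X0 : BB G → Vec L.σ → Val
  X2 : BB G → Vec L.σ → Val
  X3 : BB G → Vec L.σ → Val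
  X4 : BB G → Vec L.σ → Val
  X5 : BB G → Vec L.σ → Val
  X6 : BB G → Vec L.σ → Val
  X7 : BB G → Vec L.σ → Val
  X8 : BB G → Vec L.σ → Val
  X9 : BB G → Vec L.σ → Val
  h02 : ∀ x z γ, ¬ S x z → X0 (p1 G L z x) (tk L.pt L.τ z) = pv γ → X2 x z = pv γ
  h23 : ∀ x, Runs L.κ (orcR G L x) (S x) (mgs L.κ L.u L.base L.rows) (X2 x) (X3 x)
  h34 : ∀ x, Runs L.κ (orcR G L x) (S x) (split L.κ L.Es L.d1) (X3 x) (X4 x)
  h45 : ∀ x z γ, ¬ S x z → X4 (p2 G L z x) z = pv γ → X5 x z = pv γ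
  h56 : ∀ x, Runs L.κ (orcR G L x) (S x) (sans L.κ L.u (vd L.κ L.pV :: L.dW) L.Rs) (X5 x) (X6 x)
  h67 : ∀ x, Runs L.κ (orcR G L x) (S x)
    (group L.κ L.u L.pV L.dW L.qs (L.pT 0) L.Ps (.orc 4)) (X6 x) (X7 x)
  h78 : ∀ x, Runs L.κ (orcR G L x) (S x)
    (plBin L.κ L.u L.pV L.dG true L.pG fun i => .orc i) (X7 x) (X8 x)
  h89 : ∀ x, Runs L.κ (orcR G L x) (S x) (swaps (L.pA 0) (L.pE 0) (L.c * L.k)) (X8 x) (X9 x)
  h90 : ∀ x z γ, ¬ S x z → X9 x z = pv γ → X0 x z = pv γ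

namespace Trace

variable {G L} (T : Trace G L)

/-- fault density of the group `x` at the old time `t`. -/
noncomputable def bt (x : BB G) (t : ℕ) : ℝ :=
  av (Set.Iio L.pt) (fun z => ind (T.S x z)) (L.hpt t 0 0)

noncomputable def op (x : BB G) (z : Vec L.σ) : Bool := opin G L T.X0 x z

/-- the fraction seen by the entry and the input named by `ρ`. -/
noncomputable def fq (x : BB G) (ρ : Vec L.σ) : ℝ :=
  frac L.M (vd L.κ L.pV :: L.dW) L.W (T.X6 x) (spl L.κ L.As ρ)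

/-- the standard bundle is valid and carries the outputs of the gates. -/
def StdP (x : BB G) (t p : ℕ) (F : Vec L.σ → ZMod 2) : Prop :=
  PolyD 3 L.dStd (L.hpt t p 0) F ∧
  err L.dStd (T.X0 x) F (L.hpt t p 0) ≤ 2 ^ (4 * L.u) * flt L.u (T.S x) (pos L.dStd) (L.hpt t p 0) ∧
  flt L.u (T.S x) (pos L.dStd) (L.hpt t p 0) ≤ (1 / 2) ^ (5 * L.u) ∧
  ∀ ρ, InR (pos L.dStd) (L.hpt t p 0) ρ → ∃ r : Fin 2 → Bool,
    (∀ (g : Fin 2) δ, Pre L.κ true (G.win t g) (T.fq x (put ρ L.pG 1 (ofN 1 g))) δ → r g = δ) ∧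
    F (L.hpt t p (aN L.qA L.n ρ)) =
      b2 (G.lb (nod G L t x (aN L.qA L.n ρ)).1 t (nod G L t x (aN L.qA L.n ρ)).2 r)

def StdGood (x : BB G) (t p : ℕ) : Prop := ∃ F, T.StdP x t p F

def RowOK (x : BB G) (ρ : Vec L.σ) : Prop :=
  ∃ F, Valid (eV L.M) L.dStd (T.X0 (p1 G L ρ x)) (tk L.pt L.τ ρ) F ∧
    Valid (eV L.M) L.dRow (T.X2 x) ρ fun z => F (tk L.pt L.τ z)

def RB (x : BB G) (ρ : Vec L.σ) : Prop := RowBad L.κ L.M L.base L.rows (T.X2 x) (T.X3 x) ρ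

def CB (x : BB G) (ρ : Vec L.σ) : Prop := ColBad L.κ L.M L.Es L.d1 (T.X3 x) (T.X4 x) ρ

def MB (x : BB G) (ρ : Vec L.σ) : Prop :=
  eV L.M / 2 ≤ av (pos (L.hi L.Es ++ L.d1)) (fun z => ind (T.S x z)) ρ

def SB (x : BB G) (ρ : Vec L.σ) : Prop :=
  ¬ ∀ z, InR (pos (vd L.κ L.pV :: L.dW)) ρ z → HP (vd L.κ L.pV :: L.dW) z → ∀ y,
    Msg (eV L.M) (L.Rs.map (vd L.κ) ++ vd L.κ L.pV :: L.dW) (T.X5 x) z y →
      Msg (eV L.M) (vd L.κ L.pV :: L.dW) (T.X6 x) z y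

/-- the opinion that should arrive at the version `ρ` of the group `x`. -/
noncomputable def so (x : BB G) (ρ : Vec L.σ) : Bool :=
  T.op (p1 G L ρ (p2 G L ρ x)) (L.hpt (L.pr (L.tm ρ)) (L.th ρ) (aN L.qE L.n ρ))

noncomputable def rowT (x : BB G) (ρ : Vec L.σ) : ℝ :=
  av L.TP (fun ρ' => ind (¬ T.RowOK x ρ') + ind (T.RB x ρ')) ρ

noncomputable def colT (x : BB G) (ρ : Vec L.σ) : ℝ :=
  av L.W (fun ρ' => ind (T.CB (p2 G L ρ' x) ρ') + ind (T.MB x ρ') + ind (T.SB x ρ')) ρ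

/-- fraction of opinions true among the replicas in the class `jj`. -/
noncomputable def hh (t : ℕ) (y : YY G) (jj : Big 2 G.β) : ℝ :=
  𝔼 e : Fin (2 ^ L.n), 𝔼 p : Fin (2 ^ (2 * L.n)),
    ind (T.op (grp G L t y jj e) (L.hpt t p e) = true)

/-- the charge at the old time `t`. -/
noncomputable def mu (t : ℕ) : ℝ := 2 ^ (10 * L.u) * ((𝔼 x, T.bt x t) + 𝔼 x, T.bt x (L.pr t))

end Trace

end Vale.Agent.P330O
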