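import Vale.Agent.P330Q.ONodeB
import Vale.Agent.P330Q.ONodeC
import Vale.Agent.P330Q.ONodeD

/-! Charges as functions on units (task NodeE).
Plan for `row_link`: `av_av` gives one average over `As ∪ W` (move the `aN qA ρ` inside by
`av_congr`); `p2 ρ x = p1i ρ (p1 ρ (p2 ρ x))`, `pull_move12`, `big_add_self`; exchange `𝔼 jj` and `av`;
for fixed `ρ` the walk `gaZ ρ` is a bijection of `Big 2 β` (involutions); then `rowT x ρ ≤ 1/1000 +
max 0 (..)`, and by `rowT_congr`, `p1i_congr` the integrand is `ψ (aN qE ρ) ρ` with `ψ e` invariant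
under changes outside `AK` (inside `As ∪ W`), so the average is `𝔼 e, av AK (ψ e)` (`av_aE`);
`expect_big2`. Means: `expect_join`, `expect_big2`, `expect_pullB`, `std_good`, `rowT_mean`,
`colT_mean`. -/

namespace Vale.Agent.P330O

open Vale.Agent.P330 Vale.Agent.P330.Amp
open Vale.Agent.Lib.H23 Vale.Agent.P325 Finset Matrix
open scoped BigOperators

variable {G : QI 2} {L : Lo}

namespace Trace

variable (T : Trace G L)

noncomputable def phO (t : ℕ) (w : YY G) (j : Vec G.β) : ℝ :=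
  𝔼 j', max 0 ((𝔼 p : Fin (2 ^ (2 * L.n)), ind (¬ T.StdGood (jn G w ![j, j']) t p)) - 1 / 1000)

noncomputable def phC (t : ℕ) (g : Fin 2) (w : YY G) (j : Vec G.β) : ℝ :=
  𝔼 j', T.colT (jn G w ![j, j']) (L.rho t g) / 3

noncomputable def phR (t : ℕ) (g : Fin 2) (w : YY G) (j : Vec G.β) : ℝ :=
  𝔼 j', av L.AK (fun ρ => max 0 (T.rowT (p1i G L ρ (jn G w ![j, j'])) ρ - 1 / 1000)) (L.rho t g) / 2

end Trace

/-- average over the units through `y` at the old time `t`. -/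
noncomputable def lk (G : QI 2) (L : Lo) (t : ℕ) (φ : YY G → Vec G.β → ℝ) (y : YY G) : ℝ :=
  𝔼 j, 𝔼 a : Fin (2 ^ L.n), φ (sh G L t a y j) j

theorem ne_mu (T : Trace G L) (t : ℕ) : 2 ^ (10 * L.u) * (𝔼 x, T.bt x t) ≤ T.mu t := by
  have hE : 0 ≤ 𝔼 x, T.bt x (L.pr t) := Finset.expect_nonneg fun x _ => nd_bt_nonneg T x _
  exact mul_le_mul_of_nonneg_left (by linarith) (by positivity)

theorem ne_mu_nonneg (T : Trace G L) (t : ℕ) : 0 ≤ T.mu t :=
  le_trans (mul_nonneg (by positivity) (Finset.expect_nonneg fun x _ => nd_bt_nonneg T x _))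
    (ne_mu T t)

theorem ne_div (h : Ass G L) {s : ℕ} (hs : s < L.n) : s / L.κ < L.c ∧ s % L.κ < L.κ := by
  have h1 : 0 < L.κ := by have := h.hκ; omega
  refine ⟨(Nat.div_lt_iff_lt_mul h1).2 hs, Nat.mod_lt _ h1⟩

theorem ne_qA (h : Ass G L) {s : ℕ} (hs : s < L.n) : L.qA s ∈ pos (L.As.map (vd L.κ)) := by
  obtain ⟨h1, h2⟩ := ne_div h hs
  refine ⟨vd L.κ (L.pA (s / L.κ)), List.mem_map_of_mem (List.mem_map_of_mem (List.mem_range.2 h1)),
    ?_, ?_⟩
  · simp [vd, Lo.qA]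
  · simp only [vd, Lo.qA]; omega

theorem ne_qE (h : Ass G L) {s : ℕ} (hs : s < L.n) : L.qE s ∈ pos (L.Es.map (vd L.κ)) := by
  obtain ⟨h1, h2⟩ := ne_div h hs
  refine ⟨vd L.κ (L.pE (s / L.κ)), List.mem_map_of_mem (List.mem_map_of_mem (List.mem_range.2 h1)),
    ?_, ?_⟩
  · simp [vd, Lo.qE]
  · simp only [vd, Lo.qE]; omega

theorem ne_Es_AK (h : Ass G L) {j : ℕ} (hj : j ∈ pos (L.Es.map (vd L.κ))) : j ∉ L.AK := by
  rintro (h1 | h1)
  · exact nd_disj h (nd_Es_W hj) (nd_As_Q h1)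
  · obtain ⟨e, he, h2, _⟩ := hj
    obtain ⟨e', he', _, h3⟩ := h1
    obtain ⟨p, hp, rfl⟩ := List.mem_map.1 he
    obtain ⟨i, _, rfl⟩ := List.mem_map.1 hp
    obtain ⟨p', hp', rfl⟩ := List.mem_map.1 he'
    obtain ⟨i', hi', rfl⟩ := List.mem_map.1 hp'
    have h4 : (i' + 1) * L.κ ≤ L.ck * L.κ := Nat.mul_le_mul_right _ (List.mem_range.1 hi')
    simp only [vd] at h2 h3
    unfold Lo.pE Lo.pA Lo.pP Lo.pR Lo.pT Lo.pK at h2
    unfold Lo.pK at h3
    rw [Nat.add_mul] at h4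
    omega

theorem ne_AK_sub : L.AK ⊆ pos (L.As.map (vd L.κ)) ∪ L.W := Set.union_subset_union_right _ nd_Ks_W

theorem ne_R_mem (h : Ass G L) {j : ℕ} (hj : j ∈ pos (L.As.map (vd L.κ)) ∪ L.W) :
    L.pV ≤ j ∧ j < L.pt ∧ j ≠ L.pG :=
  (nd_mem h j).1 (hj.elim (fun h1 => Or.inr (nd_As_Q h1)) Or.inl)

theorem ne_D_row (h : Ass G L) : (pos (L.As.map (vd L.κ)) ∪ L.W) \ L.AK ⊆
    pos L.dRow ∪ pos (L.Ps.map (vd L.κ)) := by
  rintro j ⟨h1 | ⟨e, he, h2, h3⟩, h4⟩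
  · exact absurd (Or.inl h1) h4
  · obtain ⟨p, hp, rfl⟩ := List.mem_map.1 he
    have hT : ∀ i < L.c, vd L.κ (L.pT i) ∈ L.dRow := by
      intro i hi
      refine List.mem_append_left _ (List.mem_flatMap.2 ⟨(L.pA i, L.pT i),
        List.mem_map_of_mem (f := fun i => (L.pA i, L.pT i)) (List.mem_range.2 hi), by simp⟩)
    simp only [Lo.qs, List.cons_append, List.mem_cons, List.mem_append] at hp
    rcases hp with rfl | (((hp | hp) | hp) | hp) | hp
    · exact Or.inl ⟨_, hT 0 h.hc, h2, h3⟩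
    · obtain ⟨i, hi, rfl⟩ := List.mem_map.1 hp
      have := List.mem_range'_1.1 hi
      exact Or.inl ⟨_, hT i (by omega), h2, h3⟩
    · have : L.κ < 2 ^ L.κ := Nat.lt_two_pow_self
      refine Or.inl ⟨md L.κ p, ?_, h2, ?_⟩
      · simp [Lo.dRow, Lo.base, List.mem_map_of_mem hp]
      · simp only [vd, md] at h3 ⊢; omega
    · exact absurd (Or.inr ⟨_, List.mem_map_of_mem hp, h2, h3⟩) h4
    · refine Or.inl ⟨vd L.κ p, ?_, h2, h3⟩
      simp [Lo.dRow, Lo.base, List.mem_map_of_mem hp]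
    · exact Or.inr ⟨_, List.mem_map_of_mem hp, h2, h3⟩

theorem ne_avE (h : Ass G L) (ψ : ℕ → Vec L.σ → ℝ)
    (hψ : ∀ e z z', InR ((pos (L.As.map (vd L.κ)) ∪ L.W) \ L.AK) z z' → ψ e z' = ψ e z)
    (z0 : Vec L.σ) :
    av (pos (L.As.map (vd L.κ)) ∪ L.W) (fun ρ => ψ (aN L.qE L.n ρ) ρ) z0 =
      𝔼 e : Fin (2 ^ L.n), av L.AK (ψ e) z0 := by
  set R := pos (L.As.map (vd L.κ)) ∪ L.W with hR
  have hE : pos (L.Es.map (vd L.κ)) ⊆ R := nd_Es_W.trans Set.subset_union_right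
  have h1 : R = pos (L.Es.map (vd L.κ)) ∪ R \ pos (L.Es.map (vd L.κ)) :=
    (Set.union_sdiff_cancel hE).symm
  have h2 : R \ pos (L.Es.map (vd L.κ)) ∪ R \ L.AK = R := by
    ext j
    constructor
    · rintro (h3 | h3) <;> exact h3.1
    · intro h3
      by_cases h4 : j ∈ pos (L.Es.map (vd L.κ))
      · exact Or.inr ⟨h3, ne_Es_AK h h4⟩
      · exact Or.inl ⟨h3, h4⟩
  have h3 : L.AK ∪ R \ L.AK = R := Set.union_sdiff_cancel ne_AK_sub
  rw [← av_aE L h.hκ h.hc (fun e => av L.AK (ψ e) z0) z0]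
  conv_lhs => rw [h1, ← av_av]
  refine av_congr fun ρ hρ => ?_
  rw [av_congr (g := ψ (aN L.qE L.n ρ)) fun ρ' hρ' => by
    rw [ne_aN hρ' fun s hs h5 => h5.2 (ne_qE h hs)]]
  rw [nd_av_inv (hψ _), nd_av_inv (hψ _) z0, h2, h3, av_base (hρ.mono hE)]

theorem rho_home (h : Ass G L) (t : ℕ) (g : Fin 2) : Home L.u (L.rho t g) := by
  refine InR.home (P := Set.Ici (L.u + 2)) (InR.refl.put (fun j h1 _ => ?_) _) (fun j hj => hj)
    (hpt_home L h.hκ h.hc)
  exact le_trans (ne_pG L).1 h1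
theorem rho_tm (h : Ass G L) {t : ℕ} (ht : t < 2 ^ L.τ) (g : Fin 2) : L.tm (L.rho t g) = t := by
  unfold Lo.tm Lo.rho fld
  rw [get_put_disj (Or.inl (ne_pG L).2.1)]
  exact hpt_t L h.hκ h.hc ht (by positivity)
theorem rho_gi (h : Ass G L) (t : ℕ) (g : Fin 2) : L.gi (L.rho t g) = g := by
  unfold Lo.gi Lo.rho
  rw [fld_put ((ne_pG L).2.1.trans (ne_pG L).2.2) (by have := g.2; omega)]
  fin_cases g <;> simp

theorem phO_bd (T : Trace G L) (t : ℕ) (w : YY G) (j : Vec G.β) :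
    0 ≤ T.phO t w j ∧ T.phO t w j ≤ 1 := by
  refine ⟨Finset.expect_nonneg fun j' _ => le_max_left _ _, ne_expect_le_one fun j' => ?_⟩
  refine max_le zero_le_one ?_
  have := ne_expect_le_one (f := fun p : Fin (2 ^ (2 * L.n)) =>
    ind (¬ T.StdGood (jn G w ![j, j']) t p)) fun p => nd_ind_le_one _
  linarith
theorem phC_bd (T : Trace G L) (t : ℕ) (g : Fin 2) (w : YY G) (j : Vec G.β) :
    0 ≤ T.phC t g w j ∧ T.phC t g w j ≤ 1 := by
  refine ⟨Finset.expect_nonneg fun j' _ => div_nonneg (colT_le T _ _).1 (by norm_num),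
    ne_expect_le_one fun j' => ?_⟩
  linarith [(colT_le T (jn G w ![j, j']) (L.rho t g)).2]
theorem phR_bd (T : Trace G L) (t : ℕ) (g : Fin 2) (w : YY G) (j : Vec G.β) :
    0 ≤ T.phR t g w j ∧ T.phR t g w j ≤ 1 := by
  refine ⟨Finset.expect_nonneg fun j' _ => div_nonneg (av_nonneg fun _ => le_max_left _ _)
    (by norm_num), ne_expect_le_one fun j' => ?_⟩
  have : av L.AK (fun ρ => max 0 (T.rowT (p1i G L ρ (jn G w ![j, j'])) ρ - 1 / 1000)) (L.rho t g) ≤ 2 :=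
    av_le fun ρ _ => max_le (by norm_num) (by linarith [(rowT_le T (p1i G L ρ (jn G w ![j, j'])) ρ).2])
  linarith

theorem phO_mean (h : Ass G L) (T : Trace G L) {t : ℕ} (ht : t < 2 ^ L.τ) :
    (𝔼 w, 𝔼 j, T.phO t w j) ≤ T.mu t := by
  unfold Trace.phO
  rw [expect_jn fun x => max 0 ((𝔼 p : Fin (2 ^ (2 * L.n)), ind (¬ T.StdGood x t p)) - 1 / 1000)]
  refine le_trans ?_ (ne_mu T t)
  rw [Finset.mul_expect]
  refine Finset.expect_le_expect fun x _ => ?_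
  have h0 := nd_bt_nonneg T x t
  have hu := (nd_u L).1
  have hb := h.big
  refine max_le (by positivity) ?_
  have h1 := std_good h T x ht
  have h2 : (2 : ℝ) ^ (2 * L.u + 4) / 2 ^ L.n ≤ 1 / 1000 := by
    rw [div_le_iff₀ (by positivity)]
    have h3 : (2 : ℝ) ^ (2 * L.u + 4 + 10) ≤ 2 ^ L.n := pow_le_pow_right₀ (by norm_num) (by omega)
    rw [pow_add _ _ 10] at h3
    have h4 : (0 : ℝ) ≤ 2 ^ (2 * L.u + 4) := by positivity
    linarith
  have h5 : (2 : ℝ) ^ (8 * L.u) * T.bt x t ≤ 2 ^ (10 * L.u) * T.bt x t :=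
    mul_le_mul_of_nonneg_right (pow_le_pow_right₀ (by norm_num) (by omega)) h0
  linarith
theorem phC_mean (h : Ass G L) (T : Trace G L) {t : ℕ} (ht : t < 2 ^ L.τ) (g : Fin 2) :
    (𝔼 w, 𝔼 j, T.phC t g w j) ≤ T.mu t := by
  unfold Trace.phC
  rw [expect_jn fun x => T.colT x (L.rho t g) / 3, ← Finset.expect_div]
  have h1 := colT_mean h T (rho_home h t g)
  rw [rho_tm h ht] at h1
  linarith [ne_mu_nonneg T t]
theorem phR_mean (h : Ass G L) (T : Trace G L) {t : ℕ} (ht : t < 2 ^ L.τ) (g : Fin 2) :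
    (𝔼 w, 𝔼 j, T.phR t g w j) ≤ T.mu t := by
  unfold Trace.phR
  rw [expect_jn fun x => av L.AK (fun ρ => max 0 (T.rowT (p1i G L ρ x) ρ - 1 / 1000)) (L.rho t g) / 2,
    ← Finset.expect_div]
  have h1 := rowT_mean h T (rho_home h t g)
  rw [rho_tm h ht] at h1
  have h2 : (𝔼 x, av L.AK (fun ρ => max 0 (T.rowT (p1i G L ρ x) ρ - 1 / 1000)) (L.rho t g)) =
      𝔼 x, av L.AK (fun ρ => max 0 (T.rowT x ρ - 1 / 1000)) (L.rho t g) := by
    rw [← av_expect (fun x ρ => max 0 (T.rowT (p1i G L ρ x) ρ - 1 / 1000)),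
      ← av_expect (fun x ρ => max 0 (T.rowT x ρ - 1 / 1000))]
    exact av_congr fun z _ => expect_pullB h.inv z _
      fun x => max 0 (T.rowT x z - 1 / 1000)
  rw [h2]
  linarith [ne_mu_nonneg T t]

theorem row_link (h : Ass G L) (T : Trace G L) {t : ℕ} (ht : t < 2 ^ L.τ) (g : Fin 2)
    (y : YY G) :
    (𝔼 jj : Big 2 G.β, av (pos (L.As.map (vd L.κ))) (fun ρ => av L.W (fun ρ' => T.rowT
      (p2 G L ρ' (grp G L t y jj (aN L.qA L.n ρ))) ρ') ρ) (L.rho t g)) ≤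
      1 / 1000 + 2 * lk G L (L.pr t) (T.phR t g) (nbY G t g y) := by
  set y1 := nbY G t g y with hy1
  set ψ : Big 2 G.β → ℕ → Vec L.σ → ℝ := fun jj e ρ => max 0 (T.rowT (p1i G L ρ
    (grp G L (L.pr t) y1 jj e)) ρ - 1 / 1000) with hψ
  have s1 : ∀ jj : Big 2 G.β, av (pos (L.As.map (vd L.κ))) (fun ρ => av L.W (fun ρ' => T.rowT
      (p2 G L ρ' (grp G L t y jj (aN L.qA L.n ρ))) ρ') ρ) (L.rho t g) =
      av (pos (L.As.map (vd L.κ)) ∪ L.W) (fun ρ => T.rowT (p1i G L ρ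
        (grp G L (L.pr t) y1 (gaZ G.toInst L ρ jj) (aN L.qE L.n ρ))) ρ) (L.rho t g) := by
    intro jj
    rw [av_congr (g := av L.W fun ρ' => T.rowT
      (p2 G L ρ' (grp G L t y jj (aN L.qA L.n ρ'))) ρ') fun ρ _ =>
        av_congr fun ρ' hρ' => by
          rw [ne_aN hρ' fun s hs h5 => nd_disj h h5 (nd_As_Q (ne_qA h hs))], av_av]
    refine av_congr fun ρ hρ => ?_
    have h1 : L.tm ρ = t := by
      rw [← rho_tm h ht g]
      unfold Lo.tm fld
      rw [hρ.get fun j h1 _ h2 => absurd (ne_R_mem h h2).2.1 (not_lt.2 h1)]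
    have h2 : L.gi ρ = g := by
      rw [← rho_gi h t g]
      unfold Lo.gi fld
      rw [hρ.get fun j h1 h3 h2 => (ne_R_mem h h2).2.2 (by omega)]
    have h3 := pull_move12 h ρ y jj
    rw [h1, h2] at h3
    rw [← p1i_p1 h ρ (p2 G L ρ _), h3]
  simp only [s1]
  rw [← av_expect (fun jj ρ => T.rowT (p1i G L ρ
    (grp G L (L.pr t) y1 (gaZ G.toInst L ρ jj) (aN L.qE L.n ρ))) ρ)]
  refine le_trans (av_mono (g := fun ρ => 1 / 1000 + 𝔼 jj, ψ jj (aN L.qE L.n ρ) ρ) fun ρ _ => ?_) ?_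
  · have h1 := ne_walk G.gens (L.Ks.map fun p => fld ρ p 5) fun jj => T.rowT (p1i G L ρ
      (grp G L (L.pr t) y1 jj (aN L.qE L.n ρ))) ρ
    refine le_trans (le_of_eq h1) ?_
    rw [← Finset.expect_const (Finset.univ_nonempty (α := Big 2 G.β)) (1 / 1000 : ℝ),
      ← Finset.expect_add_distrib]
    refine Finset.expect_le_expect fun jj _ => ?_
    have := le_max_right 0 (T.rowT (p1i G L ρ
      (grp G L (L.pr t) y1 jj (aN L.qE L.n ρ))) ρ - 1 / 1000)
    simp only [hψ]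
    linarith
  · rw [av_add, av_const, av_expect (fun jj ρ => ψ jj (aN L.qE L.n ρ) ρ)]
    refine le_of_eq ?_
    congr 1
    have s2 : ∀ jj, av (pos (L.As.map (vd L.κ)) ∪ L.W) (fun ρ => ψ jj (aN L.qE L.n ρ) ρ) (L.rho t g) =
        𝔼 e : Fin (2 ^ L.n), av L.AK (ψ jj e) (L.rho t g) := by
      intro jj
      refine ne_avE h (ψ jj) (fun e z z' hz => ?_) _
      simp only [hψ]
      rw [rowT_congr h T _ (hz.mono (ne_D_row h)), p1i_congr h (hz.mono fun j hj => ?_)]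
      have h4 := ne_R_mem h hj.1
      rintro ((h5 | h5) | h5)
      · exact hj.2 h5
      · exact h4.2.2 h5
      · exact absurd h4.2.1 (not_lt.2 h5)
    simp only [s2]
    rw [expect_big2]
    unfold lk Trace.phR
    rw [Finset.mul_expect]
    refine Finset.expect_congr rfl fun j _ => ?_
    rw [Finset.expect_comm, Finset.mul_expect]
    refine Finset.expect_congr rfl fun e _ => ?_
    rw [Finset.mul_expect]
    refine Finset.expect_congr rfl fun j' _ => ?_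
    simp only [hψ, grp, Matrix.cons_val_zero]
    ring

theorem col_link (h : Ass G L) (T : Trace G L) (t : ℕ) (g : Fin 2) (y : YY G) :
    (𝔼 jj : Big 2 G.β, av (pos (L.As.map (vd L.κ))) (fun ρ => T.colT
      (grp G L t y jj (aN L.qA L.n ρ)) ρ) (L.rho t g)) = 3 * lk G L t (T.phC t g) y := by
  have s1 : ∀ jj : Big 2 G.β, av (pos (L.As.map (vd L.κ))) (fun ρ => T.colT
      (grp G L t y jj (aN L.qA L.n ρ)) ρ) (L.rho t g) =
      𝔼 e : Fin (2 ^ L.n), T.colT (grp G L t y jj e) (L.rho t g) := by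
    intro jj
    rw [← av_aA L h.hκ h.hc (fun e => T.colT (grp G L t y jj e) (L.rho t g)) (L.rho t g)]
    exact av_congr fun ρ hρ => colT_congr h T _ (hρ.mono (nd_As_Q.trans Set.subset_union_left))
  simp only [s1]
  rw [expect_big2]
  unfold lk Trace.phC
  rw [Finset.mul_expect]
  refine Finset.expect_congr rfl fun j _ => ?_
  rw [Finset.expect_comm, Finset.mul_expect]
  refine Finset.expect_congr rfl fun e _ => ?_
  rw [Finset.mul_expect]
  refine Finset.expect_congr rfl fun j' _ => ?_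
  simp only [grp, Matrix.cons_val_zero]
  ring

end Vale.Agent.P330O
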