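import Vale.Agent.P330Q.ONodeE

/-! A node with small charges is satisfied (task NodeF).
Plan. Let the label be constantly `γ` on the resolutions. For `(jj, ρ)` (`ρ` in the region of the
low bits of `As`, `a = aN qA ρ`, `x = join (y + Lv a (jj 0)) jj`) and an input `g` call `(jj, ρ)` bad if
`1/100 ≤ |sample - fr|` (`sample_eq`, `hE` for `T.hh`: density `≤ 1/1000`) or the bound of `fq_near` is
`≥ 1/20` (Markov with `row_link`, `col_link`: density `≤ 20 * 6/1000`). If not bad, a defined reading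
`δ` of `cls fr` through `win t g` gives `Pre` (`s0` is `3 k / 8` or `9 k / 16`, `64 ≤ k`; `fq` does not
see the thresholds). If moreover `StdGood x t p`, the opinion at `hpt t p a` is `γ` (`op_eq`,
`StdP.valid`, `inR_std`, `hp_hpt`). So the fraction of replicas with another opinion is at most
`2/1000 + 2 * 121/1000 < 3/10` (`av_aA`, `expect_big2`), and `cls` gives `pv γ`. -/

namespace Vale.Agent.P330O

open Vale.Agent.P330 Vale.Agent.P330.Amp
open Vale.Agent.Lib.H23 Vale.Agent.P325 Finset Matrix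
open scoped BigOperators

variable {G : QI 2} {L : Lo}

/-- the decoded assignment in terms of the trace. -/
noncomputable def Trace.dec (T : Trace G L) (t : ℕ) (a : G.A) : Val := cls (𝔼 jj, T.hh t (a.1, a.2.1) jj)

namespace NodeF

open Amp.NodeF

theorem fq_congr (h : Ass G L) (T : Trace G L) (x : BB G) {z z' : Vec L.σ}
    (hz : InR (pos (L.Ps.map (vd L.κ))) z z') : T.fq x z' = T.fq x z := by
  unfold Trace.fq frac
  refine av_base ((inR_spl hz fun p hp => fld_congr hz fun j h1 _ h2 => ?_).mono ?_)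
  · simp only [Lo.As, List.mem_map] at hp
    obtain ⟨i, _, rfl⟩ := hp
    have h3 := ((L.pos_Ps h.hκ h.hc j).1 h2).2
    have h4 := pA_le L i
    omega
  · refine pos_mono fun e he => ?_
    rw [List.map_append]
    exact List.mem_append_right _ he

/-! ### the events -/

/-- the bound of `fq_near`. -/
noncomputable def dv (T : Trace G L) (t : ℕ) (y : YY G) (jj : Big 2 G.β) (ρ : Vec L.σ) : ℝ :=
  av L.W (fun ρ' => T.rowT (p2 G L ρ' (grp G L t y jj (aN L.qA L.n ρ))) ρ') ρ +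
    T.colT (grp G L t y jj (aN L.qA L.n ρ)) ρ

/-- the sample is far from the mean. -/
def far (T : Trace G L) (t : ℕ) (y : YY G) (jj : Big 2 G.β) : Prop :=
  1 / 100 ≤ |(𝔼 K : Fin L.ck → Fin 32, T.hh t y (walk G.gens (List.ofFn fun i => (K i : ℕ)) jj)) -
    𝔼 j, T.hh t y j|

theorem dv_nonneg (T : Trace G L) (t : ℕ) (y : YY G) (jj : Big 2 G.β) (ρ : Vec L.σ) :
    0 ≤ dv T t y jj ρ :=
  add_nonneg (av_nonneg fun _ => (rowT_le T _ _).1) (colT_le T _ _).1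

theorem hh_bd (T : Trace G L) (t : ℕ) (y : YY G) (jj : Big 2 G.β) :
    0 ≤ T.hh t y jj ∧ T.hh t y jj ≤ 1 :=
  ⟨expect_nonneg fun _ _ => expect_nonneg fun _ _ => ind_nonneg _,
    expect_le univ_nonempty fun _ _ => expect_le univ_nonempty fun _ _ => ind_le_one _⟩

theorem far_le (h : Ass G L) (hE : ExpAt L.ck) (T : Trace G L) (t : ℕ) (y : YY G) :
    (𝔼 jj, ind (far T t y jj)) ≤ 1 / 1000 :=
  hE G.β G.gens h.good.g0 h.good.spans (T.hh t y) (hh_bd T t y)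

theorem dv_mean (h : Ass G L) (T : Trace G L) {t : ℕ} (ht : t < 2 ^ L.τ) (g : Fin 2)
    (y : YY G) (hC : lk G L t (T.phC t g) y < 1 / 1000)
    (hR : lk G L (L.pr t) (T.phR t g) (nbY G t g y) < 1 / 1000) :
    (𝔼 jj, av (pos (L.As.map (vd L.κ))) (dv T t y jj) (L.rho t g)) ≤ 6 / 1000 := by
  have h1 := row_link h T ht g y
  have h2 := col_link h T t g y
  have e : ∀ jj, av (pos (L.As.map (vd L.κ))) (dv T t y jj) (L.rho t g) = _ := fun jj => av_add
  simp only [e]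
  rw [expect_add_distrib]
  linarith

theorem dv_le (h : Ass G L) (T : Trace G L) {t : ℕ} (ht : t < 2 ^ L.τ) (g : Fin 2)
    (y : YY G) (hC : lk G L t (T.phC t g) y < 1 / 1000)
    (hR : lk G L (L.pr t) (T.phR t g) (nbY G t g y) < 1 / 1000) :
    (𝔼 jj, av (pos (L.As.map (vd L.κ)))
      (fun ρ => ind (1 / 20 ≤ dv T t y jj (put ρ L.pG 1 (ofN 1 g)))) (L.hpt t 0 0)) ≤ 120 / 1000 := by
  have h1 := dv_mean h T ht g y hC hR
  have h2 : ∀ jj, av (pos (L.As.map (vd L.κ)))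
      (fun ρ => ind (1 / 20 ≤ dv T t y jj (put ρ L.pG 1 (ofN 1 g)))) (L.hpt t 0 0) ≤
      20 * av (pos (L.As.map (vd L.κ))) (dv T t y jj) (L.rho t g) := fun jj => by
    rw [av_put (f := fun ρ => ind (1 / 20 ≤ dv T t y jj ρ)) fun j h1 h2 h3 => by
      have := (mem_As h3).1
      have := pA_zero L
      have := pG_lt L
      omega]
    refine (av_markov (dv_nonneg T t y jj) (by norm_num)).trans (le_of_eq ?_)
    unfold Lo.rho
    ring
  refine (expect_le_expect fun jj _ => h2 jj).trans ?_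
  rw [← mul_expect]
  linarith

theorem std_le (T : Trace G L) (t : ℕ) (y : YY G) (hO : lk G L t (T.phO t) y < 1 / 1000) :
    (𝔼 jj, 𝔼 e : Fin (2 ^ L.n), 𝔼 p : Fin (2 ^ (2 * L.n)),
      ind (¬ T.StdGood (grp G L t y jj e) t p)) ≤ 2 / 1000 := by
  have h1 : (𝔼 jj, 𝔼 e : Fin (2 ^ L.n), max 0 ((𝔼 p : Fin (2 ^ (2 * L.n)),
      ind (¬ T.StdGood (grp G L t y jj e) t p)) - 1 / 1000)) = lk G L t (T.phO t) y := by
    rw [expect_big2]
    exact expect_congr rfl fun j _ => expect_comm _ _ _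
  have h2 : (𝔼 jj, 𝔼 e : Fin (2 ^ L.n), 𝔼 p : Fin (2 ^ (2 * L.n)),
      ind (¬ T.StdGood (grp G L t y jj e) t p)) ≤ 𝔼 jj, 𝔼 e : Fin (2 ^ L.n), (max 0
        ((𝔼 p : Fin (2 ^ (2 * L.n)), ind (¬ T.StdGood (grp G L t y jj e) t p)) - 1 / 1000) +
          1 / 1000) :=
    expect_le_expect fun jj _ => expect_le_expect fun e _ => by
      have := le_max_right 0 ((𝔼 p : Fin (2 ^ (2 * L.n)),
        ind (¬ T.StdGood (grp G L t y jj e) t p)) - 1 / 1000)
      linarith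
  simp only [expect_add_distrib, Fintype.expect_const] at h2
  linarith

/-! ### one replica -/

theorem fq_close (h : Ass G L) (T : Trace G L) {t : ℕ} (ht : t < 2 ^ L.τ) (g : Fin 2)
    (y : YY G) (jj : Big 2 G.β) {ρ : Vec L.σ}
    (hρ : InR (pos (L.As.map (vd L.κ))) (L.rho t g) ρ)
    (h1 : ¬ far T (G.prev t) (nbY G t g y) jj) (h2 : ¬ 1 / 20 ≤ dv T t y jj ρ) :
    |T.fq (grp G L t y jj (aN L.qA L.n ρ)) ρ - 𝔼 j, T.hh (G.prev t) (nbY G t g y) j| <
      6 / 100 := by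
  have a1 := pA_zero L
  have a2 := pG_lt L
  have a3 := u_le L
  have h0 : Home L.u ρ := hρ.home (fun j hj => by have := (mem_As hj).1; omega) (rho_home h t g)
  have e1 : L.tm ρ = t :=
    (fld_congr hρ fun j b1 _ b2 => by have := (mem_As b2).2; omega).trans (rho_tm h ht g)
  have e2 : L.gi ρ = g := by
    rw [← rho_gi h t g]
    unfold Lo.gi
    rw [fld_congr hρ fun j b1 b2 b3 => by have := (mem_As b3).1; omega]
  have e3 : L.pr t = G.prev t := by
    unfold Lo.pr Inst.prev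
    rw [h.hτ]
  have h3 := fq_near h T (grp G L t y jj (aN L.qA L.n ρ)) h0
  have h4 := sample_eq h T y jj ρ
  rw [e1, e2, e3] at h4
  rw [h4] at h3
  unfold far at h1
  unfold dv at h2
  rw [not_le] at h1 h2
  rw [abs_lt] at h1 ⊢
  rw [abs_le] at h3
  constructor <;> linarith [h1.1, h1.2, h3.1, h3.2]

theorem op_good (h : Ass G L) (T : Trace G L) {t : ℕ} (ht : t < 2 ^ L.τ) (a : G.A) {γ : Bool}
    (hγ : ∀ r, Res (fun i => rd (G.win t i) (T.dec (G.prev t) (G.nb t i a))) r →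
      G.lb a.1 t a.2 r = γ) (jj : Big 2 G.β) {ρ : Vec L.σ}
    (hρ : InR (pos (L.As.map (vd L.κ))) (L.hpt t 0 0) ρ) {p : ℕ} (hp : p < 2 ^ (2 * L.n))
    (hS : T.StdGood (grp G L t (a.1, a.2.1) jj (aN L.qA L.n ρ)) t p)
    (h1 : ∀ g, ¬ far T (G.prev t) (nbY G t g (a.1, a.2.1)) jj)
    (h2 : ∀ g : Fin 2, ¬ 1 / 20 ≤ dv T t (a.1, a.2.1) jj (put ρ L.pG 1 (ofN 1 g))) :
    T.op (grp G L t (a.1, a.2.1) jj (aN L.qA L.n ρ)) (L.hpt t p (aN L.qA L.n ρ)) = γ := by
  have a1 := pA_zero L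
  have a2 := pG_lt L
  have a3 := u_le L
  have a4 := pA_le_pt L
  have a5 := pA_le L L.c
  have a6 : L.σ = L.pt + L.τ := rfl
  obtain ⟨F, hF⟩ := hS
  obtain ⟨ρp, hρp⟩ : ∃ z, z = put ρ (L.pP 0) (2 * L.n) (ofN _ p) := ⟨_, rfl⟩
  have b1 : InR (pos (L.Ps.map (vd L.κ))) ρ ρp :=
    hρp ▸ InR.refl.put (fun j c1 c2 => (L.pos_Ps h.hκ h.hc j).2 ⟨c1, by omega⟩) _
  have b2' : InR (Set.Iio (L.pA 0)) ρ ρp :=
    b1.mono fun j hj => ((L.pos_Ps h.hκ h.hc j).1 hj).2
  have b3 : Home L.u ρ :=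
    hρ.home (fun j hj => by have := (mem_As hj).1; omega) (hpt_home L h.hκ h.hc)
  have b4 : InR (pos L.dStd) (L.hpt t p 0) ρp := by
    refine (inR_std h ht hp).2 ⟨b1.home (fun j hj => ?_) b3, ?_, ?_⟩
    · have := ((L.pos_Ps h.hκ h.hc j).1 hj).1
      omega
    · refine (fld_congr b2' fun j c1 _ c2 => ?_).trans ((fld_congr hρ fun j c1 _ c2 => ?_).trans
        (hpt_t L h.hκ h.hc ht (Nat.two_pow_pos _)))
      · exact absurd c2 (by simp only [Set.mem_Iio]; omega)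
      · have := (mem_As c2).2
        omega
    · rw [hρp]
      exact fld_put (by omega) hp
  obtain ⟨r, r1, r2⟩ := hF.2.2.2 ρp b4
  rw [aN_congr b2'] at r2
  rw [nod_grp h, hγ r fun g δ hδ => r1 g δ ?_] at r2
  · have h3 := op_eq h T (hpt_home L h.hκ h.hc)
      ((StdP.valid h hF).mono (by have := eV_pos L.M; linarith) : Valid (eV L.M) _ _ _ F)
      ((inR_std h ht hp).2 ⟨hpt_home L h.hκ h.hc, hpt_t L h.hκ h.hc ht hp, hpt_p L h.hκ h.hc hp⟩ :
        InR _ _ (L.hpt t p (aN L.qA L.n ρ))) (hp_hpt h hp)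
    rw [r2] at h3
    revert h3
    cases γ <;> cases T.op _ _ <;> decide
  · rw [fq_congr h T _ (b1.put_put _)]
    have c1 : aN L.qA L.n (put ρ L.pG 1 (ofN 1 g)) = aN L.qA L.n ρ :=
      aN_congr (InR.refl.put (fun j d1 d2 => by simp only [Set.mem_Iio]; omega) _)
    have c2 := fq_close h T ht g (a.1, a.2.1) jj (hρ.put_put _) (h1 g) (h2 g)
    rw [c1] at c2
    exact pre_of_rd h.hκ c2 hδ

theorem wrong_le (h : Ass G L) (hE : ExpAt L.ck) (T : Trace G L) {t : ℕ} (ht : t < 2 ^ L.τ)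
    (a : G.A) (hO : lk G L t (T.phO t) (a.1, a.2.1) < 1 / 1000) (hC : ∀ g, lk G L t (T.phC t g) (a.1, a.2.1) < 1 / 1000)
    (hR : ∀ g, lk G L (L.pr t) (T.phR t g) (nbY G t g (a.1, a.2.1)) < 1 / 1000) {γ : Bool}
    (hγ : ∀ r, Res (fun i => rd (G.win t i) (T.dec (G.prev t) (G.nb t i a))) r →
      G.lb a.1 t a.2 r = γ) :
    (𝔼 jj, 𝔼 e : Fin (2 ^ L.n), 𝔼 p : Fin (2 ^ (2 * L.n)),
      ind (¬ T.op (grp G L t (a.1, a.2.1) jj e) (L.hpt t p e) = γ)) ≤ 3 / 10 := by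
  have h1 := std_le T t (a.1, a.2.1) hO
  have h2 := fun g => far_le h hE T (G.prev t) (nbY G t g (a.1, a.2.1))
  have h3 := fun g => dv_le h T ht g (a.1, a.2.1) (hC g) (hR g)
  have key : ∀ jj, (𝔼 e : Fin (2 ^ L.n), 𝔼 p : Fin (2 ^ (2 * L.n)),
      ind (¬ T.op (grp G L t (a.1, a.2.1) jj e) (L.hpt t p e) = γ)) ≤
      (𝔼 e : Fin (2 ^ L.n), 𝔼 p : Fin (2 ^ (2 * L.n)), ind (¬ T.StdGood (grp G L t (a.1, a.2.1) jj e) t p)) +
      (ind (far T (G.prev t) (nbY G t 0 (a.1, a.2.1)) jj) +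
        ind (far T (G.prev t) (nbY G t 1 (a.1, a.2.1)) jj)) +
      (av (pos (L.As.map (vd L.κ)))
        (fun ρ => ind (1 / 20 ≤ dv T t (a.1, a.2.1) jj (put ρ L.pG 1 (ofN 1 (0 : Fin 2))))) (L.hpt t 0 0) +
      av (pos (L.As.map (vd L.κ)))
        (fun ρ => ind (1 / 20 ≤ dv T t (a.1, a.2.1) jj (put ρ L.pG 1 (ofN 1 (1 : Fin 2))))) (L.hpt t 0 0)) := by
    intro jj
    rw [← av_aA L h.hκ h.hc (fun e => 𝔼 p : Fin (2 ^ (2 * L.n)),
        ind (¬ T.op (grp G L t (a.1, a.2.1) jj e) (L.hpt t p e) = γ)) (L.hpt t 0 0),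
      ← av_aA L h.hκ h.hc (fun e => 𝔼 p : Fin (2 ^ (2 * L.n)),
        ind (¬ T.StdGood (grp G L t (a.1, a.2.1) jj e) t p)) (L.hpt t 0 0),
      ← av_const (P := pos (L.As.map (vd L.κ))) (z0 := L.hpt t 0 0)
        (ind (far T (G.prev t) (nbY G t 0 (a.1, a.2.1)) jj) +
          ind (far T (G.prev t) (nbY G t 1 (a.1, a.2.1)) jj)), ← av_add, ← av_add, ← av_add]
    refine av_mono fun ρ hρ => ?_
    obtain ⟨c, hc⟩ : ∃ c, c = (ind (far T (G.prev t) (nbY G t 0 (a.1, a.2.1)) jj) +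
        ind (far T (G.prev t) (nbY G t 1 (a.1, a.2.1)) jj)) +
        (ind (1 / 20 ≤ dv T t (a.1, a.2.1) jj (put ρ L.pG 1 (ofN 1 (0 : Fin 2)))) +
          ind (1 / 20 ≤ dv T t (a.1, a.2.1) jj (put ρ L.pG 1 (ofN 1 (1 : Fin 2))))) := ⟨_, rfl⟩
    rw [add_assoc, ← hc, ← Fintype.expect_const (ι := Fin (2 ^ (2 * L.n))) c, ← expect_add_distrib]
    refine expect_le_expect fun p _ => ?_
    refine le_trans (ind_mono fun hn => ?_) ((ind_or_le _ _).trans (add_le_add le_rfl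
      (hc ▸ (ind_or_le _ _).trans (add_le_add (ind_or_le _ _) (ind_or_le _ _)))))
    by_contra hb
    simp only [not_or, not_not] at hb
    exact hn (op_good h T ht a hγ jj hρ p.2 hb.1 (Fin.forall_fin_two.2 hb.2.1)
      (Fin.forall_fin_two.2 hb.2.2))
  refine (expect_le_expect fun jj _ => key jj).trans ?_
  simp only [expect_add_distrib]
  linarith [h2 0, h2 1, h3 0, h3 1]

end NodeF

open NodeF in
theorem node_sat (h : Ass G L) (hE : ExpAt L.ck) (T : Trace G L) {t : ℕ} (ht : t < 2 ^ L.τ)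
    (a : G.A) (hO : lk G L t (T.phO t) (a.1, a.2.1) < 1 / 1000) (hC : ∀ g, lk G L t (T.phC t g) (a.1, a.2.1) < 1 / 1000)
    (hR : ∀ g, lk G L (L.pr t) (T.phR t g) (nbY G t g (a.1, a.2.1)) < 1 / 1000) : G.sat T.dec t a := by
  intro γ hγ
  have h1 := wrong_le h hE T ht a hO hC hR hγ
  cases γ
  · refine cls_false (le_trans (le_of_eq ?_) h1)
    refine expect_congr rfl fun jj _ => expect_congr rfl fun e _ => expect_congr rfl fun p _ => ?_
    exact ind_congr (by simp only [Bool.not_eq_false])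
  · refine cls_true ?_
    simp only [ind_not, expect_sub_distrib, Fintype.expect_const] at h1
    unfold Trace.hh
    linarith

end Vale.Agent.P330O
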