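import Vale.Agent.P330Q.OInstB
import Vale.Agent.P330.Round

/-! Programs as instances with an outer coordinate, the program of a round, the decoder.
Outer moves are written as the wiring maps `N l` with `l` beyond the blocks. -/

namespace Vale.Agent.P330O

open Vale.Agent.Lib.H23 Vale.Agent.P325 Vale.Agent.P330 Vale.Agent.P330.Amp Finset Matrix
open scoped BigOperators

/-- the outer move named by a wiring map. -/
def xoOf (B : ℕ) : Op → ℕ
  | .N l => if B ≤ l then l - B else 64
  | _ => 64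

/-- the action of the wiring maps on pairs. -/
def acQ (O : Outer) {b β : ℕ} (gens : Fin 7 → Mat β) (o : Op) (x : O.V × Big b β) :
    O.V × Big b β := (O.mv (xoOf b o) x.1, actB gens o x.2)

theorem acQ_acQ {O : Outer} {g : ℕ} (h : O.Good g) {b β : ℕ} (gens : Fin 7 → Mat β) (o : Op)
    (x : O.V × Big b β) : acQ O gens o (acQ O gens o x) = x :=
  Prod.ext (h.inv _ _) (actB_actB _ _ _)

/-- the instance that runs a program cyclically. -/
noncomputable def progQI (κ b β σ k0 : ℕ) (gens : Fin 7 → Mat β) (O : Outer) (prog : List Ins)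
    (orc : O.V × Big b β → ℕ → Vec σ → Bool) : QI (WW κ) where
  toInst := progInst κ b β σ k0 gens prog fun _ _ _ => false
  o := O
  xo t i := xoOf b ((prog.getD t idleI).op i)
  lb ξ t a r := (prog.getD t idleI).lab κ (orc (ξ, a.1)) a.2 r

/-- oracle numbers of the outer moves. -/
def cd (k i l : ℕ) : ℕ := natL [3 + k, i, l, 0] + 5

/-- the outer move chosen by the oracle bits `cd k i ·`. -/
def oW (B k i : ℕ) : List Mv := (List.range 64).map fun l => (.N (B + l), .orc (cd k i l))

def move1 (L : Lo) (b : ℕ) : List Mv :=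
  L.move1 b ++ (oW (b + 2) 2 0 ++ (List.range (L.n / 5)).flatMap (oW (b + 2) 0))

def move2 (L : Lo) (b : ℕ) : List Mv :=
  L.move2 b ++ ((List.range (L.n / 5)).reverse.flatMap (oW (b + 2) 1) ++ oW (b + 2) 3 0)

/-- the program of a round. -/
def prog (L : Lo) (b : ℕ) : List Ins :=
  tick L.pt L.τ ++ mv (move1 L b) ++ mgs L.κ L.u L.base L.rows ++ split L.κ L.Es L.d1 ++
    mv (move2 L b) ++ sans L.κ L.u (vd L.κ L.pV :: L.dW) L.Rs ++
    group L.κ L.u L.pV L.dW L.qs (L.pT 0) L.Ps (.orc 4) ++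
    plBin L.κ L.u L.pV L.dG true L.pG (fun i => .orc i) ++ swaps (L.pA 0) (L.pE 0) (L.c * L.k)

section round

variable (G : QI 2) (L : Lo)

/-- old addresses without small bits. -/
abbrev YY : Type := G.o.V × Big G.b G.β

/-- groups. -/
abbrev BB : Type := G.o.V × Big (G.b + 2) G.β

def jn (w : YY G) (jj : Big 2 G.β) : BB G := (w.1, join w.2 jj)

/-- the outer word of the entry `a` at the old time `t`. -/
def ow (t a : ℕ) : List ℕ := ltr (t % 2) (L.n / 5) a

/-- the unit of the class `j` that holds `y` as the entry `e` at the old time `t`. -/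
def sh (t e : ℕ) (y : YY G) (j : Vec G.β) : YY G :=
  (G.o.wd (ow L t e).reverse y.1, y.2 + Lv G.b (G.gens 1) L.n e j)

/-- the group that holds the replica of `(t, y)` named by `jj` and `e`. -/
def grp (t : ℕ) (y : YY G) (jj : Big 2 G.β) (e : ℕ) : BB G := jn G (sh G L t e y (jj 0)) jj

/-- the old address held by the group `x` as the entry `a` at the old time `t`. -/
def nod (t : ℕ) (x : BB G) (a : ℕ) : G.A :=
  (G.o.wd (ow L t a) x.1, (fstB x.2 + Lv G.b (G.gens 1) L.n a (blk x.2 G.b), 0))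

/-- multilinear extension of the coefficients of the labels of a unit. -/
def cfx (x : BB G) (i : Fin 4) (z : Vec L.σ) : ZMod 2 :=
  ∑ a ∈ range (2 ^ L.n), (∏ d ∈ range L.c, (fld z (L.pA d + a / L.k ^ d % L.k) 1 : ZMod 2)) *
    anfc (G.lb (nod G L (fld z L.pt L.τ) x a).1 (fld z L.pt L.τ) (nod G L (fld z L.pt L.τ) x a).2) i

/-- the numbers of the outer moves that are switched on. -/
def newT (z : Vec L.σ) : List ℕ :=
  ((List.range (L.n / 5)).map fun i =>
      cd 0 i (2 * (aN L.qA L.n z / 32 ^ i % 32) + fld z L.pt L.τ % 2)) ++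
    ((List.range (L.n / 5)).map fun i =>
      cd 1 i (2 * (aN L.qE L.n z / 32 ^ i % 32) + (fld z L.pt L.τ + 1) % 2)) ++
    [cd (2 + (min (G.xo (fld z L.pt L.τ) (L.gi z)) 64 + fld z L.pt L.τ) % 2) 0
      (min (G.xo (fld z L.pt L.τ) (L.gi z)) 64)]

/-- the oracle bits that do not depend on the group. -/
def orc0 (m : ℕ) (z : Vec L.σ) : Bool := Amp.orc0 G.toInst L m z || decide (m ∈ newT G L z)

def orcR (x : BB G) (m : ℕ) (z : Vec L.σ) : Bool :=
  if h : m < 4 then decide (cfx G L x ⟨m, h⟩ z = 1) else orc0 G L m z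

/-- the new instance. -/
noncomputable def roundI : QI (WW L.κ) :=
  progQI L.κ (G.b + 2) G.β L.σ G.k0 G.gens G.o (prog L G.b) (orcR G L)

/-- opinions (the decoder program does not move the outer coordinate). -/
noncomputable def opin (X : BB G → Vec L.σ → Val) (x : BB G) (z : Vec L.σ) : Bool :=
  Amp.opin G.toInst L (fun a => X (x.1, a.1) a.2) (x.2, z)

/-- fraction of the replicas of the node `(t, y)` with the opinion true. -/
noncomputable def fr (X : BB G → Vec L.σ → Val) (t : ℕ) (y : YY G) : ℝ :=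
  𝔼 jj : Big 2 G.β, 𝔼 e : Fin (2 ^ L.n), 𝔼 p : Fin (2 ^ (2 * L.n)),
    ind (opin G L X (grp G L t y jj e) (L.hpt t p e) = true)

/-- the decoded assignment. -/
noncomputable def decA (x : ℕ → (roundI G L).A → Val) (t : ℕ) (a : G.A) : Val :=
  cls (fr G L (fun y z => x (2 ^ (roundI G L).τ - 1) (y.1, (y.2, z))) t (a.1, a.2.1))

def p1 (z : Vec L.σ) (x : BB G) : BB G := pullB (acQ G.o G.gens) (orc0 G L) z (move1 L G.b) x

def p1i (z : Vec L.σ) (x : BB G) : BB G :=
  pullB (acQ G.o G.gens) (orc0 G L) z (move1 L G.b).reverse x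

def p2 (z : Vec L.σ) (x : BB G) : BB G := pullB (acQ G.o G.gens) (orc0 G L) z (move2 L G.b) x

/-- the old wiring map on addresses without small bits. -/
def nbY (t : ℕ) (i : Fin 2) (y : YY G) : YY G :=
  (G.o.mv (G.xo t i) y.1, actB G.gens (G.op t i) y.2)

/-- standing assumptions. -/
structure Ass : Prop where
  good : G.toInst.Good
  hσ : G.σ = 0
  hτ : L.τ = G.τ
  hκ : 6 ≤ L.κ
  hc : 1 ≤ L.c
  hn : L.n ≤ G.k0
  big : 4 * L.u ≤ L.n
  out : ∃ g, G.o.Good g
  tau : 1 ≤ L.τ

variable {G L}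

theorem Ass.old (h : Ass G L) : Amp.Ass G.toInst L := ⟨h.good, h.hσ, h.hτ, h.hκ, h.hc, h.hn, h.big⟩

theorem Ass.inv (h : Ass G L) {b : ℕ} (o : Op) (x : G.o.V × Big b G.β) :
    acQ G.o G.gens o (acQ G.o G.gens o x) = x := by
  obtain ⟨g, hg⟩ := h.out
  exact acQ_acQ hg _ _ _

end round

end Vale.Agent.P330O
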