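import Vale.Agent.P330Q.OInstB

/-! The ring `F2[t] / t ^ (l + 1)`, its elements as numbers, the group `SL3` and its generators
(task ORing). Tools: `AdjoinRoot.mk_eq_mk`, `AdjoinRoot.mk_eq_zero`, `Polynomial.X_pow_dvd_iff`,
`AdjoinRoot.mk_surjective`, `IsNilpotent.isUnit_one_add`, `Matrix.transvection_mul_transvection_same`, `ip_parity`. -/

namespace Vale.Agent.P330O

open Vale.Agent.Lib.H23 Vale.Agent.P333 Vale.Agent.P325 Vale.Agent.P330 Vale.Agent.P330.Amp
open Finset Matrix
open scoped BigOperators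

namespace SL

abbrev Rg (l : ℕ) : Type := AdjoinRoot ((Polynomial.X : Polynomial (ZMod 2)) ^ (l + 1))

noncomputable def tt (l : ℕ) : Rg l := AdjoinRoot.root _

/-- the ring element with the coefficients `v`. -/
noncomputable def io (l : ℕ) (v : Vec (l + 1)) : Rg l := ∑ i, v i • tt l ^ (i : ℕ)

/-- the ring element with the bits of `n` as coefficients. -/
noncomputable def toR (l n : ℕ) : Rg l := io l (ofN _ n)

/-- multiplication by `t` on coefficients. -/
def shf (l : ℕ) : Mat (l + 1) := fun i j => if (i : ℕ) = j + 1 then 1 else 0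

/-- the product of ring elements as numbers. -/
def cmul (l a b : ℕ) : ℕ := Nat.ofBits fun j : Fin (l + 1) =>
  ((List.range (j + 1)).countP fun i => a.testBit i && b.testBit (j - i)).bodd

variable {l : ℕ}

/-- the polynomial with the coefficients `v`. -/
noncomputable def rgP (v : Vec (l + 1)) : Polynomial (ZMod 2) :=
  ∑ i : Fin (l + 1), Polynomial.monomial i (v i)

theorem rg_coeff (v : Vec (l + 1)) {j : ℕ} (hj : j < l + 1) : (rgP v).coeff j = v ⟨j, hj⟩ := by
  rw [rgP, Polynomial.finsetSum_coeff, sum_eq_single ⟨j, hj⟩]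
  · simp
  · intro i _ hi
    rw [Polynomial.coeff_monomial, if_neg fun e => hi (Fin.ext e)]
  · simp

theorem rg_io (v : Vec (l + 1)) : io l v = AdjoinRoot.mk _ (rgP v) := by
  rw [io, rgP, map_sum]
  refine sum_congr rfl fun i _ => ?_
  rw [← Polynomial.smul_X_eq_monomial, ← AdjoinRoot.smul_mk, map_pow, AdjoinRoot.mk_X, tt]

theorem rg_mk (l : ℕ) (p : Polynomial (ZMod 2)) :
    (AdjoinRoot.mk _ p : Rg l) = io l fun i => p.coeff i := by
  rw [rg_io, AdjoinRoot.mk_eq_mk, Polynomial.X_pow_dvd_iff]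
  intro d hd
  rw [Polynomial.coeff_sub, rg_coeff _ hd, sub_self]

theorem rg_tt : tt l = AdjoinRoot.mk _ Polynomial.X := AdjoinRoot.mk_X.symm

theorem tt_pow (l : ℕ) : tt l ^ (l + 1) = 0 := by
  rw [rg_tt, ← map_pow, AdjoinRoot.mk_self]

theorem add_self (x : Rg l) : x + x = 0 := by
  rw [← two_smul (ZMod 2) x, show (2 : ZMod 2) = 0 from rfl, zero_smul]

theorem io_add (v w : Vec (l + 1)) : io l (v + w) = io l v + io l w := by
  simp only [io, Pi.add_apply, add_smul, sum_add_distrib]

theorem io_bij (l : ℕ) : Function.Bijective (io l) := by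
  refine ⟨fun v w h => funext fun i => ?_, fun x => ?_⟩
  · rw [rg_io, rg_io, AdjoinRoot.mk_eq_mk, Polynomial.X_pow_dvd_iff] at h
    have := h i i.2
    rwa [Polynomial.coeff_sub, rg_coeff _ i.2, rg_coeff _ i.2, sub_eq_zero] at this
  · obtain ⟨p, rfl⟩ := AdjoinRoot.mk_surjective x
    exact ⟨_, (rg_mk l p).symm⟩

theorem io_shf (v : Vec (l + 1)) : io l (shf l *ᵥ v) = tt l * io l v := by
  rw [rg_io v, rg_tt, ← map_mul, rg_mk]
  congr 1
  funext i
  simp only [mulVec, dotProduct, shf, ite_mul, one_mul, zero_mul]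
  refine Fin.cases ?_ (fun i => ?_) i
  · simp
  · rw [Fin.val_succ, Polynomial.coeff_X_mul, rg_coeff _ (Nat.lt_succ_of_lt i.2),
      sum_eq_single ⟨i, Nat.lt_succ_of_lt i.2⟩, if_pos rfl]
    · intro j _ hj
      exact if_neg fun e => hj (Fin.ext (by simpa using e.symm))
    · simp

theorem toR_one (l : ℕ) : toR l 1 = 1 := by
  rw [← map_one (AdjoinRoot.mk _), rg_mk, toR]
  congr 1
  funext i
  rw [ofN, Polynomial.coeff_one, show Nat.testBit 1 i = _ from Nat.testBit_two_pow (n := 0)]
  by_cases h : (i : ℕ) = 0 <;> simp [b2, h, eq_comm]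

theorem toR_zero (l : ℕ) : toR l 0 = 0 := by
  simp [toR, ofN_zero, io]

theorem toR_two (l : ℕ) : toR l 2 = tt l := by
  rw [rg_tt, rg_mk, toR]
  congr 1
  funext i
  rw [ofN, Polynomial.coeff_X, show Nat.testBit 2 i = _ from Nat.testBit_two_pow (n := 1)]
  by_cases h : 1 = (i : ℕ) <;> simp [b2, h]

theorem toR_xor (a b : ℕ) : toR l (a ^^^ b) = toR l a + toR l b := by
  rw [toR, ofN_xor, io_add, toR, toR]

theorem toR_cmul (a b : ℕ) : toR l (cmul l a b) = toR l a * toR l b := by
  rw [toR, toR, toR, rg_io (ofN _ a), rg_io (ofN _ b), ← map_mul, rg_mk]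
  congr 1
  funext j
  rw [ofN, cmul, Nat.testBit_ofBits_lt _ _ j.2, ← ip_parity, Polynomial.coeff_mul,
    Finset.Nat.sum_antidiagonal_eq_sum_range_succ fun i k =>
      (rgP (ofN (l + 1) a)).coeff i * (rgP (ofN (l + 1) b)).coeff k]
  refine sum_congr rfl fun k hk => ?_
  have h1 := mem_range.1 hk
  have h2 := j.2
  rw [rg_coeff _ (show k < l + 1 by omega), rg_coeff _ (show j - k < l + 1 by omega), ofN, ofN]
  dsimp only
  cases a.testBit k <;> cases b.testBit (j - k) <;> rfl

theorem toR_inj {a b : ℕ} (h : toR l a = toR l b) : a % 2 ^ (l + 1) = b % 2 ^ (l + 1) := by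
  rw [← toN_ofN, ← toN_ofN, (io_bij l).1 h]

theorem spans (l : ℕ) : Spans fun ρ : Fin 7 => if ρ = 1 then shf l else 1 := by
  intro φ h
  have h1 : ∀ k, io l (shf l ^ k *ᵥ ofN _ 1) = tt l ^ k := fun k => by
    induction k with
    | zero => rw [pow_zero, one_mulVec, pow_zero]; exact toR_one l
    | succ k ih => rw [pow_succ', ← mulVec_mulVec, io_shf, ih, pow_succ' (tt l)]
  refine (Pi.basisFun _ _).ext fun i => ?_
  have h2 : shf l ^ (i : ℕ) *ᵥ ofN _ 1 = Pi.single i 1 := (io_bij l).1 (by
    rw [h1, io, sum_eq_single i]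
    · simp
    · intro j _ hj
      simp [hj]
    · simp)
  have := h (List.replicate i 1)
  rw [List.map_replicate, List.prod_replicate, if_pos rfl, h2] at this
  simpa using this

/-- the coefficient of `t ^ j` is determined modulo `t ^ (j + 1)`. -/
theorem level {j : ℕ} (hj : j ≤ l) {u : ZMod 2} {y : Rg l}
    (h : u • tt l ^ j = tt l ^ (j + 1) * y) : u = 0 := by
  obtain ⟨p, rfl⟩ := AdjoinRoot.mk_surjective y
  rw [rg_tt, ← map_pow, ← map_pow, ← map_mul, AdjoinRoot.smul_mk, AdjoinRoot.mk_eq_mk,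
    Polynomial.X_pow_dvd_iff] at h
  have := h j (by omega)
  rw [Polynomial.coeff_sub, Polynomial.coeff_X_pow_mul', if_neg (by omega)] at this
  simpa using this

theorem rg_nil (y : Rg l) : IsNilpotent (tt l * y) :=
  (Commute.all _ _).isNilpotent_mul_right ⟨l + 1, tt_pow l⟩

theorem isLocal (l : ℕ) : IsLocalRing (Rg l) := by
  have : Nontrivial (Rg l) := (io_bij l).1.nontrivial
  refine IsLocalRing.of_isUnit_or_isUnit_one_sub_self fun x => ?_
  obtain ⟨p, rfl⟩ := AdjoinRoot.mk_surjective x
  rw [← p.X_mul_divX_add, map_add, map_mul, ← rg_tt]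
  have : ∀ u : ZMod 2, u = 0 ∨ u = 1 := by decide
  rcases this (p.coeff 0) with h | h
  · rw [h, map_zero, map_zero, add_zero]
    exact Or.inr (rg_nil _).isUnit_one_sub
  · rw [h, map_one, map_one]
    exact Or.inl (rg_nil _).isUnit_add_one

instance finRg (l : ℕ) : Finite (Rg l) := Finite.of_surjective _ (io_bij l).2

abbrev Gp (l : ℕ) : Type := SpecialLinearGroup (Fin 3) (Rg l)

instance finGp (l : ℕ) : Finite (Gp l) := Subtype.finite

noncomputable instance ftGp (l : ℕ) : Fintype (Gp l) := Fintype.ofFinite _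

theorem card_Gp (l : ℕ) : Fintype.card (Gp l) ≤ 2 ^ (8 * l + 9) := by
  have hu : ∀ v : Vec l, IsUnit (io l (Fin.cons 1 v)) := fun v => by
    have : io l (Fin.cons 1 v) = 1 + tt l * ∑ i, v i • tt l ^ (i : ℕ) := by
      rw [io, Fin.sum_univ_succ, mul_sum]
      simp [pow_succ']
    rw [this]
    exact (rg_nil _).isUnit_one_add
  let f : Gp l × Vec l → Matrix (Fin 3) (Fin 3) (Rg l) := fun x =>
    x.1.1 * diagonal ![io l (Fin.cons 1 x.2), 1, 1]
  have hd : ∀ x, (f x).det = io l (Fin.cons 1 x.2) := fun x => by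
    simp [f, det_mul, Fin.prod_univ_three]
  have hf : Function.Injective f := by
    rintro ⟨g, v⟩ ⟨g', v'⟩ h
    have h1 : v = v' := by
      have := hd (g, v)
      rw [h, hd] at this
      exact (Fin.cons_right_injective _ ((io_bij l).1 this)).symm
    subst h1
    have h2 : IsUnit (diagonal ![io l (Fin.cons 1 v), 1, 1]) := by
      rw [isUnit_iff_isUnit_det]
      simpa [Fin.prod_univ_three] using hu v
    exact Prod.ext (Subtype.ext (h2.mul_right_cancel h)) rfl
  have hc : Nat.card (Rg l) = 2 ^ (l + 1) := by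
    rw [← Nat.card_eq_of_bijective _ (io_bij l)]
    simp
  have h3 := Nat.card_le_card_of_injective f hf
  have h4 : Nat.card (Matrix (Fin 3) (Fin 3) (Rg l)) = 2 ^ (8 * l + 9) * 2 ^ l := by
    change Nat.card (Fin 3 → Fin 3 → Rg l) = _
    rw [Nat.card_fun, Nat.card_fun, hc, Nat.card_eq_fintype_card, Fintype.card_fin]
    ring
  rw [h4, Nat.card_prod, Nat.card_eq_fintype_card, Nat.card_eq_fintype_card (α := Vec l)] at h3
  simp only [Fintype.card_fun, ZMod.card, Fintype.card_fin] at h3
  exact Nat.le_of_mul_le_mul_right h3 (by positivity)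

/-- elementary matrices (the identity on the diagonal). -/
noncomputable def el (l : ℕ) (a b : Fin 3) (r : Rg l) : Gp l :=
  if h : a = b then 1 else ⟨transvection a b r, det_transvection_of_ne a b h r⟩

theorem el_coe {a b : Fin 3} (h : a ≠ b) (r : Rg l) :
    (el l a b r : Matrix (Fin 3) (Fin 3) (Rg l)) = transvection a b r :=
  congrArg Subtype.val (dif_neg h : el l a b r = _)

theorem el_add (a b : Fin 3) (r r' : Rg l) : el l a b (r + r') = el l a b r * el l a b r' := by
  by_cases h : a = b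
  · simp [el, h]
  · refine Matrix.SpecialLinearGroup.ext _ _ (Matrix.ext_iff.2 ?_)
    rw [Matrix.SpecialLinearGroup.coe_mul, el_coe h, el_coe h, el_coe h, transvection_mul_transvection_same _ _ h]

theorem el_zero (a b : Fin 3) : el l a b 0 = 1 := by
  by_cases h : a = b
  · simp [el, h]
  · exact Subtype.ext ((el_coe h 0).trans (transvection_zero _ _))

theorem el_sq (a b : Fin 3) (r : Rg l) : el l a b r * el l a b r = 1 := by
  rw [← el_add, add_self, el_zero]

theorem el_comm {a b c : Fin 3} (hab : a ≠ b) (hac : a ≠ c) (hbc : b ≠ c) (r r' : Rg l) :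
    el l a c r * el l c b r' * el l a c r * el l c b r' = el l a b (r * r') := by
  refine Matrix.SpecialLinearGroup.ext _ _ (Matrix.ext_iff.2 ?_)
  simp only [Matrix.SpecialLinearGroup.coe_mul]
  rw [el_coe hac, el_coe hbc.symm, el_coe hab, mul_assoc]
  have h1 : transvection a c r * transvection c b r' =
      1 + (single a c r + single c b r' + single a b (r * r')) := by
    simp only [transvection, mul_add, add_mul, one_mul, mul_one, single_mul_single_same]
    abel
  have h2 : ∀ M : Matrix (Fin 3) (Fin 3) (Rg l), M + M = 0 := fun M =>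
    Matrix.ext fun i j => add_self _
  have h3 : (single a c r + single c b r' + single a b (r * r')) *
      (single a c r + single c b r' + single a b (r * r')) = single a b (r * r') := by
    simp [mul_add, add_mul, single_mul_single_of_ne, hab.symm, hac.symm, hbc]
  have h4 : ∀ M : Matrix (Fin 3) (Fin 3) (Rg l), (1 + M) * (1 + M) = 1 + M * M + (M + M) :=
    fun M => by noncomm_ring
  rw [h1, h4, h2, h3, add_zero, transvection]

/-- the letter of the elementary matrix at `(a, b)` with entry `1` (`u = 0`) or `t` (`u = 1`). -/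
def ltE (a b : Fin 3) (u : ℕ) : ℕ :=
  2 * (2 * a + if (b : ℕ) < a then b else b - 1) + u

/-- the row of the letter `i`. -/
def rowL (i : ℕ) : Fin 3 := Fin.ofNat 3 (i / 4)

/-- the column of the letter `i`. -/
def colL (i : ℕ) : Fin 3 := Fin.ofNat 3 (if i / 2 % 2 < i / 4 then i / 2 % 2 else i / 2 % 2 + 1)

/-- the generators: twelve elementary matrices, then the identity. -/
noncomputable def gen (l i : ℕ) : Gp l :=
  if i < 12 then el l (rowL i) (colL i) (if i % 2 = 0 then 1 else tt l) else 1

theorem gen_sq (i : ℕ) : gen l i * gen l i = 1 := by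
  unfold gen
  split_ifs
  exacts [el_sq _ _ _, el_sq _ _ _, one_mul _]

theorem gen_ge {i : ℕ} (h : 12 ≤ i) : gen l i = 1 := if_neg (not_lt.2 h)

theorem ltE_lt {a b : Fin 3} (h : a ≠ b) {u : ℕ} (hu : u < 2) : ltE a b u < 12 := by
  revert a b
  interval_cases u <;> decide

theorem gen_ltE0 {a b : Fin 3} (h : a ≠ b) : gen l (ltE a b 0) = el l a b 1 := by
  fin_cases a <;> fin_cases b <;> first | exact absurd rfl h | rfl

theorem gen_ltE1 {a b : Fin 3} (h : a ≠ b) : gen l (ltE a b 1) = el l a b (tt l) := by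
  fin_cases a <;> fin_cases b <;> first | exact absurd rfl h | rfl

/-- the value of a word. -/
noncomputable def ev (l : ℕ) (w : List ℕ) : Gp l := (w.map (gen l)).prod

theorem pt_cmul {X : Type} [Enc X] {l a b : X → ℕ} (hl : PU l) (ha : PT a) (hb : PT b) :
    PT fun x => cmul (l x) (a x) (b x) := by
  refine (pt_ofBits (f := fun x j => ((List.range (min j (l x) + 1)).countP fun i =>
    (a x).testBit i && (b x).testBit (j - i)).bodd) (hl.add (PU.const 1))
    (pt_countP (f := fun (p : X × ℕ) i => (a p.1).testBit i && (b p.1).testBit (p.2 - i))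
      (by fun_prop) (((hl.comp PT.fst').of_le (pt_min PT.snd' (hl.pt.comp PT.fst'))
        fun _ => min_le_right _ _).add (PU.const 1)).range).bodd).congr fun x => ?_
  unfold cmul
  congr 1
  funext j
  rw [min_eq_left (Nat.le_of_lt_succ j.2)]

end SL

end Vale.Agent.P330O
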