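import Vale.Agent.P330Q.OInstB
import Vale.Agent.P330.Sim

/-! The simulation lemma (task OSim): port of `P330/SimPath.lean` (from `path` on) and `P330/Sim.lean`.
The data `SimD G.toInst` and the lemmas of `SimD.OK` are reused. The outer move is made at sublayer `0`:
the old node `(t, ξ, a)` depends on the new nodes `(ξ, path ..)` of the layers `t * 2 ^ lam + i`; sublayer `0`
reads `(mv (xo t j) ξ, ·)`. One padding `p` for all `ξ` is chosen by `argMin` with `QI.cnt`. Polynomial time: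
`pt_qi`, `pt_simInst`, `pt_lb`, `pt_trk`, `pt_mkAsgQ`, `pt_valQ`, `pt_cntQ`. -/

namespace Vale.Agent.P330O

open Vale.Agent.Lib.H23 Vale.Agent.P333 Vale.Agent.P325 Vale.Agent.P330 Vale.Agent.P330.Amp
open Finset Matrix
open scoped BigOperators

/-- the simulating instance. -/
def simI (G : QI 2) (D : SimD G.toInst) : QI 2 where
  toInst := D.inst
  o := G.o
  xo t j := if t % 2 ^ D.lam = 0 then G.xo (t / 2 ^ D.lam) j else 64
  lb ξ t c := if t % 2 ^ D.lam + 1 = 2 ^ D.lam then G.lb ξ (t / 2 ^ D.lam) (D.dn c)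
    else fun r => r (if D.trk c then 1 else 0)

namespace OS

variable {G : QI 2} {D : SimD G.toInst}

/-- the old assignment read off at the padding `p`. -/
def dec (D : SimD G.toInst) (y : ℕ → G.o.V × Addr D.b D.β 0 → Val) (p : Addr D.b D.β 0) (t : ℕ)
    (a : G.A) : Val :=
  y (t * 2 ^ D.lam + (2 ^ D.lam - 1)) (a.1, D.emb p a.2)

theorem sat_iff (y : ℕ → G.o.V × Addr D.b D.β 0 → Val) (t : ℕ) (ξ : G.o.V) (c : Addr D.b D.β 0) :
    (simI G D).sat y t (ξ, c) ↔ HF (fun i => rd (D.inst.win t i) (y (D.inst.prev t)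
      (G.o.mv (if t % 2 ^ D.lam = 0 then G.xo (t / 2 ^ D.lam) i else 64) ξ,
        act D.gens (D.inst.op t i) c)))
      (if t % 2 ^ D.lam + 1 = 2 ^ D.lam then G.lb ξ (t / 2 ^ D.lam) (D.dn c)
        else fun r => r (if D.trk c then 1 else 0)) (y t (ξ, c)) := Iff.rfl

variable (hD : D.OK)
include hD

theorem carry {y : ℕ → G.o.V × Addr D.b D.β 0 → Val} {t : ℕ} (ht : t < 2 ^ G.τ)
    {p : Addr D.b D.β 0} {a : G.A} {j : Fin 2}
    (hs : ∀ i < 2 ^ D.lam, (simI G D).sat y (t * 2 ^ D.lam + i) (a.1, D.path t j i (D.emb p a.2)))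
    {γ : Bool} (hγ : rd (G.win t j) (dec D y p (G.prev t) (G.nb t j a)) = some γ)
    {i : ℕ} (hi : i + 1 < 2 ^ D.lam) :
    y (t * 2 ^ D.lam + i) (a.1, D.path t j i (D.emb p a.2)) = pv γ := by
  have hlab : ∀ i, (if D.trk (D.path t j i (D.emb p a.2)) then 1 else 0 : Fin 2) = j := by
    intro i
    rw [SimD.path, hD.trk_drop (nop_inR G.toInst t j), hD.trk_sw (hD.trk_emb p a.2)]
  induction i with
  | zero =>
    have h := (sat_iff _ _ _ _).1 (hs 0 (by omega))
    rw [hlab, SimD.time_mod t (by omega), if_neg (show ¬ (0 + 1 = 2 ^ D.lam) by omega)] at h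
    refine h.copy ?_
    rw [SimD.prev_first ht, ← hγ]
    simp only [SimD.inst]
    rw [SimD.time_mod t (by omega), SimD.time_div t (by omega), if_pos rfl, if_pos trivial,
      if_pos (Or.inl rfl), SimD.path, List.drop_zero, hD.sw_word (nop_inR G.toInst t j), act_nop]
    rfl
  | succ i ih =>
    have h := (sat_iff _ _ _ _).1 (hs (i + 1) (by omega))
    rw [hlab, SimD.time_mod t (by omega), if_neg (show ¬ (i + 1 + 1 = 2 ^ D.lam) by omega)] at h
    refine h.copy ?_
    rw [SimD.prev_mid ht (by omega)]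
    simp only [SimD.inst]
    rw [SimD.time_mod t (by omega), SimD.time_div t (by omega), if_neg (by omega),
      if_neg (by omega), if_neg (by omega), Outer.mv_of_ge le_rfl, Nat.add_sub_cancel,
      SimD.act_path, ih (by omega), rd_pv]

theorem sat_dec {y : ℕ → G.o.V × Addr D.b D.β 0 → Val} {t : ℕ} (ht : t < 2 ^ G.τ)
    {p : Addr D.b D.β 0} {a : G.A} (hs : ∀ j, ∀ i < 2 ^ D.lam,
      (simI G D).sat y (t * 2 ^ D.lam + i) (a.1, D.path t j i (D.emb p a.2))) :
    G.sat (dec D y p) t a := by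
  obtain ⟨m, hm⟩ : ∃ m, 2 ^ D.lam = m + 2 := ⟨2 ^ D.lam - 2, by have := hD.two_le; omega⟩
  have hp : ∀ j i, m ≤ i → D.path t j i (D.emb p a.2) = act D.gens (D.sw j) (D.emb p a.2) := by
    intro j i hi
    have := hD.len _ (nop_inR G.toInst t j)
    rw [SimD.path, List.drop_of_length_le (by omega), actW_nil]
  have h := (sat_iff _ _ _ _).1 (hs 0 (m + 1) (by omega))
  rw [hp 0 _ (by omega), SimD.sw, if_pos rfl, act_zero, SimD.prev_mid ht (by omega)] at h
  simp only [SimD.inst] at h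
  rw [SimD.time_mod t (by omega), SimD.time_div t (by omega),
    if_pos (show m + 1 + 1 = 2 ^ D.lam by omega), hD.dn_emb] at h
  have e : dec D y p t a = y (t * 2 ^ D.lam + (m + 1)) (a.1, D.emb p a.2) := by
    unfold dec; congr 2; omega
  unfold QI.sat
  rw [e]
  refine h.mono fun j γ hγ => ?_
  rw [if_neg (by omega), if_neg (by omega), Outer.mv_of_ge le_rfl, if_pos (Or.inr (by omega)),
    ← hp j m le_rfl, carry hD ht (hs j) hγ (by omega), rd_pv]

theorem expect_viol (y : ℕ → G.o.V × Addr D.b D.β 0 → Val) :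
    (𝔼 p, G.viol (dec D y p)) ≤ 4 * 2 ^ D.lam * (simI G D).viol y := by
  set U : G.o.V → ℕ → ℝ := fun ξ t =>
    𝔼 c : Addr D.b D.β 0, ind (¬ (simI G D).sat y t (ξ, c)) with hU
  have h1 : ∀ t < 2 ^ G.τ, ∀ ξ, (𝔼 p, 𝔼 a, ind (¬ G.sat (dec D y p) t (ξ, a))) ≤
      4 * ∑ i ∈ range (2 ^ D.lam), U ξ (t * 2 ^ D.lam + i) := by
    intro t ht ξ
    set F : Addr D.b D.β 0 → ℝ := fun e => ∑ j, ∑ i ∈ range (2 ^ D.lam),
      ind (¬ (simI G D).sat y (t * 2 ^ D.lam + i) (ξ, D.path t j i e)) with hF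
    have hF0 : ∀ e, 0 ≤ F e := fun e => sum_nonneg fun _ _ => sum_nonneg fun _ _ => ind_nonneg _
    have h2 : (𝔼 e, F e) = 2 * ∑ i ∈ range (2 ^ D.lam), U ξ (t * 2 ^ D.lam + i) := by
      have h3 : ∀ j i, (𝔼 e, ind (¬ (simI G D).sat y (t * 2 ^ D.lam + i) (ξ, D.path t j i e))) =
          U ξ (t * 2 ^ D.lam + i) := fun j i =>
        (expect_act D.gens (D.sw j) fun c => ind (¬ (simI G D).sat y (t * 2 ^ D.lam + i)
          (ξ, actW D.gens ((D.wd (G.nop t j)).drop i) c))).trans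
          (expect_actW D.gens _ fun c => ind (¬ (simI G D).sat y (t * 2 ^ D.lam + i) (ξ, c)))
      simp only [hF, expect_sum_comm, h3]
      simp
    calc _ ≤ 𝔼 p, 𝔼 a, F (D.emb p a) := by
          refine expect_le_expect fun p _ => expect_le_expect fun a _ => ?_
          by_cases h : G.sat (dec D y p) t (ξ, a)
          · rw [ind_of_not (not_not.mpr h)]; exact hF0 _
          · rw [ind_of h]
            by_contra hc
            refine h (sat_dec hD ht fun j i hi => ?_)
            by_contra hn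
            refine hc (le_trans ?_ (single_le_sum (f := fun j => ∑ i ∈ range (2 ^ D.lam),
              ind (¬ (simI G D).sat y (t * 2 ^ D.lam + i) (ξ, D.path t j i (D.emb p a))))
              (fun _ _ => sum_nonneg fun _ _ => ind_nonneg _) (mem_univ j)))
            rw [← ind_of hn]
            exact single_le_sum (f := fun i =>
              ind (¬ (simI G D).sat y (t * 2 ^ D.lam + i) (ξ, D.path t j i (D.emb p a))))
              (fun _ _ => ind_nonneg _) (mem_range.mpr hi)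
      _ ≤ _ := by linarith [hD.expect_emb F hF0]
  set V : ℕ → ℝ := fun t => 𝔼 ξ, U ξ t with hV
  have h4 : (simI G D).viol y = 𝔼 t : Fin (2 ^ G.τ * 2 ^ D.lam), V t := by
    rw [expect_range _ V, ← pow_add, ← expect_range _ V]
    exact expect_congr rfl fun t _ => (simI G D).expect_pair _
  rw [h4]
  unfold QI.viol
  rw [expect_comm]
  calc _ ≤ 𝔼 t : Fin (2 ^ G.τ), 4 * ∑ i ∈ range (2 ^ D.lam), V (t * 2 ^ D.lam + i) := by
        refine expect_le_expect fun t _ => ?_
        simp only [G.expect_pair]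
        rw [expect_comm, hV]
        simp only [← expect_sum_comm, mul_expect]
        exact expect_le_expect fun ξ _ => h1 t t.2 ξ
    _ = _ := by
        rw [← mul_expect, expect_layers _ _ V (by positivity)]
        push_cast
        ring

omit hD in
theorem pt_simI {X : Type} [Enc X] {src : X → QI 2} {D : (x : X) → SimD (src x).toInst}
    (hD : ∀ x, (D x).OK) (hs : PT src) (hb : PU fun x => (D x).b) (hβ : PU fun x => (D x).β)
    (hL : PU fun x => 2 ^ (D x).lam) (hA : PU fun x => 2 ^ ((D x).b * (D x).β))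
    (hh : PT fun x => (D x).h) (hg : PT fun x => (D x).inst.gtab)
    (hw : PT fun p : X × Op => (D p.1).wd p.2)
    (hdn : PT fun p : X × ℕ => idx ((D p.1).dn (unidx _ _ _ p.2))) :
    PT fun x => simI (src x) (D x) := by
  have hdiv : ∀ x t, t < 2 ^ (simI (src x) (D x)).τ → t / 2 ^ (D x).lam < 2 ^ (src x).τ :=
    fun x t h => Nat.div_lt_of_lt_mul (by rw [mul_comm, ← pow_add]; exact h)
  refine pt_qi (pt_simInst hD (pt_toInst hs) hb hβ hL hA hh hg hw hdn) (pt_o (G := src) hs)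
    (fun j => ?_) ?_
  · have hx : PT fun p : {p : X × ℕ // p.2 < 2 ^ (simI (src p.1) (D p.1)).τ} => p.1.1 :=
      (pt_val PT.id).fst
    have ht : PT fun p : {p : X × ℕ // p.2 < 2 ^ (simI (src p.1) (D p.1)).τ} => p.1.2 :=
      (pt_val PT.id).snd
    have hl := hL.pt.comp hx
    refine (pt_ite (pt_decEq (pt_mod ht hl) (PT.const 0))
      (pt_xo (hs.comp hx) (PT.div ht hl) (fun p => hdiv _ _ p.2) j) (PT.const 64)).congr
      fun p => ?_
    simp only [simI]
    split_ifs <;> rfl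
  · have hp : PT fun p : {p : X × ℕ × ℕ × ℕ // p.2.1 < 2 ^ (simI (src p.1) (D p.1)).τ ∧
        p.2.2.2 < (simI (src p.1) (D p.1)).n0} => p.1 := pt_val PT.id
    have hx := hp.fst
    have ht := hp.snd.fst
    have hm := hp.snd.snd.snd
    have hl := hL.pt.comp hx
    refine (pt_ite (pt_decEq (PT.add (pt_mod ht hl) (PT.const 1)) hl)
      (pt_lb (a := fun p => ((src p.1.1).o.vx p.1.2.2.1, (D p.1.1).dn (unidx _ _ _ p.1.2.2.2)))
        (hs.comp hx) (PT.div ht hl) (fun p => hdiv _ _ p.2.1)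
        (pt_vx (pt_o (hs.comp hx)) hp.snd.snd.fst) (hdn.comp (PT.pair hx hm)))
      (pt_mk (fun (β : Bool) (r : Fin 2 → Bool) => r (if β then 1 else 0))
        (pt_codeBool (pt_trk hβ hh hD hx hm)))).congr fun p => ?_
    simp only [simI, SimD.inst]
    split_ifs <;> rfl

end OS

theorem sim {X : Type} [Enc X] {src : X → QI 2} (D : (x : X) → SimD (src x).toInst)
    (hD : ∀ x, (D x).OK) (hs : PT src) (hb : PU fun x => (D x).b) (hβ : PU fun x => (D x).β)
    (hL : PU fun x => 2 ^ (D x).lam) (hA : PU fun x => 2 ^ ((D x).b * (D x).β))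
    (hh : PT fun x => (D x).h) (hg : PT fun x => (D x).inst.gtab)
    (hw : PT fun p : X × Op => (D p.1).wd p.2)
    (hup : PT fun p : X × ℕ => idx ((D p.1).up (unidx _ _ _ p.2)))
    (hdn : PT fun p : X × ℕ => idx ((D p.1).dn (unidx _ _ _ p.2))) :
    Red src (fun x => simI (src x) (D x)) fun x v' v => v ≤ 4 * 2 ^ (D x).lam * v' := by
  have hR := OS.pt_simI hD hs hb hβ hL hA hh hg hw hdn
  have hI := pt_simInst hD (pt_toInst hs) hb hβ hL hA hh hg hw hdn
  let cand : (X × Asg) × ℕ → Asg := fun z => (src z.1.1).mkAsg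
    (OS.dec (D z.1.1) ((simI (src z.1.1) (D z.1.1)).val z.1.2) (unidx _ _ _ z.2))
  have hc : PT cand := by
    refine pt_mkAsgQ (G := fun z : (X × Asg) × ℕ => src z.1.1) (hs.comp PT.fst'.fst) ?_
    have hp : PT fun p : {p : ((X × Asg) × ℕ) × ℕ × ℕ × ℕ //
        p.2.1 < 2 ^ (src p.1.1.1).τ ∧ p.2.2.2 < (src p.1.1.1).n0} => p.1 := pt_val PT.id
    have hx := hp.fst.fst.fst
    have hq := hp.fst.snd
    have hl := hL.pt.comp hx
    have he : PT fun p : {p : ((X × Asg) × ℕ) × ℕ × ℕ × ℕ //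
        p.2.1 < 2 ^ (src p.1.1.1).τ ∧ p.2.2.2 < (src p.1.1.1).n0} =>
        idx ((D p.1.1.1.1).emb (unidx _ _ _ p.1.1.2) (unidx _ _ _ p.1.2.2.2)) := by
      refine (pt_xor (pt_ite (p := fun p : {p : ((X × Asg) × ℕ) × ℕ × ℕ × ℕ //
          p.2.1 < 2 ^ (src p.1.1.1).τ ∧ p.2.2.2 < (src p.1.1.1).n0} =>
          (D p.1.1.1.1).trk (unidx _ _ _ p.1.1.2) = true)
        ((pt_trk hβ hh hD hx hq).congr fun _ => by simp)
        (pt_actN (hI.comp hx) (pt_opN (hh.comp hx)) hq) (pt_actN (hI.comp hx) (PT.const (.Tr 0)) hq))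
        (hup.comp (PT.pair hx (pt_xor hp.snd.snd.snd (hdn.comp (PT.pair hx hq)))))).congr
        fun p => ?_
      unfold SimD.emb Inst.actN
      rw [idx_add, act_zero]
      congr 1
      · split_ifs <;> rfl
      · dsimp only
        conv_rhs => rw [← idx_unidx p.2.2, ← idx_add, unidx_idx]
    exact pt_valQ (a := fun p => ((src p.1.1.1.1).o.vx p.1.2.2.1,
      (D p.1.1.1.1).emb (unidx _ _ _ p.1.1.2) (unidx _ _ _ p.1.2.2.2))) (hR.comp hx)
      hp.fst.fst.snd (PT.add (PT.mul hp.snd.fst hl) (PT.sub hl (PT.const 1)))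
      (pt_vx (pt_o (hs.comp hx)) hp.snd.snd.fst) he
  refine ⟨hR, fun z => cand (z, argMin (D z.1).inst.nA fun p => (src z.1).cnt (cand (z, p))),
    hc.comp (PT.pair PT.id (pt_argMin (pu_nA (hI.comp PT.fst'))
      (pt_cntQ (hs.comp PT.fst'.fst) hc))), fun x s => ?_⟩
  refine le_trans ?_ (OS.expect_viol (hD x) ((simI (src x) (D x)).val s))
  rw [expect_addr]
  refine le_expect univ_nonempty fun m _ => ?_
  rw [← QI.violA_mkAsg, QI.violA_eq, QI.violA_eq]
  gcongr
  exact argMin_le (fun p => (src x).cnt (cand ((x, s), p))) m.2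

end Vale.Agent.P330O
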