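import Vale.Agent.P330.InstPT

/-! The quasi-linear form: the final statement and the two halves of the proof
(see notes/P330Q.md). -/

namespace Vale.Agent.P330Q

open Vale.Agent.Lib.H23 Vale.Agent.P330 Vale.Agent.P330.Amp Turing

/-- the final statement -/
def ResultQ : Prop :=
  ∃ (ε δ : ℚ) (p : Polynomial ℕ) (c : ℕ) (R : EOL → GCircuit) (D : EOL × List ℚ → List Bool)
    (MR : TM2ComputableInPolyTime codeEOL codeGC R)
    (MD : TM2ComputableInPolyTime (bPair codeEOL (bList bRat)) (bList bBool) D),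
    0 < ε ∧ ε < 1 ∧ 0 < δ ∧ δ < 1 ∧ (∀ j, Finite (MR.tm.Γ j)) ∧ (∀ j, Finite (MD.tm.Γ j)) ∧
    ∀ I : EOL, I.Valid → (R I).Valid ∧
      (codeGC (R I)).length ≤ c * (codeEOL I).length * Nat.log 2 (codeEOL I).length ^ c ∧
      (∃ x, (R I).Acceptable ε δ p x) ∧ ∀ x, (R I).Acceptable ε δ p x → I.Sol (D (I, x))

/-- half (a): quasi-linear size, inverse polylogarithmic gap -/
def HardQ : Prop :=
  ∃ (C : ℕ) (R : EOL → Inst 2) (D : EOL × Asg → List Bool), PT R ∧ PT D ∧ ∀ I : EOL,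
    (R I).b = 0 ∧ 2 ^ (R I).σ ≤ sz I * ((sz I).size + 2) ^ C ∧ 2 ^ (R I).τ ≤ ((sz I).size + 2) ^ C ∧
      (I.Valid → ∀ s, (R I).violA s * (((sz I).size + 2) ^ C : ℕ) ≤ 1 → I.Sol (D (I, s)))

abbrev AmpIn : Type := {p : Inst 2 × List Unit // p.1.b = 0}

/-- half (b): constant gap at the price of a factor polynomial in the number of address bits,
the number of layers and the inverse of the old gap -/
def AmpQ : Prop :=
  ∃ (d C : ℕ) (R : AmpIn → PC) (D : AmpIn × List ℕ → Asg), 0 < d ∧ PT R ∧ PT D ∧ ∀ x : AmpIn,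
    (R x).WF ∧ (R x).length ≤ 2 ^ x.1.1.σ * (x.1.1.σ + 2 ^ x.1.1.τ + x.1.2.length + 2) ^ C ∧
      ∀ s, d * (R x).bad s ≤ (R x).length → x.1.1.violA (D (x, s)) * x.1.2.length ≤ 1

end Vale.Agent.P330Q
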