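import Vale.Agent.P330Q.OInstB
import Vale.Agent.P330Q.Top

/-! Half (b) from its parts (task OTop); compare `P330/AmpTop.lean`. For the input `(G, u)` let `F σ` be the outer data
(padding `replicate nA ()`), `R1 = Emb (G, F σ)`, `u' = replicate (E * (σ + 1) ^ E * length u) ()`, `R2 = Iter (R1, u')`,
`R = Out R2`; `d` with `c / d ≤ γ`. Length: `c * 2 ^ τ * (m + 1) * n0 ≤ c * C * 2 ^ σ * (4 * E (σ + 1) ^ E 2 ^ τ + length u' + 2) ^ C'`
(`R1.n0 = 4`), use `eval_le_pow` in `N = σ + 2 ^ τ + length u`. -/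

namespace Vale.Agent.P330O

open Vale.Agent.Lib.H23 Vale.Agent.P333 Vale.Agent.P325 Vale.Agent.P330 Vale.Agent.P330.Amp
open Finset Matrix
open scoped BigOperators

/-- unary padding -/
def otPad (n : ℕ) : List Unit := (List.range n).map fun _ => ()

theorem ot_len (n : ℕ) : (otPad n).length = n := by simp [otPad]

theorem ot_pt {X : Type} [Enc X] {f : X → ℕ} (h : PU f) : PT fun x => otPad (f x) :=
  PT.map (f := fun _ _ => ()) (PT.const ()) h.range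

theorem ot_size (c C E K : ℕ) : ∃ k : ℕ, ∀ σ T u a b m n : ℕ, a ≤ E * (σ + 1) ^ E * T →
    b ≤ (a * 4 + E * (σ + 1) ^ E * u + 2) ^ K → m ≤ C * n →
    c * (m * b) ≤ n * (σ + T + u + 2) ^ k := by
  obtain ⟨k, hk⟩ := eval_le_pow (Polynomial.C (c * C) *
    (Polynomial.C E * (Polynomial.X + 1) ^ E * Polynomial.X * 4 +
      Polynomial.C E * (Polynomial.X + 1) ^ E * Polynomial.X + 2) ^ K)
  refine ⟨k, fun σ T u a b m n ha hb hm => ?_⟩
  have h1 := hk (σ + T + u)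
  simp only [Polynomial.eval_add, Polynomial.eval_mul, Polynomial.eval_X, Polynomial.eval_C,
    Polynomial.eval_ofNat, Polynomial.eval_one, Polynomial.eval_pow] at h1
  have h2 : E * (σ + 1) ^ E ≤ E * (σ + T + u + 1) ^ E :=
    Nat.mul_le_mul_left _ (Nat.pow_le_pow_left (by omega) _)
  have h3 : a ≤ E * (σ + T + u + 1) ^ E * (σ + T + u) := ha.trans (Nat.mul_le_mul h2 (by omega))
  have h4 : E * (σ + 1) ^ E * u ≤ E * (σ + T + u + 1) ^ E * (σ + T + u) :=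
    Nat.mul_le_mul h2 (by omega)
  have h5 := hb.trans (Nat.pow_le_pow_left
    (Nat.add_le_add_right (Nat.add_le_add (Nat.mul_le_mul_right 4 h3) h4) 2) K)
  calc c * (m * b) ≤ c * (C * n * b) := Nat.mul_le_mul_left _ (Nat.mul_le_mul_right _ hm)
    _ = n * (c * C * b) := by ring
    _ ≤ _ := Nat.mul_le_mul_left _ ((Nat.mul_le_mul_left _ h5).trans h1)

theorem ampQ (hO : OuterStmt) (hE : ∀ g C, EmbStmt g C) (hI : ∀ g, 1 ≤ g → IterQ g) (hU : OutQ) :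
    Vale.Agent.P330Q.AmpQ := by
  obtain ⟨g, C, F, hg, hF, h0⟩ := hO
  obtain ⟨E, R1, D1, hR1, hD1, h1⟩ := hE g C
  obtain ⟨γ, K, R2, hγ, h2, hR2, D2, hD2, h2'⟩ := hI g hg
  obtain ⟨c, R3, D3, hR3, hD3, h3⟩ := hU
  obtain ⟨k, hk⟩ := ot_size c C E K
  obtain ⟨d, hd⟩ := exists_nat_gt ((c : ℝ) / γ)
  have hd0 : (0 : ℝ) < d := lt_of_le_of_lt (by positivity) hd
  have hv : PT fun x : P330Q.AmpIn => x.1 := pt_val PT.id
  let j0 : P330Q.AmpIn → KIn := fun x => ⟨(x.1.1.σ, otPad x.1.1.nA), by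
    rw [ot_len]
    exact Nat.pow_le_pow_right two_pos (Nat.le_add_right _ _)⟩
  have hj0 : PT j0 := pt_sub ((pu_σ hv.fst).pt.pair (ot_pt (pu_nA hv.fst))) _
  let j1 : P330Q.AmpIn → EmbIn g C := fun x => ⟨(x.1.1, F x.1.1.σ), x.2, h0 _⟩
  have hj1 : PT j1 := pt_sub (hv.fst.pair (hF.comp hj0)) _
  let j2 : P330Q.AmpIn → IniIn g := fun x =>
    ⟨(R1 (j1 x), otPad (E * (x.1.1.σ + 1) ^ E * x.1.2.length)), (h1 _).2.1,
      (h1 (j1 x)).1 ▸ (h0 _).1, (h1 _).2.2.2.1⟩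
  have hj2 : PT j2 := pt_sub ((hR1.comp hj1).pair (ot_pt (((PU.const E).mul
    (((pu_σ hv.fst).add (PU.const 1)).pow E)).mul (PU.len hv.snd)))) _
  refine ⟨d, k, fun x => R3 (R2 (j2 x)),
    fun p => D1 (j1 p.1, D2 (j2 p.1, D3 (R2 (j2 p.1), p.2))), Nat.cast_pos.1 hd0,
    hR3.comp (hR2.comp hj2), ?_, fun x => ⟨(h3 _).1, ?_, fun s hs => ?_⟩⟩
  · exact hD1.comp ((hj1.comp PT.fst').pair (hD2.comp ((hj2.comp PT.fst').pair
      (hD3.comp ((hR2.comp (hj2.comp PT.fst')).pair PT.snd')))))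
  · refine (h3 _).2.1.trans ?_
    rw [QI.nA, mul_left_comm (2 ^ _)]
    refine hk _ _ _ (2 ^ (R1 (j1 x)).τ) _ _ _ (h1 (j1 x)).2.2.2.2.1 ?_ ?_
    · have e : (R1 (j1 x)).n0 = 4 := by
        change 2 ^ ((R1 (j1 x)).σ + (R1 (j1 x)).b * _) = 4
        rw [(h1 _).2.1, (h1 _).2.2.1, zero_mul]
        rfl
      have h4 := (h2 (j2 x)).2
      change _ ≤ (2 ^ (R1 (j1 x)).τ * (R1 (j1 x)).n0 + (otPad _).length + 2) ^ K at h4
      rwa [e, ot_len] at h4
    · rw [(h2 _).1]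
      change (R1 (j1 x)).o.m + 1 ≤ _
      rw [(h1 _).1]
      exact (h0 _).2.size
  · have hl : (0 : ℝ) < (R3 (R2 (j2 x))).length :=
      Nat.cast_pos.2 (List.length_pos_iff.2 (h3 _).1.1)
    have h5 := (h3 (R2 (j2 x))).2.2 s
    have h6 : (d : ℝ) * (R3 (R2 (j2 x))).bad s ≤ (R3 (R2 (j2 x))).length := by exact_mod_cast hs
    have h7 : (R2 (j2 x)).violA (D3 (R2 (j2 x), s)) * d ≤ c := by
      refine le_of_mul_le_mul_right ?_ hl
      have h8 := mul_le_mul_of_nonneg_left h6 (Nat.cast_nonneg (α := ℝ) c)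
      have h9 := mul_le_mul_of_nonneg_left h5 hd0.le
      nlinarith
    have h8 := h2' (j2 x) (D3 (R2 (j2 x), s)) (by
      rw [div_lt_iff₀ hγ] at hd
      refine le_of_mul_le_mul_right ?_ hd0
      linarith [mul_comm γ d])
    have h9 := (h1 (j1 x)).2.2.2.2.2 (D2 (j2 x, D3 (R2 (j2 x), s)))
    change (R1 (j1 x)).violA _ * ((otPad _).length : ℝ) ≤ 1 at h8
    rw [ot_len] at h8
    push_cast at h8
    refine (mul_le_mul_of_nonneg_right h9 (Nat.cast_nonneg _)).trans (le_trans (le_of_eq ?_) h8)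
    change (E : ℝ) * ((x.1.1.σ : ℝ) + 1) ^ E * _ * _ = _
    ring

end Vale.Agent.P330O
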