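import Vale.Agent.P330Q.OProg

/-! The action of the words of moves on pairs, the program of a round, the coefficients
(task OWords).
Plan. `pullB (acQ ..) orc z ms x = (pullB (fun o => O.mv (xoOf b o)) orc z ms x.1, pullB (actB ..) orc z ms
x.2)` (induction). The old words `L.move1 b`, `L.move2 b` only use `N l` with `l < b + 2`
(`gam`, `piW`, `addL`), so `xoOf = 64` and they fix the outer coordinate; their conditions have the same
value under `orc0` and the old `orc0` (they are `eq` or `orc (ocode o + 5)`; `cd` and `ocode + 5` differ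
by `natL_injective`, the first entry of `Op.data` is at most 2). The words `oW (b + 2) k i` fix the
blocks (`addBlk_of_ge`), and by `pull_one` act on the outer coordinate as the unique move `l` with
`cd k i l ∈ newT` (the identity if there is none below 64; `cd` is injective). With `t = tm z`,
`π = mv (xo t gi)`, `B = wd (ow t aA)`, `B' = wd (ow (pr t) aE).reverse` (`pr t % 2 = (t + 1) % 2` since
`1 ≤ τ`): if `π` is on the side of `t` then the outer part is `π B B' B⁻¹ = B' π`, otherwise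
`B B' π B⁻¹ = B' π` (`Good.wd_comm`, `Good.mv_wd`, `mem_ltr`, `mv_min`). The blocks: the old
`Amp.pull_move12` (with `add_assoc`, `big_add_self`). `prog_ok`, `length_prog`: compare with the old program
(`Lo.prog_ok`, `Amp.length_prog`; `mov` is always ok; `(oW ..).length = 64`); `pt_prog`: copy
`Amp.pt_prog` of `P330/ProgPT.lean` (`pp_mv`, `pt_natL`); `cfx_poly`, `cfx_spl`: copy from
`P330/Coef.lean`. -/

namespace Vale.Agent.P330O

open Vale.Agent.Lib.H23 Vale.Agent.P333 Vale.Agent.P325 Vale.Agent.P330 Vale.Agent.P330.Amp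
open Finset Matrix
open scoped BigOperators

variable {G : QI 2} {L : Lo}

section aux

variable {σ : ℕ} {B : Type} {orc orc' : ℕ → Vec σ → Bool}

theorem ow_pair {b β : ℕ} (O : Outer) (g : Fin 7 → Mat β) (z : Vec σ) (ms : List Amp.Mv)
    (x : O.V × Big b β) : pullB (acQ O g) orc z ms x =
      (pullB (fun o => O.mv (xoOf b o)) orc z ms x.1, pullB (actB g) orc z ms x.2) := by
  induction ms with
  | nil => rfl
  | cons m ms ih =>
    rw [pullB_cons, pullB_cons, pullB_cons, ih]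
    split_ifs <;> rfl

theorem ow_fix {ac : Op → B → B} (z : Vec σ) {ms : List Amp.Mv}
    (h : ∀ m ∈ ms, ∀ x, m.2.ev orc z = true → ac m.1 x = x) (x : B) : pullB ac orc z ms x = x := by
  induction ms with
  | nil => rfl
  | cons m ms ih =>
    rw [pullB_cons, ih fun m hm => h m (List.mem_cons_of_mem _ hm)]
    split_ifs with c
    · exact h m List.mem_cons_self x c
    · rfl

theorem ow_orc (ac : Op → B → B) (z : Vec σ) {ms : List Amp.Mv}
    (h : ∀ m ∈ ms, m.2.ev orc z = m.2.ev orc' z) (x : B) :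
    pullB ac orc z ms x = pullB ac orc' z ms x := by
  induction ms with
  | nil => rfl
  | cons m ms ih =>
    rw [pullB_cons, pullB_cons, ih fun m hm => h m (List.mem_cons_of_mem _ hm),
      h m List.mem_cons_self]

theorem ow_cd_inj {k i l k' i' l' : ℕ} : cd k i l = cd k' i' l' ↔ k = k' ∧ i = i' ∧ l = l' := by
  simp [cd, natL_injective.eq_iff]

theorem ow_cd_ne (o : Op) (k i l : ℕ) : ocode o + 5 ≠ cd k i l := by
  intro h
  have h' := natL_injective (Nat.add_right_cancel h)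
  cases o <;> simp only [Op.data, List.cons.injEq] at h' <;> omega

theorem ow_mem {b k i : ℕ} {m : Amp.Mv} (h : m ∈ oW b k i) : ∃ l, m = (.N (b + l), .orc (cd k i l)) := by
  obtain ⟨l, -, rfl⟩ := List.mem_map.1 h
  exact ⟨l, rfl⟩

/-- moves of the old words. -/
def OwOld (b : ℕ) (m : Amp.Mv) : Prop := xoOf (b + 2) m.1 = 64 ∧ ∀ k i l, m.2 ≠ .orc (cd k i l)

theorem ow_gam (b : ℕ) (ks : List ℕ) : ∀ m ∈ gam b ks, OwOld b m := by
  simp only [gam, List.mem_flatMap, List.mem_map]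
  rintro _ ⟨p, -, s, -, rfl⟩
  refine ⟨?_, fun _ _ _ h => by cases h⟩
  unfold stepOp
  split_ifs
  · rfl
  · rfl
  · exact if_neg (by omega)
  · exact if_neg (by omega)
  · rfl

theorem ow_piW (b : ℕ) : ∀ m ∈ piW b, OwOld b m := by
  simp only [piW, List.mem_map]
  rintro _ ⟨o, ho, rfl⟩
  refine ⟨?_, fun _ _ _ h => ow_cd_ne _ _ _ _ (Cond.orc.inj h)⟩
  simp only [allOps, List.mem_append, List.mem_flatMap, List.mem_map, List.mem_range] at ho
  rcases ho with ⟨l, -, l', -, ρ, -, rfl⟩ | ⟨l, hl, rfl⟩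
  · rfl
  · exact if_neg (by omega)

theorem ow_dW (b l h : ℕ) : ∀ m ∈ dW l h, OwOld b m := by
  simp [dW, Cond.tt, OwOld, xoOf]

theorem ow_addL (b : ℕ) (q : ℕ → ℕ) (n : ℕ) : ∀ m ∈ addL b q n, OwOld b m := by
  simp only [addL, addMul, List.mem_flatMap, List.mem_append, List.mem_cons, List.mem_reverse]
  rintro m ⟨l, -, ⟨s, -, rfl | h⟩ | ⟨s, -, h⟩⟩
  · exact ⟨rfl, fun _ _ _ h => by cases h⟩
  · exact ow_dW _ _ _ m h
  · exact ow_dW _ _ _ m h

theorem ow_move1 (L : Lo) (b : ℕ) : ∀ m ∈ L.move1 b, OwOld b m := by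
  intro m hm
  simp only [Lo.move1, List.mem_append] at hm
  rcases hm with (h | h) | h
  exacts [ow_gam _ _ m h, ow_piW _ m h, ow_addL _ _ _ m h]

theorem ow_move2 (L : Lo) (b : ℕ) : ∀ m ∈ L.move2 b, OwOld b m := by
  intro m hm
  simp only [Lo.move2, List.mem_append, List.mem_reverse] at hm
  rcases hm with (((h | h) | h) | h) | h
  exacts [ow_piW _ m h, ow_gam _ _ m h, ow_addL _ _ _ m h, ow_gam _ _ m h, ow_piW _ m h]

theorem ow_new1 {L : Lo} {b : ℕ} {m : Amp.Mv} (h : m ∈ move1 L b) :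
    m ∈ L.move1 b ∨ ∃ k i l, (k = 0 ∨ k = 2) ∧ m = (.N (b + 2 + l), .orc (cd k i l)) := by
  simp only [move1, List.mem_append, List.mem_flatMap] at h
  rcases h with h | h | ⟨i, -, h⟩
  · exact .inl h
  · obtain ⟨l, e⟩ := ow_mem h
    exact .inr ⟨2, 0, l, .inr rfl, e⟩
  · obtain ⟨l, e⟩ := ow_mem h
    exact .inr ⟨0, i, l, .inl rfl, e⟩

theorem ow_new2 {L : Lo} {b : ℕ} {m : Amp.Mv} (h : m ∈ move2 L b) :
    m ∈ L.move2 b ∨ ∃ k i l, (k = 1 ∨ k = 3) ∧ m = (.N (b + 2 + l), .orc (cd k i l)) := by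
  simp only [move2, List.mem_append, List.mem_flatMap] at h
  rcases h with h | ⟨i, -, h⟩ | h
  · exact .inl h
  · obtain ⟨l, e⟩ := ow_mem h
    exact .inr ⟨1, i, l, .inl rfl, e⟩
  · obtain ⟨l, e⟩ := ow_mem h
    exact .inr ⟨3, 0, l, .inr rfl, e⟩

theorem ow_out_old (O : Outer) (z : Vec σ) {b : ℕ} {ms : List Amp.Mv} (h : ∀ m ∈ ms, OwOld b m)
    (ξ : O.V) : pullB (fun o => O.mv (xoOf (b + 2) o)) orc z ms ξ = ξ :=
  ow_fix z (fun m hm x _ => by rw [(h m hm).1]; exact Outer.mv_of_ge le_rfl x) ξ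

theorem ow_out_one (O : Outer) (z : Vec σ) {b k i l0 : ℕ}
    (h : ∀ l, orc (cd k i l) z = true ↔ l0 = l) (ξ : O.V) :
    pullB (fun o => O.mv (xoOf b o)) orc z (oW b k i) ξ = O.mv l0 ξ := by
  rw [oW, pull_one (fun o => O.mv (xoOf b o)) z (fun l => (.N (b + l), .orc (cd k i l))) l0 _
    List.nodup_range h]
  split_ifs with c
  · simp only [xoOf, Nat.le_add_right, if_true, Nat.add_sub_cancel_left]
  · rw [List.mem_range, not_lt] at c
    exact (Outer.mv_of_ge c ξ).symm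

theorem ow_out_off (O : Outer) (z : Vec σ) {b k i : ℕ} (h : ∀ l, ¬ orc (cd k i l) z = true)
    (ξ : O.V) : pullB (fun o => O.mv (xoOf b o)) orc z (oW b k i) ξ = ξ :=
  ow_fix z (fun m hm x c => by
    obtain ⟨l, rfl⟩ := ow_mem hm
    exact absurd c (h l)) ξ

theorem ow_out_wd (O : Outer) (z : Vec σ) {b k : ℕ} (f : ℕ → ℕ) (is : List ℕ)
    (h : ∀ i ∈ is, ∀ l, orc (cd k i l) z = true ↔ f i = l) (ξ : O.V) :
    pullB (fun o => O.mv (xoOf b o)) orc z (is.flatMap (oW b k)) ξ = O.wd (is.map f) ξ := by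
  induction is with
  | nil => rfl
  | cons i is ih =>
    rw [List.flatMap_cons, pullB_append, ih fun i hi => h i (List.mem_cons_of_mem _ hi),
      ow_out_one O z (h i List.mem_cons_self)]
    rfl

theorem ow_blk {b β : ℕ} (g : Fin 7 → Mat β) (z : Vec σ) {ms : List Amp.Mv}
    (h : ∀ m ∈ ms, ∃ k i, m ∈ oW b k i) (x : Big b β) : pullB (actB g) orc z ms x = x :=
  ow_fix z (fun m hm x _ => by
    obtain ⟨k, i, hm⟩ := h m hm
    obtain ⟨l, rfl⟩ := ow_mem hm
    exact addBlk_of_ge x (Nat.le_add_right _ _) _) x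

theorem ow_pt {X : Type} [Enc X] {b i : X → ℕ} (hb : PT b) (k : ℕ) (hi : PT i) :
    PT fun x => oW (b x) k (i x) := by
  have h : ∀ l, PT fun x => cd k (i x) l := fun l =>
    (((pt_pair (PT.const (3 + k)) ((pt_pair hi (PT.const (natL [l, 0]))).add
      (PT.const 1))).add (PT.const 1)).add (PT.const 5)).congr fun _ => by simp only [cd, natL]
  exact pt_mapConst (List.range 64) (g := fun l x => ((.N (b x + l), .orc (cd k (i x) l)) : Amp.Mv))
    fun l => (pt_opN (hb.add (PT.const l))).pair (pp_orc (h l))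

theorem ow_len (b k i : ℕ) : (oW b k i).length = 64 := by simp [oW]

end aux

theorem ow_ev_old {b : ℕ} {m : Amp.Mv} (h : OwOld b m) (z : Vec L.σ) :
    m.2.ev (orc0 G L) z = m.2.ev (Amp.orc0 G.toInst L) z := by
  obtain ⟨o, c⟩ := m
  cases c with
  | eq p w v => rfl
  | orc n =>
    have : n ∉ newT G L z := fun hn => by
      simp only [newT, List.mem_append, List.mem_map, List.mem_singleton] at hn
      rcases hn with (⟨i, -, rfl⟩ | ⟨i, -, rfl⟩) | rfl <;> exact h.2 _ _ _ rfl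
    simp only [Cond.ev, orc0, this, decide_false, Bool.or_false]

theorem ow_ev_new (k i l : ℕ) (z : Vec L.σ) : orc0 G L (cd k i l) z = true ↔
    (k = 0 ∧ i < L.n / 5 ∧ 2 * (aN L.qA L.n z / 32 ^ i % 32) + fld z L.pt L.τ % 2 = l) ∨
    (k = 1 ∧ i < L.n / 5 ∧ 2 * (aN L.qE L.n z / 32 ^ i % 32) + (fld z L.pt L.τ + 1) % 2 = l) ∨
    (k = 2 + (min (G.xo (fld z L.pt L.τ) (L.gi z)) 64 + fld z L.pt L.τ) % 2 ∧ i = 0 ∧
      min (G.xo (fld z L.pt L.τ) (L.gi z)) 64 = l) := by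
  have h1 : Amp.orc0 G.toInst L (cd k i l) z = false := by
    rw [Amp.orc0, if_neg (by unfold cd; omega), decide_eq_false (ow_cd_ne _ _ _ _)]
  simp only [orc0, h1, Bool.false_or, decide_eq_true_eq, newT, List.mem_append, List.mem_map,
    List.mem_singleton, List.mem_range, ow_cd_inj, or_assoc]
  refine or_congr ?_ (or_congr ?_ ?_)
  · exact ⟨fun ⟨_, h, h0, e, h2⟩ => ⟨h0.symm, e ▸ h, e ▸ h2⟩, fun h => ⟨i, h.2.1, h.1.symm, rfl, h.2.2⟩⟩
  · exact ⟨fun ⟨_, h, h0, e, h2⟩ => ⟨h0.symm, e ▸ h, e ▸ h2⟩, fun h => ⟨i, h.2.1, h.1.symm, rfl, h.2.2⟩⟩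
  · rw [eq_comm (a := l)]

theorem ow_p1 (z : Vec L.σ) (x : BB G) : p1 G L z x =
    (if (min (G.xo (L.tm z) (L.gi z)) 64 + L.tm z) % 2 = 0 then
      G.o.mv (G.xo (L.tm z) (L.gi z)) (G.o.wd (ow L (L.tm z) (aN L.qA L.n z)) x.1)
      else G.o.wd (ow L (L.tm z) (aN L.qA L.n z)) x.1,
      pullB (actB G.gens) (Amp.orc0 G.toInst L) z (L.move1 G.b) x.2) := by
  rw [p1, ow_pair, move1, pullB_append, pullB_append, pullB_append (actB G.gens),
    ow_out_old _ _ (ow_move1 L G.b), ow_blk (ms := _ ++ _),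
    ow_orc _ _ fun m hm => ow_ev_old (ow_move1 L G.b m hm) z,
    ow_out_wd _ _ (fun i => 2 * (aN L.qA L.n z / 32 ^ i % 32) + L.tm z % 2)]
  · refine Prod.ext ?_ rfl
    have e : ow L (L.tm z) (aN L.qA L.n z) = (List.range (L.n / 5)).map
        fun i => 2 * (aN L.qA L.n z / 32 ^ i % 32) + L.tm z % 2 := List.map_map
    rw [e]
    dsimp only
    split_ifs with c
    · rw [← Outer.mv_min]
      refine ow_out_one _ _ (fun l => ?_) _
      rw [ow_ev_new]
      unfold Lo.tm at c ⊢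
      omega
    · refine ow_out_off _ _ (fun l => ?_) _
      rw [ow_ev_new]
      unfold Lo.tm at c
      omega
  · intro i hi l
    rw [List.mem_range] at hi
    rw [ow_ev_new]
    unfold Lo.tm
    omega
  · intro m hm
    rcases List.mem_append.1 hm with hm | hm
    · exact ⟨_, _, hm⟩
    · obtain ⟨i, -, hm⟩ := List.mem_flatMap.1 hm
      exact ⟨_, _, hm⟩

theorem ow_p2 (z : Vec L.σ) (x : BB G) : p2 G L z x =
    (G.o.wd (ow L (L.tm z + 1) (aN L.qE L.n z)).reverse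
      (if (min (G.xo (L.tm z) (L.gi z)) 64 + L.tm z) % 2 = 0 then x.1
        else G.o.mv (G.xo (L.tm z) (L.gi z)) x.1),
      pullB (actB G.gens) (Amp.orc0 G.toInst L) z (L.move2 G.b) x.2) := by
  rw [p2, ow_pair, move2, pullB_append, pullB_append, pullB_append (actB G.gens),
    ow_out_old _ _ (ow_move2 L G.b), ow_blk (ms := _ ++ _),
    ow_orc _ _ fun m hm => ow_ev_old (ow_move2 L G.b m hm) z,
    ow_out_wd _ _ (fun i => 2 * (aN L.qE L.n z / 32 ^ i % 32) + (L.tm z + 1) % 2)]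
  · refine Prod.ext ?_ rfl
    have e : ow L (L.tm z + 1) (aN L.qE L.n z) = (List.range (L.n / 5)).map
        fun i => 2 * (aN L.qE L.n z / 32 ^ i % 32) + (L.tm z + 1) % 2 := List.map_map
    rw [e, List.map_reverse]
    dsimp only
    refine congrArg _ ?_
    split_ifs with c
    · refine ow_out_off _ _ (fun l => ?_) _
      rw [ow_ev_new]
      unfold Lo.tm at c
      omega
    · rw [← Outer.mv_min]
      refine ow_out_one _ _ (fun l => ?_) _
      rw [ow_ev_new]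
      unfold Lo.tm at c ⊢
      omega
  · intro i hi l
    rw [List.mem_reverse, List.mem_range] at hi
    rw [ow_ev_new]
    unfold Lo.tm
    omega
  · intro m hm
    rcases List.mem_append.1 hm with hm | hm
    · obtain ⟨i, -, hm⟩ := List.mem_flatMap.1 hm
      exact ⟨_, _, hm⟩
    · exact ⟨_, _, hm⟩

theorem ow_pr (h : 1 ≤ L.τ) (t a : ℕ) : ow L (L.pr t) a = ow L (t + 1) a := by
  have h1 : 2 ∣ 2 ^ L.τ := dvd_pow_self 2 (by omega)
  have h2 := Nat.two_pow_pos L.τ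
  rw [ow, ow, Lo.pr, Nat.mod_mod_of_dvd _ h1]
  congr 1
  omega

theorem ow_side {t a l : ℕ} (h : l ∈ ow L t a) : l % 2 = t % 2 :=
  (mem_ltr (Nat.mod_lt _ two_pos) h).1

theorem ow_hi {c : Cond} (h : c.hi) (x : BB G) (z : Vec L.σ) :
    c.ev (orcR G L x) z = c.ev (orc0 G L) z := by
  cases c with
  | eq p w v => rfl
  | orc n => exact dif_neg (not_lt.2 h)

theorem ow_time {P : Set ℕ} {z z' : Vec L.σ} (hz : InR Pᶜ z z') (hG : L.pG ∈ P)
    (ht : Set.Ici L.pt ⊆ P) : fld z' L.pt L.τ = fld z L.pt L.τ ∧ L.gi z' = L.gi z := by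
  refine ⟨n0_fld hz fun j h1 _ => ht h1, ?_⟩
  rw [Lo.gi, Lo.gi, n0_fld hz (p := L.pG) (w := 1) fun j h1 h2 => by
    rwa [show j = L.pG by omega]]

theorem ow_c1 (h : Ass G L) {z z' : Vec L.σ}
    (hz : InR (L.AK ∪ {L.pG} ∪ Set.Ici L.pt)ᶜ z z') :
    ∀ m ∈ move1 L G.b, m.2.ev (orc0 G L) z' = m.2.ev (orc0 G L) z := by
  intro m hm
  rcases ow_new1 hm with hm | ⟨k, i, l, hk, rfl⟩
  · rw [ow_ev_old (ow_move1 L G.b m hm), ow_ev_old (ow_move1 L G.b m hm)]
    exact n0_move1 h.old hz m hm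
  · obtain ⟨e1, e2⟩ := ow_time hz (.inl (.inr rfl)) fun j hj => .inr hj
    have e3 : aN L.qA L.n z' = aN L.qA L.n z :=
      nb_aN hz fun s hs hn => hn (.inl (.inl (.inl (n0_q h.hκ L.pA hs))))
    refine Bool.eq_iff_iff.2 ?_
    simp only [Cond.ev, ow_ev_new, e1, e2, e3]
    omega

theorem pull_move12 (h : Ass G L) (z : Vec L.σ) (y : YY G) (jj : Big 2 G.β) :
    p1 G L z (p2 G L z (grp G L (L.tm z) y jj (aN L.qA L.n z))) =
      grp G L (L.pr (L.tm z)) (nbY G (L.tm z) (L.gi z) y) (gaZ G.toInst L z jj)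
        (aN L.qE L.n z) := by
  obtain ⟨g, hg⟩ := h.out
  rw [ow_p2, ow_p1]
  refine Prod.ext ?_ ?_
  · simp only [grp, jn, sh, nbY]
    rw [ow_pr h.tau]
    have c1 : ∀ l ∈ ow L (L.tm z) (aN L.qA L.n z),
        ∀ l' ∈ (ow L (L.tm z + 1) (aN L.qE L.n z)).reverse, l % 2 ≠ l' % 2 := fun l hl l' hl' => by
      have := ow_side hl
      have := ow_side (List.mem_reverse.1 hl')
      omega
    split_ifs with c
    · rw [hg.wd_comm c1, hg.wd_reverse', ← Outer.mv_min, ← Outer.mv_min _ y.1]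
      refine hg.mv_wd (fun l hl => ?_) _
      have := ow_side (List.mem_reverse.1 hl)
      omega
    · rw [hg.wd_comm c1, ← Outer.mv_min, ← Outer.mv_min _ y.1, ← hg.mv_wd, hg.wd_reverse']
      intro l hl
      have := ow_side hl
      omega
  · simp only [grp, jn, sh, nbY]
    rw [Amp.pull_move12 G.toInst L h.good h.hσ, add_assoc, big_add_self, add_zero]
    rfl

theorem move1_orc (G : QI 2) (L : Lo) :
    ∀ m ∈ move1 L G.b, ∀ x z, m.2.ev (orcR G L x) z = m.2.ev (orc0 G L) z := by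
  intro m hm
  refine ow_hi ?_
  rcases ow_new1 hm with hm | ⟨k, i, l, -, rfl⟩
  · simp only [Lo.move1, List.mem_append] at hm
    rcases hm with (h | h) | h
    exacts [hi_gam _ m h, hi_piW m h, hi_addL _ _ m h]
  · exact Nat.le_add_left_of_le (by norm_num)

theorem move2_orc (G : QI 2) (L : Lo) :
    ∀ m ∈ move2 L G.b, ∀ x z, m.2.ev (orcR G L x) z = m.2.ev (orc0 G L) z := by
  intro m hm
  refine ow_hi ?_
  rcases ow_new2 hm with hm | ⟨k, i, l, -, rfl⟩
  · simp only [Lo.move2, List.mem_append, List.mem_reverse] at hm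
    rcases hm with (((h | h) | h) | h) | h
    exacts [hi_piW m h, hi_gam _ m h, hi_addL _ _ m h, hi_gam _ m h, hi_piW m h]
  · exact Nat.le_add_left_of_le (by norm_num)

theorem nod_grp (h : Ass G L) (t : ℕ) (a : G.A) (jj : Big 2 G.β) (e : ℕ) :
    nod G L t (grp G L t (a.1, a.2.1) jj e) e = a := by
  obtain ⟨g, hg⟩ := h.out
  obtain ⟨ξ, y, v⟩ := a
  have hv : v = 0 := funext fun i => absurd i.2 (by have := h.hσ; omega)
  simp only [nod, grp, jn, sh]
  rw [hg.wd_reverse', fstB_join, blk_join, add_assoc, big_add_self, add_zero, hv]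

theorem expect_jn (f : BB G → ℝ) :
    (𝔼 w : YY G, 𝔼 j : Vec G.β, 𝔼 j' : Vec G.β, f (jn G w ![j, j'])) = 𝔼 x, f x := by
  rw [← univ_product_univ, expect_product, ← univ_product_univ, expect_product]
  refine expect_congr rfl fun ξ _ => ?_
  rw [expect_join]
  exact expect_congr rfl fun y _ => (expect_big2 fun jj => f (ξ, join y jj)).symm

theorem expect_nbY (h : Ass G L) (t : ℕ) (i : Fin 2) (f : YY G → ℝ) :
    (𝔼 y, f (nbY G t i y)) = 𝔼 y, f y := by
  obtain ⟨g, hg⟩ := h.out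
  exact Fintype.expect_bijective _ (Function.Involutive.bijective (f := nbY G t i) fun y =>
    Prod.ext (hg.inv _ _) (actB_actB _ _ _)) _ _ fun _ => rfl

theorem p1_congr (h : Ass G L) {z z' : Vec L.σ}
    (hz : InR (L.AK ∪ {L.pG} ∪ Set.Ici L.pt)ᶜ z z') (x : BB G) : p1 G L z' x = p1 G L z x := by
  exact n0_pull _ _ _ (ow_c1 h hz) x

theorem p1i_congr (h : Ass G L) {z z' : Vec L.σ}
    (hz : InR (L.AK ∪ {L.pG} ∪ Set.Ici L.pt)ᶜ z z') (x : BB G) : p1i G L z' x = p1i G L z x := by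
  exact n0_pull _ _ _ (fun m hm => ow_c1 h hz m (List.mem_reverse.1 hm)) x

theorem p2_congr (h : Ass G L) {z z' : Vec L.σ} (hz : InR
    (pos (L.Es.map (vd L.κ)) ∪ pos (L.Ks.map (vd L.κ)) ∪ {L.pG} ∪ Set.Ici L.pt)ᶜ z z') (x : BB G) :
    p2 G L z' x = p2 G L z x := by
  obtain ⟨e1, e2⟩ := ow_time hz (.inl (.inr rfl)) fun j hj => .inr hj
  have e3 : aN L.qE L.n z' = aN L.qE L.n z :=
    nb_aN hz fun s hs hn => hn (.inl (.inl (.inl (n0_q h.hκ L.pE hs))))
  have e4 := Amp.p2_congr h.old hz x.2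
  rw [ow_p2, ow_p2, Lo.tm, Lo.tm, e1, e2, e3]
  exact Prod.ext rfl e4

theorem p1i_p1 (h : Ass G L) (z : Vec L.σ) (x : BB G) : p1i G L z (p1 G L z x) = x :=
  pullB_reverse h.inv z _ x

theorem prog_ok (L : Lo) (hκ : 6 ≤ L.κ) (hc : 1 ≤ L.c) (b : ℕ) :
    ∀ i ∈ prog L b, i.ok L.κ L.σ := by
  intro i hi
  have h0 := L.prog_ok hκ hc b i
  have h1 : ∀ ms, i ∈ Amp.mv ms → i.ok L.κ L.σ := fun ms hm => by
    obtain ⟨m, -, rfl⟩ := List.mem_map.1 hm
    trivial
  simp only [prog, Lo.prog, List.mem_append] at hi h0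
  rcases hi with (((((((hi | hi) | hi) | hi) | hi) | hi) | hi) | hi) | hi
  · exact h0 (by tauto)
  · exact h1 _ hi
  · exact h0 (by tauto)
  · exact h0 (by tauto)
  · exact h1 _ hi
  · exact h0 (by tauto)
  · exact h0 (by tauto)
  · exact h0 (by tauto)
  · exact h0 (by tauto)

theorem length_prog (κ ck : ℕ) : ∃ C : ℕ, ∀ c τ b : ℕ, 6 ≤ κ → 1 ≤ c →
    (prog (Lo.mk κ c ck τ) b).length + 1 ≤ C * (b + τ + c) ^ C := by
  obtain ⟨C, hC⟩ := Amp.length_prog κ ck
  have h1 : PoPB fun c τ b => C * (b + τ + c) ^ C := ⟨C, fun _ _ _ _ => le_rfl⟩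
  obtain ⟨C', h2⟩ := h1.add ((PoPB.const 128).mul ((PoPB.c.mul (PoPB.const κ)).add (PoPB.const 1)))
  refine ⟨C', fun c τ b hκ hc => le_trans ?_ (h2 c τ b hc)⟩
  have h3 := hC c τ b hκ hc
  have h4 : (Lo.mk κ c ck τ).n = c * κ := rfl
  simp only [prog, Lo.prog, move1, move2, Amp.mv, List.length_append, List.length_map, ow_len,
    wd_length_flatMap _ _ _ (ow_len _ _), List.length_reverse, List.length_range] at h3 ⊢
  omega

theorem pt_prog {X : Type} [Enc X] (κ ck : ℕ) {c τ b : X → ℕ} (hc : PU c) (hτ : PU τ) (hb : PU b) :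
    PT fun x => prog (Lo.mk κ (c x) ck (τ x)) (b x) := by
  have hu := pu_u κ ck (τ := τ) hc
  have hV := (pu_pV κ ck (τ := τ) hc).pt
  have hT : PT fun x => (Lo.mk κ (c x) ck (τ x)).pT 0 :=
    (pu_pT0 κ ck hc).pt.add (PT.const (0 * κ))
  have hg := pp_gam hb.pt (pp_Ks κ ck (τ := τ) hc)
  have hp := pp_piW hb
  have hn : PU fun x => c x * κ := hc.mul (PU.const κ)
  have hW := pd_dW κ ck (τ := τ) hc
  have hR := pp_Rs κ ck (τ := τ) hc
  have hq := pp_qs κ ck (τ := τ) hc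
  have h5 : PU fun x => c x * κ / 5 :=
    hn.of_le (hn.pt.div (PT.const 5)) fun _ => Nat.div_le_self _ _
  have h2 : PT fun x => b x + 2 := hb.pt.add (PT.const 2)
  have ho : ∀ k, PT fun p : X × ℕ => oW (b p.1 + 2) k p.2 := fun k =>
    ow_pt (h2.comp PT.fst') k PT.snd'
  have ho' : ∀ k, PT fun x => oW (b x + 2) k 0 := fun k => ow_pt h2 k (PT.const 0)
  refine PT.append (PT.append (PT.append (PT.append (PT.append (PT.append (PT.append (PT.append
    (pp_tick (pu_pt κ ck hc).pt hτ) (pp_mv ?_)) ?_) ?_) (pp_mv ?_)) ?_) ?_) ?_) ?_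
  · exact ((hg.append hp).append (pp_addL hb (pp_q κ (pu_pA0 κ ck hc)) hn)).append
      ((ho' 2).append (pt_flatMap (f := fun x => oW (b x + 2) 0) (ho 0) h5.range))
  · exact pp_mgs hu (pd_base κ ck hc) (pp_rows κ ck hc)
  · exact pp_split (((PD.md (pp_As κ ck hc)).append (PD.vd hR)).append (PD.nil.cv hV))
      (pp_Es κ ck hc)
  · exact ((((hp.append hg.reverse).append (pp_addL hb (pp_q κ (pu_pE0 κ ck hc)) hn)).append
      hg).append hp).append
      ((pt_flatMap (f := fun x => oW (b x + 2) 1) (ho 1) h5.range.reverse).append (ho' 3))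
  · exact pp_sans hu (hW.cv hV) hR
  · exact pp_group hu hV hW hq hT (pp_Ps κ ck hc) _
  · exact pp_plBin hu hV ((PD.vd (hT.cons hq)).append hW) true (pu_pG κ ck hc).pt (PT.const _)
  · exact pp_swaps ((pu_pA0 κ ck hc).pt.add (PT.const (0 * 2 ^ κ)))
      ((pu_pE0 κ ck hc).pt.add (PT.const (0 * 2 ^ κ))) (hc.mul (PU.const (2 ^ κ)))

theorem cfx_poly (G : QI 2) (L : Lo) (hκ : 6 ≤ L.κ) (hc : 1 ≤ L.c) (x : BB G) (i : Fin 4)
    (z0 : Vec L.σ) : PolyD 1 ((false, L.pG, 1) :: vd L.κ L.pV :: L.dG) z0 (cfx G L x i) := by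
  intro e he z _
  have hl := L.lay_gate hκ hc
  have h1 := hl.1 e he
  have h2 := (L.pos_gate hκ hc (e.2.1 + e.2.2 - 1)).1 ⟨e, he, by omega, by omega⟩
  have hmem : ∀ d < L.c, md L.κ (L.pA d) ∈ (false, L.pG, 1) :: vd L.κ L.pV :: L.dG := fun d hd =>
    List.mem_cons_of_mem _ (List.mem_cons_of_mem _ (List.mem_append_right _
      (List.mem_append_left _ (List.mem_map_of_mem (List.mem_map_of_mem (List.mem_range.2 hd))))))
  have hdis : ∀ d < L.c, e ≠ md L.κ (L.pA d) →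
      e.2.1 + e.2.2 ≤ L.pA d ∨ L.pA d + L.k ≤ e.2.1 := fun d hd hne =>
    haveI : Std.Symm fun e e' : Dim => e.2.1 + e.2.2 ≤ e'.2.1 ∨ e'.2.1 + e'.2.2 ≤ e.2.1 :=
      ⟨fun _ _ h => h.symm⟩
    hl.2.forall he (hmem d hd) hne
  have hout : ∀ d < L.c, e ≠ md L.κ (L.pA d) → ∀ (a : ℕ) (s : Vec e.2.2),
      fld (put z e.2.1 e.2.2 s) (L.pA d + a % L.k) 1 = fld z (L.pA d + a % L.k) 1 :=
    fun d hd hne a s => cf_fld_disj z (by
      have h3 := hdis d hd hne
      have h4 := Nat.mod_lt a (cf_k_pos L)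
      omega) s
  have ht : ∀ s : Vec e.2.2, fld (put z e.2.1 e.2.2 s) L.pt L.τ = fld z L.pt L.τ := fun s =>
    cf_fld_disj z (Or.inl (by omega)) s
  unfold line cfx
  refine Deg.sum _ fun a _ => ?_
  simp only [ht]
  by_cases hd : ∃ d < L.c, e = md L.κ (L.pA d)
  · obtain ⟨d, hd, rfl⟩ := hd
    have h3 : ∀ s : Vec (2 ^ L.κ), (∏ d' ∈ range L.c,
        (fld (put z (L.pA d) (2 ^ L.κ) s) (L.pA d' + a / L.k ^ d' % L.k) 1 : ZMod 2)) =
        (∏ d' ∈ (range L.c).erase d, (fld z (L.pA d' + a / L.k ^ d' % L.k) 1 : ZMod 2)) *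
          s ⟨a / L.k ^ d % L.k, Nat.mod_lt _ (cf_k_pos L)⟩ := fun s => by
      rw [← prod_erase_mul _ _ (mem_range.2 hd)]
      congr 1
      · refine prod_congr rfl fun d' hd' => congrArg _ (hout d' (mem_range.1 (mem_of_mem_erase hd'))
          (fun h => ne_of_mem_erase hd' ?_) _ s)
        have h4 : L.pA d = L.pA d' := congrArg (fun e : Dim => e.2.1) h
        rw [cf_pA L d, cf_pA L d'] at h4
        exact (Nat.eq_of_mul_eq_mul_right (cf_k_pos L) (Nat.add_left_cancel h4)).symm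
      · rw [cf_cast_fld]
        exact (cf_get_one _ _ (2 ^ L.κ) ⟨_, Nat.mod_lt _ (cf_k_pos L)⟩).trans
          (congrFun (get_put h1.2.1 s) _)
    change Deg 1 fun s : Vec (2 ^ L.κ) => (∏ d' ∈ range L.c,
        (fld (put z (L.pA d) (2 ^ L.κ) s) (L.pA d' + a / L.k ^ d' % L.k) 1 : ZMod 2)) * _
    simp only [h3]
    exact (((isLin_coord _).deg.smul _).mul (Deg.const (d := 0) _))
  · have h3 : ∀ s : Vec e.2.2, (∏ d ∈ range L.c,
        (fld (put z e.2.1 e.2.2 s) (L.pA d + a / L.k ^ d % L.k) 1 : ZMod 2)) =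
        ∏ d ∈ range L.c, (fld z (L.pA d + a / L.k ^ d % L.k) 1 : ZMod 2) := fun s =>
      prod_congr rfl fun d hd' => congrArg _
        (hout d (mem_range.1 hd') (fun h => hd ⟨d, mem_range.1 hd', h⟩) _ s)
    simp only [h3]
    exact Deg.const _

theorem cfx_spl (G : QI 2) (L : Lo) (hκ : 6 ≤ L.κ) (hc : 1 ≤ L.c) (x : BB G) (i : Fin 4)
    (ρ : Vec L.σ) : cfx G L x i (spl L.κ L.As ρ) =
      anfc (G.lb (nod G L (fld ρ L.pt L.τ) x (aN L.qA L.n ρ)).1 (fld ρ L.pt L.τ)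
        (nod G L (fld ρ L.pt L.τ) x (aN L.qA L.n ρ)).2) i := by
  have hκ0 : 0 < L.κ := by omega
  have ht : fld (spl L.κ L.As ρ) L.pt L.τ = fld ρ L.pt L.τ :=
    congrArg toN ((cf_inR_spl_As L ρ).get fun j h1 _ h2 => by
      have h3 := cf_pt L
      have h4 := h2.2
      omega)
  have hdig : ∀ d < L.c, aN L.qA L.n ρ / L.k ^ d % L.k = fld ρ (L.pA d) L.κ := fun d hd =>
    cf_digit_aN L.pA hκ0 hd ρ
  have hbit : ∀ d < L.c, ∀ a : ℕ, (fld (spl L.κ L.As ρ) (L.pA d + a % L.k) 1 : ZMod 2) =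
      b2 (decide (fld ρ (L.pA d) L.κ = a % L.k)) := fun d hd a => by
    rw [cf_cast_fld]
    refine (cf_get_one _ _ (2 ^ L.κ) ⟨_, Nat.mod_lt _ (cf_k_pos L)⟩).trans ?_
    rw [cf_get_spl_As L ρ (List.mem_map_of_mem (List.mem_range.2 hd))]
    simp only [ofN, Nat.testBit_two_pow]
    rfl
  have hlt : aN L.qA L.n ρ < 2 ^ L.n := Nat.ofBits_lt_two_pow _
  unfold cfx
  rw [ht, sum_eq_single (aN L.qA L.n ρ)]
  · rw [prod_eq_one fun d hd => ?_, one_mul]
    rw [hbit d (mem_range.1 hd), hdig d (mem_range.1 hd), decide_eq_true rfl]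
    rfl
  · intro a ha hne
    have h1 : ∃ d < L.c, fld ρ (L.pA d) L.κ ≠ a / L.k ^ d % L.k := by
      by_contra h
      refine hne (cf_digit_ext (c := L.c) hκ0 (mem_range.1 ha) hlt fun d hd => ?_)
      refine Eq.trans ?_ (hdig d hd).symm
      by_contra h2
      exact h ⟨d, hd, fun h3 => h2 h3.symm⟩
    obtain ⟨d, hd, h2⟩ := h1
    rw [prod_eq_zero (mem_range.2 hd), zero_mul]
    rw [hbit d hd, decide_eq_false h2]
    rfl
  · exact fun h => absurd (mem_range.2 hlt) h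

end Vale.Agent.P330O
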