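import Vale.Agent.P330Q.LM
import Vale.Agent.P330Q.Net
import Vale.Agent.P330Q.Grp

/-! The network: round `0` holds the control words and the two states `A`, `B` (encoded); the rounds
`1, …, R` run the machine on `A`, the rounds `R + 1, …, 2 R` on `B`. The neighbours come in blocks of
`m = d + d' + 1` (rows, columns, centre); block `0` has the centre `a`, block `1` the centre
`a + cen t`, the blocks `l + 2` the centres `a + S2 l`. -/

namespace Vale.Agent.P330Q

open Vale.Agent.Lib.H23 Vale.Agent.P325 Vale.Agent.P330 Vale.Agent.P330.Amp Finset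
open scoped BigOperators

/-- the middle level of a reading -/
def word (ρ : Rd) : List ℕ := ρ.getD 2 []

/-- the majority -/
def maj (L : List (List ℕ)) : List ℕ :=
  (L.filter fun x => decide (L.length < 2 * L.countP (eqN x))).headD []

def bitN (s j : ℕ) : ℕ := if s.testBit j then 1 else 0

namespace CP

variable (c : CP)

def m : ℕ := c.d + c.d' + 1

/-- the translations inside a block -/
def loc (h : ℕ) : ℕ := if h < c.d then c.S.getD h 0 else c.S'.getD (h - c.d) 0

def nbw (r : Inp) (s β h : ℕ) : List ℕ := word (rdg r s (β * c.m + h))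

/-- the table at the centre of the block `β`, decoded from the words at position `off` -/
def dc (ε ε' : List ℕ) (r : Inp) (s β off : ℕ) : List ℕ :=
  c.decT ε ε' ((List.range c.d).map fun i => tb (c.nbw r s β i) off c.ts)
    ((List.range c.d').map fun i => tb (c.nbw r s β (c.d + i)) off c.ts)

def zT : List ℕ := (List.range c.ts).map fun _ => 0

def addT (t t' : List ℕ) : List ℕ :=
  (List.range c.ts).map fun i => addm c.p (t.getD i 0) (t'.getD i 0)

def linT (Y0 Y1 : List (List ℕ)) (l : List Tm) : List ℕ :=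
  (List.range c.ts).map fun n => summ c.p (l.map fun e =>
    mulm c.p e.1 (((if e.2.2 then Y1 else Y0).getD e.2.1 []).getD n 0))

/-- the twists for the bit `j` after `n` flips -/
def tw1 (j n : ℕ) : List ℕ :=
  (List.range c.d).map fun i => if i < n then 0 else bitN (c.S.getD i 0) j
def tw2 (j n : ℕ) : List ℕ :=
  (List.range c.d').map fun i => if c.d + i < n then 0 else bitN (c.S'.getD i 0) j

/-- the tables of `n` registers at the processor `a` -/
def tabs (n : ℕ) (vals : List (List ℕ)) (a : ℕ) : List ℕ :=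
  (List.range n).flatMap fun x => c.encN (vals.getD x []) a

/-- the part of the level `j` that holds the state number `side` -/
def seg (n : ℕ) (ρ : Rd) (j side : ℕ) : List ℕ :=
  tb (ρ.getD j []) (2 + side * (n * c.ts)) (n * c.ts)

/-- the local test with the levels `i`, `j`; `L` lists the readings of a block -/
def locB (n : ℕ) (L : List Rd) (i j side : ℕ) : Bool :=
  ((List.range c.m).all fun h => eqN (c.seg n (L.getD h []) i side) (c.seg n (L.getD h []) j side) &&
    (c.seg n (L.getD h []) 2 side).all fun x => decide (x < c.p)) &&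
  (List.range n).all fun x =>
    c.calmT (tb (c.seg n (L.getD (c.d + c.d') []) 2 side) (x * c.ts) c.ts)
      ((List.range c.d).map fun h => tb (c.seg n (L.getD h []) 2 side) (x * c.ts) c.ts)
      ((List.range c.d').map fun h => tb (c.seg n (L.getD (c.d + h) []) 2 side) (x * c.ts) c.ts)

def blkR (r : Inp) (β : ℕ) : List Rd := (List.range c.m).map fun h => rdg r 0 (β * c.m + h)

/-- the number of blocks that fail the local test -/
def fails (n d2 : ℕ) (r : Inp) (i j side : ℕ) : ℕ :=
  (List.range d2).countP fun l => !c.locB n (c.blkR r (l + 2)) i j side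

def strict (n d2 th : ℕ) (r : Inp) (side : ℕ) : Bool := decide (th * c.fails n d2 r 0 4 side ≤ d2)

def lax (n d2 th : ℕ) (r : Inp) (side : ℕ) : Bool := decide (th * c.fails n d2 r 1 3 side ≤ 2 * d2)

/-- the cell of the control square -/
def cell (d2 : ℕ) (r : Inp) (cc : ℕ) : ℕ :=
  min 22 (23 * ((List.range d2).map fun l =>
    lev (rdg r 0 ((l + 2) * c.m + (c.d + c.d'))) cc).sum / (64 * d2))

end CP

/-- comparison by sampling -/
def eqF (d2 : ℕ) (f g : List (List ℕ)) : Bool :=
  decide (8 * ((List.range d2).countP fun l => !eqN (f.getD l []) (g.getD l [])) < d2)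

abbrev Lab (P : Type) : Type := P × CP × List ℕ × List (List ℕ)

namespace LM

variable {P : Type} (M : LM P) (q : P) (c : CP)

def uo (x : ℕ) : ℕ := M.ns q + 2 * x * c.ts
def vo (x : ℕ) : ℕ := M.ns q + (2 * x + 1) * c.ts

/-- the table of a register, read from a word -/
def regT (w : List ℕ) (x : ℕ) : List ℕ :=
  if x < M.nR q then c.addT (tb w (M.uo q c x) c.ts) (tb w (M.vo q c x) c.ts) else c.zT

def stT (w : List ℕ) (base : ℕ) : List ℕ :=
  (List.range (M.nS q)).flatMap fun x => M.regT q c w (base + x)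

/-- the decoded tables of all registers at the centre of a block -/
def decR (r : Inp) (β : ℕ) : List (List ℕ) :=
  (List.range (M.nR q)).map fun x =>
    c.addT (c.dc [] [] r 0 β (M.uo q c x)) (c.dc [] [] r 0 β (M.vo q c x))

def scal (r : Inp) : List ℕ := maj ((List.range c.d).map fun i => tb (c.nbw r 0 0 i) 0 (M.ns q))

def test (t : ℕ) (σ w : List ℕ) : Bool :=
  ((M.zs q t σ).any fun x => !eqN (M.regT q c w x) c.zT) ||
    (M.ts q t σ).any fun e => decide ((M.regT q c w e.1).getD 0 0 ≠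
      mulm c.p ((M.regT q c w e.2.1).getD 0 0) ((M.regT q c w e.2.2).getD 0 0))

def flagN (t : ℕ) (r : Inp) : Bool :=
  decide (c.d ≤ 8 * (List.range c.d).countP fun i => M.test q c t (M.scal q c r) (c.nbw r 0 0 i))

def comb (t : ℕ) (r : Inp) (x : ℕ) (b : Bool) : List ℕ :=
  c.linT (M.decR q c r 0) (M.decR q c r 1) (M.tm q t (M.scal q c r) x b)

def gOp (t a : ℕ) (r : Inp) : List ℕ :=
  nrmS c.p (M.ns q) (M.upd q t (M.scal q c r) ((M.decR q c r 0).map fun T => T.getD 0 0)
    (M.flagN q c t r)) ++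
  (List.range (M.nR q)).flatMap fun x =>
    ((List.range c.ts).map fun n => divm c.p
      (addm c.p ((M.comb q c t r x false).getD n 0) ((M.comb q c t r x true).getD n 0)) 2) ++
    (List.range c.ts).map fun n => mulm c.p (sgm c.p (bitN a (M.bit q t))) (divm c.p
      (subm c.p ((M.comb q c t r x false).getD n 0) ((M.comb q c t r x true).getD n 0)) 2)

def flp (j n : ℕ) (r : Inp) (x : ℕ) : List ℕ :=
  if n < c.d then
    (if (c.tw1 j n).getD n 0 = 1 then c.flipR n (c.dc (c.tw1 j n) (c.tw2 j n) r 0 0 (M.vo q c x))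
      (c.dc (c.tw1 j n) (c.tw2 j n) r 0 1 (M.vo q c x))
    else c.dc (c.tw1 j n) (c.tw2 j n) r 0 0 (M.vo q c x))
  else if (c.tw2 j n).getD (n - c.d) 0 = 1 then
    c.flipC (n - c.d) (c.dc (c.tw1 j n) (c.tw2 j n) r 0 0 (M.vo q c x))
      (c.dc (c.tw1 j n) (c.tw2 j n) r 0 1 (M.vo q c x))
  else c.dc (c.tw1 j n) (c.tw2 j n) r 0 0 (M.vo q c x)

def gFlip (t n : ℕ) (r : Inp) : List ℕ :=
  M.scal q c r ++ (List.range (M.nR q)).flatMap fun x =>
    c.dc [] [] r 0 0 (M.uo q c x) ++ M.flp q c (M.bit q t) n r x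

def gInit (side : ℕ) (T : List ℕ) (r : Inp) : List ℕ :=
  nrmS c.p (M.ns q) [] ++ (List.range (M.nR q)).flatMap fun x =>
    (if x < M.nS q then c.dc [] [] r 0 0 (2 + side * (M.nS q * c.ts) + x * c.ts)
      else tb T (x * c.ts) c.ts) ++ c.zT

/-- the outputs number `b` of the thread `s` at the centres of the blocks -/
def outs (d2 : ℕ) (r : Inp) (s b : ℕ) : List (List ℕ) :=
  (List.range d2).map fun l => M.stT q c (c.nbw r s (l + 2) (c.d + c.d')) (b * M.nS q)

def eqs (T : List (List ℕ)) (r : Inp) : List Bool :=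
  [eqF (T.length - 3) (M.outs q c (T.length - 3) r 1 0) (M.outs q c (T.length - 3) r 2 0),
   eqF (T.length - 3) (M.outs q c (T.length - 3) r 1 0) (M.outs q c (T.length - 3) r 2 1),
   eqF (T.length - 3) (M.outs q c (T.length - 3) r 2 0) (M.outs q c (T.length - 3) r 1 2),
   eqF (T.length - 3) (M.outs q c (T.length - 3) r 1 0) (T.drop 3),
   eqF (T.length - 3) (M.outs q c (T.length - 3) r 2 0) (T.drop 3)]

/-- the output number `b` of the thread `side + 1`, or the default -/
def own (th : ℕ) (T : List (List ℕ)) (r : Inp) (side b : ℕ) (dflt : List ℕ) : List ℕ :=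
  if c.lax (M.nS q) (T.length - 3) th r side then
    M.stT q c (c.nbw r (side + 1) 0 (c.d + c.d')) (b * M.nS q) else dflt

def zon (T : List (List ℕ)) (r : Inp) : ℕ :=
  Hard.zone (c.cell (T.length - 3) r 0) (c.cell (T.length - 3) r 1)

def ctl (th : ℕ) (T : List (List ℕ)) (r : Inp) (cc : ℕ) : Bool :=
  Hard.rawl (Grp.clsB (zon c T r) (c.strict (M.nS q) (T.length - 3) th r 0)
    (c.strict (M.nS q) (T.length - 3) th r 1) (M.eqs q c T r)) cc
    (c.cell (T.length - 3) r 0) (c.cell (T.length - 3) r 1)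

def gFin (th : ℕ) (T : List (List ℕ)) (r : Inp) : List ℕ :=
  [if M.ctl q c th T r 0 then 1 else 0, if M.ctl q c th T r 1 then 1 else 0] ++
  Grp.selA (zon c T r) (M.own q c th T r 0 0 (T.getD 1 [])) (M.own q c th T r 1 0 (T.getD 1 []))
    (M.own q c th T r 1 1 (T.getD 2 [])) (T.getD 1 []) ++
  Grp.selB (zon c T r) (M.own q c th T r 0 0 (T.getD 1 [])) (M.own q c th T r 1 0 (T.getD 1 []))
    (M.own q c th T r 0 2 (T.getD 1 [])) (T.getD 1 [])

/-- length of a thread -/
def R : ℕ := 1 + M.len q * c.m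

def gT (t a th : ℕ) (T : List (List ℕ)) (r : Inp) : List ℕ :=
  if t = 0 then M.gFin q c th T r
  else if (t - 1) % M.R q c = 0 then M.gInit q c ((t - 1) / M.R q c) (T.getD 0 []) r
  else if ((t - 1) % M.R q c - 1) % c.m = 0 then M.gOp q c (((t - 1) % M.R q c - 1) / c.m) a r
  else M.gFlip q c (((t - 1) % M.R q c - 1) / c.m) (((t - 1) % M.R q c - 1) % c.m - 1) r

/-- the local function -/
def gF (z : Inp × Lab P) : List ℕ :=
  M.gT z.2.1 z.2.2.1 (z.2.2.2.1.getD 0 0) (z.2.2.2.1.getD 1 0) (z.2.2.2.1.getD 2 0) z.2.2.2.2 z.1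

/-- the centre of the block `1` -/
def cen (t : ℕ) : ℕ :=
  if t = 0 ∨ (t - 1) % M.R q c = 0 then 0
  else if ((t - 1) % M.R q c - 1) % c.m = 0 then
    2 ^ min (M.bit q (((t - 1) % M.R q c - 1) / c.m)) c.k
  else c.loc (((t - 1) % M.R q c - 1) % c.m - 1)

end LM

/-- data of the network -/
structure FD (P : Type) where
  q : P
  c : CP
  S2 : List ℕ
  th : ℕ
  l : ℕ
  cst : List (List ℕ)
  o : List (List ℕ)
  so : List (List ℕ)

instance encFD {P : Type} [Enc P] : Enc (FD P) :=
  ⟨fun F => Enc.enc ((F.q, F.c, F.S2, F.th), List.range F.l, F.cst, F.o, F.so)⟩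

namespace FD

variable {P : Type} (F : FD P) (M : LM P)

abbrev d2 : ℕ := F.S2.length
abbrev nS : ℕ := M.nS F.q
abbrev R : ℕ := M.R F.q F.c

def labT (a : ℕ) : List (List ℕ) :=
  F.c.tabs (M.nR F.q) F.cst a :: F.c.tabs (F.nS M) F.o a :: F.c.tabs (F.nS M) F.so a ::
    F.S2.map fun s => F.c.tabs (F.nS M) F.o (a ^^^ s)

@[reducible] def net : WN (Lab P) where
  k := F.c.k
  T := 2 * F.R M + 1
  w := M.ns F.q + 2 * M.nR F.q * F.c.ts + 2 + 2 * (F.nS M * F.c.ts)
  κ := F.c.p.size
  d := (F.d2 + 2) * F.c.m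
  l := F.l
  src t s := if t = 0 then s * F.R M else if (t - 1) % F.R M = 0 then 0 else t - 1
  V t l := (if l / F.c.m = 0 then 0 else if l / F.c.m = 1 then M.cen F.q F.c t
    else F.S2.getD (l / F.c.m - 2) 0) ^^^ F.c.loc (l % F.c.m)
  lab t a := (F.q, F.c, [t, a, F.th], F.labT M a)

structure Ok : Prop where
  c : F.c.Ok
  lt : ∀ s ∈ F.c.S, s < 2 ^ F.c.k
  lt' : ∀ s ∈ F.c.S', s < 2 ^ F.c.k
  lt2 : ∀ s ∈ F.S2, s < 2 ^ F.c.k
  bias : Bias F.c.k F.S2 (1 / (2 ^ 13 * F.c.m * F.th ^ 3))
  th : 2 ^ 16 * (F.nS M + 1) * F.c.d * F.c.d' ≤ F.th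
  big : 16 * F.c.m * F.th ≤ 2 ^ (F.c.d + F.c.d')

abbrev St : Type := P330Q.St F.c.p F.c.k (F.nS M)

abbrev Good (Fnd : List (List ℕ) → Prop) : Prop := M.Good F.q F.c.p F.c.k F.cst F.o F.so Fnd

abbrev Sys : Type := P330Q.Sys (F.net M) M.gF

/-- rounds of local decoding on all processors -/
def decIt (T : List (List ℕ)) (n : ℕ) : List (List ℕ) :=
  (List.range n).foldl (fun U _ => (List.range (2 ^ F.c.k)).map fun a => F.c.decT [] []
    (F.c.S.map fun s => U.getD (a ^^^ s) []) (F.c.S'.map fun s => U.getD (a ^^^ s) [])) T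

/-- the decoder: `W` lists readings of the round `0` -/
def decA (W : List Rd) (side : ℕ) : List (List ℕ) :=
  (List.range (F.nS M)).map fun x => (F.decIt (W.map fun ρ =>
    tb (F.c.seg (F.nS M) ρ 2 side) (x * F.c.ts) F.c.ts) (F.c.k + 1)).map fun T => T.getD 0 0

end FD

/-! ### the intended contents -/

def St.get {p k n : ℕ} (A : St p k n) (x : ℕ) : Vec k → ZMod p := if h : x < n then A ⟨x, h⟩ else 0

namespace CP

variable (c : CP) [Fact c.p.Prime]

def locv (h : ℕ) : Vec c.k := ofN c.k (c.loc h)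

/-- the code of a state at a processor -/
def encs {n : ℕ} (A : St c.p c.k n) (a : Vec c.k) : List ℕ :=
  (List.range n).flatMap fun x => c.encT [] [] (A.get x) a

/-- the words of a thread: scalars, then two tables for every register -/
def pst (n : ℕ) (σ : List ℕ) (U V : Regs c.p c.k) (ε ε' : List ℕ) (a : Vec c.k) : List ℕ :=
  σ ++ (List.range n).flatMap fun x => c.encT [] [] (U x) a ++ c.encT ε ε' (V x) a

open Classical in
/-- few bad neighbours -/
def Few (Bad : Vec c.k → Prop) (b : Vec c.k) : Prop :=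
  16 * ((range c.d).filter fun i => Bad (b + nb c.k c.S i)).card ≤ c.d ∧
    16 * ((range c.d').filter fun i => Bad (b + nb c.k c.S' i)).card ≤ c.d'

/-- the block `β` with the centre `b` shows the words `L` from the position `off` on -/
def Sees (r : Inp) (s β : ℕ) (b : Vec c.k) (Bad : Vec c.k → Prop) (off : ℕ)
    (L : Vec c.k → List ℕ) : Prop :=
  ∀ h < c.m, ¬ Bad (b + c.locv h) →
    tb (c.nbw r s β h) off (L (b + c.locv h)).length = L (b + c.locv h)

end CP

namespace LM

variable {P : Type} (M : LM P) (q : P) {p k : ℕ} [Fact p.Prime]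

/-- the even and the odd part of a step -/
def uP (t : ℕ) (s : Cfg p k) : Regs p k := fun x a =>
  (evT (M.bit q t) s.2 (M.tm q t s.1 x false) a + evT (M.bit q t) s.2 (M.tm q t s.1 x true) a) / 2
def vP (t : ℕ) (s : Cfg p k) : Regs p k := fun x a => sg (b2 (bt a (M.bit q t))) *
  ((evT (M.bit q t) s.2 (M.tm q t s.1 x false) a - evT (M.bit q t) s.2 (M.tm q t s.1 x true) a) / 2)

/-- a test fails at the processor `b` -/
def viol (c : CP) [Fact c.p.Prime] (t : ℕ) (s : Cfg c.p c.k) (b : Vec c.k) : Prop :=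
  (∃ x ∈ M.zs q t s.1, c.encT [] [] (s.2 x) b ≠ c.zT) ∨ M.badT q t s b

end LM

namespace FD

variable {P : Type} {F : FD P} {M : LM P} [Fact F.c.p.Prime] (Y : F.Sys M)

/-- the density of faults -/
noncomputable def flt : ℝ := 𝔼 a : Vec F.c.k, ind (¬ Y.good a)

/-- some reading of the middle level is not the code of `A` -/
def rawBad (side : ℕ) (A : F.St M) (b : Vec F.c.k) : Prop :=
  ¬ ∀ ρ ∈ Y.S 0 b, F.c.seg (F.nS M) ρ 2 side = F.c.encs A b

/-- all levels hold the code of `A` -/
def HoldR (side : ℕ) (A : F.St M) (b : Vec F.c.k) : Prop :=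
  ∀ ρ ∈ Y.S 0 b, ∀ j < 64, F.c.seg (F.nS M) ρ j side = F.c.encs A b

/-- the thread ends with the right outputs -/
def HoldT (side : ℕ) (A : F.St M) (b : Vec F.c.k) : Prop :=
  ∀ ρ ∈ Y.S ((side + 1) * F.R M) b, ∀ e < 3,
    M.stT F.q F.c (word ρ) (e * F.nS M) = F.c.encs (M.outp F.q F.cst e A) b

end FD

end Vale.Agent.P330Q
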