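import Vale.Agent.P330Q.Phys
import Vale.Agent.P330Q.Dec
import Vale.Agent.P330Q.LMB

/-! Local steps without arithmetic: decoding, majority, start of a thread, flips (task PhysA).
Tools: `dec_spec`, `tb` lemmas and `getD_flatMap_range` of `Ar.lean`, `enc_congr`, `flipR_enc`,
`flipC_enc`, `encN_eq`. -/

namespace Vale.Agent.P330Q

open Vale.Agent.Lib.H23 Vale.Agent.P325 Vale.Agent.P330 Vale.Agent.P330.Amp Finset
open scoped BigOperators

private theorem pa_count {x y : List ℕ} (h : y ≠ x) (L : List (List ℕ)) :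
    L.countP (eqN x) + L.countP (eqN y) ≤ L.length := by
  induction L with
  | nil => exact le_rfl
  | cons z L ih =>
    rw [List.countP_cons, List.countP_cons, List.length_cons]
    split_ifs with h1 h2
    · exact absurd ((of_decide_eq_true h2).trans (of_decide_eq_true h1).symm) h
    all_goals omega

private theorem pa_cnt (B : ℕ → Prop) [DecidablePred B] (f : ℕ → Bool) (n : ℕ)
    (h : ∀ i < n, ¬ B i → f i = true) :
    n ≤ (List.range n).countP f + ((range n).filter B).card := by
  induction n with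
  | zero => exact Nat.zero_le _
  | succ n ih =>
    have := ih fun i hi => h i (by omega)
    rw [Finset.card_filter] at this
    rw [List.range_succ, List.countP_append, List.countP_singleton, Finset.card_filter,
      sum_range_succ]
    by_cases hb : B n
    · rw [if_pos hb]
      omega
    · rw [h n (by omega) hb, if_pos rfl]
      omega

private theorem pa_getD {α : Type} (f : ℕ → α) {n i : ℕ} (h : i < n) (d : α) :
    ((List.range n).map f).getD i d = f i := by
  rw [List.getD_eq_getElem _ _ (by simpa using h), List.getElem_map, List.getElem_range]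

private theorem pa_self {l : List ℕ} {n : ℕ} (h : l.length = n) : tb l 0 n = l := by
  rw [← h, tb_self]

private theorem pa_left (l m : List ℕ) {o n : ℕ} (h : o + n ≤ l.length) :
    tb (l ++ m) o n = tb l o n :=
  tb_congr fun i hi => List.getD_append _ _ _ _ (by omega)

private theorem pa_right (l m : List ℕ) (o n : ℕ) : tb (l ++ m) (l.length + o) n = tb m o n :=
  tb_congr fun i _ => by
    rw [List.getD_append_right _ _ _ _ (by omega), add_assoc, Nat.add_sub_cancel_left]

private theorem pa_flat {n m x : ℕ} {f : ℕ → List ℕ} (hf : ∀ j < n, (f j).length = m)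
    (hx : x < n) : tb ((List.range n).flatMap f) (x * m) m = f x := by
  rw [← pa_self (hf x hx)]
  exact tb_congr fun i hi => by rw [getD_flatMap_range hf hx hi, zero_add]

private theorem pa_le {x n : ℕ} (hx : x < n) (t : ℕ) : x * t + t ≤ n * t := by
  rw [← Nat.succ_mul]
  exact Nat.mul_le_mul_right t hx

theorem maj_eq {L : List (List ℕ)} {x : List ℕ} (h : L.length < 2 * L.countP (eqN x)) :
    maj L = x := by
  have hx : x ∈ L.filter fun y => decide (L.length < 2 * L.countP (eqN y)) := by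
    obtain ⟨y, hy, e⟩ := List.countP_pos_iff.1 (show 0 < L.countP (eqN x) by omega)
    exact List.mem_filter.2 ⟨by rwa [of_decide_eq_true e], decide_eq_true h⟩
  have hall : ∀ y ∈ L.filter fun y => decide (L.length < 2 * L.countP (eqN y)), y = x := by
    intro y hy
    by_contra hne
    have h1 := of_decide_eq_true (List.mem_filter.1 hy).2
    have h2 := pa_count hne L
    omega
  rw [maj]
  generalize (L.filter fun y => decide (L.length < 2 * L.countP (eqN y))) = F at hx hall
  cases F with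
  | nil => cases hx
  | cons y F => exact hall y List.mem_cons_self

theorem tb_tb (l : List ℕ) {o n o' n' : ℕ} (h : o' + n' ≤ n) :
    tb (tb l o n) o' n' = tb l (o + o') n' :=
  tb_congr fun i hi => by rw [getD_tb _ _ (by omega), add_assoc]

namespace CP

variable {c : CP} [Fact c.p.Prime]

theorem locv_row {i : ℕ} (hi : i < c.d) : c.locv i = nb c.k c.S i := by
  rw [locv, loc, if_pos hi, nb]
theorem locv_col (i : ℕ) : c.locv (c.d + i) = nb c.k c.S' i := by
  rw [locv, loc, if_neg (by omega), Nat.add_sub_cancel_left, nb]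
theorem locv_own : c.locv (c.d + c.d') = 0 := by
  rw [locv_col, nb, List.getD_eq_default _ _ le_rfl, ofN_zero]
theorem length_encT (ε ε' : List ℕ) (y : Vec c.k → ZMod c.p) (a : Vec c.k) :
    (c.encT ε ε' y a).length = c.ts := length_toTab _
theorem encT_zero (ε ε' : List ℕ) (a : Vec c.k) : c.encT ε ε' 0 a = c.zT := by
  refine (eq_toTab (f := fun _ => 0) (fun _ _ => (Fact.out : c.p.Prime).pos) fun i _ => ?_).symm
  exact Nat.cast_zero.trans (congrFun (congrFun (enc_nil a) _) _).symm
theorem encT_head (h : c.Ok) (ε ε' : List ℕ) (y : Vec c.k → ZMod c.p) (a : Vec c.k) :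
    (c.encT ε ε' y a).getD 0 0 = (y a).val :=
  eq_val (toTab_lt _ _) ((cast_toTab_zero _).trans (enc_zero_zero h a))
theorem addT_enc (ε ε' : List ℕ) (y z : Vec c.k → ZMod c.p) (a : Vec c.k) :
    c.addT (c.encT ε ε' y a) (c.encT ε ε' z a) = c.encT ε ε' (y + z) a := by
  refine eq_toTab (fun _ _ => addm_lt (Fact.out : c.p.Prime).pos _ _) fun i hi => ?_
  rw [cast_addm, encT, encT, cast_toTab _ hi, cast_toTab _ hi, ← enc_add]
  rfl
theorem length_encs {n : ℕ} (A : St c.p c.k n) (a : Vec c.k) : (c.encs A a).length = n * c.ts :=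
  length_flatMap_range fun _ _ => length_encT _ _ _ _
private theorem pa_encT_lt (ε ε' : List ℕ) (y : Vec c.k → ZMod c.p) (a : Vec c.k) :
    ∀ x ∈ c.encT ε ε' y a, x < c.p := by
  intro x hx
  obtain ⟨i, -, rfl⟩ := List.mem_map.1 hx
  exact ZMod.val_lt _

theorem encs_lt {n : ℕ} (A : St c.p c.k n) (a : Vec c.k) : ∀ x ∈ c.encs A a, x < c.p := by
  intro x hx
  obtain ⟨j, -, hj⟩ := List.mem_flatMap.1 hx
  exact pa_encT_lt _ _ _ _ x hj
theorem tb_encs {n x : ℕ} (A : St c.p c.k n) (a : Vec c.k) (hx : x < n) :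
    tb (c.encs A a) (x * c.ts) c.ts = c.encT [] [] (A.get x) a :=
  pa_flat (f := fun x => c.encT [] [] (A.get x) a) (fun _ _ => length_encT _ _ _ _) hx
theorem encs_dist (h : c.Ok) {n : ℕ} {A B : St c.p c.k n} (hne : A ≠ B) :
    1 / 4 ≤ 𝔼 a, ind (c.encs A a ≠ c.encs B a) := by
  obtain ⟨x, hx⟩ := Function.ne_iff.1 hne
  refine (dist h hx).trans (Finset.expect_le_expect fun a _ => ?_)
  by_cases e : c.encs A a = c.encs B a
  · have h1 := tb_encs A a x.2
    rw [e, tb_encs B a x.2, St.get, St.get, dif_pos x.2, dif_pos x.2] at h1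
    rw [ind, ind, if_neg (not_not.2 e), if_neg (not_not.2 h1.symm)]
  · rw [ind, ind, if_pos e]
    split_ifs
    · exact le_rfl
    · exact zero_le_one
theorem tabs_eq (h : c.Ok) (n : ℕ) (l : List (List ℕ)) (a : Vec c.k) :
    c.tabs n l (toN a) = c.encs (stL c.p c.k n l) a := by
  refine List.flatMap_congr fun x hx => ?_
  rw [encN_eq h, St.get, dif_pos (List.mem_range.1 hx)]
  rfl
theorem tb_tabs (h : c.Ok) {n x : ℕ} (hx : x < n) (l : List (List ℕ)) (a : Vec c.k) :
    tb (c.tabs n l (toN a)) (x * c.ts) c.ts = c.encT [] [] (regL c.p c.k l x) a := by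
  rw [tabs_eq h, tb_encs _ _ hx, St.get, dif_pos hx]
  rfl

variable {n : ℕ} {σ ε ε' : List ℕ} {U V : Regs c.p c.k} {a b : Vec c.k} {r : Inp}
  {Bad : Vec c.k → Prop}

private theorem pa_len (x : ℕ) :
    (c.encT [] [] (U x) a ++ c.encT ε ε' (V x) a).length = 2 * c.ts := by
  rw [List.length_append, length_encT, length_encT, two_mul]

theorem length_pst : (c.pst n σ U V ε ε' a).length = σ.length + 2 * n * c.ts := by
  rw [pst, List.length_append, length_flatMap_range fun x _ => pa_len x]
  ring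
theorem pst_lt (hσ : ∀ x ∈ σ, x < c.p) : ∀ x ∈ c.pst n σ U V ε ε' a, x < c.p := by
  intro x hx
  rcases List.mem_append.1 hx with hx | hx
  · exact hσ x hx
  · obtain ⟨j, -, hj⟩ := List.mem_flatMap.1 hx
    rcases List.mem_append.1 hj with hj | hj <;> exact pa_encT_lt _ _ _ _ x hj
theorem tb_pst_s : tb (c.pst n σ U V ε ε' a) 0 σ.length = σ := by
  rw [pst, pa_left _ _ (by omega), tb_self]
theorem tb_pst_u {x : ℕ} (hx : x < n) :
    tb (c.pst n σ U V ε ε' a) (σ.length + 2 * x * c.ts) c.ts = c.encT [] [] (U x) a := by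
  rw [pst, pa_right, show 2 * x * c.ts = x * (2 * c.ts) + 0 by ring,
    ← tb_tb _ (show 0 + c.ts ≤ 2 * c.ts by omega), pa_flat (fun x _ => pa_len x) hx,
    pa_left _ _ (by rw [length_encT]; omega), pa_self (length_encT _ _ _ _)]
theorem tb_pst_v {x : ℕ} (hx : x < n) :
    tb (c.pst n σ U V ε ε' a) (σ.length + (2 * x + 1) * c.ts) c.ts = c.encT ε ε' (V x) a := by
  have e := pa_right (c.encT [] [] (U x) a) (c.encT ε ε' (V x) a) 0 c.ts
  rw [length_encT, add_zero, pa_self (length_encT _ _ _ _)] at e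
  rw [pst, pa_right, show (2 * x + 1) * c.ts = x * (2 * c.ts) + c.ts by ring,
    ← tb_tb _ (show c.ts + c.ts ≤ 2 * c.ts by omega), pa_flat (fun x _ => pa_len x) hx, e]
/-- after all flips there is no twist -/
theorem pst_tw (j : ℕ) :
    c.pst n σ U V (c.tw1 j (c.d + c.d')) (c.tw2 j (c.d + c.d')) = c.pst n σ U V [] [] := by
  funext a
  have e : c.encV (twF (c.tw1 j (c.d + c.d'))) (twF (c.tw2 j (c.d + c.d'))) =
      c.encV (twF []) (twF []) := by
    funext y
    refine enc_congr (fun i hi => ?_) fun i hi => ?_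
    · rw [twF, tw1, pa_getD _ hi, if_pos (by omega)]
      rfl
    · rw [twF, tw2, pa_getD _ hi, if_pos (by omega)]
      rfl
  simp only [pst, encT, e]

theorem dc_spec (h : c.Ok) {s β off o : ℕ} {L : Vec c.k → List ℕ} {y : Vec c.k → ZMod c.p}
    (hS : c.Sees r s β b Bad off L) (hF : c.Few Bad b)
    (hL : ∀ e, o + c.ts ≤ (L e).length ∧ tb (L e) o c.ts = c.encT ε ε' y e) :
    c.dc ε ε' r s β (off + o) = c.encT ε ε' y b := by
  classical
  have key : ∀ i < c.m, ¬ Bad (b + c.locv i) →
      tb (c.nbw r s β i) (off + o) c.ts = c.encT ε ε' y (b + c.locv i) := fun i hi hb => by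
    rw [← tb_tb _ (hL (b + c.locv i)).1, hS i hi hb, (hL _).2]
  refine dec_spec h ε ε' y b (le_trans ?_ hF.1) (le_trans ?_ hF.2)
  · refine Nat.mul_le_mul (by omega) (card_le_card fun i hi => ?_)
    rw [mem_filter] at hi ⊢
    have h1 := mem_range.1 hi.1
    refine ⟨hi.1, by_contra fun hb => hi.2 ?_⟩
    rw [pa_getD _ h1, ← locv_row h1]
    exact key i (by unfold m; omega) (by rwa [locv_row h1])
  · refine Nat.mul_le_mul (by omega) (card_le_card fun i hi => ?_)
    rw [mem_filter] at hi ⊢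
    have h1 := mem_range.1 hi.1
    refine ⟨hi.1, by_contra fun hb => hi.2 ?_⟩
    rw [pa_getD _ h1, ← locv_col]
    exact key _ (by unfold m; omega) (by rwa [locv_col])

end CP

namespace LM

variable {P : Type} {M : LM P} {q : P} {c : CP} [Fact c.p.Prime] {σ ε ε' : List ℕ}
  {U V : Regs c.p c.k} {a b : Vec c.k} {r : Inp} {Bad : Vec c.k → Prop}

theorem scal_spec (h : c.Ok) (hσ : σ.length = M.ns q)
    (hS : c.Sees r 0 0 a Bad 0 (c.pst (M.nR q) σ U V ε ε')) (hF : c.Few Bad a) :
    M.scal q c r = σ := by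
  classical
  refine maj_eq ?_
  have h1 := hF.1
  have h2 := h.d16
  have h3 := pa_cnt (fun i => Bad (a + nb c.k c.S i))
    (eqN σ ∘ fun i => tb (c.nbw r 0 0 i) 0 (M.ns q)) c.d fun i hi hb => by
      have e := hS i (by unfold CP.m; omega) (by rwa [CP.locv_row hi])
      have e2 := tb_tb (c.nbw r 0 0 i) (o := 0) (o' := 0) (n' := σ.length)
        (n := (c.pst (M.nR q) σ U V ε ε' (a + c.locv i)).length) (by rw [CP.length_pst]; omega)
      rw [e, CP.tb_pst_s, hσ] at e2
      exact decide_eq_true e2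
  rw [List.countP_map, List.length_map, List.length_range]
  omega

/-- registers read from a right word -/
theorem regT_spec (hσ : σ.length = M.ns q) {w : List ℕ}
    (hw : tb w 0 (c.pst (M.nR q) σ U V [] [] a).length = c.pst (M.nR q) σ U V [] [] a) {x : ℕ}
    (hx : x < M.nR q) : M.regT q c w x = c.encT [] [] (U x + V x) a := by
  have h1 := pa_le (show 2 * x < 2 * M.nR q by omega) c.ts
  have h2 := pa_le (show 2 * x + 1 < 2 * M.nR q by omega) c.ts
  have e1 := tb_tb w (o := 0) (o' := σ.length + 2 * x * c.ts) (n' := c.ts)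
    (n := (c.pst (M.nR q) σ U V [] [] a).length) (by rw [CP.length_pst]; omega)
  have e2 := tb_tb w (o := 0) (o' := σ.length + (2 * x + 1) * c.ts) (n' := c.ts)
    (n := (c.pst (M.nR q) σ U V [] [] a).length) (by rw [CP.length_pst]; omega)
  rw [hw, CP.tb_pst_u hx, zero_add, hσ] at e1
  rw [hw, CP.tb_pst_v hx, zero_add, hσ] at e2
  rw [regT, if_pos hx, uo, vo, ← e1, ← e2, CP.addT_enc]

private theorem pa_dcu (h : c.Ok) (hσ : σ.length = M.ns q) {β : ℕ}
    (hS : c.Sees r 0 β b Bad 0 (c.pst (M.nR q) σ U V ε ε')) (hF : c.Few Bad b) {x : ℕ}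
    (hx : x < M.nR q) : c.dc [] [] r 0 β (M.uo q c x) = c.encT [] [] (U x) b := by
  have h1 := pa_le (show 2 * x < 2 * M.nR q by omega) c.ts
  have e := CP.dc_spec h hS hF (o := σ.length + 2 * x * c.ts) fun e =>
    ⟨by rw [CP.length_pst]; omega, CP.tb_pst_u hx⟩
  rwa [zero_add, hσ] at e

private theorem pa_dcv (h : c.Ok) (hσ : σ.length = M.ns q) {β : ℕ}
    (hS : c.Sees r 0 β b Bad 0 (c.pst (M.nR q) σ U V ε ε')) (hF : c.Few Bad b) {x : ℕ}
    (hx : x < M.nR q) : c.dc ε ε' r 0 β (M.vo q c x) = c.encT ε ε' (V x) b := by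
  have h1 := pa_le (show 2 * x + 1 < 2 * M.nR q by omega) c.ts
  have e := CP.dc_spec h hS hF (o := σ.length + (2 * x + 1) * c.ts) fun e =>
    ⟨by rw [CP.length_pst]; omega, CP.tb_pst_v hx⟩
  rwa [zero_add, hσ] at e

theorem decR_spec (h : c.Ok) (hσ : σ.length = M.ns q) {β : ℕ}
    (hS : c.Sees r 0 β b Bad 0 (c.pst (M.nR q) σ U V [] [])) (hF : c.Few Bad b) :
    M.decR q c r β = (List.range (M.nR q)).map fun x => c.encT [] [] (U x + V x) b := by
  refine List.map_congr_left fun x hx => ?_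
  rw [pa_dcu h hσ hS hF (List.mem_range.1 hx), pa_dcv h hσ hS hF (List.mem_range.1 hx),
    CP.addT_enc]

theorem gInit_spec (h : c.Ok) {side : ℕ} {A : St c.p c.k (M.nS q)} (cst : List (List ℕ))
    (hS : c.Sees r 0 0 a Bad (2 + side * (M.nS q * c.ts)) (c.encs A)) (hF : c.Few Bad a) :
    M.gInit q c side (c.tabs (M.nR q) cst (toN a)) r =
      c.pst (M.nR q) (M.start q cst A).1 (M.start q cst A).2 0 [] [] a := by
  refine congrArg (nrmS c.p (M.ns q) [] ++ ·) (List.flatMap_congr fun x hx => ?_)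
  have h1 := List.mem_range.1 hx
  refine congrArg₂ (· ++ ·) ?_ (CP.encT_zero _ _ _).symm
  change _ = c.encT [] [] (if h : x < M.nS q then A ⟨x, h⟩
    else if x < M.nR q then regL c.p c.k cst x else 0) a
  by_cases h2 : x < M.nS q
  · rw [if_pos h2, CP.dc_spec h hS hF fun e =>
      ⟨by rw [CP.length_encs]; exact pa_le h2 _, CP.tb_encs A e h2⟩, St.get, dif_pos h2, dif_pos h2]
  · rw [if_neg h2, dif_neg h2, if_pos h1, CP.tb_tabs h h1]

private theorem pa_bit {s j : ℕ} (h : bitN s j ≠ 1) : bitN s j = 0 := by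
  unfold bitN at h ⊢
  split_ifs at h ⊢
  · exact absurd rfl h
  · rfl

theorem gFlip_spec (h : c.Ok) (hσ : σ.length = M.ns q) {t n : ℕ} (hn : n < c.d + c.d')
    (hS : c.Sees r 0 0 a Bad 0
      (c.pst (M.nR q) σ U V (c.tw1 (M.bit q t) n) (c.tw2 (M.bit q t) n))) (hF : c.Few Bad a)
    (hS' : c.Sees r 0 1 (a + c.locv n) Bad 0
      (c.pst (M.nR q) σ U V (c.tw1 (M.bit q t) n) (c.tw2 (M.bit q t) n)))
    (hF' : c.Few Bad (a + c.locv n)) : M.gFlip q c t n r =
      c.pst (M.nR q) σ U V (c.tw1 (M.bit q t) (n + 1)) (c.tw2 (M.bit q t) (n + 1)) a := by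
  refine congrArg₂ (· ++ ·) (scal_spec h hσ hS hF) (List.flatMap_congr fun x hx => ?_)
  have h1 := List.mem_range.1 hx
  refine congrArg₂ (· ++ ·) (pa_dcu h hσ hS hF h1) ?_
  rw [flp, pa_dcv h hσ hS hF h1, pa_dcv h hσ hS' hF' h1]
  generalize M.bit q t = j
  by_cases h2 : n < c.d
  · have e2 : c.tw2 j (n + 1) = c.tw2 j n := List.map_congr_left fun i _ => by
      rw [if_neg (by omega), if_neg (by omega)]
    rw [if_pos h2, e2]
    split_ifs with h3
    · rw [CP.locv_row h2]
      refine CP.flipR_enc h h2 ?_ ?_ (fun i hi hne => ?_) a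
      · rw [CP.twF, h3, Nat.cast_one]
      · rw [CP.twF, CP.tw1, pa_getD _ h2, if_pos (by omega), Nat.cast_zero]
      · rw [CP.twF, CP.twF, CP.tw1, CP.tw1, pa_getD _ hi, pa_getD _ hi,
          if_congr (show i < n + 1 ↔ i < n by omega) rfl rfl]
    · rw [CP.tw1, pa_getD _ h2, if_neg (lt_irrefl n)] at h3
      have e1 : c.tw1 j (n + 1) = c.tw1 j n := List.map_congr_left fun i _ => by
        by_cases h4 : i = n
        · rw [h4, if_pos (by omega), if_neg (lt_irrefl n), pa_bit h3]
        · exact if_congr (by omega) rfl rfl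
      rw [e1]
  · have e1 : c.tw1 j (n + 1) = c.tw1 j n := List.map_congr_left fun i hi => by
      have := List.mem_range.1 hi
      rw [if_pos (by omega), if_pos (by omega)]
    obtain ⟨u, rfl⟩ := Nat.exists_eq_add_of_le (not_lt.1 h2)
    have hu : u < c.d' := by omega
    rw [if_neg h2, e1, Nat.add_sub_cancel_left]
    split_ifs with h3
    · rw [CP.locv_col]
      refine CP.flipC_enc h hu ?_ ?_ (fun i hi hne => ?_) a
      · rw [CP.twF, h3, Nat.cast_one]
      · rw [CP.twF, CP.tw2, pa_getD _ hu, if_pos (by omega), Nat.cast_zero]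
      · rw [CP.twF, CP.twF, CP.tw2, CP.tw2, pa_getD _ hi, pa_getD _ hi,
          if_congr (show c.d + i < c.d + u + 1 ↔ c.d + i < c.d + u by omega) rfl rfl]
    · rw [CP.tw2, pa_getD _ hu, if_neg (lt_irrefl _)] at h3
      have e2 : c.tw2 j (c.d + u + 1) = c.tw2 j (c.d + u) := List.map_congr_left fun i _ => by
        by_cases h4 : i = u
        · rw [h4, if_pos (by omega), if_neg (lt_irrefl _), pa_bit h3]
        · exact if_congr (by omega) rfl rfl
      rw [e2]

end LM

end Vale.Agent.P330Q
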