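import Vale.Agent.P330Q.PhysA

/-! The local step that performs a step of the machine (task PhysB).
Plan. `decR_spec` at both centres; `linT` of code tables is the table of the code of `evT`
(`enc_list`, `enc_cmul`, `enc_shift`, `eq_toTab`; registers from `nR` on vanish). The odd part:
`enc_twist` with `twF (tw1 j 0) i = b2 (bt (nb k S i) j)`. The flag: at a neighbour that is not bad
`test` is true iff `viol` (`regT_spec`, `encT_head`); if the flag is false no `viol` holds and the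
count is at most `d / 16`; otherwise it is at least `3 d / 16 - d / 16`. -/

namespace Vale.Agent.P330Q

open Vale.Agent.Lib.H23 Vale.Agent.P325 Vale.Agent.P330 Vale.Agent.P330.Amp Finset
open scoped BigOperators

theorem physb_count (d : ℕ) (f : ℕ → Bool) :
    (List.range d).countP f = ((range d).filter fun i => f i = true).card := by
  rw [List.countP_eq_length_filter]
  simp only [Finset.card, Finset.filter_val, Finset.range_val, Multiset.range, Multiset.filter_coe,
    Multiset.coe_card, Bool.decide_eq_true]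

theorem physb_bit (s j : ℕ) : ((bitN s j : ℕ) : ZMod 2) = b2 (s.testBit j) := by
  unfold bitN b2
  split_ifs <;> simp

theorem physb_tw {k : ℕ} {S : List ℕ} (lt : ∀ s ∈ S, s < 2 ^ k) (j : ℕ) {i : ℕ}
    (hi : i < S.length) : ((bitN (S.getD i 0) j : ℕ) : ZMod 2) = b2 (bt (nb k S i) j) := by
  have h : S.getD i 0 < 2 ^ k := by
    rw [List.getD_eq_getElem _ _ hi]
    exact lt _ (List.getElem_mem hi)
  rw [physb_bit, bt, nb, toN_ofN, Nat.mod_eq_of_lt h]

namespace CP

variable {c : CP} [Fact c.p.Prime]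

/-- the tables of all registers -/
def physb_D (c : CP) [Fact c.p.Prime] (n : ℕ) (Y : Regs c.p c.k) (b : Vec c.k) : List (List ℕ) :=
  (List.range n).map fun x => c.encT [] [] (Y x) b

theorem physb_getD {n : ℕ} {Y : Regs c.p c.k} (hi : ∀ x, n ≤ x → Y x = 0) (b : Vec c.k) (x : ℕ)
    {i : ℕ} (h : i < c.ts) : ((((c.physb_D n Y b).getD x []).getD i 0 : ℕ) : ZMod c.p) =
      c.encV 0 0 (Y x) b (i / (c.d' + 1) : ℕ) (i % (c.d' + 1) : ℕ) := by
  by_cases hx : x < n
  · have e : (c.physb_D n Y b).getD x [] = c.encT [] [] (Y x) b := by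
      simp [physb_D, List.getD_eq_getElem?_getD, hx]
    rw [e, encT, cast_toTab _ h, twF_nil]
  · have e : (c.physb_D n Y b).getD x [] = [] := by
      simp [physb_D, List.getD_eq_getElem?_getD, hx]
    rw [e, hi x (by omega)]
    have := enc_nil (c := c) (ε := 0) (ε' := 0) b
    exact (by simp : _ = (0 : ZMod c.p)).trans (congrFun (congrFun this _) _).symm

theorem physb_lin {n : ℕ} {Y : Regs c.p c.k} (hi : ∀ x, n ≤ x → Y x = 0) (a : Vec c.k) (j : ℕ)
    (l : List Tm) {i : ℕ} (h : i < c.ts) :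
    (((c.linT (c.physb_D n Y a) (c.physb_D n Y (a + ej c.k j)) l).getD i 0 : ℕ) : ZMod c.p) =
      c.encV 0 0 (evT j Y l) a (i / (c.d' + 1) : ℕ) (i % (c.d' + 1) : ℕ) := by
  have e : (c.linT (c.physb_D n Y a) (c.physb_D n Y (a + ej c.k j)) l).getD i 0 =
      summ c.p (l.map fun e => mulm c.p e.1 (((if e.2.2 then c.physb_D n Y (a + ej c.k j)
        else c.physb_D n Y a).getD e.2.1 []).getD i 0)) := by
    simp [linT, List.getD_eq_getElem?_getD, h]
  rw [e, cast_summ, List.map_map]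
  have e2 := enc_list (c := c) (ε := 0) (ε' := 0) l
    (fun m b => (m.1 : ZMod c.p) * Y m.2.1 (if m.2.2 then b + ej c.k j else b)) a
    (i / (c.d' + 1) : ℕ) (i % (c.d' + 1) : ℕ)
  refine Eq.trans ?_ e2.symm
  refine congrArg List.sum (List.map_congr_left fun m _ => ?_)
  rw [Function.comp_apply, cast_mulm, enc_cmul]
  congr 1
  rcases m with ⟨u, x, _ | _⟩
  · exact physb_getD hi a x h
  · exact (physb_getD hi _ x h).trans (by
      rw [← enc_shift]
      rfl)

theorem physb_even (h : c.Ok) (y z : Vec c.k → ZMod c.p) (a : Vec c.k) {t t' : List ℕ}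
    (ht : ∀ i < c.ts, ((t.getD i 0 : ℕ) : ZMod c.p) =
      c.encV 0 0 y a (i / (c.d' + 1) : ℕ) (i % (c.d' + 1) : ℕ))
    (ht' : ∀ i < c.ts, ((t'.getD i 0 : ℕ) : ZMod c.p) =
      c.encV 0 0 z a (i / (c.d' + 1) : ℕ) (i % (c.d' + 1) : ℕ)) :
    ((List.range c.ts).map fun n => divm c.p (addm c.p (t.getD n 0) (t'.getD n 0)) 2) =
      c.encT [] [] (fun b => (y b + z b) / 2) a := by
  have hp : 2 < c.p := by have := h.hd; omega
  refine eq_toTab (fun i _ => divm_lt (by omega) _ _) fun i hi => ?_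
  rw [cast_divm hp, cast_addm, ht i hi, ht' i hi, twF_nil, ← enc_add]
  simp only [div_eq_inv_mul]
  rw [enc_cmul, Nat.cast_ofNat]

theorem physb_odd (h : c.Ok) (lt : ∀ s ∈ c.S, s < 2 ^ c.k) (lt' : ∀ s ∈ c.S', s < 2 ^ c.k)
    (y z : Vec c.k → ZMod c.p) (a : Vec c.k) (j : ℕ) {t t' : List ℕ}
    (ht : ∀ i < c.ts, ((t.getD i 0 : ℕ) : ZMod c.p) =
      c.encV 0 0 y a (i / (c.d' + 1) : ℕ) (i % (c.d' + 1) : ℕ))
    (ht' : ∀ i < c.ts, ((t'.getD i 0 : ℕ) : ZMod c.p) =
      c.encV 0 0 z a (i / (c.d' + 1) : ℕ) (i % (c.d' + 1) : ℕ)) :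
    ((List.range c.ts).map fun n => mulm c.p (sgm c.p (bitN (toN a) j))
      (divm c.p (subm c.p (t.getD n 0) (t'.getD n 0)) 2)) =
      c.encT (c.tw1 j 0) (c.tw2 j 0) (fun b => sg (b2 (bt b j)) * ((y b - z b) / 2)) a := by
  have hp : 2 < c.p := by have := h.hd; omega
  refine eq_toTab (fun i _ => mulm_lt (by omega) _ _) fun i hi => ?_
  have e1 : ∀ i < c.d, twF (c.tw1 j 0) i = b2 (bt (nb c.k c.S i) j) := by
    intro i hi
    rw [← physb_tw lt j hi]
    simp [twF, tw1, List.getD_eq_getElem?_getD, hi]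
  have e2 : ∀ i < c.d', twF (c.tw2 j 0) i = b2 (bt (nb c.k c.S' i) j) := by
    intro i hi
    rw [← physb_tw lt' j hi]
    simp [twF, tw2, List.getD_eq_getElem?_getD, hi]
  rw [enc_congr e1 e2, enc_twist, cast_mulm, cast_sgm_sg (by omega), physb_bit, cast_divm hp,
    cast_subm (by omega), ht i hi, ht' i hi]
  have e3 : (fun b => (y b - z b) / 2) = fun b => (2 : ZMod c.p)⁻¹ * (y b + (-1) * z b) :=
    funext fun b => by ring
  rw [e3, enc_cmul, enc_add, enc_cmul, Nat.cast_ofNat, bt]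
  ring

end CP

namespace LM

variable {P : Type} {M : LM P} {q : P} {c : CP} [Fact c.p.Prime] {U V : Regs c.p c.k}
  {a : Vec c.k} {r : Inp} {Bad : Vec c.k → Prop} {t : ℕ} {s : Cfg c.p c.k}

theorem uP_add_vP (h : c.Ok) {x : ℕ} (hx : x < M.nR q) :
    M.uP q t s x + M.vP q t s x = (M.step q t s).2 x := by
  funext a
  have h2 := two_ne h.hd
  simp only [Pi.add_apply, uP, vP, step, if_pos hx]
  cases bt a (M.bit q t)
  · rw [show b2 false = 0 from rfl, sg_zero]
    field_simp
    ring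
  · rw [show b2 true = 1 from rfl, sg_one]
    field_simp
    ring

theorem viol_dens (h : c.Ok) (hf : M.flag q t s)
    (p2 : (∃ a, M.badT q t s a) → 1 / 4 ≤ 𝔼 a, ind (M.badT q t s a)) :
    1 / 4 ≤ 𝔼 a, ind (M.viol q c t s a) := by
  have mono : ∀ {Q : Vec c.k → Prop}, (∀ a, Q a → M.viol q c t s a) →
      (𝔼 a, ind (Q a)) ≤ 𝔼 a, ind (M.viol q c t s a) := by
    intro Q hQ
    have := dens_le (R := fun _ => False) fun a ha => Or.inl (hQ a ha)
    simpa [ind] using this
  rcases hf with ⟨x, hx, hne⟩ | hb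
  · refine (CP.dist h hne).trans (mono fun a ha => Or.inl ⟨x, hx, ?_⟩)
    rwa [CP.encT_zero] at ha
  · exact (p2 hb).trans (mono fun a ha => Or.inr ha)

theorem physb_reg (hσ : s.1.length = M.ns q) (hY : ∀ x < M.nR q, U x + V x = s.2 x)
    (hi : ∀ x, M.nR q ≤ x → s.2 x = 0) {w : List ℕ}
    (hw : tb w 0 (c.pst (M.nR q) s.1 U V [] [] a).length = c.pst (M.nR q) s.1 U V [] [] a)
    (x : ℕ) : M.regT q c w x = c.encT [] [] (s.2 x) a := by
  by_cases hx : x < M.nR q
  · rw [regT_spec hσ hw hx, hY x hx]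
  · rw [regT, if_neg hx, hi x (by omega), CP.encT_zero]

theorem physb_test (h : c.Ok) {w : List ℕ} (hw : ∀ x, M.regT q c w x = c.encT [] [] (s.2 x) a) :
    M.test q c t s.1 w = true ↔ M.viol q c t s a := by
  have e : ∀ x y z : ZMod c.p, x.val ≠ mulm c.p y.val z.val ↔ x ≠ y * z := by
    intro x y z
    rw [mulm, ← ZMod.val_mul]
    exact (ZMod.val_injective c.p).ne_iff
  simp only [test, viol, badT, hw, CP.encT_head h, Bool.or_eq_true, List.any_eq_true, eqN,
    Bool.not_eq_true', decide_eq_false_iff_not, decide_eq_true_eq, e, ne_eq]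

theorem physb_flag (hv : M.viol q c t s a) : M.flag q t s := by
  rcases hv with ⟨x, hx, hne⟩ | hb
  · exact Or.inl ⟨x, hx, fun e => hne (by rw [e, CP.encT_zero])⟩
  · exact Or.inr ⟨a, hb⟩

open Classical in
theorem physb_flagN (h : c.Ok) (hσ : s.1.length = M.ns q) (hY : ∀ x < M.nR q, U x + V x = s.2 x)
    (hi : ∀ x, M.nR q ≤ x → s.2 x = 0)
    (hS : c.Sees r 0 0 a Bad 0 (c.pst (M.nR q) s.1 U V [] [])) (hF : c.Few Bad a)
    (hf : M.flag q t s → 3 / 16 ≤ avS c.S (fun b => ind (M.viol q c t s b)) a) :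
    M.flagN q c t r = decide (M.flag q t s) := by
  have key : ∀ i < c.d, ¬ Bad (a + nb c.k c.S i) →
      (M.test q c t s.1 (c.nbw r 0 0 i) = true ↔ M.viol q c t s (a + nb c.k c.S i)) := by
    intro i hi' hb
    have := hS i (by unfold CP.m; omega) (by rwa [CP.locv_row hi'])
    rw [CP.locv_row hi'] at this
    exact physb_test h (physb_reg hσ hY hi this)
  have d16 := h.d16
  have h1 := hF.1
  rw [flagN, scal_spec h hσ hS hF, physb_count, decide_eq_decide]
  constructor
  · intro hc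
    by_contra hn
    have : ((range c.d).filter fun i => M.test q c t s.1 (c.nbw r 0 0 i) = true).card ≤
        ((range c.d).filter fun i => Bad (a + nb c.k c.S i)).card := by
      refine card_le_card fun i hi' => ?_
      rw [mem_filter] at hi' ⊢
      refine ⟨hi'.1, ?_⟩
      by_contra hb
      exact hn (physb_flag ((key i (mem_range.1 hi'.1) hb).1 hi'.2))
    omega
  · intro hfl
    have h2 := hf hfl
    rw [avS_ind h.bias.1, div_le_div_iff₀ (by norm_num)
      (by exact_mod_cast (by omega : 0 < c.d))] at h2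
    have h3 : 3 * c.d ≤
        ((range c.d).filter fun i => M.viol q c t s (a + nb c.k c.S i)).card * 16 := by
      exact_mod_cast h2
    have : ((range c.d).filter fun i => M.viol q c t s (a + nb c.k c.S i)).card ≤
        ((range c.d).filter fun i => M.test q c t s.1 (c.nbw r 0 0 i) = true).card +
        ((range c.d).filter fun i => Bad (a + nb c.k c.S i)).card := by
      refine le_trans (card_le_card fun i hi' => ?_) (card_union_le _ _)
      rw [mem_filter] at hi'
      rw [mem_union, mem_filter, mem_filter]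
      by_cases hb : Bad (a + nb c.k c.S i)
      · exact Or.inr ⟨hi'.1, hb⟩
      · exact Or.inl ⟨hi'.1, (key i (mem_range.1 hi'.1) hb).2 hi'.2⟩
    omega

theorem gOp_spec (h : c.Ok) (lt : ∀ s ∈ c.S, s < 2 ^ c.k) (lt' : ∀ s ∈ c.S', s < 2 ^ c.k)
    (hσ : s.1.length = M.ns q) (hY : ∀ x < M.nR q, U x + V x = s.2 x)
    (hi : ∀ x, M.nR q ≤ x → s.2 x = 0)
    (hS : c.Sees r 0 0 a Bad 0 (c.pst (M.nR q) s.1 U V [] [])) (hF : c.Few Bad a)
    (hS' : c.Sees r 0 1 (a + ej c.k (M.bit q t)) Bad 0 (c.pst (M.nR q) s.1 U V [] []))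
    (hF' : c.Few Bad (a + ej c.k (M.bit q t)))
    (hf : M.flag q t s → 3 / 16 ≤ avS c.S (fun b => ind (M.viol q c t s b)) a)
    (p1 : M.newS q t s a = M.newS q t s 0) :
    M.gOp q c t (toN a) r = c.pst (M.nR q) (M.step q t s).1 (M.uP q t s) (M.vP q t s)
      (c.tw1 (M.bit q t) 0) (c.tw2 (M.bit q t) 0) a := by
  have dD : ∀ b, ((List.range (M.nR q)).map fun x => c.encT [] [] (U x + V x) b) =
      c.physb_D (M.nR q) s.2 b :=
    fun b => List.map_congr_left fun x hx => by rw [hY x (List.mem_range.1 hx)]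
  have d0 : M.decR q c r 0 = c.physb_D (M.nR q) s.2 a := (decR_spec h hσ hS hF).trans (dD _)
  have d1 : M.decR q c r 1 = c.physb_D (M.nR q) s.2 (a + ej c.k (M.bit q t)) :=
    (decR_spec h hσ hS' hF').trans (dD _)
  have hs := scal_spec h hσ hS hF
  have hc : ∀ x b, ∀ i < c.ts, (((M.comb q c t r x b).getD i 0 : ℕ) : ZMod c.p) =
      c.encV 0 0 (evT (M.bit q t) s.2 (M.tm q t s.1 x b)) a (i / (c.d' + 1) : ℕ)
        (i % (c.d' + 1) : ℕ) := by
    intro x b i hi'
    rw [comb, d0, d1, hs]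
    exact CP.physb_lin hi a _ _ hi'
  have hh : ((M.decR q c r 0).map fun T => T.getD 0 0) =
      (List.range (M.nR q)).map fun x => (s.2 x a).val := by
    rw [d0, CP.physb_D, List.map_map]
    exact List.map_congr_left fun x _ => CP.encT_head h _ _ _ _
  rw [gOp, CP.pst, hs, hh, physb_flagN h hσ hY hi hS hF hf]
  refine congrArg₂ _ p1 (List.flatMap_congr fun x _ => ?_)
  rw [CP.physb_even h _ _ a (hc x false) (hc x true),
    CP.physb_odd h lt lt' _ _ a _ (hc x false) (hc x true)]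
  rfl

end LM

end Vale.Agent.P330Q
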