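import Vale.Agent.P330Q.PhysB

/-! A thread computes the run of the machine at most processors (task PhysC).
Plan. Let `tgt u a` be the intended words after the round `1 + side * R + u`: for `u = 0` the
`pst` of the start, for `u = 1 + t * m + n` (`n ≤ d + d'`) the `pst` of `(run (t + 1)).1`, `uP`, `vP`
with the twists `tw1 j n`, `tw2 j n`. Let `Bad u a` say that some reading `ρ` has
`tb (word ρ) 0 len ≠ tgt u a`, and `μ u` be its density. By `out_eq` and the three local lemmas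
`Bad (u + 1) a` implies: `a` is not good, or `Few (Bad u)` fails at one of the two centres, or (only
for the rounds with `n = 0`, if the flag is raised) the sampling of `viol` fails at `a` (`tail2` with
`s = 1/16`, density `≤ 2 ^ (-9)`). So `μ (u + 1) ≤ μ u / 32 + f + 2 ^ (-9)`, all `μ u ≤ 1/32`, and the
last `d + d'` rounds have `μ (u + 1) ≤ μ u / 2 + f`. -/

namespace Vale.Agent.P330Q

open Vale.Agent.Lib.H23 Vale.Agent.P325 Vale.Agent.P330 Vale.Agent.P330.Amp Finset
open scoped BigOperators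

open Classical in
theorem physc_tail {k : ℕ} {S : List ℕ} (h : Bias k S (1 / 2 ^ 17)) {Bad : Vec k → Prop}
    (hB : (𝔼 a, ind (Bad a)) ≤ 1 / 32) :
    (𝔼 a, ind (¬ 16 * ((range S.length).filter fun i => Bad (a + nb k S i)).card ≤ S.length)) ≤
      (𝔼 a, ind (Bad a)) / 128 := by
  have h1 := tail1 h (by positivity) (φ := fun a => ind (Bad a))
    (fun a => ⟨ind_nonneg _, ind_le_one _⟩) (s := 1 / 16) (by norm_num) (by linarith)
  refine (expect_le_expect fun a _ => ind_mono fun ha => ?_).trans (h1.trans_eq (by ring))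
  have h2 : (0 : ℝ) < S.length := Nat.cast_pos.2 (List.length_pos_iff.2 h.1)
  have h3 : (S.length : ℝ) ≤ 16 * ((range S.length).filter fun i => Bad (a + nb k S i)).card := by
    exact_mod_cast (not_le.1 ha).le
  rw [avS_ind h.1, le_div_iff₀ h2]
  linarith

theorem physc_ej (k j : ℕ) : ofN k (2 ^ min j k) = ej k j := by
  funext i
  have := i.2
  simp only [ej, ofN, Nat.testBit_two_pow]
  exact congrArg b2 (decide_eq_decide.2 (by omega))

theorem CP.few_dens {c : CP} [Fact c.p.Prime] (h : c.Ok) {Bad : Vec c.k → Prop}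
    (hB : (𝔼 a, ind (Bad a)) ≤ 1 / 32) :
    (𝔼 a, ind (¬ c.Few Bad a)) ≤ (𝔼 a, ind (Bad a)) / 64 := by
  have h1 := physc_tail (h.bias.mono (e' := 1 / 2 ^ 17) (one_div_le_one_div_of_le (by positivity)
    (le_mul_of_one_le_right (by positivity) (le_add_of_nonneg_right (Nat.cast_nonneg _))))) hB
  have h2 := physc_tail h.bias' hB
  refine (dens_le fun a ha => ?_).trans ((add_le_add h1 h2).trans_eq (by ring))
  exact not_and_or.1 ha

namespace FD

variable {P : Type} {F : FD P} {M : LM P} [Fact F.c.p.Prime] {Y : F.Sys M}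

/-- the centres of the blocks -/
def cenv (F : FD P) (M : LM P) (t β : ℕ) : Vec F.c.k :=
  if β = 0 then 0 else if β = 1 then ofN _ (M.cen F.q F.c t) else nb F.c.k F.S2 (β - 2)

theorem adm_mem {t : ℕ} {a : Vec F.c.k} {r : Inp} (h : (F.net M).Adm Y.S t a r) {s β i : ℕ}
    (hs : s < 3) (hβ : β < F.d2 + 2) (hi : i < F.c.m) :
    rdg r s (β * F.c.m + i) ∈ Y.S ((F.net M).src t s) (a + F.cenv M t β + F.c.locv i) := by
  have h1 := (h.2 s hs).2 (β * F.c.m + i) (codea_lt hβ hi)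
  simp only [codea_div β hi, codea_mod β hi, ofN_xor] at h1
  rw [add_assoc]
  refine cast (congrArg (fun v => _ ∈ Y.S _ (a + (v + _))) ?_) h1
  unfold cenv
  split_ifs
  · exact ofN_zero _
  · rfl
  · rfl

theorem adm_ex (t : ℕ) (a : Vec F.c.k) : ∃ r, (F.net M).Adm Y.S t a r := by
  choose ρ hρ using Y.ne
  refine ⟨(List.range 3).map fun s => (List.range (F.net M).d).map fun l =>
    ρ ((F.net M).src t s) (a + ofN _ ((F.net M).V t l)), by simp, fun s hs => ⟨?_, fun l hl => ?_⟩⟩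
  · simp [List.getD_eq_getElem?_getD, List.getElem?_range hs]
  · simpa only [rdg, List.getD_eq_getElem?_getD, List.getElem?_map, List.getElem?_range hs,
      List.getElem?_range hl, Option.map_some, Option.getD_some] using hρ _ _

/-- a part of the output that does not depend on the readings is seen at all levels -/
theorem out_eq {t : ℕ} (ht : t < 2 * F.R M + 1) {a : Vec F.c.k} (ha : Y.good a) {off : ℕ}
    {L : List ℕ} (hw : off + L.length ≤ (F.net M).w) (hL : ∀ x ∈ L, x < F.c.p)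
    (h : ∀ r, (F.net M).Adm Y.S t a r →
      tb (M.gT F.q F.c t (toN a) F.th (F.labT M (toN a)) r) off L.length = L) :
    ∀ ρ ∈ Y.S t a, ∀ j < 64, tb (ρ.getD j []) off L.length = L := by
  intro ρ hρ j hj
  refine (tb_congr fun i hi => ?_).trans (tb_self L)
  rw [zero_add]
  refine Y.hf t ht a ha (off + i) (by omega) _ ?_ (fun r hr => ?_) ρ hρ j hj
  · rw [List.getD_eq_getElem _ _ hi]
    exact (hL _ (List.getElem_mem hi)).trans (Nat.lt_size_self _)
  · exact (getD_tb _ off hi).symm.trans (congrArg (fun l => List.getD l i 0) (h r hr))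

/-- some reading of the round `t` does not start with the words `L` -/
def physcB (Y : F.Sys M) (t : ℕ) (L : Vec F.c.k → List ℕ) (a : Vec F.c.k) : Prop :=
  ¬ ∀ ρ ∈ Y.S t a, tb (word ρ) 0 (L a).length = L a

theorem physc_sees {t : ℕ} {a : Vec F.c.k} {r : Inp} (h : (F.net M).Adm Y.S t a r) {β : ℕ}
    (hβ : β < 2) {τ : ℕ} (hτ : (F.net M).src t 0 = τ) (L : Vec F.c.k → List ℕ) :
    F.c.Sees r 0 β (a + F.cenv M t β) (physcB Y τ L) 0 L := fun _ hi hb =>
  not_not.1 hb _ (hτ ▸ adm_mem h (by norm_num) (by omega) hi)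

theorem physc_step (h : F.Ok M) {t : ℕ} (ht : t < 2 * F.R M + 1) {σ ε ε' : List ℕ}
    {U V : Regs F.c.p F.c.k} (hσ : σ.length = M.ns F.q) (hp : ∀ x ∈ σ, x < F.c.p)
    {B E : Vec F.c.k → Prop} (hB : (𝔼 a, ind (B a)) ≤ 1 / 32) (v : Vec F.c.k)
    (hg : ∀ a r, (F.net M).Adm Y.S t a r → F.c.Few B a → F.c.Few B (a + v) → ¬ E a →
      M.gT F.q F.c t (toN a) F.th (F.labT M (toN a)) r = F.c.pst (M.nR F.q) σ U V ε ε' a) :
    (𝔼 a, ind (physcB Y t (F.c.pst (M.nR F.q) σ U V ε ε') a)) ≤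
      flt Y + ((𝔼 a, ind (B a)) / 32 + 𝔼 a, ind (E a)) := by
  have h1 := CP.few_dens h.c hB
  have h2 := dens_shift (fun a => ¬ F.c.Few B a) v
  have h3 := dens_le (P := fun a => ¬ F.c.Few B (a + v) ∨ E a) fun _ h => h
  have h4 := dens_le (P := fun a => ¬ F.c.Few B a ∨ ¬ F.c.Few B (a + v) ∨ E a) fun _ h => h
  refine (dens_le (Q := fun a => ¬ Y.good a)
    (R := fun a => ¬ F.c.Few B a ∨ ¬ F.c.Few B (a + v) ∨ E a) fun a ha => ?_).trans
    (add_le_add le_rfl (by linarith))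
  by_contra hc
  simp only [not_or, not_not] at hc
  refine ha fun ρ hρ => out_eq ht hc.1 ?_ (CP.pst_lt hp) (fun r hr => ?_) ρ hρ 2 (by norm_num)
  · rw [CP.length_pst, hσ]
    change _ ≤ M.ns F.q + 2 * M.nR F.q * F.c.ts + 2 + 2 * (F.nS M * F.c.ts)
    omega
  · rw [hg a r hr hc.2.1 hc.2.2.1 hc.2.2.2, tb_self]

omit [Fact F.c.p.Prime] in
theorem physc_lt {t n : ℕ} (ht : t < M.len F.q) (hn : n < F.c.m) : t * F.c.m + n + 1 < F.R M := by
  have := codea_lt ht hn
  unfold R LM.R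
  omega

omit [Fact F.c.p.Prime] in
theorem physc_lt2 {side u : ℕ} (hs : side < 2) (hu : u < F.R M) :
    side * F.R M + u + 1 < 2 * F.R M + 1 := Nat.succ_lt_succ (codea_lt hs hu)

theorem physc_scal {A : F.St M} (t : ℕ) : ∀ x ∈ (M.run F.q F.cst A t).1, x < F.c.p :=
  LM.run_nrm (A := A) t ▸ nrmS_lt (Fact.out : F.c.p.Prime).pos _ _

theorem physc_init (h : F.Ok M) {side : ℕ} (hs : side < 2) {A : F.St M}
    (hA : (𝔼 b, ind (rawBad Y side A b)) ≤ 1 / 32) :
    (𝔼 a, ind (physcB Y (side * F.R M + 0 + 1) (F.c.pst (M.nR F.q) (M.run F.q F.cst A 0).1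
      (M.run F.q F.cst A 0).2 0 [] []) a)) ≤ flt Y + 1 / 1024 := by
  have h0 : 0 < F.R M := Nat.add_pos_left one_pos _
  refine (physc_step h (physc_lt2 hs h0) (LM.run_len 0) (physc_scal 0) hA 0 (E := fun _ => False)
    fun a r hr hF _ _ => ?_).trans (add_le_add le_rfl ?_)
  · have e : (F.net M).src (side * F.R M + 0 + 1) 0 = 0 := by
      simp only [Nat.add_sub_cancel, codea_mod side h0, if_neg (Nat.succ_ne_zero _), if_true]
    rw [LM.gT, if_neg (Nat.succ_ne_zero _), Nat.add_sub_cancel, if_pos (codea_mod side h0),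
      codea_div side h0]
    refine LM.gInit_spec h.c F.cst (fun i hi hb => ?_) hF
    have h1 := adm_mem hr (s := 0) (β := 0) (by norm_num) (by omega) hi
    rw [e, cenv, if_pos rfl, add_zero] at h1
    rw [CP.length_encs]
    exact not_not.1 hb _ h1
  · simp only [ind_of_not not_false, Fintype.expect_const]
    linarith

theorem physc_op (h : F.Ok M) {Fnd : List (List ℕ) → Prop} (hG : F.Good M Fnd) {side : ℕ}
    (hs : side < 2) {A : F.St M} {t : ℕ} (ht : t < M.len F.q) {U V : Regs F.c.p F.c.k}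
    (hY : ∀ x < M.nR F.q, U x + V x = (M.run F.q F.cst A t).2 x)
    (hB : (𝔼 a, ind (physcB Y (side * F.R M + t * F.c.m + 1)
      (F.c.pst (M.nR F.q) (M.run F.q F.cst A t).1 U V [] []) a)) ≤ 1 / 32) :
    (𝔼 a, ind (physcB Y (side * F.R M + (t * F.c.m + 0 + 1) + 1)
      (F.c.pst (M.nR F.q) (M.run F.q F.cst A (t + 1)).1 (M.uP F.q t (M.run F.q F.cst A t))
        (M.vP F.q t (M.run F.q F.cst A t)) (F.c.tw1 (M.bit F.q t) 0) (F.c.tw2 (M.bit F.q t) 0))
          a)) ≤ flt Y + (1 / 1024 + 1 / 512) := by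
  have hm : 0 < F.c.m := Nat.succ_pos _
  have h0 := physc_lt ht hm
  have h1 := tail2 (h.c.bias.mono (e' := 1 / 2 ^ 17) (one_div_le_one_div_of_le (by positivity)
    (le_mul_of_one_le_right (by positivity) (le_add_of_nonneg_right (Nat.cast_nonneg _)))))
    (by positivity) (φ := fun b => ind (M.viol F.q F.c t (M.run F.q F.cst A t) b))
    (fun a => ⟨ind_nonneg _, ind_le_one _⟩) (s := 1 / 16) (by norm_num)
  refine (physc_step h (physc_lt2 hs h0) (LM.run_len _) (physc_scal _) hB (ej _ (M.bit F.q t))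
    fun a r hr hF hF' hE => ?_).trans (add_le_add le_rfl (add_le_add (by linarith)
      (h1.trans_eq (by norm_num))))
  have e : (F.net M).src (side * F.R M + (t * F.c.m + 0 + 1) + 1) 0 =
      side * F.R M + t * F.c.m + 1 := by
    simp only [Nat.add_sub_cancel, codea_mod side h0, if_neg (Nat.succ_ne_zero _)]
    omega
  have s0 := physc_sees hr (β := 0) (by norm_num) e
    (F.c.pst (M.nR F.q) (M.run F.q F.cst A t).1 U V [] [])
  have s1 := physc_sees hr (β := 1) (by norm_num) e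
    (F.c.pst (M.nR F.q) (M.run F.q F.cst A t).1 U V [] [])
  rw [cenv, if_pos rfl, add_zero] at s0
  rw [cenv, if_neg one_ne_zero, if_pos rfl, LM.cen, Nat.add_sub_cancel, codea_mod side h0,
    if_neg (not_or.2 ⟨Nat.succ_ne_zero _, Nat.succ_ne_zero _⟩), Nat.add_sub_cancel,
    if_pos (codea_mod t hm), codea_div t hm, physc_ej] at s1
  rw [LM.gT, if_neg (Nat.succ_ne_zero _), Nat.add_sub_cancel, codea_mod side h0,
    if_neg (Nat.succ_ne_zero _), Nat.add_sub_cancel, if_pos (codea_mod t hm), codea_div t hm]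
  refine LM.gOp_spec h.c h.lt h.lt' (LM.run_len _) hY
    (fun x hx => LM.run_hi (by have := hG.nR; omega) t hx) s0 hF s1 hF' (fun hf => ?_)
    (hG.p1 A t ht a)
  have h2 := LM.viol_dens h.c hf (hG.p2 A t ht)
  have h3 := (abs_lt.1 (not_le.1 hE)).1
  linarith

theorem physc_flip (h : F.Ok M) {side : ℕ} (hs : side < 2) {t : ℕ} (ht : t < M.len F.q) {n : ℕ}
    (hn : n < F.c.d + F.c.d') {σ : List ℕ} (hσ : σ.length = M.ns F.q) (hp : ∀ x ∈ σ, x < F.c.p)
    {U V : Regs F.c.p F.c.k}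
    (hB : (𝔼 a, ind (physcB Y (side * F.R M + (t * F.c.m + n + 1) + 1) (F.c.pst (M.nR F.q) σ U V
      (F.c.tw1 (M.bit F.q t) n) (F.c.tw2 (M.bit F.q t) n)) a)) ≤ 1 / 32) :
    (𝔼 a, ind (physcB Y (side * F.R M + (t * F.c.m + (n + 1) + 1) + 1) (F.c.pst (M.nR F.q) σ U V
      (F.c.tw1 (M.bit F.q t) (n + 1)) (F.c.tw2 (M.bit F.q t) (n + 1))) a)) ≤
    flt Y + (𝔼 a, ind (physcB Y (side * F.R M + (t * F.c.m + n + 1) + 1) (F.c.pst (M.nR F.q) σ U V
      (F.c.tw1 (M.bit F.q t) n) (F.c.tw2 (M.bit F.q t) n)) a)) / 32 := by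
  have hm : n + 1 < F.c.m := Nat.succ_lt_succ hn
  have h0 := physc_lt ht hm
  refine (physc_step h (physc_lt2 hs h0) hσ hp hB (F.c.locv n) (E := fun _ => False)
    fun a r hr hF hF' _ => ?_).trans_eq (by
      simp only [ind_of_not not_false, Fintype.expect_const, add_zero])
  have e : (F.net M).src (side * F.R M + (t * F.c.m + (n + 1) + 1) + 1) 0 =
      side * F.R M + (t * F.c.m + n + 1) + 1 := by
    simp only [Nat.add_sub_cancel, codea_mod side h0, if_neg (Nat.succ_ne_zero _)]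
    omega
  have s0 := physc_sees hr (β := 0) (by norm_num) e (F.c.pst (M.nR F.q) σ U V
    (F.c.tw1 (M.bit F.q t) n) (F.c.tw2 (M.bit F.q t) n))
  have s1 := physc_sees hr (β := 1) (by norm_num) e (F.c.pst (M.nR F.q) σ U V
    (F.c.tw1 (M.bit F.q t) n) (F.c.tw2 (M.bit F.q t) n))
  rw [cenv, if_pos rfl, add_zero] at s0
  rw [cenv, if_neg one_ne_zero, if_pos rfl, LM.cen, Nat.add_sub_cancel, codea_mod side h0,
    if_neg (not_or.2 ⟨Nat.succ_ne_zero _, Nat.succ_ne_zero _⟩), Nat.add_sub_cancel,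
    codea_mod t hm, if_neg (Nat.succ_ne_zero _), Nat.add_sub_cancel] at s1
  rw [LM.gT, if_neg (Nat.succ_ne_zero _), Nat.add_sub_cancel, codea_mod side h0,
    if_neg (Nat.succ_ne_zero _), Nat.add_sub_cancel, codea_mod t hm, if_neg (Nat.succ_ne_zero _),
    codea_div t hm, Nat.add_sub_cancel]
  exact LM.gFlip_spec h.c hσ hn s0 hF s1 hF'

theorem physc_run (h : F.Ok M) {Fnd : List (List ℕ) → Prop} (hG : F.Good M Fnd)
    (hf : flt Y ≤ 1 / 2 ^ 12) {side : ℕ} (hs : side < 2) {A : F.St M}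
    (hA : (𝔼 b, ind (rawBad Y side A b)) ≤ 1 / 32) : ∀ t ≤ M.len F.q,
    ∃ U V : Regs F.c.p F.c.k, (∀ x < M.nR F.q, U x + V x = (M.run F.q F.cst A t).2 x) ∧
      (𝔼 a, ind (physcB Y (side * F.R M + t * F.c.m + 1)
        (F.c.pst (M.nR F.q) (M.run F.q F.cst A t).1 U V [] []) a)) ≤ 1 / 32 ∧
      (1 ≤ t → (𝔼 a, ind (physcB Y (side * F.R M + t * F.c.m + 1)
        (F.c.pst (M.nR F.q) (M.run F.q F.cst A t).1 U V [] []) a)) ≤
          (1 / 2) ^ (F.c.d + F.c.d') + 2 * flt Y) := by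
  have h0 : 0 ≤ flt Y := expect_nonneg fun _ _ => ind_nonneg _
  intro t
  induction t with
  | zero =>
    refine fun _ => ⟨_, 0, fun x _ => add_zero _, ?_, fun h => absurd h (by norm_num)⟩
    rw [zero_mul]
    exact (physc_init h hs hA).trans (by linarith)
  | succ t ih =>
    intro ht
    obtain ⟨U, V, h1, h2, -⟩ := ih (Nat.le_of_succ_le ht)
    have key : ∀ n ≤ F.c.d + F.c.d', ∀ μ, μ = (𝔼 a, ind (physcB Y
        (side * F.R M + (t * F.c.m + n + 1) + 1) (F.c.pst (M.nR F.q) (M.run F.q F.cst A (t + 1)).1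
        (M.uP F.q t (M.run F.q F.cst A t)) (M.vP F.q t (M.run F.q F.cst A t))
        (F.c.tw1 (M.bit F.q t) n) (F.c.tw2 (M.bit F.q t) n)) a)) →
        μ ≤ 1 / 32 ∧ μ ≤ (1 / 2) ^ n + 2 * flt Y := by
      intro n
      induction n with
      | zero =>
        rintro - _ rfl
        have h3 := physc_op h hG hs ht h1 h2
        constructor <;> linarith
      | succ n ihn =>
        rintro hn _ rfl
        obtain ⟨h3, h4⟩ := ihn (Nat.le_of_succ_le hn) _ rfl
        have h5 := physc_flip h hs ht hn (LM.run_len _) (physc_scal _) h3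
        have h6 : (0 : ℝ) ≤ (1 / 2) ^ n := by positivity
        rw [pow_succ]
        constructor <;> linarith
    have h3 := key _ le_rfl _ rfl
    have e : t * F.c.m + (F.c.d + F.c.d') + 1 = (t + 1) * F.c.m := by
      rw [add_one_mul, add_assoc]
      rfl
    rw [CP.pst_tw, e] at h3
    exact ⟨_, _, fun x hx => LM.uP_add_vP h.c hx, h3.1, fun _ => h3.2⟩

theorem thread (h : F.Ok M) {Fnd : List (List ℕ) → Prop} (hG : F.Good M Fnd)
    (hf : flt Y ≤ 1 / 2 ^ 12) {side : ℕ} (hs : side < 2) {A : F.St M}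
    (hA : (𝔼 b, ind (rawBad Y side A b)) ≤ 1 / 32) :
    (𝔼 b, ind (¬ HoldT Y side A b)) ≤ (1 / 2) ^ (F.c.d + F.c.d') + 2 * flt Y := by
  obtain ⟨U, V, h1, -, h2⟩ := physc_run h hG hf hs hA (M.len F.q) le_rfl
  refine (expect_le_expect fun b _ => ind_mono fun hb hc => hb fun ρ hρ e he => ?_).trans (h2 hG.len)
  have e1 : (side + 1) * F.R M = side * F.R M + M.len F.q * F.c.m + 1 := by
    rw [add_one_mul, add_assoc, add_comm (M.len F.q * F.c.m)]
    rfl
  have h3 := hG.nR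
  refine List.flatMap_congr fun x hx => ?_
  have hx' : x < M.nS F.q := List.mem_range.1 hx
  have h4 : e * F.nS M + x < M.nR F.q := (codea_lt he hx').trans_le h3
  rw [LM.regT_spec (LM.run_len _) (hc ρ (e1 ▸ hρ)) h4, h1 _ h4, St.get, dif_pos hx']
  rfl

end FD

end Vale.Agent.P330Q
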