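import Vale.Agent.P330Q.Phys
import Vale.Agent.P330Q.Dec

/-! Polynomial time of the pieces of the local function (helper file of task PhysPT). -/

namespace Vale.Agent.P330Q

open Vale.Agent.Lib.H23 Vale.Agent.P333 Vale.Agent.P325 Vale.Agent.P330 Vale.Agent.P330.Amp

variable {P : Type} [Enc P] {M : LM P} {X : Type} [Enc X]

attribute [local fun_prop] PU

section
variable {Y : Type} [Enc Y]
theorem ph_comp {f : Y → ℕ} {g : X → Y} (hf : PU f) (hg : PT g) :
    PU fun x => f (g x) := hf.comp hg
theorem ph_const (c : ℕ) : PU fun _ : X => c := PU.const c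
theorem ph_ite {p : X → Prop} {ip : ∀ x, Decidable (p x)} {f g : X → Y}
    (hp : PT fun x => @decide (p x) (ip x)) (hf : PT f) (hg : PT g) :
    PT fun x => @ite _ (p x) (ip x) (f x) (g x) := pt_ite hp hf hg
theorem ph_or {p q : X → Prop} {ip : ∀ x, Decidable (p x)} {iq : ∀ x, Decidable (q x)}
    (hp : PT fun x => @decide (p x) (ip x)) (hq : PT fun x => @decide (q x) (iq x)) :
    PT fun x => @decide (p x ∨ q x) (@instDecidableOr _ _ (ip x) (iq x)) :=
  (hp.or hq).congr fun _ => Bool.decide_or ..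
theorem ph_true {b : X → Bool} (hb : PT b) : PT fun x => decide (b x = true) :=
  hb.congr fun _ => Bool.decide_eq_true
theorem ph_ne {f g : X → ℕ} (hf : PT f) (hg : PT g) : PT fun z => decide (f z ≠ g z) :=
  (pt_decEq hf hg).not.congr fun z => by simp
theorem ph_sub {f g : X → ℕ} (hf : PU f) (hg : PT g) : PU fun z => f z - g z :=
  hf.of_le (hf.pt.sub hg) fun _ => Nat.sub_le _ _
theorem ph_sz {f : X → Y} (hf : PT f) : PU fun x => sz (f x) :=
  PU.of_len (PT.comp PT.szUnary (PT.comp (PT.retag (f := fun y : Y => (Enc.enc y : Tr))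
    fun _ => rfl) hf)) fun x => by simp [sz]
end

attribute [local fun_prop] ph_comp ph_const PU.add PU.mul PU.len PU.range PU.pt CP.pu_ts pt_tb
  ph_ite ph_or ph_true ph_ne ph_sub ph_sz pt_decEq pt_decLt pt_decLe pt_countP

section
variable {c : X → CP} {r : X → Inp} {s β g off n i j d th t a : X → ℕ} {ρ : X → Rd}
  {ε ε' σ w : X → List ℕ} {L T : X → List (List ℕ)} {q : X → P} {b b' : X → Bool}

@[local fun_prop] theorem ph_word (hρ : PT ρ) : PT fun x => word (ρ x) := by
  unfold word; fun_prop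

@[local fun_prop] theorem ph_maj (hL : PT L) : PT fun x => maj (L x) := by
  unfold maj; fun_prop

@[local fun_prop] theorem ph_bitN (hs : PT s) (hj : PT j) :
    PT fun x => bitN (s x) (j x) := by
  unfold bitN; fun_prop

@[local fun_prop] theorem ph_m (hc : PT c) : PU fun x => (c x).m := by
  unfold CP.m; fun_prop

@[local fun_prop] theorem ph_m' (hc : PT c) : PT fun x => (c x).m := (ph_m hc).pt

@[local fun_prop] theorem ph_loc (hc : PT c) (hg : PT g) :
    PT fun x => (c x).loc (g x) := by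
  unfold CP.loc; fun_prop

@[local fun_prop] theorem ph_rdg (hr : PT r) (hs : PT s) (hg : PT g) :
    PT fun x => rdg (r x) (s x) (g x) := by
  unfold rdg; fun_prop

@[local fun_prop] theorem ph_lev (hρ : PT ρ) (hs : PT s) : PT fun x => lev (ρ x) (s x) := by
  unfold lev wd; fun_prop

@[local fun_prop] theorem ph_nrmS (hs : PT s) (hn : PU n) (hw : PT w) :
    PT fun x => nrmS (s x) (n x) (w x) := by
  unfold nrmS; fun_prop

@[local fun_prop] theorem ph_nbw (hc : PT c) (hr : PT r) (hs : PT s) (hβ : PT β)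
    (hg : PT g) : PT fun x => (c x).nbw (r x) (s x) (β x) (g x) := by
  unfold CP.nbw; fun_prop

@[local fun_prop] theorem ph_dc (hc : PT c) (h1 : PT ε) (h2 : PT ε') (hr : PT r)
    (hs : PT s) (hβ : PT β) (hh : PT off) :
    PT fun x => (c x).dc (ε x) (ε' x) (r x) (s x) (β x) (off x) := by
  unfold CP.dc; fun_prop

@[local fun_prop] theorem ph_zT (hc : PT c) : PT fun x => (c x).zT := by
  unfold CP.zT; fun_prop

@[local fun_prop] theorem ph_addT (hc : PT c) (h1 : PT ε) (h2 : PT ε') :
    PT fun x => (c x).addT (ε x) (ε' x) := by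
  unfold CP.addT; fun_prop

@[local fun_prop] theorem ph_linT {l : X → List Tm} (hc : PT c) (h1 : PT L) (h2 : PT T)
    (hl : PT l) : PT fun x => (c x).linT (L x) (T x) (l x) := by
  unfold CP.linT; fun_prop

@[local fun_prop] theorem ph_tw1 (hc : PT c) (hj : PT j) (hn : PT n) :
    PT fun x => (c x).tw1 (j x) (n x) := by
  unfold CP.tw1; fun_prop

@[local fun_prop] theorem ph_tw2 (hc : PT c) (hj : PT j) (hn : PT n) :
    PT fun x => (c x).tw2 (j x) (n x) := by
  unfold CP.tw2; fun_prop

theorem ph_tabs (hc : PT c) (hk : PU fun x => 2 ^ (c x).k) (hn : PU n) (hL : PT L)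
    (ha : PT a) : PT fun x => (c x).tabs (n x) (L x) (a x) :=
  pt_flatMap (f := fun x y => (c x).encN ((L x).getD y []) (a x))
    (CP.pt_encN (hc.comp PT.fst') (hk.comp PT.fst') (by fun_prop) (by fun_prop)) hn.range

@[local fun_prop] theorem ph_seg (hc : PT c) (hn : PU n) (hρ : PT ρ) (hj : PT j)
    (hs : PT s) : PT fun x => (c x).seg (n x) (ρ x) (j x) (s x) := by
  unfold CP.seg; fun_prop

@[local fun_prop] theorem ph_locB {W : X → List Rd} (hc : PT c) (hn : PU n) (hW : PT W)
    (hi : PT i) (hj : PT j) (hs : PT s) :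
    PT fun x => (c x).locB (n x) (W x) (i x) (j x) (s x) := by
  unfold CP.locB; fun_prop

@[local fun_prop] theorem ph_blkR (hc : PT c) (hr : PT r) (hβ : PT β) :
    PT fun x => (c x).blkR (r x) (β x) := by
  unfold CP.blkR; fun_prop

@[local fun_prop] theorem ph_fails (hc : PT c) (hn : PU n) (hd : PU d) (hr : PT r)
    (hi : PT i) (hj : PT j) (hs : PT s) :
    PT fun x => (c x).fails (n x) (d x) (r x) (i x) (j x) (s x) := by
  unfold CP.fails; fun_prop

@[local fun_prop] theorem ph_strict (hc : PT c) (hn : PU n) (hd : PU d) (ht : PT th)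
    (hr : PT r) (hs : PT s) : PT fun x => (c x).strict (n x) (d x) (th x) (r x) (s x) := by
  have := hd.pt
  unfold CP.strict; fun_prop

@[local fun_prop] theorem ph_lax (hc : PT c) (hn : PU n) (hd : PU d) (ht : PT th)
    (hr : PT r) (hs : PT s) : PT fun x => (c x).lax (n x) (d x) (th x) (r x) (s x) := by
  have := hd.pt
  unfold CP.lax; fun_prop

@[local fun_prop] theorem ph_cell (hc : PT c) (hd : PU d) (hr : PT r) (hs : PT s) :
    PT fun x => (c x).cell (d x) (r x) (s x) := by
  have := hd.pt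
  unfold CP.cell; fun_prop

@[local fun_prop] theorem ph_eqF (hd : PU d) (h1 : PT L) (h2 : PT T) :
    PT fun x => eqF (d x) (L x) (T x) := by
  have := hd.pt
  unfold eqF; fun_prop

@[local fun_prop] theorem ph_zone (hi : PT i) (hj : PT j) :
    PT fun x => Hard.zone (i x) (j x) := by
  unfold Hard.zone Hard.cellv; fun_prop

@[local fun_prop] theorem ph_rawl (hs : PT s) (hg : PT g) (hi : PT i) (hj : PT j) :
    PT fun x => Hard.rawl (s x) (g x) (i x) (j x) := by
  unfold Hard.rawl Hard.cellv; fun_prop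

@[local fun_prop] theorem ph_clsB {e : X → List Bool} (hs : PT s) (h1 : PT b) (h2 : PT b')
    (he : PT e) : PT fun x => Grp.clsB (s x) (b x) (b' x) (e x) := by
  unfold Grp.clsB; fun_prop

@[local fun_prop] theorem ph_selA (hs : PT s) (h1 : PT ε) (h2 : PT ε') (h3 : PT σ)
    (h4 : PT w) : PT fun x => Grp.selA (s x) (ε x) (ε' x) (σ x) (w x) := by
  unfold Grp.selA; fun_prop

@[local fun_prop] theorem ph_selB (hs : PT s) (h1 : PT ε) (h2 : PT ε') (h3 : PT σ)
    (h4 : PT w) : PT fun x => Grp.selB (s x) (ε x) (ε' x) (σ x) (w x) := by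
  unfold Grp.selB; fun_prop

@[local fun_prop] theorem ph_zon (hc : PT c) (hT : PT T) (hr : PT r) :
    PT fun x => LM.zon (c x) (T x) (r x) := by
  unfold LM.zon; fun_prop

end

end Vale.Agent.P330Q
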