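import Vale.Agent.P330Q.PhysPTa

/-! Polynomial time of the pieces of the local function that depend on the machine (helper file of
task PhysPT). -/

namespace Vale.Agent.P330Q

open Vale.Agent.Lib.H23 Vale.Agent.P333 Vale.Agent.P325 Vale.Agent.P330 Vale.Agent.P330.Amp

variable {P : Type} [Enc P] {M : LM P} {X : Type} [Enc X]

attribute [local fun_prop] PU

attribute [local fun_prop] ph_comp ph_const PU.add PU.mul PU.len PU.range PU.pt CP.pu_ts pt_tb
  ph_ite ph_or ph_true ph_ne ph_sub ph_sz pt_decEq pt_decLt pt_decLe pt_countP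
  ph_word ph_maj ph_bitN ph_m ph_m' ph_loc ph_rdg ph_lev ph_nrmS ph_nbw ph_dc ph_zT ph_addT
  ph_linT ph_tw1 ph_tw2 ph_seg ph_locB ph_blkR ph_fails ph_strict ph_lax ph_cell ph_eqF ph_zone
  ph_rawl ph_clsB ph_selA ph_selB ph_zon

section
variable {c : X → CP} {r : X → Inp} {s β g off n i j d th t a : X → ℕ} {ρ : X → Rd}
  {ε ε' σ w : X → List ℕ} {L T : X → List (List ℕ)} {q : X → P} {b b' : X → Bool}

variable [h : Fact M.PTime]
include h

@[local fun_prop] theorem ph_len (hq : PT q) : PU fun x => M.len (q x) := h.out.len.comp hq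
@[local fun_prop] theorem ph_nR (hq : PT q) : PU fun x => M.nR (q x) := h.out.nR.comp hq
@[local fun_prop] theorem ph_nS (hq : PT q) : PU fun x => M.nS (q x) := h.out.nS.comp hq
@[local fun_prop] theorem ph_ns (hq : PT q) : PU fun x => M.ns (q x) := h.out.ns.comp hq
@[local fun_prop] theorem ph_nR' (hq : PT q) : PT fun x => M.nR (q x) := (ph_nR hq).pt
@[local fun_prop] theorem ph_nS' (hq : PT q) : PT fun x => M.nS (q x) := (ph_nS hq).pt
@[local fun_prop] theorem ph_ns' (hq : PT q) : PT fun x => M.ns (q x) := (ph_ns hq).pt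
@[local fun_prop] theorem ph_bit (hq : PT q) (ht : PT t) :
    PT fun x => M.bit (q x) (t x) := h.out.bit.comp (hq.pair ht)
@[local fun_prop] theorem ph_tm (hq : PT q) (ht : PT t) (hσ : PT σ) (hi : PT i)
    (hb : PT b) : PT fun x => M.tm (q x) (t x) (σ x) (i x) (b x) :=
  h.out.tm.comp ((hq.pair (ht.pair hσ)).pair (hi.pair hb))
@[local fun_prop] theorem ph_upd (hq : PT q) (ht : PT t) (hσ : PT σ) (hw : PT w)
    (hb : PT b) : PT fun x => M.upd (q x) (t x) (σ x) (w x) (b x) :=
  h.out.upd.comp ((hq.pair (ht.pair hσ)).pair (hw.pair hb))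
@[local fun_prop] theorem ph_zs (hq : PT q) (ht : PT t) (hσ : PT σ) :
    PT fun x => M.zs (q x) (t x) (σ x) := h.out.zs.comp (hq.pair (ht.pair hσ))
@[local fun_prop] theorem ph_ts (hq : PT q) (ht : PT t) (hσ : PT σ) :
    PT fun x => M.ts (q x) (t x) (σ x) := h.out.ts.comp (hq.pair (ht.pair hσ))

@[local fun_prop] theorem ph_uo (hq : PT q) (hc : PT c) (hi : PT i) :
    PT fun x => M.uo (q x) (c x) (i x) := by
  unfold LM.uo; fun_prop

@[local fun_prop] theorem ph_vo (hq : PT q) (hc : PT c) (hi : PT i) :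
    PT fun x => M.vo (q x) (c x) (i x) := by
  unfold LM.vo; fun_prop

@[local fun_prop] theorem ph_regT (hq : PT q) (hc : PT c) (hw : PT w) (hi : PT i) :
    PT fun x => M.regT (q x) (c x) (w x) (i x) := by
  unfold LM.regT; fun_prop

@[local fun_prop] theorem ph_stT (hq : PT q) (hc : PT c) (hw : PT w) (hi : PT i) :
    PT fun x => M.stT (q x) (c x) (w x) (i x) := by
  unfold LM.stT; fun_prop

@[local fun_prop] theorem ph_decR (hq : PT q) (hc : PT c) (hr : PT r) (hβ : PT β) :
    PT fun x => M.decR (q x) (c x) (r x) (β x) := by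
  unfold LM.decR; fun_prop

@[local fun_prop] theorem ph_scal (hq : PT q) (hc : PT c) (hr : PT r) :
    PT fun x => M.scal (q x) (c x) (r x) := by
  unfold LM.scal; fun_prop

@[local fun_prop] theorem ph_test (hq : PT q) (hc : PT c) (ht : PT t) (hσ : PT σ)
    (hw : PT w) : PT fun x => M.test (q x) (c x) (t x) (σ x) (w x) := by
  unfold LM.test; fun_prop

@[local fun_prop] theorem ph_flagN (hq : PT q) (hc : PT c) (ht : PT t) (hr : PT r) :
    PT fun x => M.flagN (q x) (c x) (t x) (r x) := by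
  unfold LM.flagN; fun_prop

@[local fun_prop] theorem ph_comb (hq : PT q) (hc : PT c) (ht : PT t) (hr : PT r)
    (hi : PT i) (hb : PT b) : PT fun x => M.comb (q x) (c x) (t x) (r x) (i x) (b x) := by
  unfold LM.comb; fun_prop

@[local fun_prop] theorem ph_gOp (hq : PT q) (hc : PT c) (ht : PT t) (ha : PT a)
    (hr : PT r) : PT fun x => M.gOp (q x) (c x) (t x) (a x) (r x) := by
  unfold LM.gOp; fun_prop

@[local fun_prop] theorem ph_flp (hq : PT q) (hc : PT c) (hj : PT j) (hn : PT n)
    (hr : PT r) (hi : PT i) : PT fun x => M.flp (q x) (c x) (j x) (n x) (r x) (i x) := by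
  unfold LM.flp; fun_prop

@[local fun_prop] theorem ph_gFlip (hq : PT q) (hc : PT c) (ht : PT t) (hn : PT n)
    (hr : PT r) : PT fun x => M.gFlip (q x) (c x) (t x) (n x) (r x) := by
  unfold LM.gFlip; fun_prop

@[local fun_prop] theorem ph_gInit (hq : PT q) (hc : PT c) (hs : PT s) (hw : PT w)
    (hr : PT r) : PT fun x => M.gInit (q x) (c x) (s x) (w x) (r x) := by
  unfold LM.gInit; fun_prop

@[local fun_prop] theorem ph_outs (hq : PT q) (hc : PT c) (hd : PU d) (hr : PT r)
    (hs : PT s) (hi : PT i) : PT fun x => M.outs (q x) (c x) (d x) (r x) (s x) (i x) := by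
  unfold LM.outs; fun_prop

@[local fun_prop] theorem ph_eqs (hq : PT q) (hc : PT c) (hT : PT T) (hr : PT r) :
    PT fun x => M.eqs (q x) (c x) (T x) (r x) := by
  unfold LM.eqs; fun_prop

@[local fun_prop] theorem ph_own (hq : PT q) (hc : PT c) (ht : PT th) (hT : PT T)
    (hr : PT r) (hs : PT s) (hi : PT i) (hw : PT w) :
    PT fun x => M.own (q x) (c x) (th x) (T x) (r x) (s x) (i x) (w x) := by
  unfold LM.own; fun_prop

@[local fun_prop] theorem ph_ctl (hq : PT q) (hc : PT c) (ht : PT th) (hT : PT T)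
    (hr : PT r) (hs : PT s) : PT fun x => M.ctl (q x) (c x) (th x) (T x) (r x) (s x) := by
  unfold LM.ctl; fun_prop

@[local fun_prop] theorem ph_gFin (hq : PT q) (hc : PT c) (ht : PT th) (hT : PT T)
    (hr : PT r) : PT fun x => M.gFin (q x) (c x) (th x) (T x) (r x) := by
  unfold LM.gFin; fun_prop

@[local fun_prop] theorem ph_R (hq : PT q) (hc : PT c) : PU fun x => M.R (q x) (c x) := by
  unfold LM.R; fun_prop

@[local fun_prop] theorem ph_R' (hq : PT q) (hc : PT c) : PT fun x => M.R (q x) (c x) :=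
  (ph_R hq hc).pt

@[local fun_prop] theorem ph_gT (hq : PT q) (hc : PT c) (ht : PT t) (ha : PT a)
    (hth : PT th) (hT : PT T) (hr : PT r) :
    PT fun x => M.gT (q x) (c x) (t x) (a x) (th x) (T x) (r x) := by
  unfold LM.gT; fun_prop

@[local fun_prop] theorem ph_cen (hq : PT q) (hc : PT c) (ht : PT t) :
    PT fun x => M.cen (q x) (c x) (t x) := by
  have h1 : PT fun x => 2 ^ min (M.bit (q x) (((t x - 1) % M.R (q x) (c x) - 1) / (c x).m))
      (c x).k := pt_two_pow ((CP.pu_k hc).of_le (by fun_prop) fun _ => min_le_right _ _)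
  unfold LM.cen
  exact ph_ite (by fun_prop) (PT.const 0) (ph_ite (by fun_prop) h1 (by fun_prop))

end

end Vale.Agent.P330Q
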