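import Vale.Agent.P330Q.Line
import Vale.Agent.P330Q.Kum
import Vale.Agent.P330Q.LM

/-! The program. A register has a name `(κ, i, x)`: kind `0` the state, `1`, `2` the outputs, `3` the
constants, `4` the layers of the routing, `5`, `6` auxiliary values, `7`, `8`, `9` the extensions of the
factors and of the products, `10`, `11`, `12` the tests of the shape, `13`, `14` cells that are read,
`15` to `22` the corrections. There are five blocks; each has a loading step, a sweep and three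
finishing steps. -/

namespace Vale.Agent.P330Q

open Vale.Agent.Lib.H23 Vale.Agent.P325 Vale.Agent.P330 Vale.Agent.P330.Amp Finset
open scoped BigOperators

structure PP where
  K : KP
  ko : ℕ
  n : ℕ
  jj : List ℕ

instance encPP : Enc PP := ⟨fun q => Enc.enc (q.K, List.range q.ko, q.n, q.jj)⟩

def keepT (r : ℕ) : List Tm := [(1, r, false)]
def two (α β r : ℕ) : List Tm := [(α, r, false), (β, r, true)]

namespace PP

variable (q : PP)

abbrev p : ℕ := q.K.p
abbrev k : ℕ := q.ko + 3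
abbrev H : ℕ := 2 ^ q.ko
abbrev L : ℕ := q.jj.length
abbrev Xn : ℕ := nX q.k
def Pn : ℕ := q.L + 16
def nS : ℕ := q.Pn * q.Xn
def Lb : ℕ := q.L + q.k + 4
def ns : ℕ := 6 + 2 * q.L
def nm (κ i x : ℕ) : ℕ := κ * q.nS + i * q.Xn + x
/-- the tape, the position, the constant one -/
def rY : ℕ := q.nm 0 (q.L + 2) 0
def rT : ℕ := q.nm 0 (q.L + 3) 0
def r1 : ℕ := q.nm 3 0 2
def m1 : ℕ := q.p - 1

/-- the rule number `e`, times `c` -/
def Et (e c : ℕ) : List Tm :=
  if e = 0 then [(c, q.nm 5 4 0, false), (c, q.nm 5 5 0, false), (c, q.nm 5 6 0, false),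
    (c, q.nm 5 7 0, false), (c, q.nm 5 8 0, false)]
  else if e = 1 then [(c, q.nm 5 2 0, false)] else [(c, q.nm 5 3 0, false)]

/-- the three positions that are tested -/
def thw (θ w : ℕ) : ℕ := if w = 0 then θ else mvp q.H θ (w - 1)

/-- the place where the second factor number `i` changes -/
def posG (σ : List ℕ) (w i : ℕ) : ℕ :=
  if i < q.L then σ.getD (6 + w * q.L + i) 0
  else if i = q.L then cel q.H (σ.getD 0 0) w ^^^ 1 else cel q.H (σ.getD 0 0) w

def load0 (κ i x : ℕ) : List Tm :=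
  if κ = 5 ∧ x = 0 ∧ i = 0 then keepT q.rT
  else if κ = 5 ∧ x = 0 ∧ i < 4 then keepT q.rY
  else if κ = 4 ∧ x = 0 ∧ i = 0 then keepT q.rY else keepT (q.nm κ i x)

def load2 (κ i x : ℕ) : List Tm :=
  if κ = 5 ∧ x = 0 ∧ (i = 4 ∨ i = 5) then keepT (q.nm 4 q.L 0)
  else if κ = 5 ∧ x = 0 ∧ i = 6 then keepT (q.nm 0 q.L 0)
  else if κ = 5 ∧ x = 0 ∧ i = 7 then
    [(1, q.rY, false), (1, q.nm 5 1 0, false), (q.m1, q.nm 0 q.L 0, false)]
  else if κ = 5 ∧ x = 0 ∧ i = 8 then [(1, q.r1, false), (q.m1, q.rY, false)]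
  else if κ = 7 ∧ x = 0 then keepT (if i < q.L then q.nm 3 i 0 else q.rY)
  else if κ = 8 ∧ x = 0 then
    keepT (if i < q.L then q.nm 4 i 0 else if i = q.L then q.nm 5 1 0 else q.rY)
  else if κ = 9 then keepT (q.nm 0 i x)
  else if (κ = 13 ∨ κ = 14) ∧ x = 0 then keepT (q.nm 3 i 1) else keepT (q.nm κ i x)

def load3 (σ : List ℕ) (κ i x : ℕ) : List Tm :=
  if κ = 7 ∨ κ = 8 then keepT (q.nm κ i 0)
  else if κ = 9 then (List.range (q.k + 1)).map fun e => (q.K.lam q.k e x, q.nm 9 i e, false)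
  else if κ = 6 ∧ x = 0 ∧ i < 3 then (1, q.rY, false) :: q.Et i q.m1
  else if κ = 6 ∧ x = 0 ∧ i = 4 then [(1, q.rT, false), (q.m1, q.nm 5 0 0, false)]
  else if κ = 6 ∧ x = 0 ∧ i = 5 then [(1, q.nm 0 (q.L + 1) 0, false), (q.m1, q.rY, false)]
  else if (κ = 10 ∨ κ = 11 ∨ κ = 12) ∧ x = 0 then (if i % 2 = 1 then keepT q.rY else [])
  else if (κ = 13 ∨ κ = 14) ∧ x = 1 then q.Et (eAct (ph q.H (σ.getD 0 0))) 1
  else keepT (q.nm κ i x)

def load4 (κ i x : ℕ) : List Tm :=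
  if κ = 15 ∨ κ = 19 then keepT (q.nm 7 i x)
  else if κ = 16 ∨ κ = 20 then keepT (q.nm 8 i x)
  else if κ = 17 ∨ κ = 18 ∨ κ = 21 ∨ κ = 22 then keepT q.r1 else keepT (q.nm κ i x)

def load (b : ℕ) (σ : List ℕ) (κ i x : ℕ) : List Tm :=
  if b = 0 then q.load0 κ i x else if b = 2 then q.load2 κ i x else if b = 3 then q.load3 σ κ i x
  else if b = 4 then q.load4 κ i x else keepT (q.nm κ i x)

/-- mask, value and shift for the registers `(5, i, 0)` -/
def msk (i : ℕ) : ℕ := if i < 4 then 0 else if i = 4 then q.H + 6 else if i = 5 then q.H else q.H + 7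
def mvl (i : ℕ) : ℕ :=
  if i < 4 then 0 else if i = 4 then q.H else if i = 5 then 0 else q.H + (i - 4)
def msh (i : ℕ) : ℕ :=
  if i = 1 then 1 else if i = 2 then 4 * q.H else if i = 3 then 2 * q.H
  else if i = 6 ∨ i = 7 then 2 else if i = 8 then 4 else 0

def shT (i j : ℕ) (b : Bool) : List Tm :=
  two (shA (q.msk i) (q.mvl i) (q.msh i) j b) (shB (q.msk i) (q.mvl i) (q.msh i) j b) (q.nm 5 i 0)

def sw0 (j κ i x : ℕ) (b : Bool) : List Tm :=
  if κ = 5 ∧ x = 0 ∧ i = 0 then two (rdA 0 j b) (rdB 0 j b) (q.nm κ i x)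
  else if κ = 5 ∧ x = 0 ∧ i < 4 then q.shT i j b else keepT (q.nm κ i x)

def sw1 (j κ i x : ℕ) : List Tm :=
  if κ = 4 ∧ x = 0 ∧ i = j + 1 ∧ j < q.L then
    [(1, q.nm 4 j 0, false), (q.m1, q.nm 0 j 0, false), (1, q.nm 0 j 0, true)]
  else keepT (q.nm κ i x)

def rdT (σ : List ℕ) (j κ i x : ℕ) (b : Bool) : List Tm :=
  two (rdA (cel q.H (σ.getD 0 0) (κ - 13)) j b) (rdB (cel q.H (σ.getD 0 0) (κ - 13)) j b)
    (q.nm κ i x)

def sw2 (σ : List ℕ) (j κ i x : ℕ) (b : Bool) : List Tm :=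
  if κ = 5 ∧ x = 0 ∧ 4 ≤ i ∧ i < 9 then q.shT i j b
  else if (κ = 7 ∨ κ = 8) ∧ x = 0 ∨ κ = 9 then two (q.K.nA x j b) (q.K.nB x j b) (q.nm κ i x)
  else if (κ = 13 ∨ κ = 14) ∧ x = 0 then q.rdT σ j κ i x b else keepT (q.nm κ i x)

/-- the threshold of the test number `i` -/
def thr (θ i : ℕ) : ℕ := if i % 2 = 1 then hi q.H q.n θ (i / 2) else fu q.H θ (i / 2)

def sw3 (σ : List ℕ) (j κ i x : ℕ) (b : Bool) : List Tm :=
  if κ = 7 ∨ κ = 8 ∨ κ = 9 then two (q.K.mA x j b) (q.K.mB x j b) (q.nm κ i x)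
  else if (κ = 10 ∨ κ = 11 ∨ κ = 12) ∧ x = 0 then
    [(mkA q.ko (q.thr (q.thw (σ.getD 0 0) (κ - 10)) i) (decide (i % 2 = 1)) j b,
      if i % 2 = 1 then q.rY else q.nm 6 (ee q.H (q.thw (σ.getD 0 0) (κ - 10)) (i / 2)) 0, false),
     (mkB q.ko (i / 2) (q.thr (q.thw (σ.getD 0 0) (κ - 10)) i) j b, q.nm κ i x, false)]
  else if (κ = 13 ∨ κ = 14) ∧ x = 1 then q.rdT σ j κ i x b else keepT (q.nm κ i x)

/-- the factor of the correction number `e` -/
def fac (σ : List ℕ) (w e i x j : ℕ) (b : Bool) : ℕ :=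
  if e = 0 then q.K.dl x (q.posG σ w i) j b
  else if e = 1 then q.K.dl x (cel q.H (σ.getD 0 0) w) j b
  else if e = 2 then
    mulm q.p (q.K.dl x (q.posG σ w i) j b) (q.K.dl x (cel q.H (σ.getD 0 0) w) j b)
  else rdA (cel q.H (σ.getD 0 0) w) j b

def sw4 (σ : List ℕ) (j κ i x : ℕ) (b : Bool) : List Tm :=
  if 15 ≤ κ then two (q.fac σ ((κ - 15) / 4) ((κ - 15) % 4) i x j b) 0 (q.nm κ i x)
  else keepT (q.nm κ i x)

def sweep (b : ℕ) (σ : List ℕ) (j κ i x : ℕ) (u : Bool) : List Tm :=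
  if b = 1 then q.sw1 j κ i x else if q.k ≤ j then keepT (q.nm κ i x)
  else if b = 0 then q.sw0 j κ i x u else if b = 2 then q.sw2 σ j κ i x u
  else if b = 3 then q.sw3 σ j κ i x u else if b = 4 then q.sw4 σ j κ i x u
  else keepT (q.nm κ i x)

/-- the step is made -/
def mv (σ : List ℕ) (w : ℕ) : Bool :=
  decide (σ.getD 1 0 = 1) && (!bdy q.H (σ.getD 0 0) w || decide (σ.getD (2 + w) 0 = 1))

def outT (σ : List ℕ) (w i x : ℕ) : List Tm :=
  if i < q.L + 2 ∧ x ≤ q.k then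
    [(1, q.nm 0 i x, false), (σ.getD (4 + w) 0, q.nm (15 + 4 * w) i x, false),
     (if i < q.L then 0 else σ.getD (4 + w) 0, q.nm (16 + 4 * w) i x, false),
     (if i < q.L then 0 else mulm q.p (σ.getD (4 + w) 0) (σ.getD (4 + w) 0),
       q.nm (17 + 4 * w) i x, false)]
  else if i = q.L + 2 ∧ x = 0 then
    [(1, q.rY, false), (σ.getD (4 + w) 0, q.nm (18 + 4 * w) 0 0, false)]
  else if i = q.L + 3 ∧ x = 0 then [(mvp q.H (σ.getD 0 0) w, q.r1, false)] else []

def fin (b : ℕ) (σ : List ℕ) (f κ i x : ℕ) : List Tm :=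
  if b = 4 ∧ f = 0 ∧ (κ = 1 ∨ κ = 2) then
    (if q.mv σ (κ - 1) then q.outT σ (κ - 1) i x else keepT (q.nm 0 i x))
  else keepT (q.nm κ i x)

def tm (t : ℕ) (σ : List ℕ) (r : ℕ) (u : Bool) : List Tm :=
  if t % q.Lb = 0 then q.load (t / q.Lb) σ (r / q.nS) (r % q.nS / q.Xn) (r % q.nS % q.Xn)
  else if t % q.Lb ≤ q.L + q.k then
    q.sweep (t / q.Lb) σ (t % q.Lb - 1) (r / q.nS) (r % q.nS / q.Xn) (r % q.nS % q.Xn) u
  else q.fin (t / q.Lb) σ (t % q.Lb - (q.L + q.k + 1)) (r / q.nS) (r % q.nS / q.Xn)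
    (r % q.nS % q.Xn)

def bit (t : ℕ) : ℕ := if t / q.Lb = 1 then q.jj.getD (t % q.Lb - 1) 0 else t % q.Lb - 1

/-- the time of the finishing step `f` of the block `b` -/
def tf (b f : ℕ) : ℕ := b * q.Lb + (q.L + q.k + 1) + f

/-- the change of the cell, from the value `v` of the rule -/
def chg (θ w v : ℕ) : ℕ := if bdy q.H θ w then 0 else if fills q.H θ w then v else q.p - v

def upd (t : ℕ) (σ v : List ℕ) (fl : Bool) : List ℕ :=
  if t = q.tf 0 0 then σ.set 0 (v.getD (q.nm 5 0 0) 0)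
  else if t = q.tf 2 0 then σ.take 6 ++ ((List.range q.L).map fun l => v.getD (q.nm 13 l 0) 0) ++
    (List.range q.L).map fun l => v.getD (q.nm 14 l 0) 0
  else if t = q.tf 3 0 then
    ((σ.set 1 (if !fl && decide (σ.getD 0 0 < 10 * (q.H + 1)) then 1 else 0)).set 4
      (q.chg (σ.getD 0 0) 0 (v.getD (q.nm 13 0 1) 0))).set 5
      (q.chg (σ.getD 0 0) 1 (v.getD (q.nm 14 0 1) 0))
  else if t = q.tf 3 1 then σ.set 2 (if fl then 0 else 1)
  else if t = q.tf 3 2 then σ.set 3 (if fl then 0 else 1) else σ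

/-- registers of the state that are used -/
def used (i x : ℕ) : Bool :=
  decide (i < q.L + 2 ∧ x ≤ q.k) || decide ((i = q.L + 2 ∨ i = q.L + 3) ∧ x = 0)

def zs (t : ℕ) : List ℕ :=
  if t = q.tf 3 0 then ((List.range 16).map fun i => q.nm 10 i 0) ++ [q.nm 6 4 0, q.nm 6 5 0] ++
    (List.range q.nS).filter fun r => !q.used (r / q.Xn) (r % q.Xn)
  else if t = q.tf 3 1 then (List.range 16).map fun i => q.nm 11 i 0
  else if t = q.tf 3 2 then (List.range 16).map fun i => q.nm 12 i 0 else []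

def ts (t : ℕ) : List (ℕ × ℕ × ℕ) :=
  if t = q.tf 3 0 then (List.range (q.L + 2)).flatMap fun i =>
    (List.range q.Xn).map fun x => (q.nm 9 i x, q.nm 7 i x, q.nm 8 i x) else []

end PP

/-- the machine -/
def prog : LM PP where
  len q := 5 * q.Lb
  nR q := 23 * q.nS
  nS q := q.nS
  ns q := q.ns
  bit := PP.bit
  tm := PP.tm
  upd := PP.upd
  zs q t _ := q.zs t
  ts q t _ := q.ts t

namespace PP

variable (q : PP) (cs : List (List ℕ))

/-- the constants -/
def cst : List (List ℕ) :=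
  (List.range (23 * q.nS)).map fun r => if r / q.nS = 3 then
    (if r % q.nS % q.Xn = 0 then cs.getD (r % q.nS / q.Xn) []
    else if r % q.nS % q.Xn = 1 then
      (List.range (2 ^ q.k)).map (pos q.k q.jj cs (min (r % q.nS / q.Xn) q.L))
    else (List.range (2 ^ q.k)).map fun _ => 1) else []

structure Ok (π : List ℕ) : Prop where
  K : q.K.Ok q.k
  ko : 3 ≤ q.ko
  nH : q.n ≤ q.H
  big : 10 * (q.H + 1) ≤ q.p
  rt : ROk q.k q.jj cs π

abbrev Fn : Type := Vec q.k → ZMod q.p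
abbrev St : Type := P330Q.St q.p q.k q.nS

/-- the factors of the products -/
def opF (Y : q.Fn) (i : ℕ) : q.Fn := if i < q.L then fnL q.p q.k (cs.getD i []) else Y
def opG (Y : q.Fn) (i : ℕ) : q.Fn :=
  if i < q.L then lyr q.jj cs i Y else if i = q.L then fun a => Y (a + ofN _ 1) else Y

/-- the state for a position and a tape -/
def canR (θ : ℕ) (Y : q.Fn) (i x : ℕ) : q.Fn :=
  if i < q.L + 2 ∧ x ≤ q.k then fun a => q.K.lde x (q.opF cs Y i) a * q.K.lde x (q.opG cs Y i) a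
  else if i = q.L + 2 ∧ x = 0 then Y else if i = q.L + 3 ∧ x = 0 then fun _ => θ else 0

def tapeF (y : Tape) : q.Fn := fun a => if y (toN a) then 1 else 0

def can (θ : ℕ) (y : Tape) : q.St := fun r => q.canR cs θ (q.tapeF y) (r / q.Xn) (r % q.Xn)

/-- the same as lists -/
def canL (θ : ℕ) (y : List Bool) : List (List ℕ) :=
  let Y := (List.range (2 ^ q.k)).map fun a => if y.getD a false then 1 else 0
  (List.range q.nS).map fun r =>
    if r / q.Xn < q.L + 2 ∧ r % q.Xn ≤ q.k then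
      let F := q.K.ldeL q.k (r % q.Xn) (if r / q.Xn < q.L then cs.getD (r / q.Xn) [] else Y)
      let G := q.K.ldeL q.k (r % q.Xn) (if r / q.Xn < q.L then
        lyrL q.k q.jj cs (min (r / q.Xn) q.L) Y else if r / q.Xn = q.L then
          (List.range (2 ^ q.k)).map fun a => Y.getD (a ^^^ 1) 0 else Y)
      (List.range (2 ^ q.k)).map fun a => mulm q.p (F.getD a 0) (G.getD a 0)
    else if r / q.Xn = q.L + 2 ∧ r % q.Xn = 0 then Y
    else if r / q.Xn = q.L + 3 ∧ r % q.Xn = 0 then (List.range (2 ^ q.k)).map fun _ => θ else []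

/-- candidates for solutions: the regions `0` and `2` of the tape -/
def cands (l : List (List ℕ)) : List (List Bool) :=
  [0, 2].map fun ρ => (List.range (min q.n q.H)).map fun i =>
    decide ((l.getD q.rY []).getD (ρ * q.H + i) 0 = 1)

/-! ### the values computed from an arbitrary state -/

variable {q} (A : q.St)

def rg (i x : ℕ) : q.Fn := if h : i * q.Xn + x < q.nS then A ⟨i * q.Xn + x, h⟩ else 0
def aY : q.Fn := rg A (q.L + 2) 0
def aT : q.Fn := rg A (q.L + 3) 0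
def aθ : ℕ := (aT A 0).val
def aS : q.Fn := fun a => aY A (a + ofN _ 1)

/-- the computed layers -/
def cl : ℕ → q.Fn
  | 0 => aY A
  | l + 1 => fun a => cl l a - rg A l 0 a + rg A l 0 (a + ej _ (q.jj.getD l 0))

def cG (i : ℕ) : q.Fn := if i < q.L then cl A i else if i = q.L then aS A else aY A

/-- the computed rules -/
def cE (e : ℕ) (a : Vec q.k) : ZMod q.p :=
  if e = 0 then
    (if toN a &&& (q.H + 6) = q.H then cl A q.L a else 0) +
    (if toN a &&& q.H = 0 then cl A q.L a else 0) +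
    (if toN a &&& (q.H + 7) = q.H + 2 then rg A q.L 0 (a + ofN _ 2) else 0) +
    (if toN a &&& (q.H + 7) = q.H + 3 then
      aY A (a + ofN _ 2) + aS A (a + ofN _ 2) - rg A q.L 0 (a + ofN _ 2) else 0) +
    (if toN a &&& (q.H + 7) = q.H + 4 then 1 - aY A (a + ofN _ 4) else 0)
  else if e = 1 then aY A (a + ofN _ (4 * q.H)) else aY A (a + ofN _ (2 * q.H))

/-- the test number `i` of the shape for the position `θ` -/
def piece (θ i : ℕ) (a : Vec q.k) : ZMod q.p :=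
  if toN a / q.H = i / 2 ∧
      (if i % 2 = 1 then q.thr θ i ≤ toN a % q.H else toN a % q.H < q.thr θ i) then
    (if i % 2 = 1 then aY A a else aY A a - cE A (ee q.H θ (i / 2)) a) else 0

def Shp (θ : ℕ) : Prop := ∀ i < 16, piece A θ i = 0

/-- all tests pass -/
structure Vld : Prop where
  lt : aθ A < 10 * (q.H + 1)
  shp : Shp A (aθ A)
  cT : aT A = fun _ => aT A 0
  sq : rg A (q.L + 1) 0 = aY A
  un : ∀ r : Fin q.nS, q.used (r / q.Xn) (r % q.Xn) = false → A r = 0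
  pr : ∀ i < q.L + 2, ∀ x < q.Xn, ∀ a, q.K.ext (rg A i) x a =
    q.K.lde x (q.opF cs (aY A) i) a * q.K.lde x (cG A i) a

/-- the change of the cell -/
def xi (w : ℕ) : ZMod q.p :=
  if bdy q.H (aθ A) w then 0 else (if fills q.H (aθ A) w then 1 else -1) *
    cE A (eAct (ph q.H (aθ A))) (ofN _ (cel q.H (aθ A) w))

def pG (w i : ℕ) : ℕ :=
  if i < q.L then pos q.k q.jj cs i (cel q.H (aθ A) w)
  else if i = q.L then cel q.H (aθ A) w ^^^ 1 else cel q.H (aθ A) w

def MvA (w : ℕ) : Prop := Vld cs A ∧ (bdy q.H (aθ A) w = true → Shp A (mvp q.H (aθ A) w))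

/-- the new registers -/
def newR (w i x : ℕ) (a : Vec q.k) : ZMod q.p :=
  if i < q.L + 2 ∧ x ≤ q.k then
    rg A i x a + xi A w * (q.K.lde x (q.opF cs (aY A) i) a * q.K.lde x (dlt (pG cs A w i)) a) +
      (if i < q.L then 0 else xi A w *
        (q.K.lde x (cG A i) a * q.K.lde x (dlt (cel q.H (aθ A) w)) a) + xi A w * xi A w *
        (q.K.lde x (dlt (pG cs A w i)) a * q.K.lde x (dlt (cel q.H (aθ A) w)) a))
  else if i = q.L + 2 ∧ x = 0 then aY A a + xi A w * dlt (cel q.H (aθ A) w) a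
  else if i = q.L + 3 ∧ x = 0 then mvp q.H (aθ A) w else 0

/-- the run -/
noncomputable abbrev rn (t : ℕ) : Cfg q.p q.k := prog.run q (q.cst cs) A t

end PP

end Vale.Agent.P330Q
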