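import Vale.Agent.P330Q.Prog
import Vale.Agent.P330Q.LMB

/-! Names, times and general rules for the program (task ProgA).
Tools: `LM.run_reg`, `run_keep`, `run_keepS`, `run_sweep`, `run_rec` of `LMB.lean`. -/

namespace Vale.Agent.P330Q

open Vale.Agent.Lib.H23 Vale.Agent.P325 Vale.Agent.P330 Vale.Agent.P330.Amp Finset
open scoped BigOperators

namespace PP

variable {q : PP} {cs : List (List ℕ)} {A : q.St} {κ i x b : ℕ}

theorem pa_X (q : PP) : 2 < q.Xn := by unfold Xn nX; omega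
theorem pa_Lb (q : PP) : 0 < q.Lb := by unfold Lb; omega
theorem pa_ix (hi : i < q.Pn) (hx : x < q.Xn) : i * q.Xn + x < q.nS := by
  have : i * q.Xn + q.Xn ≤ q.Pn * q.Xn := by
    rw [← Nat.succ_mul]; exact Nat.mul_le_mul_right _ hi
  unfold nS; omega
theorem pa_dm {m a c : ℕ} (h : c < m) : (a * m + c) / m = a ∧ (a * m + c) % m = c := by
  constructor
  · rw [Nat.add_comm, Nat.add_mul_div_right _ _ (by omega), Nat.div_eq_of_lt h, Nat.zero_add]
  · rw [Nat.add_comm, Nat.add_mul_mod_self_right, Nat.mod_eq_of_lt h]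

theorem nm_lt (hκ : κ < 23) (hi : i < q.Pn) (hx : x < q.Xn) : q.nm κ i x < 23 * q.nS := by
  have h := pa_ix hi hx
  have : κ * q.nS + q.nS ≤ 23 * q.nS := by
    rw [← Nat.succ_mul]; exact Nat.mul_le_mul_right _ hκ
  unfold nm; omega
theorem nm_div (hi : i < q.Pn) (hx : x < q.Xn) : q.nm κ i x / q.nS = κ ∧
    q.nm κ i x % q.nS / q.Xn = i ∧ q.nm κ i x % q.nS % q.Xn = x := by
  have h := pa_dm (a := κ) (pa_ix hi hx)
  have h' := pa_dm (a := i) hx
  rw [nm, add_assoc, h.1, h.2]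
  exact ⟨rfl, h'⟩
theorem nm_split (r : Fin q.nS) (κ : ℕ) : κ * q.nS + r = q.nm κ (r / q.Xn) (r % q.Xn) ∧
    r / q.Xn < q.Pn ∧ r % q.Xn < q.Xn := by
  have hX := pa_X q
  refine ⟨?_, ?_, Nat.mod_lt _ (by omega)⟩
  · rw [nm, add_assoc, Nat.div_add_mod']
  · exact Nat.div_lt_of_lt_mul (by rw [Nat.mul_comm]; exact r.2)
theorem rg_coe (r : Fin q.nS) : rg A (r / q.Xn) (r % q.Xn) = A r := by
  have e : (r : ℕ) / q.Xn * q.Xn + r % q.Xn = r := Nat.div_add_mod' _ _
  rw [rg, dif_pos (by rw [e]; exact r.2)]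
  congr 1
  exact Fin.ext e

theorem pa_tm (hi : i < q.Pn) (hx : x < q.Xn) {c : ℕ} (hc : c < q.Lb) (σ : List ℕ) (u : Bool) :
    q.tm (b * q.Lb + c) σ (q.nm κ i x) u = if c = 0 then q.load b σ κ i x
      else if c ≤ q.L + q.k then q.sweep b σ (c - 1) κ i x u
      else q.fin b σ (c - (q.L + q.k + 1)) κ i x := by
  obtain ⟨h1, h2, h3⟩ := nm_div (κ := κ) hi hx
  obtain ⟨h4, h5⟩ := pa_dm (a := b) hc
  rw [tm, h1, h2, h3, h4, h5]

theorem tm_load (hi : i < q.Pn) (hx : x < q.Xn) (σ : List ℕ) (u : Bool) :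
    q.tm (b * q.Lb) σ (q.nm κ i x) u = q.load b σ κ i x := by
  have := pa_tm (b := b) (κ := κ) hi hx (pa_Lb q) σ u
  rwa [if_pos rfl] at this
theorem tm_sweep (hi : i < q.Pn) (hx : x < q.Xn) {j : ℕ} (hj : j < q.L + q.k) (σ : List ℕ)
    (u : Bool) : q.tm (b * q.Lb + 1 + j) σ (q.nm κ i x) u = q.sweep b σ j κ i x u := by
  rw [add_assoc, pa_tm hi hx (by unfold Lb; omega), if_neg (by omega), if_pos (by omega),
    Nat.add_sub_cancel_left]
theorem tm_fin (hi : i < q.Pn) (hx : x < q.Xn) {f : ℕ} (hf : f < 3) (σ : List ℕ) (u : Bool) :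
    q.tm (q.tf b f) σ (q.nm κ i x) u = q.fin b σ f κ i x := by
  rw [tf, add_assoc, pa_tm hi hx (by unfold Lb; omega), if_neg (by omega), if_neg (by omega),
    Nat.add_sub_cancel_left]
theorem bit_sweep {j : ℕ} (hj : j < q.L + q.k) :
    q.bit (b * q.Lb + 1 + j) = if b = 1 then q.jj.getD j 0 else j := by
  obtain ⟨h4, h5⟩ := pa_dm (a := b) (c := 1 + j) (m := q.Lb) (by unfold Lb; omega)
  rw [bit, add_assoc, h4, h5, Nat.add_sub_cancel_left]
theorem pa_tf {f : ℕ} (hf : f < 3) :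
    q.tf b f / q.Lb = b ∧ q.tf b f % q.Lb = q.L + q.k + 1 + f := by
  rw [tf, add_assoc]
  exact pa_dm (by unfold Lb; omega)
theorem tf_inj {b' f f' : ℕ} (hf : f < 3) (hf' : f' < 3) : q.tf b f = q.tf b' f' ↔ b = b' ∧ f = f' := by
  constructor
  · intro h
    obtain ⟨h1, h2⟩ := pa_tf (q := q) (b := b) hf
    obtain ⟨h3, h4⟩ := pa_tf (q := q) (b := b') hf'
    rw [h] at h1 h2
    exact ⟨h1.symm.trans h3, by omega⟩
  · rintro ⟨rfl, rfl⟩; rfl

/-- the block `b` does not touch the register -/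
def Still (q : PP) (b κ i x : ℕ) : Prop :=
  ∀ σ, q.load b σ κ i x = keepT (q.nm κ i x) ∧ (∀ j u, q.sweep b σ j κ i x u = keepT (q.nm κ i x)) ∧
    ∀ f, q.fin b σ f κ i x = keepT (q.nm κ i x)

theorem still_ge (hb : 5 ≤ b) : q.Still b κ i x := by
  intro σ
  refine ⟨?_, fun j u => ?_, fun f => ?_⟩
  · rw [load, if_neg (by omega), if_neg (by omega), if_neg (by omega), if_neg (by omega)]
  · rw [sweep, if_neg (by omega)]
    split_ifs <;> first | rfl | omega
  · rw [fin, if_neg (by omega)]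

theorem pa_still (hi : i < q.Pn) (hx : x < q.Xn) (h : q.Still b κ i x) {c : ℕ} (hc : c < q.Lb)
    (σ : List ℕ) (u : Bool) : q.tm (b * q.Lb + c) σ (q.nm κ i x) u = keepT (q.nm κ i x) := by
  rw [pa_tm hi hx hc]
  split_ifs
  exacts [(h σ).1, (h σ).2.1 _ _, (h σ).2.2 _]

theorem keep_blk (hκ : κ < 23) (hi : i < q.Pn) (hx : x < q.Xn) (h : q.Still b κ i x) {s : ℕ}
    (hs : s ≤ q.Lb) : (rn cs A (b * q.Lb + s)).2 (q.nm κ i x) = (rn cs A (b * q.Lb)).2 (q.nm κ i x) := 
  LM.run_keep (M := prog) (nm_lt hκ hi hx) fun _ hc σ u => pa_still hi hx h (by omega) σ u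

theorem keep_from (hκ : κ < 23) (hi : i < q.Pn) (hx : x < q.Xn)
    (h : ∀ c, b ≤ c → c < 5 → q.Still c κ i x) {t : ℕ} (ht : b * q.Lb ≤ t) :
    (rn cs A t).2 (q.nm κ i x) = (rn cs A (b * q.Lb)).2 (q.nm κ i x) := by
  obtain ⟨n, rfl⟩ := Nat.exists_eq_add_of_le ht
  refine LM.run_keep (M := prog) (nm_lt hκ hi hx) fun c _ σ u => ?_
  have hb : b ≤ (b * q.Lb + c) / q.Lb := (Nat.le_div_iff_mul_le (pa_Lb q)).2 (Nat.le_add_right _ _)
  have hs : q.Still ((b * q.Lb + c) / q.Lb) κ i x := by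
    by_cases h5 : (b * q.Lb + c) / q.Lb < 5
    · exact h _ hb h5
    · exact still_ge (not_lt.1 h5)
  have := pa_still hi hx hs (Nat.mod_lt (b * q.Lb + c) (pa_Lb q)) σ u
  rwa [Nat.div_add_mod'] at this

theorem pa_st (hκ : κ = 0 ∨ κ = 3) : q.Still b κ i x := by
  intro σ
  refine ⟨?_, fun j u => ?_, fun f => ?_⟩
  · have h0 : q.load0 κ i x = keepT (q.nm κ i x) := by
      rw [load0, if_neg (by omega), if_neg (by omega), if_neg (by omega)]
    have h2 : q.load2 κ i x = keepT (q.nm κ i x) := by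
      rw [load2, if_neg (by omega), if_neg (by omega), if_neg (by omega), if_neg (by omega),
        if_neg (by omega), if_neg (by omega), if_neg (by omega), if_neg (by omega)]
    have h3 : q.load3 σ κ i x = keepT (q.nm κ i x) := by
      rw [load3, if_neg (by omega), if_neg (by omega), if_neg (by omega), if_neg (by omega),
        if_neg (by omega), if_neg (by omega), if_neg (by omega)]
    have h4 : q.load4 κ i x = keepT (q.nm κ i x) := by
      rw [load4, if_neg (by omega), if_neg (by omega), if_neg (by omega)]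
    simp only [load, h0, h2, h3, h4, ite_self]
  · have h0 : q.sw0 j κ i x u = keepT (q.nm κ i x) := by
      rw [sw0, if_neg (by omega), if_neg (by omega)]
    have h1 : q.sw1 j κ i x = keepT (q.nm κ i x) := by
      rw [sw1, if_neg (by omega)]
    have h2 : q.sw2 σ j κ i x u = keepT (q.nm κ i x) := by
      rw [sw2, if_neg (by omega), if_neg (by omega), if_neg (by omega)]
    have h3 : q.sw3 σ j κ i x u = keepT (q.nm κ i x) := by
      rw [sw3, if_neg (by omega), if_neg (by omega), if_neg (by omega)]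
    have h4 : q.sw4 σ j κ i x u = keepT (q.nm κ i x) := by
      rw [sw4, if_neg (by omega)]
    simp only [sweep, h0, h1, h2, h3, h4, ite_self]
  · rw [fin, if_neg (by omega)]

/-- the state and the constants do not change -/
theorem rn_state (hi : i < q.Pn) (hx : x < q.Xn) (t : ℕ) : (rn cs A t).2 (q.nm 0 i x) = rg A i x := by
  have h := pa_ix hi hx
  rw [keep_from (b := 0) (by omega) hi hx (fun c _ _ => pa_st (Or.inl rfl)) (by omega), Nat.zero_mul]
  have e : q.nm 0 i x = i * q.Xn + x := by rw [nm, Nat.zero_mul, Nat.zero_add]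
  rw [e, rg, dif_pos h]
  exact dif_pos h
theorem rn_const (hi : i < q.Pn) (hx : x < q.Xn) (t : ℕ) :
    (rn cs A t).2 (q.nm 3 i x) = regL q.p q.k (q.cst cs) (q.nm 3 i x) := by
  have h := nm_lt (κ := 3) (by omega) hi hx
  rw [keep_from (b := 0) (by omega) hi hx (fun c _ _ => pa_st (Or.inr rfl)) (by omega), Nat.zero_mul]
  have h' : ¬ q.nm 3 i x < q.nS := by unfold nm; omega
  exact (dif_neg h').trans (if_pos h)
theorem rn_Y (t : ℕ) : (rn cs A t).2 q.rY = aY A := rn_state (by unfold Pn; omega) (by have := pa_X q; omega) t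
theorem rn_T (t : ℕ) : (rn cs A t).2 q.rT = aT A := rn_state (by unfold Pn; omega) (by have := pa_X q; omega) t
theorem pa_cst (hi : i < q.Pn) (hx : x < q.Xn) : (q.cst cs).getD (q.nm 3 i x) [] =
    if x = 0 then cs.getD i [] else if x = 1 then
      (List.range (2 ^ q.k)).map (pos q.k q.jj cs (min i q.L))
    else (List.range (2 ^ q.k)).map fun _ => 1 := by
  have h := nm_lt (κ := 3) (by omega) hi hx
  obtain ⟨h1, h2, h3⟩ := nm_div (κ := 3) hi hx
  rw [cst, List.getD_eq_getElem _ _ (by simpa using h), List.getElem_map, List.getElem_range, h1, h2,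
    h3, if_pos rfl]
theorem rn_one (t : ℕ) : (rn cs A t).2 q.r1 = fun _ => 1 := by
  have hi : 0 < q.Pn := by unfold Pn; omega
  funext a
  rw [r1, rn_const hi (pa_X q), regL, pa_cst hi (pa_X q), if_neg (by omega), if_neg (by omega),
    fnL_map, Nat.cast_one]
theorem rn_c (hi : i < q.Pn) (t : ℕ) : (rn cs A t).2 (q.nm 3 i 0) = fnL q.p q.k (cs.getD i []) := by
  have hx : 0 < q.Xn := by have := pa_X q; omega
  rw [rn_const hi hx, regL, pa_cst hi hx, if_pos rfl]
theorem rn_pos (hi : i ≤ q.L) (t : ℕ) (a : Vec q.k) :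
    (rn cs A t).2 (q.nm 3 i 1) a = (pos q.k q.jj cs i (toN a) : ℕ) := by
  have hx : 1 < q.Xn := by have := pa_X q; omega
  have hi' : i < q.Pn := by unfold Pn; omega
  rw [rn_const hi' hx, regL, pa_cst hi' hx, if_neg (by omega), if_pos rfl, fnL_map, min_eq_left hi]

/-- the scalars change only in the finishing steps -/
theorem scal_blk {s : ℕ} (hs : s ≤ q.L + q.k + 1) :
    (rn cs A (b * q.Lb + s)).1 = (rn cs A (b * q.Lb)).1 := by
  refine LM.run_keepS (M := prog) fun c hc σ v fl => ?_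
  have key : ∀ b' f, f < 3 → b * q.Lb + c ≠ q.tf b' f := fun b' f hf e => by
    have h1 := (pa_tf (q := q) (b := b') hf).2
    rw [← e, (pa_dm (by unfold Lb; omega)).2] at h1
    omega
  change q.upd _ σ v fl = σ
  rw [upd, if_neg (key _ _ (by omega)), if_neg (key _ _ (by omega)), if_neg (key _ _ (by omega)),
    if_neg (key _ _ (by omega)), if_neg (key _ _ (by omega))]
/-- one scalar that is not written from the time `t0` on -/
theorem scal_from {n t0 t : ℕ} (ht : t0 ≤ t)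
    (h : ∀ s, t0 ≤ s → ∀ σ v f, σ.length = q.ns → (q.upd s σ v f).getD n 0 = σ.getD n 0) :
    (rn cs A t).1.getD n 0 = (rn cs A t0).1.getD n 0 := by
  induction t, ht using Nat.le_induction with
  | base => rfl
  | succ t ht ih =>
    rw [← ih]
    by_cases hn : n < q.ns
    · have e := getD_nrmS (p := q.p) hn (rn cs A t).1
      rw [show nrmS q.p q.ns (rn cs A t).1 = (rn cs A t).1 from LM.run_nrm (M := prog) t] at e
      rw [e]
      refine (getD_nrmS hn _).trans ?_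
      exact congrArg (· % q.p) (h t ht _ _ _ (LM.run_len (M := prog) t))
    · have e : ∀ s, (rn cs A s).1.getD n 0 = 0 := fun s =>
        List.getD_eq_default _ _ ((LM.run_len (M := prog) s).le.trans (not_lt.1 hn))
      rw [e, e]

/-- the value after the loading step -/
theorem rn_load (hκ : κ < 23) (hi : i < q.Pn) (hx : x < q.Xn) (a : Vec q.k) :
    (rn cs A (b * q.Lb + 1)).2 (q.nm κ i x) a = evT (q.bit (b * q.Lb)) (rn cs A (b * q.Lb)).2
      (q.load b (rn cs A (b * q.Lb)).1 κ i x) a := by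
  rw [← tm_load (b := b) hi hx _ (bt a (q.bit (b * q.Lb)))]
  exact LM.run_reg (M := prog) _ (nm_lt hκ hi hx) a

theorem pa_tail (hb : b ≠ 1) (hκ : 3 ≤ κ ∧ κ < 23) (hi : i < q.Pn) (hx : x < q.Xn) {s : ℕ}
    (h1 : q.k + 1 ≤ s) (h2 : s ≤ q.Lb) : (rn cs A (b * q.Lb + s)).2 (q.nm κ i x) =
      (rn cs A (b * q.Lb + 1 + q.k)).2 (q.nm κ i x) := by
  obtain ⟨n, rfl⟩ := Nat.exists_eq_add_of_le h1
  rw [show b * q.Lb + (q.k + 1 + n) = b * q.Lb + 1 + q.k + n by omega]
  refine LM.run_keep (M := prog) (nm_lt hκ.2 hi hx) fun c hc σ u => ?_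
  rw [show b * q.Lb + 1 + q.k + c = b * q.Lb + (q.k + 1 + c) by omega]
  refine (pa_tm hi hx (by omega) σ u).trans ?_
  rw [if_neg (by omega)]
  split_ifs
  · rw [sweep, if_neg hb, if_pos (by omega)]; rfl
  · rw [fin, if_neg (by omega)]; rfl

/-- a block with a sweep of the register -/
theorem blk_sweep (hb : b ≠ 1) (hκ : 3 ≤ κ ∧ κ < 23) (hi : i < q.Pn) (hx : x < q.Xn)
    {α β : ℕ → Bool → ℕ} (h : ∀ j < q.k, ∀ u,
      q.sweep b (rn cs A (b * q.Lb)).1 j κ i x u = two (α j u) (β j u) (q.nm κ i x))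
    {s : ℕ} (h1 : q.k + 1 ≤ s) (h2 : s ≤ q.Lb) : (rn cs A (b * q.Lb + s)).2 (q.nm κ i x) =
      tens (cf α) (cf β) ((rn cs A (b * q.Lb + 1)).2 (q.nm κ i x)) := by
  rw [pa_tail hb hκ hi hx h1 h2]
  refine LM.run_sweep (M := prog) (nm_lt hκ.2 hi hx) (fun j hj => ?_) fun j hj u => ?_
  · exact (bit_sweep (by omega)).trans (if_neg hb)
  · refine (tm_sweep hi hx (by omega) _ u).trans ?_
    rw [show (prog.run q (q.cst cs) A (b * q.Lb + 1 + j)).1 = (rn cs A (b * q.Lb)).1 by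
      rw [add_assoc]; exact scal_blk (by omega)]
    exact h j hj u

/-- a block with a recurrence -/
theorem blk_rec (hb : b ≠ 1) (hκ : 3 ≤ κ ∧ κ < 23) (hi : i < q.Pn) (hx : x < q.Xn) {r0 : ℕ}
    {α β : ℕ → Bool → ℕ} (h0 : ∀ j < q.k,
      (rn cs A (b * q.Lb + 1 + j)).2 r0 = (rn cs A (b * q.Lb + 1)).2 r0) (h : ∀ j < q.k, ∀ u,
      q.sweep b (rn cs A (b * q.Lb)).1 j κ i x u = [(α j u, r0, false), (β j u, q.nm κ i x, false)])
    {s : ℕ} (h1 : q.k + 1 ≤ s) (h2 : s ≤ q.Lb) : (rn cs A (b * q.Lb + s)).2 (q.nm κ i x) =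
      rec2 (cf α) (cf β) ((rn cs A (b * q.Lb + 1)).2 r0)
        ((rn cs A (b * q.Lb + 1)).2 (q.nm κ i x)) q.k := by
  rw [pa_tail hb hκ hi hx h1 h2]
  refine LM.run_rec (M := prog) (nm_lt hκ.2 hi hx) (fun j hj => ?_) h0 fun j hj u => ?_
  · exact (bit_sweep (by omega)).trans (if_neg hb)
  · refine (tm_sweep hi hx (by omega) _ u).trans ?_
    rw [show (prog.run q (q.cst cs) A (b * q.Lb + 1 + j)).1 = (rn cs A (b * q.Lb)).1 by
      rw [add_assoc]; exact scal_blk (by omega)]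
    exact h j hj u

/-- a register that is only loaded -/
theorem blk_load (hκ : 3 ≤ κ ∧ κ < 23) (hi : i < q.Pn) (hx : x < q.Xn)
    (h : ∀ σ j u, q.sweep b σ j κ i x u = keepT (q.nm κ i x)) {s : ℕ} (h1 : 1 ≤ s) (h2 : s ≤ q.Lb) :
    (rn cs A (b * q.Lb + s)).2 (q.nm κ i x) = (rn cs A (b * q.Lb + 1)).2 (q.nm κ i x) := by
  obtain ⟨n, rfl⟩ := Nat.exists_eq_add_of_le h1
  rw [← add_assoc]
  refine LM.run_keep (M := prog) (nm_lt hκ.2 hi hx) fun c hc σ u => ?_
  rw [add_assoc]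
  refine (pa_tm hi hx (by omega) σ u).trans ?_
  rw [if_neg (by omega)]
  split_ifs
  · exact h _ _ _
  · rw [fin, if_neg (by omega)]; rfl

end PP

end Vale.Agent.P330Q
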