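import Vale.Agent.P330Q.ProgA
import Vale.Agent.P330Q.RouteB
import Vale.Agent.P330Q.LineA

/-! The blocks `0`, `1`, `2` of the program (task ProgB). Tools: `ProgA.lean`, `tens_read`,
`tens_shm`, `cast_pred`. -/

namespace Vale.Agent.P330Q

open Vale.Agent.Lib.H23 Vale.Agent.P325 Vale.Agent.P330 Vale.Agent.P330.Amp Finset
open scoped BigOperators

namespace PP

variable {q : PP} [Fact q.p.Prime] {cs : List (List ℕ)} {π : List ℕ} {A : q.St} {t : ℕ}

section aux

omit [Fact q.p.Prime]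

theorem pb_X : 2 < q.Xn := by
  unfold Xn nX
  omega

theorem pb_P {i : ℕ} (hi : i < q.L + 16) : i < q.Pn := hi

theorem pb_still5 {c i : ℕ} (h0 : c ≠ 0 ∨ 4 ≤ i) (h2 : c ≠ 2 ∨ i < 4) : q.Still c 5 i 0 := by
  rcases le_or_gt 5 c with h | h
  · exact still_ge h
  intro σ
  refine ⟨?_, fun j u => ?_, fun f => by simp [fin]⟩ <;> interval_cases c
  · have h1 : ¬ i < 4 := by omega
    have h3 : i ≠ 0 := by omega
    simp [load, load0, h1, h3]
  · simp [load]
  · have h1 : i < 4 := by omega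
    interval_cases i <;> simp [load, load2]
  · simp [load, load3]
  · simp [load, load4]
  · have h1 : ¬ i < 4 := by omega
    have h3 : i ≠ 0 := by omega
    simp [sweep, sw0, h1, h3]
  · simp [sweep, sw1]
  · have h1 : ¬ 4 ≤ i := by omega
    simp [sweep, sw2, h1]
  · simp [sweep, sw3]
  · simp [sweep, sw4]

theorem pb_still4 {c i : ℕ} (h0 : c ≠ 0) (h1 : c ≠ 1 ∨ i = 0) : q.Still c 4 i 0 := by
  rcases le_or_gt 5 c with h | h
  · exact still_ge h
  intro σ
  have h3 := Nat.pos_of_ne_zero h0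
  refine ⟨?_, fun j u => ?_, fun f => by simp [fin]⟩ <;> interval_cases c
  · simp [load]
  · simp [load, load2]
  · simp [load, load3]
  · simp [load, load4]
  · have h2 : i = 0 := by omega
    simp [sweep, sw1, h2]
  · simp [sweep, sw2]
  · simp [sweep, sw3]
  · simp [sweep, sw4]

theorem pb_keep {κ i x b : ℕ} (hκ : κ < 23) (hi : i < q.Pn) (hx : x < q.Xn)
    (h : ∀ c, b + 1 ≤ c → q.Still c κ i x) (ht : (b + 1) * q.Lb ≤ t) :
    (rn cs A t).2 (q.nm κ i x) = (rn cs A (b * q.Lb + q.Lb)).2 (q.nm κ i x) := by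
  rw [keep_from hκ hi hx (fun c hc _ => h c hc) ht, add_mul, one_mul]

theorem pb_ev (j r : ℕ) (Y : Regs q.p q.k) (a : Vec q.k) : evT j Y (keepT r) a = Y r a := by
  simp [keepT, evT]

/-- a register is loaded with a copy -/
theorem pb_ld {κ i x b r : ℕ} (hκ : κ < 23) (hi : i < q.Pn) (hx : x < q.Xn)
    (h : ∀ σ, q.load b σ κ i x = keepT r) :
    (rn cs A (b * q.Lb + 1)).2 (q.nm κ i x) = (rn cs A (b * q.Lb)).2 r :=
  funext fun a => by rw [rn_load hκ hi hx, h, pb_ev]

theorem pb_kL : q.k + 1 ≤ q.Lb := by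
  unfold Lb
  omega

theorem pb_and {n u v : ℕ} (hu : u < 2 ^ n) (hv : v < 2 ^ n) (h : u &&& v = u) :
    (2 ^ n + u) &&& (2 ^ n + v) = 2 ^ n + u := by
  refine Nat.eq_of_testBit_eq fun j => ?_
  rw [Nat.testBit_and, ← mul_one (2 ^ n), Nat.testBit_two_pow_mul_add _ hu,
    Nat.testBit_two_pow_mul_add _ hv]
  split_ifs
  · rw [← Nat.testBit_and, h]
  · exact Bool.and_self _

theorem pb_H : 2 ^ q.k = 8 * q.H := by
  rw [k, pow_add, mul_comm]
  rfl

theorem pb_len (t : ℕ) : (rn cs A t).1.length = q.ns := LM.run_len (M := prog) t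

end aux

/-- the shifted registers -/
theorem pb_sh {b i : ℕ} (hb : b = 0 ∧ 1 ≤ i ∧ i < 4 ∨ b = 2 ∧ 4 ≤ i ∧ i < 9)
    (hm : q.msk i < 2 ^ q.k) (hv : q.mvl i &&& q.msk i = q.mvl i) (ht : (b + 1) * q.Lb ≤ t)
    (a : Vec q.k) : (rn cs A t).2 (q.nm 5 i 0) a = if toN a &&& q.msk i = q.mvl i then
      (rn cs A (b * q.Lb + 1)).2 (q.nm 5 i 0) (a + ofN _ (q.msh i)) else 0 := by
  have hi : i < q.Pn := pb_P (by omega)
  have hx : 0 < q.Xn := by linarith [pb_X (q := q)]
  rw [pb_keep (by omega) hi hx (fun c hc => pb_still5 (by omega) (by omega)) ht,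
    blk_sweep (α := shA (q.msk i) (q.mvl i) (q.msh i)) (β := shB (q.msk i) (q.mvl i) (q.msh i))
      (by omega) (by omega) hi hx (fun j hj u => ?_) pb_kL le_rfl, tens_shm hm hv]
  rcases hb with ⟨rfl, h1, h2⟩ | ⟨rfl, h1, h2⟩
  · have h3 : i ≠ 0 := by omega
    simp [sweep, sw0, h2, h3, not_le.2 hj, shT]
  · simp [sweep, sw2, h1, h2, not_le.2 hj, shT]

theorem pb_sh0 {i : ℕ} (h1 : 1 ≤ i) (h2 : i < 4) (ht : q.Lb ≤ t) (a : Vec q.k) :
    (rn cs A t).2 (q.nm 5 i 0) a = aY A (a + ofN _ (q.msh i)) := by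
  have e1 : q.msk i = 0 := if_pos h2
  have e2 : q.mvl i = 0 := if_pos h2
  rw [pb_sh (b := 0) (Or.inl ⟨rfl, h1, h2⟩) (by rw [e1]; positivity) (by rw [e1, e2]; rfl)
    (by omega), e1, e2, if_pos (Nat.and_zero _), pb_ld (r := q.rY) (by omega) (pb_P (by omega))
    (by linarith [pb_X (q := q)]) fun σ => ?_, rn_Y]
  have h3 : i ≠ 0 := by omega
  simp [load, load0, h2, h3]

/-- the scalars after a step -/
theorem pb_scal (s : ℕ) {n : ℕ} (hn : n < q.ns) : ∃ v f, (∀ r < 23 * q.nS,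
    v.getD r 0 = ((rn cs A s).2 r 0).val) ∧
      (rn cs A (s + 1)).1.getD n 0 = (q.upd s (rn cs A s).1 v f).getD n 0 % q.p :=
  ⟨_, _, fun r hr => by
    rw [List.getD_eq_getElem _ _ (by rw [List.length_map, List.length_range]; exact hr),
      List.getElem_map, List.getElem_range], getD_nrmS hn _⟩

theorem pb_set (σ : List ℕ) {m n : ℕ} (v : ℕ) (h : m ≠ n) : (σ.set m v).getD n 0 = σ.getD n 0 := by
  simp [List.getD_eq_getElem?_getD, List.getElem?_set_ne h]

theorem b0_T {s : ℕ} (hs : q.k + 1 ≤ s) : (rn cs A s).2 (q.nm 5 0 0) = fun _ => aT A 0 := by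
  have hi : 0 < q.Pn := pb_P (by omega)
  have hx : 0 < q.Xn := by linarith [pb_X (q := q)]
  have h : ∀ s, q.k + 1 ≤ s → s ≤ q.Lb →
      (rn cs A (0 * q.Lb + s)).2 (q.nm 5 0 0) = fun _ => aT A 0 := fun s h1 h2 => by
    rw [blk_sweep (α := rdA 0) (β := rdB 0) (by omega) (by omega) hi hx (fun j hj u => ?_) h1 h2,
      tens_read, pb_ld (r := q.rT) (by omega) hi hx fun σ => by simp [load, load0], rn_T, ofN_zero]
    simp [sweep, sw0, not_le.2 hj]
  rcases le_total s q.Lb with h1 | h1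
  · simpa using h s hs h1
  · rw [pb_keep (b := 0) (by omega) hi hx (fun c hc => pb_still5 (by omega) (by omega)) (by omega),
      h _ pb_kL le_rfl]

theorem b0_S (ht : q.Lb ≤ t) : (rn cs A t).2 (q.nm 5 1 0) = aS A :=
  funext fun a => pb_sh0 le_rfl (by omega) ht a

theorem b0_θ (ht : q.Lb ≤ t) : (rn cs A t).1.getD 0 0 = aθ A := by
  have hL : q.Lb = q.L + q.k + 4 := rfl
  have hn : 0 < q.ns := by
    unfold ns
    omega
  rw [scal_from (t0 := q.tf 0 0 + 1) (by unfold tf; omega) fun s hs σ v f hσ => ?_]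
  · obtain ⟨v, f, h1, h2⟩ := pb_scal (cs := cs) (A := A) (q.tf 0 0) hn
    have h3 : 0 < (rn cs A (q.tf 0 0)).1.length := by rw [pb_len]; exact hn
    rw [h2, upd, if_pos rfl, List.getD_eq_getElem _ _ (by simpa using h3), List.getElem_set_self,
      h1 _ (nm_lt (by omega) (pb_P (by omega)) (by linarith [pb_X (q := q)])),
      b0_T (by unfold tf; omega), Nat.mod_eq_of_lt (ZMod.val_lt _), aθ]
  · have h6 : 6 ≤ σ.length := by
      rw [hσ, ns]
      omega
    rw [upd, if_neg (by omega)]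
    split_ifs <;> try simp only [pb_set _ _ (by omega : 1 ≠ 0), pb_set _ _ (by omega : 2 ≠ 0),
      pb_set _ _ (by omega : 3 ≠ 0), pb_set _ _ (by omega : 4 ≠ 0), pb_set _ _ (by omega : 5 ≠ 0)]
    rw [List.append_assoc, List.getD_append _ _ _ _ (by simp; omega)]
    simp [List.getD_eq_getElem?_getD]

theorem pb_cl {l : ℕ} (hl : l ≤ q.L) {s : ℕ} (h1 : l + 1 ≤ s) (h2 : s ≤ q.Lb) :
    (rn cs A (1 * q.Lb + s)).2 (q.nm 4 l 0) = cl A l := by
  have hL : q.Lb = q.L + q.k + 4 := rfl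
  have hx : 0 < q.Xn := by linarith [pb_X (q := q)]
  induction l generalizing s with
  | zero =>
    have hi : 0 < q.Pn := pb_P (by omega)
    rw [keep_blk (by omega) hi hx (pb_still4 (by omega) (by omega)) h2,
      show 1 * q.Lb = 0 * q.Lb + q.Lb by omega, blk_load (by omega) hi hx
        (fun σ j u => by simp [sweep, sw0]) (by omega) le_rfl,
      pb_ld (r := q.rY) (by omega) hi hx fun σ => by simp [load, load0], rn_Y, cl]
  | succ l ih =>
    have hi : l + 1 < q.Pn := pb_P (by omega)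
    have hr : q.nm 4 (l + 1) 0 < prog.nR q := nm_lt (by omega) hi hx
    rw [show 1 * q.Lb + s = 1 * q.Lb + 1 + l + 1 + (s - (l + 2)) by omega]
    refine (LM.run_keep (M := prog) hr fun i hi' σ u => ?_).trans (funext fun a => ?_)
    swap
    · refine (LM.run_reg (M := prog) _ hr a).trans ?_
      change evT (q.bit _) (rn cs A _).2 (q.tm _ _ _ _) a = _
      rw [tm_sweep hi hx (by omega), bit_sweep (by omega), if_pos rfl, sweep, if_pos rfl, sw1,
        if_pos ⟨rfl, rfl, rfl, hl⟩, evT_cons, evT_cons, evT_cons, evT_nil, add_assoc (1 * q.Lb),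
        ih (by omega) (by omega) (by omega), rn_state (by omega) hx, m1,
        cast_pred (Fact.out : q.p.Prime).pos, cl]
      simp only [Bool.false_eq_true, if_false, if_true, Nat.cast_one]
      ring
    · change q.tm _ _ _ _ = keepT _
      by_cases h : l + 1 + i < q.L + q.k
      · rw [show 1 * q.Lb + 1 + l + 1 + i = 1 * q.Lb + 1 + (l + 1 + i) by omega,
          tm_sweep hi hx h, sweep, if_pos rfl, sw1, if_neg (by omega)]
      · rw [show 1 * q.Lb + 1 + l + 1 + i = q.tf 1 (l + 1 + i - (q.L + q.k)) by unfold tf; omega,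
          tm_fin hi hx (by omega), fin, if_neg (by omega)]

theorem b1_cl {l : ℕ} (hl : l ≤ q.L) (ht : 2 * q.Lb ≤ t) : (rn cs A t).2 (q.nm 4 l 0) = cl A l := by
  have hL : q.Lb = q.L + q.k + 4 := rfl
  rw [pb_keep (b := 1) (by omega) (pb_P (by omega)) (by linarith [pb_X (q := q)])
    (fun c hc => pb_still4 (by omega) (by omega)) ht, pb_cl hl (by omega) le_rfl]

theorem b2_E (h : q.Ok cs π) (ht : 3 * q.Lb ≤ t) (j e c : ℕ) (a : Vec q.k) :
    evT j (rn cs A t).2 (q.Et e c) a = c * cE A e a := by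
  have hx : 0 < q.Xn := by linarith [pb_X (q := q)]
  have hH : 8 ≤ q.H := Nat.pow_le_pow_right (n := 2) two_pos h.ko
  have hm : ((q.m1 : ℕ) : ZMod q.p) = -1 := cast_pred (Fact.out : q.p.Prime).pos
  have hs : ∀ i, 4 ≤ i → i < 9 → (rn cs A t).2 (q.nm 5 i 0) a = if toN a &&& q.msk i = q.mvl i then
      evT (q.bit (2 * q.Lb)) (rn cs A (2 * q.Lb)).2 (q.load2 5 i 0) (a + ofN _ (q.msh i)) else 0 := by
    intro i h1 h2
    rw [pb_sh (b := 2) (Or.inr ⟨rfl, h1, h2⟩) ?_ ?_ ht, rn_load (by omega) (pb_P (by omega)) hx]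
    · rfl
    · rw [pb_H, msk]
      split_ifs <;> omega
    · interval_cases i
      · exact pb_and (u := 0) (Nat.two_pow_pos _) (show 6 < q.H by omega) rfl
      · exact Nat.zero_and _
      · exact pb_and (show 2 < q.H by omega) (show 7 < q.H by omega) rfl
      · exact pb_and (show 3 < q.H by omega) (show 7 < q.H by omega) rfl
      · exact pb_and (show 4 < q.H by omega) (show 7 < q.H by omega) rfl
  have hP : q.L < q.Pn := pb_P (by omega)
  have hS := b0_S (cs := cs) (A := A) (show q.Lb ≤ 2 * q.Lb by omega)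
  have hc := b1_cl (cs := cs) (A := A) le_rfl le_rfl
  unfold Et cE
  by_cases h0 : e = 0
  · have h4 : (rn cs A t).2 (q.nm 5 4 0) a = if toN a &&& (q.H + 6) = q.H then cl A q.L a else 0 :=
      (hs 4 (by omega) (by omega)).trans (if_congr Iff.rfl (by
        rw [show q.load2 5 4 0 = keepT (q.nm 4 q.L 0) from rfl, pb_ev, hc,
          show q.msh 4 = 0 from rfl, ofN_zero, add_zero]) rfl)
    have h5 : (rn cs A t).2 (q.nm 5 5 0) a = if toN a &&& q.H = 0 then cl A q.L a else 0 :=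
      (hs 5 (by omega) (by omega)).trans (if_congr Iff.rfl (by
        rw [show q.load2 5 5 0 = keepT (q.nm 4 q.L 0) from rfl, pb_ev, hc,
          show q.msh 5 = 0 from rfl, ofN_zero, add_zero]) rfl)
    have h6 : (rn cs A t).2 (q.nm 5 6 0) a =
        if toN a &&& (q.H + 7) = q.H + 2 then rg A q.L 0 (a + ofN _ 2) else 0 :=
      (hs 6 (by omega) (by omega)).trans (if_congr Iff.rfl (by
        rw [show q.load2 5 6 0 = keepT (q.nm 0 q.L 0) from rfl, pb_ev, rn_state hP hx]
        rfl) rfl)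
    have h7 : (rn cs A t).2 (q.nm 5 7 0) a = if toN a &&& (q.H + 7) = q.H + 3 then
        aY A (a + ofN _ 2) + aS A (a + ofN _ 2) - rg A q.L 0 (a + ofN _ 2) else 0 :=
      (hs 7 (by omega) (by omega)).trans (if_congr Iff.rfl (by
        rw [show q.load2 5 7 0 = [(1, q.rY, false), (1, q.nm 5 1 0, false),
          (q.m1, q.nm 0 q.L 0, false)] from rfl, show q.msh 7 = 2 from rfl]
        simp only [evT_cons, evT_nil, Bool.false_eq_true, if_false, rn_Y, hS, rn_state hP hx, hm,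
          Nat.cast_one]
        ring) rfl)
    have h8 : (rn cs A t).2 (q.nm 5 8 0) a =
        if toN a &&& (q.H + 7) = q.H + 4 then 1 - aY A (a + ofN _ 4) else 0 :=
      (hs 8 (by omega) (by omega)).trans (if_congr Iff.rfl (by
        rw [show q.load2 5 8 0 = [(1, q.r1, false), (q.m1, q.rY, false)] from rfl,
          show q.msh 8 = 4 from rfl]
        simp only [evT_cons, evT_nil, Bool.false_eq_true, if_false, rn_Y, rn_one, hm, Nat.cast_one]
        ring) rfl)
    rw [if_pos h0, if_pos h0, ← h4, ← h5, ← h6, ← h7, ← h8]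
    simp only [evT_cons, evT_nil, Bool.false_eq_true, if_false]
    ring
  · rw [if_neg h0, if_neg h0]
    split_ifs <;> rw [evT_cons, evT_nil, add_zero, if_neg Bool.false_ne_true,
      pb_sh0 (by omega) (by omega) (by omega)] <;> rfl

theorem pb_N {κ i x r : ℕ} (hκ : (κ = 7 ∨ κ = 8) ∧ x = 0 ∨ κ = 9) (hi : i < q.L + 2)
    (hx : x < q.Xn) (h : q.load2 κ i x = keepT r) :
    (rn cs A (3 * q.Lb)).2 (q.nm κ i x) = q.K.N x ((rn cs A (2 * q.Lb)).2 r) := by
  have hi' : i < q.Pn := pb_P (by omega)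
  rw [show 3 * q.Lb = 2 * q.Lb + q.Lb by omega, blk_sweep (α := q.K.nA x) (β := q.K.nB x)
    (by omega) (by omega) hi' hx (fun j hj u => ?_) pb_kL le_rfl,
    pb_ld (b := 2) (κ := κ) (by omega) hi' hx fun σ => h, KP.N]
  have h5 : κ ≠ 5 := by omega
  rw [sweep, if_neg (by omega), if_neg (by omega), if_neg (by omega), if_pos rfl, sw2,
    if_neg (by omega), if_pos hκ]

theorem b2_F {i : ℕ} (hi : i < q.L + 2) :
    (rn cs A (3 * q.Lb)).2 (q.nm 7 i 0) = q.K.N 0 (q.opF cs (aY A) i) := by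
  rw [pb_N (r := if i < q.L then q.nm 3 i 0 else q.rY) (by omega) hi (by linarith [pb_X (q := q)])
    (by simp [load2]), opF]
  split_ifs
  · rw [rn_c (pb_P (by omega))]
  · rw [rn_Y]

theorem b2_G {i : ℕ} (hi : i < q.L + 2) :
    (rn cs A (3 * q.Lb)).2 (q.nm 8 i 0) = q.K.N 0 (cG A i) := by
  rw [pb_N (r := if i < q.L then q.nm 4 i 0 else if i = q.L then q.nm 5 1 0 else q.rY) (by omega) hi
    (by linarith [pb_X (q := q)]) (by simp [load2]), cG]
  split_ifs
  · rw [b1_cl (by omega) le_rfl]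
  · rw [b0_S (by omega)]
  · rw [rn_Y]

theorem b2_U {i x : ℕ} (hi : i < q.L + 2) (hx : x < q.Xn) :
    (rn cs A (3 * q.Lb)).2 (q.nm 9 i x) = q.K.N x (rg A i x) := by
  rw [pb_N (r := q.nm 0 i x) (by omega) hi hx (by simp [load2]), rn_state (pb_P (by omega)) hx]

theorem b2_rd (h : q.Ok cs π) {w l : ℕ} (hw : w < 2) (hl : l < q.L) :
    (rn cs A (q.tf 2 0)).2 (q.nm (13 + w) l 0) =
      fun _ => ((pos q.k q.jj cs l (cel q.H (aθ A) w) : ℕ) : ZMod q.p) := by
  have hL : q.Lb = q.L + q.k + 4 := rfl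
  have hx : 0 < q.Xn := by linarith [pb_X (q := q)]
  have hi : l < q.Pn := pb_P (by omega)
  have hc : cel q.H (aθ A) w < 2 ^ q.k := pb_H (q := q) ▸ LD.cel_lt _ _ _ (Nat.two_pow_pos _)
  rw [tf, add_zero, blk_sweep (α := rdA (cel q.H (aθ A) w)) (β := rdB (cel q.H (aθ A) w))
    (by omega) (by omega) hi hx (fun j hj u => ?_) (by omega) (by omega), tens_read,
    pb_ld (r := q.nm 3 l 1) (by omega) hi hx fun σ => ?_, rn_pos hl.le, toN_ofN,
    Nat.mod_eq_of_lt hc]
  · interval_cases w <;> simp [load, load2]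
  · rw [sweep, if_neg (by omega), if_neg (by omega), if_neg (by omega), if_pos rfl, sw2,
      if_neg (by omega), if_neg (by omega), if_pos (by omega), rdT, b0_θ (by omega),
      Nat.add_sub_cancel_left]

theorem b2_pos (h : q.Ok cs π) (ht : 3 * q.Lb ≤ t) {w : ℕ} (hw : w < 2) (i : ℕ) :
    q.posG (rn cs A t).1 w i = pG cs A w i := by
  have hL : q.Lb = q.L + q.k + 4 := rfl
  have hx : 0 < q.Xn := by linarith [pb_X (q := q)]
  rw [posG, pG, b0_θ (by omega)]
  refine if_ctx_congr Iff.rfl (fun hi => ?_) fun _ => rfl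
  have hw' : w * q.L ≤ q.L := by nlinarith
  rw [scal_from (t0 := q.tf 2 0 + 1) (by unfold tf; omega) fun s hs σ v f hσ => ?_]
  · obtain ⟨v, f, h1, h2⟩ := pb_scal (cs := cs) (A := A) (q.tf 2 0)
      (show 6 + w * q.L + i < q.ns by unfold ns; omega)
    have h3 : ((rn cs A (q.tf 2 0)).1.take 6).length = 6 := by
      rw [List.length_take, pb_len]
      exact min_eq_left (Nat.le_add_right _ _)
    have h4 : (q.upd (q.tf 2 0) (rn cs A (q.tf 2 0)).1 v f).getD (6 + w * q.L + i) 0 =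
        v.getD (q.nm (13 + w) i 0) 0 := by
      rw [upd, if_neg (by unfold tf; omega), if_pos rfl]
      interval_cases w
      · rw [List.getD_append _ _ _ _ (by simp [h3]; omega),
          List.getD_append_right _ _ _ _ (by omega), h3]
        simp [List.getD_eq_getElem?_getD, hi]
      · rw [List.getD_append_right _ _ _ _ (by simp [h3]), List.length_append, h3]
        simp [List.getD_eq_getElem?_getD, hi]
    have h5 := pos_lt h.rt hi.le (pb_H (q := q) ▸ LD.cel_lt q.H (aθ A) w (Nat.two_pow_pos _))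
    have h6 : pos q.k q.jj cs i (cel q.H (aθ A) w) < q.p := by
      have := h.big
      rw [pb_H] at h5
      omega
    rw [h2, h4, h1 _ (nm_lt (by omega) (pb_P (by omega)) hx), b2_rd h hw hi,
      ZMod.val_natCast_of_lt h6, Nat.mod_eq_of_lt h6]
  · rw [upd, if_neg (by unfold tf at *; omega), if_neg (by omega)]
    split_ifs
    iterate 2 rw [pb_set _ _ (by omega), pb_set _ _ (by omega), pb_set _ _ (by omega)]
    iterate 4 rw [pb_set _ _ (by omega)]
    rfl

end PP

end Vale.Agent.P330Q
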