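import Vale.Agent.P330Q.ProgB
import Vale.Agent.P330Q.KumC

/-! The block `3` of the program, and the promises (task ProgC). Tools: `ProgA.lean`, `ProgB.lean`,
`mask_spec`, `tens_read`, `KP.dich`. -/

namespace Vale.Agent.P330Q

open Vale.Agent.Lib.H23 Vale.Agent.P325 Vale.Agent.P330 Vale.Agent.P330.Amp Finset
open scoped BigOperators

namespace PP

variable {q : PP} [Fact q.p.Prime] {cs : List (List ℕ)} {π : List ℕ} {A : q.St} {t : ℕ}

omit [Fact q.p.Prime] in
theorem c_still {κ i x : ℕ} (h3 : 3 ≤ κ) (h : κ < 15) : q.Still 4 κ i x := fun σ =>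
  ⟨by rw [load, if_neg (by omega), if_neg (by omega), if_neg (by omega), if_pos rfl, load4,
      if_neg (by omega), if_neg (by omega), if_neg (by omega)],
    fun j u => by
      rw [sweep, if_neg (by omega), sw4, if_neg (show ¬ 15 ≤ κ by omega)]
      simp,
    fun f => if_neg (by omega)⟩

omit [Fact q.p.Prime] in
theorem c_aft {κ i x : ℕ} (hκ : 3 ≤ κ ∧ κ < 15) (hi : i < q.Pn) (hx : x < q.Xn) {V : q.Fn}
    (h : ∀ s, q.k + 1 ≤ s → s ≤ q.Lb → (rn cs A (3 * q.Lb + s)).2 (q.nm κ i x) = V)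
    (ht : q.tf 3 0 ≤ t) : (rn cs A t).2 (q.nm κ i x) = V := by
  unfold tf at ht
  by_cases h4 : t ≤ 4 * q.Lb
  · obtain ⟨s, rfl⟩ : ∃ s, t = 3 * q.Lb + s := ⟨t - 3 * q.Lb, by omega⟩
    exact h s (by omega) (by omega)
  · rw [keep_from (b := 4) (by omega) hi hx (fun c h1 h2 => by
      obtain rfl : c = 4 := by omega
      exact c_still hκ.1 hκ.2) (by omega), ← h q.Lb (by unfold Lb; omega) le_rfl,
      show 3 * q.Lb + q.Lb = 4 * q.Lb by ring]

omit [Fact q.p.Prime] in
theorem c_x0 : 1 < q.Xn := by unfold Xn nX; omega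

omit [Fact q.p.Prime] in
theorem c_keep (j r : ℕ) (Y : Regs q.p q.k) (a : Vec q.k) : evT j Y (keepT r) a = Y r a := by
  simp [evT, keepT]

omit [Fact q.p.Prime] in
theorem c_M {κ i x : ℕ} (hκ : κ = 7 ∨ κ = 8 ∨ κ = 9) (hi : i < q.L + 2) (hx : x < q.Xn)
    (ht : q.tf 3 0 ≤ t) : (rn cs A t).2 (q.nm κ i x) =
      q.K.M x ((rn cs A (3 * q.Lb + 1)).2 (q.nm κ i x)) :=
  have hi' : i < q.Pn := by unfold Pn; omega
  c_aft (by omega) hi' hx (fun _ h1 h2 => blk_sweep (by omega) (by omega) hi' hx (fun j hj u => by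
    rw [sweep, if_neg (by omega), if_neg (by omega), if_neg (by omega), if_neg (by omega),
      if_pos rfl, sw3, if_pos hκ]) h1 h2) ht

omit [Fact q.p.Prime] in
theorem c_load {κ i x : ℕ} (hκ : κ < 23) (hi : i < q.Pn) (hx : x < q.Xn) (a : Vec q.k) :
    (rn cs A (3 * q.Lb + 1)).2 (q.nm κ i x) a = evT (q.bit (3 * q.Lb)) (rn cs A (3 * q.Lb)).2
      (q.load3 (rn cs A (3 * q.Lb)).1 κ i x) a := rn_load hκ hi hx a

theorem b3_F (ht : q.tf 3 0 ≤ t) {i x : ℕ} (hi : i < q.L + 2) (hx : x < q.Xn) :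
    (rn cs A t).2 (q.nm 7 i x) = q.K.lde x (q.opF cs (aY A) i) := by
  rw [c_M (by omega) hi hx ht, KP.lde, ← b2_F hi]
  congr 1
  funext a
  rw [c_load (by omega) (by unfold Pn; omega) hx, load3, if_pos (by omega), c_keep]

theorem b3_G (ht : q.tf 3 0 ≤ t) {i x : ℕ} (hi : i < q.L + 2) (hx : x < q.Xn) :
    (rn cs A t).2 (q.nm 8 i x) = q.K.lde x (cG A i) := by
  rw [c_M (by omega) hi hx ht, KP.lde, ← b2_G (cs := cs) hi]
  congr 1
  funext a
  rw [c_load (by omega) (by unfold Pn; omega) hx, load3, if_pos (by omega), c_keep]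

theorem b3_U (ht : q.tf 3 0 ≤ t) {i x : ℕ} (hi : i < q.L + 2) (hx : x < q.Xn) :
    (rn cs A t).2 (q.nm 9 i x) = q.K.ext (rg A i) x := by
  rw [c_M (by omega) hi hx ht, KP.ext]
  congr 1
  funext a
  rw [c_load (by omega) (by unfold Pn; omega) hx, load3, if_neg (by omega), if_pos rfl, evT_range]
  refine sum_congr rfl fun e he => ?_
  rw [b2_U hi (by have := mem_range.1 he; unfold Xn nX; omega)]

theorem c_m1 : ((q.m1 : ℕ) : ZMod q.p) = -1 := cast_pred (Fact.out : q.p.Prime).pos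

/-- the registers of kind `6` are only loaded -/
theorem c_six {i s : ℕ} (hi : i < 16) (h1 : 1 ≤ s) (h2 : s ≤ q.Lb) (a : Vec q.k) :
    (rn cs A (3 * q.Lb + s)).2 (q.nm 6 i 0) a = evT (q.bit (3 * q.Lb)) (rn cs A (3 * q.Lb)).2
      (q.load3 (rn cs A (3 * q.Lb)).1 6 i 0) a := by
  have hi' : i < q.Pn := by unfold Pn; omega
  have hx : 0 < q.Xn := by have := c_x0 (q := q); omega
  rw [blk_load (by omega) hi' hx (fun σ j u => by simp [sweep, sw3]) h1 h2,
    c_load (by omega) hi' hx]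

theorem c_D (h : q.Ok cs π) {e s : ℕ} (he : e < 3) (h1 : 1 ≤ s) (h2 : s ≤ q.Lb) :
    (rn cs A (3 * q.Lb + s)).2 (q.nm 6 e 0) = fun a => aY A a - cE A e a := by
  funext a
  rw [c_six (by omega) h1 h2, load3, if_neg (by omega), if_neg (by omega), if_pos ⟨rfl, rfl, he⟩,
    evT_cons, b2_E h le_rfl, rn_Y, c_m1]
  simp [sub_eq_add_neg]

theorem c_T (ht : q.tf 3 0 ≤ t) : (rn cs A t).2 (q.nm 6 4 0) = fun a => aT A a - aT A 0 :=
  c_aft (by omega) (by unfold Pn; omega) (by have := c_x0 (q := q); omega) (fun s h1 h2 => by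
    funext a
    rw [c_six (by omega) (by omega) h2, load3, if_neg (by omega), if_neg (by omega),
      if_neg (by omega), if_pos ⟨rfl, rfl, rfl⟩, evT_cons, evT_cons, evT_nil, rn_T, c_m1,
      b0_T (by unfold Lb; omega)]
    simp [sub_eq_add_neg]) ht

theorem c_Q (ht : q.tf 3 0 ≤ t) :
    (rn cs A t).2 (q.nm 6 5 0) = fun a => rg A (q.L + 1) 0 a - aY A a :=
  c_aft (by omega) (by unfold Pn; omega) (by have := c_x0 (q := q); omega) (fun s h1 h2 => by
    funext a
    rw [c_six (by omega) (by omega) h2, load3, if_neg (by omega), if_neg (by omega),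
      if_neg (by omega), if_neg (by omega), if_pos ⟨rfl, rfl, rfl⟩, evT_cons, evT_cons, evT_nil,
      rn_Y, c_m1, rn_state (by unfold Pn; omega) (by have := c_x0 (q := q); omega)]
    simp [sub_eq_add_neg]) ht

theorem c_θ : (rn cs A (3 * q.Lb)).1.getD 0 0 = aθ A := b0_θ (by omega)

theorem b3_piece (h : q.Ok cs π) (ht : q.tf 3 0 ≤ t) {w i : ℕ} (hw : w < 3) (hi : i < 16) :
    (rn cs A t).2 (q.nm (10 + w) i 0) = piece A (q.thw (aθ A) w) i := by
  have hi' : i < q.Pn := by unfold Pn; omega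
  have hx : 0 < q.Xn := by have := c_x0 (q := q); omega
  have hL : q.k + 1 ≤ q.Lb := by unfold Lb; omega
  refine c_aft (by omega) hi' hx (fun s h1 h2 => ?_) ht
  set θ := q.thw (aθ A) w with hθ
  have src : ∀ s, 1 ≤ s → s ≤ q.Lb → (rn cs A (3 * q.Lb + s)).2
      (if i % 2 = 1 then q.rY else q.nm 6 (ee q.H θ (i / 2)) 0) =
      fun a => if i % 2 = 1 then aY A a else aY A a - cE A (ee q.H θ (i / 2)) a := by
    intro s h1 h2
    split_ifs
    · exact rn_Y _
    · exact c_D h (LD.ee_lt _ _ _) h1 h2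
  rw [blk_rec (b := 3) (r0 := if i % 2 = 1 then q.rY else q.nm 6 (ee q.H θ (i / 2)) 0)
    (α := mkA q.ko (q.thr θ i) (decide (i % 2 = 1))) (β := mkB q.ko (i / 2) (q.thr θ i))
    (by omega) (by omega) hi' hx (fun j hj => by
      rw [add_assoc, src _ (by omega) (by omega), src _ le_rfl (by omega)]) (fun j hj u => by
      rw [sweep, if_neg (by omega), if_neg (by omega), if_neg (by omega), if_neg (by omega),
        if_pos rfl, sw3, if_neg (by omega), if_pos ⟨by omega, rfl⟩, c_θ, Nat.add_sub_cancel_left])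
    h1 h2, src _ le_rfl (by omega)]
  have st : (rn cs A (3 * q.Lb + 1)).2 (q.nm (10 + w) i 0) = if decide (i % 2 = 1) then
      (fun a => if i % 2 = 1 then aY A a else aY A a - cE A (ee q.H θ (i / 2)) a)
      else fun _ => 0 := by
    funext a
    rw [c_load (by omega) hi' hx, load3, if_neg (by omega), if_neg (by omega), if_neg (by omega),
      if_neg (by omega), if_neg (by omega), if_pos ⟨by omega, rfl⟩]
    by_cases e : i % 2 = 1
    · simp only [e, if_true, decide_true, c_keep, rn_Y]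
    · simp only [e, if_false, decide_false, evT_nil, Bool.false_eq_true]
  funext a
  rw [st, mask_spec rfl (by have := h.ko; omega) (by omega) (by
    unfold thr
    split_ifs
    exacts [LD.hi_le h.nH _ _, LD.fu_le _ _ _]), piece]
  simp only [decide_eq_true_eq]

theorem b3_rd (h : q.Ok cs π) (ht : q.tf 3 0 ≤ t) {w : ℕ} (hw : w < 2) :
    (rn cs A t).2 (q.nm (13 + w) 0 1) =
      fun _ => cE A (eAct (ph q.H (aθ A))) (ofN _ (cel q.H (aθ A) w)) := by
  have hi' : 0 < q.Pn := by unfold Pn; omega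
  refine c_aft (by omega) hi' c_x0 (fun s h1 h2 => ?_) ht
  rw [blk_sweep (b := 3) (α := rdA (cel q.H (aθ A) w)) (β := rdB (cel q.H (aθ A) w)) (by omega)
    (by omega) hi' c_x0 (fun j hj u => by
      rw [sweep, if_neg (by omega), if_neg (by omega), if_neg (by omega), if_neg (by omega),
        if_pos rfl, sw3, if_neg (by omega), if_neg (by omega), if_pos ⟨by omega, rfl⟩, rdT, c_θ,
        Nat.add_sub_cancel_left]) h1 h2, tens_read]
  funext _
  rw [c_load (by omega) hi' c_x0, load3, if_neg (by omega), if_neg (by omega), if_neg (by omega),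
    if_neg (by omega), if_neg (by omega), if_neg (by omega), if_pos ⟨by omega, rfl⟩, c_θ,
    b2_E h le_rfl, Nat.cast_one, one_mul]

/-! ### the tests -/

omit [Fact q.p.Prime] in
theorem c_ne {b f b' f' : ℕ} (hf : f < 3) (hf' : f' < 3) (h : ¬ (b = b' ∧ f = f')) :
    q.tf b f ≠ q.tf b' f' := fun e => h ((tf_inj hf hf').1 e)

theorem c_bad (t : ℕ) (a : Vec q.k) : prog.badT q t (rn cs A t) a ↔ t = q.tf 3 0 ∧
    ∃ i < q.L + 2, ∃ x < q.Xn, q.K.ext (rg A i) x a ≠
      q.K.lde x (q.opF cs (aY A) i) a * q.K.lde x (cG A i) a := by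
  change (∃ e ∈ q.ts t, _) ↔ _
  unfold ts
  split_ifs with e
  · simp only [List.mem_flatMap, List.mem_map, List.mem_range, e, true_and]
    constructor
    · rintro ⟨_, ⟨i, hi, x, hx, rfl⟩, h⟩
      rw [b3_U le_rfl hi hx, b3_F le_rfl hi hx, b3_G le_rfl hi hx] at h
      exact ⟨i, hi, x, hx, h⟩
    · rintro ⟨i, hi, x, hx, h⟩
      refine ⟨_, ⟨i, hi, x, hx, rfl⟩, ?_⟩
      rwa [b3_U le_rfl hi hx, b3_F le_rfl hi hx, b3_G le_rfl hi hx]
  · simp [e]

theorem c_pieces (h : q.Ok cs π) (ht : q.tf 3 0 ≤ t) {w : ℕ} (hw : w < 3) :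
    (∃ r ∈ (List.range 16).map fun i => q.nm (10 + w) i 0, (rn cs A t).2 r ≠ 0) ↔
      ¬ Shp A (q.thw (aθ A) w) := by
  simp only [List.mem_map, List.mem_range, Shp, not_forall]
  constructor
  · rintro ⟨_, ⟨i, hi, rfl⟩, e⟩
    exact ⟨i, hi, by rwa [b3_piece h ht hw hi] at e⟩
  · rintro ⟨i, hi, e⟩
    exact ⟨_, ⟨i, hi, rfl⟩, by rwa [b3_piece h ht hw hi]⟩

theorem c_flag0 (h : q.Ok cs π) (hθ : aθ A < 10 * (q.H + 1)) :
    ¬ prog.flag q (q.tf 3 0) (rn cs A (q.tf 3 0)) ↔ Vld cs A := by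
  have hz : prog.zs q (q.tf 3 0) (rn cs A (q.tf 3 0)).1 =
      ((List.range 16).map fun i => q.nm (10 + 0) i 0) ++ [q.nm 6 4 0, q.nm 6 5 0] ++
        (List.range q.nS).filter fun r => !q.used (r / q.Xn) (r % q.Xn) := if_pos rfl
  have hs : ∀ r : Fin q.nS, (rn cs A (q.tf 3 0)).2 r = A r := fun r => by
    obtain ⟨e, h1, h2⟩ := nm_split r 0
    rw [zero_mul, zero_add] at e
    rw [← rg_coe (A := A) r, ← rn_state (cs := cs) h1 h2 (q.tf 3 0), ← e]
  have hp := c_pieces (A := A) h le_rfl (w := 0) (by omega)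
  rw [LM.flag, hz, not_or]
  simp only [List.mem_append, or_and_right, exists_or, not_or, hp, not_not, c_bad, true_and,
    List.mem_cons, List.not_mem_nil, exists_eq_left, c_T le_rfl, c_Q le_rfl, false_and,
    exists_false, not_false_eq_true, and_true, List.mem_filter, List.mem_range]
  constructor
  · rintro ⟨⟨⟨h1, h2, h3⟩, h4⟩, h5⟩
    refine ⟨hθ, h1, funext fun a => sub_eq_zero.1 (congrFun h2 a),
      funext fun a => sub_eq_zero.1 (congrFun h3 a), fun r hr => ?_, fun i hi x hx a => ?_⟩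
    · by_contra e
      exact h4 ⟨r, ⟨r.2, by rw [hr]; rfl⟩, by rwa [hs]⟩
    · by_contra e
      exact h5 ⟨a, i, hi, x, hx, e⟩
  · intro v
    refine ⟨⟨⟨v.shp, funext fun a => sub_eq_zero.2 (congrFun v.cT a),
      funext fun a => sub_eq_zero.2 (congrFun v.sq a)⟩, ?_⟩, ?_⟩
    · rintro ⟨r, ⟨h1, h2⟩, e⟩
      exact e ((hs ⟨r, h1⟩).trans (v.un ⟨r, h1⟩ (by simpa using h2)))
    · rintro ⟨a, i, hi, x, hx, e⟩
      exact e (v.pr i hi x hx a)

theorem c_flag (h : q.Ok cs π) {w : ℕ} (hw : w < 2) :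
    prog.flag q (q.tf 3 (w + 1)) (rn cs A (q.tf 3 (w + 1))) ↔ ¬ Shp A (mvp q.H (aθ A) w) := by
  have hz : prog.zs q (q.tf 3 (w + 1)) (rn cs A (q.tf 3 (w + 1))).1 =
      (List.range 16).map fun i => q.nm (10 + (w + 1)) i 0 := by
    change q.zs _ = _
    unfold zs
    rw [if_neg (c_ne (by omega) (by omega) (by omega))]
    interval_cases w
    · exact if_pos rfl
    · rw [if_neg (c_ne (by omega) (by omega) (by omega)), if_pos rfl]
  rw [LM.flag, hz, c_pieces h (by unfold tf; omega) (by omega), thw, if_neg (by omega),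
    Nat.add_sub_cancel]
  have : q.tf 3 (w + 1) ≠ q.tf 3 0 := c_ne (by omega) (by omega) (by omega)
  simp only [c_bad, this, false_and, exists_false, or_false]

/-! ### the scalars -/

omit [Fact q.p.Prime] in
theorem c_getD_set (σ : List ℕ) (m n v : ℕ) :
    (σ.set m v).getD n 0 = if m = n ∧ n < σ.length then v else σ.getD n 0 := by
  simp only [List.getD_eq_getElem?_getD, List.getElem?_set]
  split_ifs with h1 h2 h3 h4 <;> simp_all

omit [Fact q.p.Prime] in
theorem c_vals {r : ℕ} (hr : r < 23 * q.nS) (Y : Regs q.p q.k) (a : Vec q.k) :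
    ((List.range (23 * q.nS)).map fun r => (Y r a).val).getD r 0 = (Y r a).val := by
  rw [List.getD_eq_getElem _ _ (by simpa using hr), List.getElem_map, List.getElem_range]

open Classical in
omit [Fact q.p.Prime] in
theorem c_scal {n : ℕ} (hn : n < 6) (t : ℕ) : (rn cs A (t + 1)).1.getD n 0 =
    (q.upd t (rn cs A t).1 ((List.range (23 * q.nS)).map fun r => ((rn cs A t).2 r 0).val)
      (decide (prog.flag q t (rn cs A t)))).getD n 0 % q.p :=
  getD_nrmS (show n < q.ns by unfold ns; omega) _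

omit [Fact q.p.Prime] in
theorem c_len (t : ℕ) : (rn cs A t).1.length = 6 + 2 * q.L := LM.run_len (M := prog) t

omit [Fact q.p.Prime] in
/-- the scalar written in the step `tf 3 f` is kept -/
theorem c_kept {n f : ℕ} (hf : f < 3) (h1 : f < 1 → n ≠ 2) (h2 : f < 2 → n ≠ 3)
    (ht : 4 * q.Lb ≤ t) : (rn cs A t).1.getD n 0 = (rn cs A (q.tf 3 f + 1)).1.getD n 0 := by
  refine scal_from (by unfold tf Lb at *; omega) fun s hs σ v fl _ => ?_
  unfold upd
  have hL : q.Lb = q.L + q.k + 4 := rfl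
  rw [if_neg (by unfold tf at *; omega), if_neg (by unfold tf at *; omega),
    if_neg (by unfold tf at *; omega)]
  split_ifs with e1 e2 e3 e4 <;> first | rfl | (rw [c_getD_set, if_neg]; unfold tf at *; omega)

omit [Fact q.p.Prime] in
theorem c_upd0 (σ v : List ℕ) (fl : Bool) : q.upd (q.tf 3 0) σ v fl =
    ((σ.set 1 (if !fl && decide (σ.getD 0 0 < 10 * (q.H + 1)) then 1 else 0)).set 4
      (q.chg (σ.getD 0 0) 0 (v.getD (q.nm 13 0 1) 0))).set 5
      (q.chg (σ.getD 0 0) 1 (v.getD (q.nm 14 0 1) 0)) := by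
  rw [upd, if_neg (c_ne (by omega) (by omega) (by omega)),
    if_neg (c_ne (by omega) (by omega) (by omega)), if_pos rfl]

theorem c_θ' (ht : q.tf 3 0 ≤ t) : (rn cs A t).1.getD 0 0 = aθ A := b0_θ (by unfold tf at ht; omega)

theorem c_bit (h : q.Ok cs π) (P : Prop) [Decidable P] : (if P then 1 else 0) % q.p = 1 ↔ P := by
  have : 2 < q.p := h.K.hp
  split_ifs with e
  · simp [e, Nat.mod_eq_of_lt (show 1 < q.p by omega)]
  · simp [e]

theorem c_v (h : q.Ok cs π) (ht : 4 * q.Lb ≤ t) : (rn cs A t).1.getD 1 0 = 1 ↔ Vld cs A := by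
  rw [c_kept (f := 0) (by omega) (by omega) (by omega) ht, c_scal (by omega), c_upd0, c_getD_set,
    if_neg (by omega), c_getD_set, if_neg (by omega), c_getD_set,
    if_pos ⟨rfl, by rw [c_len]; omega⟩, c_bit h, c_θ' le_rfl]
  simp only [Bool.and_eq_true, Bool.not_eq_true', decide_eq_false_iff_not, decide_eq_true_eq]
  exact ⟨fun e => (c_flag0 h e.2).1 e.1, fun v => ⟨(c_flag0 h v.lt).2 v, v.lt⟩⟩

theorem c_n (h : q.Ok cs π) (ht : 4 * q.Lb ≤ t) {w : ℕ} (hw : w < 2) :
    (rn cs A t).1.getD (2 + w) 0 = 1 ↔ Shp A (mvp q.H (aθ A) w) := by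
  classical
  have hu : ∀ σ v fl, q.upd (q.tf 3 (w + 1)) σ v fl = σ.set (2 + w) (if fl then 0 else 1) := by
    intro σ v fl
    rw [upd, if_neg (c_ne (by omega) (by omega) (by omega)),
      if_neg (c_ne (by omega) (by omega) (by omega)), if_neg (c_ne (by omega) (by omega) (by omega))]
    interval_cases w
    · exact if_pos rfl
    · rw [if_neg (c_ne (by omega) (by omega) (by omega)), if_pos rfl]
  rw [c_kept (f := w + 1) (by omega) (by omega) (by omega) ht, c_scal (by omega), hu, c_getD_set,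
    if_pos ⟨rfl, by rw [c_len]; omega⟩, ← ite_not, c_bit h, decide_eq_true_eq, c_flag h hw, not_not]

theorem b3_mv (h : q.Ok cs π) (ht : 4 * q.Lb ≤ t) {w : ℕ} (hw : w < 2) :
    q.mv (rn cs A t).1 w = true ↔ MvA cs A w := by
  rw [mv, MvA, b0_θ (by omega), ← c_v h ht, ← c_n h ht hw]
  cases bdy q.H (aθ A) w <;> simp

theorem b3_xi (h : q.Ok cs π) (ht : 4 * q.Lb ≤ t) {w : ℕ} (hw : w < 2) :
    (((rn cs A t).1.getD (4 + w) 0 : ℕ) : ZMod q.p) = xi A w := by
  have e : (rn cs A t).1.getD (4 + w) 0 = q.chg (aθ A) w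
      (cE A (eAct (ph q.H (aθ A))) (ofN _ (cel q.H (aθ A) w))).val % q.p := by
    have hr := congrFun (b3_rd (A := A) h le_rfl hw) 0
    have hl := c_len (cs := cs) (A := A) (q.tf 3 0)
    rw [c_kept (f := 0) (by omega) (by omega) (by omega) ht, c_scal (by omega), c_upd0, c_θ' le_rfl,
      c_vals (nm_lt (by omega) (by unfold Pn; omega) c_x0),
      c_vals (nm_lt (by omega) (by unfold Pn; omega) c_x0), ← hr]
    interval_cases w
    · rw [c_getD_set, if_neg (by omega), c_getD_set, if_pos ⟨rfl, by simp [hl]; omega⟩]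
    · rw [c_getD_set, if_pos ⟨rfl, by simp [hl]; omega⟩]
  rw [e, ZMod.natCast_mod, chg, xi]
  split_ifs
  · exact Nat.cast_zero
  · rw [ZMod.natCast_zmod_val, one_mul]
  · rw [Nat.cast_sub (ZMod.val_lt _).le, ZMod.natCast_self, ZMod.natCast_zmod_val]
    ring

theorem p1 (h : q.Ok cs π) (t : ℕ) (a : Vec q.k) :
    prog.newS q t (rn cs A t) a = prog.newS q t (rn cs A t) 0 := by
  have hx : 0 < q.Xn := by have := c_x0 (q := q); omega
  refine congrArg (nrmS q.p q.ns) ?_
  change q.upd t _ ((List.range (23 * q.nS)).map _) _ = q.upd t _ ((List.range (23 * q.nS)).map _) _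
  unfold upd
  by_cases e0 : t = q.tf 0 0
  · rw [if_pos e0, if_pos e0, c_vals (nm_lt (by omega) (by unfold Pn; omega) hx),
      c_vals (nm_lt (by omega) (by unfold Pn; omega) hx), b0_T (by unfold tf at e0; omega)]
  rw [if_neg e0, if_neg e0]
  by_cases e2 : t = q.tf 2 0
  · have key : ∀ w < 2, ∀ l ∈ List.range q.L, ((List.range (23 * q.nS)).map fun r =>
        ((rn cs A t).2 r a).val).getD (q.nm (13 + w) l 0) 0 = ((List.range (23 * q.nS)).map fun r =>
        ((rn cs A t).2 r 0).val).getD (q.nm (13 + w) l 0) 0 := fun w hw l hl => by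
      have hl := List.mem_range.1 hl
      rw [c_vals (nm_lt (by omega) (by unfold Pn; omega) hx),
        c_vals (nm_lt (by omega) (by unfold Pn; omega) hx), e2, b2_rd h hw hl]
    rw [if_pos e2, if_pos e2, List.map_congr_left (key 0 (by omega)),
      List.map_congr_left (key 1 (by omega))]
  rw [if_neg e2, if_neg e2]
  by_cases e3 : t = q.tf 3 0
  · have key : ∀ w < 2, ((List.range (23 * q.nS)).map fun r =>
        ((rn cs A t).2 r a).val).getD (q.nm (13 + w) 0 1) 0 = ((List.range (23 * q.nS)).map fun r =>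
        ((rn cs A t).2 r 0).val).getD (q.nm (13 + w) 0 1) 0 := fun w hw => by
      rw [c_vals (nm_lt (by omega) (by unfold Pn; omega) c_x0),
        c_vals (nm_lt (by omega) (by unfold Pn; omega) c_x0), b3_rd h e3.ge hw]
    rw [if_pos e3, if_pos e3, key 0 (by omega), key 1 (by omega)]
  rw [if_neg e3, if_neg e3]

theorem p2 (h : q.Ok cs π) (t : ℕ) (hb : ∃ a, prog.badT q t (rn cs A t) a) :
    1 / 4 ≤ 𝔼 a, ind (prog.badT q t (rn cs A t) a) := by
  obtain ⟨a, ha⟩ := hb
  obtain ⟨e, i, hi, hx⟩ := (c_bad t a).1 ha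
  refine le_trans (by norm_num) ((KP.dich h.K _ _ _ ⟨a, hx⟩).trans (expect_le_expect fun b _ => ?_))
  unfold ind
  split_ifs with h1 h2
  exacts [le_rfl, absurd ((c_bad t b).2 ⟨e, i, hi, h1⟩) h2, zero_le_one, le_rfl]

end PP

end Vale.Agent.P330Q
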