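import Vale.Agent.P330Q.ProgC

/-! The block `4` of the program: the outputs (task ProgD). Tools: `blk_sweep` with `β = 0`,
`tens_diag`, `KP.lde_dlt`, `prod_rdA`; the outputs are written in the step `tf 4 0` and kept. -/

namespace Vale.Agent.P330Q

open Vale.Agent.Lib.H23 Vale.Agent.P325 Vale.Agent.P330 Vale.Agent.P330.Amp Finset
open scoped BigOperators

namespace PP

variable {q : PP} [Fact q.p.Prime] {cs : List (List ℕ)} {π : List ℕ} {A : q.St}

private theorem pd_keep (j r : ℕ) (Y : Regs q.p q.k) (a : Vec q.k) : evT j Y (keepT r) a = Y r a := by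
  rw [keepT, evT_cons, evT_nil, Nat.cast_one, one_mul, add_zero]
  rfl

private theorem pd_t4 : 4 * q.Lb ≤ q.tf 4 0 := by
  unfold tf
  omega

private theorem pd_out {w : ℕ} (hw : w < 2) (r : Fin q.nS) (a : Vec q.k) :
    prog.outp q (q.cst cs) (1 + w) A r a = evT (q.bit (q.tf 4 0)) (rn cs A (q.tf 4 0)).2
      (if q.mv (rn cs A (q.tf 4 0)).1 w then
        q.outT (rn cs A (q.tf 4 0)).1 w (r / q.Xn) (r % q.Xn)
      else keepT (q.nm 0 (r / q.Xn) (r % q.Xn))) a := by
  obtain ⟨h1, h2, h3⟩ := nm_split r (1 + w)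
  have h4 := nm_lt (κ := 1 + w) (by omega) h2 h3
  have h5 : 5 * q.Lb = q.tf 4 0 + 1 + 2 := by
    unfold tf Lb
    omega
  change (rn cs A (5 * q.Lb)).2 ((1 + w) * q.nS + r) a = _
  rw [h1, h5]
  refine (congrFun (LM.run_keep (M := prog) h4 fun i hi σ u => ?_) a).trans
    ((LM.run_reg (M := prog) _ h4 a).trans ?_)
  · change q.tm _ _ _ _ = _
    rw [show q.tf 4 0 + 1 + i = q.tf 4 (1 + i) by unfold tf; omega, tm_fin h2 h3 (by omega), fin,
      if_neg (by omega)]
    rfl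
  · change evT (q.bit _) (rn cs A _).2 (q.tm _ (rn cs A _).1 _ _) a = _
    rw [tm_fin h2 h3 (by omega), fin, if_pos ⟨rfl, rfl, by omega⟩, Nat.add_sub_cancel_left]

private theorem pd_corr {κ w e i x : ℕ} (hκ : κ = 15 + 4 * w + e) (hw : w < 2) (he : e < 4)
    (hi : i < q.Pn) (hx : x < q.Xn) (a : Vec q.k) :
    (rn cs A (q.tf 4 0)).2 (q.nm κ i x) a =
      (∏ j ∈ range q.k, cf (q.fac (rn cs A (4 * q.Lb)).1 w e i x) j (bt a j)) *
        evT (q.bit (4 * q.Lb)) (rn cs A (4 * q.Lb)).2 (q.load4 κ i x) a := by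
  have h1 := blk_sweep (cs := cs) (A := A) (b := 4) (κ := κ) (by omega) (by omega) hi hx
    (α := q.fac (rn cs A (4 * q.Lb)).1 w e i x) (β := fun _ _ => 0) (fun j hj u => by
      rw [sweep, if_neg (by omega), if_neg (by omega), if_neg (by omega), if_neg (by omega),
        if_neg (by omega), if_pos rfl, sw4, if_pos (by omega),
        show (κ - 15) / 4 = w by omega, show (κ - 15) % 4 = e by omega])
    (s := q.L + q.k + 1) (by omega) (by unfold Lb; omega)
  have h2 : (cf (fun _ _ => 0) : ℕ → Bool → ZMod q.p) = fun _ _ => 0 :=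
    funext fun _ => funext fun _ => Nat.cast_zero
  rw [tf, add_zero, h1, h2, tens_diag, rn_load (by omega) hi hx]
  rfl

private theorem pd_t3 : q.tf 3 0 ≤ 4 * q.Lb := by
  unfold tf Lb
  omega

private theorem pd_15 (h : q.Ok cs π) {w i x : ℕ} (hw : w < 2) (hi : i < q.L + 2) (hx : x < q.Xn)
    (a : Vec q.k) : (rn cs A (q.tf 4 0)).2 (q.nm (15 + 4 * w) i x) a =
      q.K.lde x (dlt (pG cs A w i)) a * q.K.lde x (q.opF cs (aY A) i) a := by
  rw [pd_corr (κ := 15 + 4 * w) (e := 0) rfl hw (by omega) (by unfold Pn; omega) hx, load4, if_pos (by omega), pd_keep,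
    b3_F pd_t3 hi hx, KP.lde_dlt h.K, ← b2_pos h (t := 4 * q.Lb) (by omega) hw]
  rfl

private theorem pd_16 (h : q.Ok cs π) {w i x : ℕ} (hw : w < 2) (hi : i < q.L + 2) (hx : x < q.Xn)
    (a : Vec q.k) : (rn cs A (q.tf 4 0)).2 (q.nm (16 + 4 * w) i x) a =
      q.K.lde x (dlt (cel q.H (aθ A) w)) a * q.K.lde x (cG A i) a := by
  rw [pd_corr (e := 1) (by omega) hw (by omega) (by unfold Pn; omega) hx, load4, if_neg (by omega),
    if_pos (by omega), pd_keep, b3_G pd_t3 hi hx, KP.lde_dlt h.K,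
    ← b0_θ (cs := cs) (t := 4 * q.Lb) (by omega)]
  rfl

private theorem pd_17 (h : q.Ok cs π) {w i x : ℕ} (hw : w < 2) (hi : i < q.L + 2) (hx : x < q.Xn)
    (a : Vec q.k) : (rn cs A (q.tf 4 0)).2 (q.nm (17 + 4 * w) i x) a =
      q.K.lde x (dlt (pG cs A w i)) a * q.K.lde x (dlt (cel q.H (aθ A) w)) a := by
  rw [pd_corr (e := 2) (by omega) hw (by omega) (by unfold Pn; omega) hx, load4, if_neg (by omega),
    if_neg (by omega), if_pos (by omega), pd_keep, rn_one, mul_one, KP.lde_dlt h.K, KP.lde_dlt h.K,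
    ← b2_pos h (t := 4 * q.Lb) (by omega) hw, ← b0_θ (cs := cs) (t := 4 * q.Lb) (by omega),
    ← prod_mul_distrib]
  exact prod_congr rfl fun j _ => cast_mulm _ _

private theorem pd_18 {w : ℕ} (hw : w < 2) (a : Vec q.k) :
    (rn cs A (q.tf 4 0)).2 (q.nm (18 + 4 * w) 0 0) a = dlt (cel q.H (aθ A) w) a := by
  rw [pd_corr (e := 3) (by omega) hw (by omega) (by unfold Pn; omega) (Nat.succ_pos _), load4,
    if_neg (by omega), if_neg (by omega), if_pos (by omega), pd_keep, rn_one, mul_one, ← prod_rdA,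
    ← b0_θ (cs := cs) (t := 4 * q.Lb) (by omega)]
  rfl

theorem out_keep : prog.outp q (q.cst cs) 0 A = A := by
  refine funext fun r : Fin q.nS => ?_
  obtain ⟨h1, h2, h3⟩ := nm_split r 0
  change (rn cs A (5 * q.Lb)).2 (0 * q.nS + r) = _
  rw [h1, rn_state h2 h3]
  exact rg_coe r

theorem out_mv (h : q.Ok cs π) {w : ℕ} (hw : w < 2) (hm : MvA cs A w) (r : Fin q.nS) :
    prog.outp q (q.cst cs) (1 + w) A r = newR cs A w (r / q.Xn) (r % q.Xn) := by
  funext a
  obtain ⟨-, h2, h3⟩ := nm_split r 0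
  have h4 := b3_xi (A := A) h pd_t4 hw
  rw [pd_out hw, if_pos ((b3_mv h pd_t4 hw).2 hm), outT, newR]
  by_cases c1 : r / q.Xn < q.L + 2 ∧ r % q.Xn ≤ q.k
  · rw [if_pos c1, if_pos c1]
    simp only [evT_cons, evT_nil, Bool.false_eq_true, if_false]
    rw [rn_state h2 h3, pd_15 h hw c1.1 h3, pd_16 h hw c1.1 h3, pd_17 h hw c1.1 h3, h4]
    split_ifs
    · simp only [Nat.cast_zero, Nat.cast_one]
      ring
    · rw [cast_mulm, h4, Nat.cast_one]
      ring
  rw [if_neg c1, if_neg c1]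
  split_ifs
  · simp only [evT_cons, evT_nil, Bool.false_eq_true, if_false]
    rw [rn_Y, pd_18 hw, h4, Nat.cast_one, one_mul, add_zero]
  · simp only [evT_cons, evT_nil, Bool.false_eq_true, if_false]
    rw [rn_one, mul_one, add_zero, b0_θ (le_trans (by omega) pd_t4)]
  · rfl

theorem out_stay (h : q.Ok cs π) {w : ℕ} (hw : w < 2) (hm : ¬ MvA cs A w) :
    prog.outp q (q.cst cs) (1 + w) A = A := by
  refine funext fun r : Fin q.nS => funext fun a => (pd_out hw r a).trans ?_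
  obtain ⟨-, h2, h3⟩ := nm_split r 0
  rw [if_neg fun e => hm ((b3_mv h pd_t4 hw).1 e), pd_keep, rn_state h2 h3]
  exact congrFun (rg_coe r) a

end PP

end Vale.Agent.P330Q
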