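import Vale.Agent.P330Q.ProgS

/-! The new state is canonical; lists (task ProgT).
Plan for `new_can`: `tapeF (stp ..) = tapeF y + xi * dlt cel` (`old_val`, `cE_can`, `cel_lt`), then
`lyr_dlt`, `lde_add_cmul` and `ring`. -/

namespace Vale.Agent.P330Q

open Vale.Agent.Lib.H23 Vale.Agent.P325 Vale.Agent.P330 Vale.Agent.P330.Amp Finset
open scoped BigOperators

namespace PP

variable {q : PP} [Fact q.p.Prime] {cs : List (List ℕ)} {π : List ℕ} {θ w : ℕ} {y : Tape} {I : EOL}

omit [Fact q.p.Prime] in
private theorem pt_pow : 2 ^ q.k = 8 * q.H := by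
  rw [pow_add]
  ring

omit [Fact q.p.Prime] in
private theorem pt_toN {m : ℕ} (hm : m < 8 * q.H) : toN (ofN q.k m) = m := by
  rw [toN_ofN, Nat.mod_eq_of_lt (by rw [pt_pow]; exact hm)]

private theorem pt_dlt {k : ℕ} {R : Type} [CommRing R] (c s : ℕ) (a : Vec k) :
    (dlt c (a + ofN k s) : R) = dlt (c ^^^ s) a := by
  have e : ofN k s + ofN k s = 0 := by rw [← ofN_xor, Nat.xor_self, ofN_zero]
  unfold dlt
  refine if_congr ?_ rfl rfl
  rw [ofN_xor]
  constructor
  · intro h
    rw [← h, add_assoc, e, add_zero]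
  · intro h
    rw [h, add_assoc, e, add_zero]

theorem mvA_can (h : q.Ok cs π) (hθ : θ < 10 * (q.H + 1)) :
    MvA cs (q.can cs θ y) w ↔ (q.ld π).Mv w θ y := by
  rw [MvA, LD.Mv, aθ_can h hθ, vld_can h hθ, shp_can h]

private theorem pt_tape (h : q.Ok cs π) (hD : (q.ld π).Ok I) (hw : w < 2)
    (hm : (q.ld π).Mv w θ y) : q.tapeF ((q.ld π).stp w θ y) =
      fun a => q.tapeF y a + xi (q.can cs θ y) w * dlt (cel q.H θ w) a := by
  funext a
  have hc : cel q.H θ w < 8 * q.H := LD.cel_lt _ _ _ (by positivity)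
  rw [xi, aθ_can h hm.1.1, LD.stp]
  cases hb : bdy q.H θ w
  · have h1 := LD.old_val hD hm.1 hw hb
    simp only [Bool.false_eq_true, if_false]
    rw [cE_can h, pt_toN hc, tapeF, tapeF, dlt]
    by_cases ha : a = ofN q.k (cel q.H θ w)
    · rw [if_pos ha, ha, pt_toN hc, Function.update_self, h1]
      cases fills q.H θ w <;> cases (q.ld π).E (eAct (ph q.H θ)) y (cel q.H θ w) <;> simp
    · rw [if_neg ha, mul_zero, add_zero, Function.update_of_ne]
      intro e
      exact ha (by rw [← ofN_toN a, e])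
  · simp

private theorem pt_opG (h : q.Ok cs π) (Y : q.Fn) (t : ZMod q.p) {c : ℕ} (hc : c < 8 * q.H)
    (i : ℕ) : q.opG cs (fun a => Y a + t * dlt c a) i = fun a => q.opG cs Y i a + t * dlt
      (if i < q.L then pos q.k q.jj cs i c else if i = q.L then c ^^^ 1 else c) a := by
  unfold opG
  split_ifs with h1 h2
  · exact lyr_dlt h.rt h1.le Y t (by rw [pt_pow]; exact hc)
  · funext a
    rw [← pt_dlt]
  · rfl

theorem new_can (h : q.Ok cs π) (hD : (q.ld π).Ok I) (hw : w < 2) (hm : (q.ld π).Mv w θ y)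
    (r : Fin q.nS) : newR cs (q.can cs θ y) w (r / q.Xn) (r % q.Xn) =
      q.can cs (mvp q.H θ w) ((q.ld π).stp w θ y) r := by
  obtain ⟨-, hi, hx⟩ := nm_split r 0
  have hc : cel q.H θ w < 8 * q.H := LD.cel_lt _ _ _ (by positivity)
  funext a
  rw [newR, rg_can hi hx, aY_can, cG_can h, pG, aθ_can h hm.1.1]
  conv_rhs => rw [can, pt_tape h hD hw hm]
  generalize xi (q.can cs θ y) w = t
  generalize (r : ℕ) / q.Xn = i
  generalize (r : ℕ) % q.Xn = x
  unfold canR
  by_cases h1 : i < q.L + 2 ∧ x ≤ q.k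
  · simp only [if_pos h1]
    rw [pt_opG h _ _ hc, KP.lde_add_cmul]
    unfold opF
    by_cases h2 : i < q.L
    · simp only [if_pos h2]
      ring
    · simp only [if_neg h2]
      rw [KP.lde_add_cmul]
      ring
  · simp only [if_neg h1]
    split_ifs <;> rfl

theorem can_congr {y' : Tape} (e : ∀ m < 8 * q.H, y m = y' m) : q.can cs θ y = q.can cs θ y' := by
  have : q.tapeF y = q.tapeF y' := by
    funext a
    rw [tapeF, tapeF, e _ (by rw [← pt_pow]; exact toN_lt a)]
  unfold can
  rw [this]

theorem stL_canL (h : q.Ok cs π) (l : List Bool) :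
    stL q.p q.k q.nS (q.canL cs θ l) = q.can cs θ fun m => l.getD m false := by
  funext r
  have hY : fnL q.p q.k ((List.range (2 ^ q.k)).map fun a => if l.getD a false then 1 else 0) =
      q.tapeF fun m => l.getD m false := by
    funext a
    rw [fnL_map, tapeF]
    split_ifs <;> simp
  rw [stL, regL, canL, List.getD_eq_getElem _ _ (by simp), List.getElem_map, List.getElem_range, can,
    ← hY]
  generalize ((List.range (2 ^ q.k)).map fun a => if l.getD a false then 1 else 0) = Y
  generalize (r : ℕ) / q.Xn = i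
  generalize (r : ℕ) % q.Xn = x
  unfold canR
  by_cases h1 : i < q.L + 2 ∧ x ≤ q.k
  · simp only [if_pos h1]
    funext a
    rw [fnL_map, cast_mulm]
    change fnL q.p q.k _ a * fnL q.p q.k _ a = _
    rw [KP.fnL_ldeL, KP.fnL_ldeL]
    unfold opF opG
    by_cases h2 : i < q.L
    · simp only [if_pos h2]
      rw [min_eq_left h2.le, fnL_lyrL h.rt h2.le]
    · simp only [if_neg h2]
      by_cases h3 : i = q.L
      · simp only [if_pos h3]
        congr 2
        funext b
        have h4 : 0 < q.H := by positivity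
        rw [fnL_map, fnL, toN_add, pt_toN (by omega)]
      · simp only [if_neg h3]
  · simp only [if_neg h1]
    split_ifs
    · rfl
    · funext a
      rw [fnL_map]
    · funext a
      simp [fnL]

theorem cands_can (h : q.Ok cs π) :
    q.cands (toL (q.can cs θ y)) = [(q.ld π).part y 0, (q.ld π).part y 2] := by
  have hr : (q.L + 2) * q.Xn + 0 < q.nS := by
    have : 0 < q.Xn := Nat.succ_pos _
    unfold nS Pn
    nlinarith
  have h1 : (toL (q.can cs θ y)).getD q.rY [] =
      (List.range (2 ^ q.k)).map fun a => (q.tapeF y (ofN q.k a)).val := by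
    have e : q.rY = (q.L + 2) * q.Xn + 0 := by simp [rY, nm]
    rw [e, toL, List.getD_eq_getElem _ _ (by simpa using hr), List.getElem_ofFn, ← aY_can (cs := cs)
      (θ := θ), aY, rg, dif_pos hr]
  have h2 : ∀ ρ < 7, ((List.range (min q.n q.H)).map fun i =>
      decide (((toL (q.can cs θ y)).getD q.rY []).getD (ρ * q.H + i) 0 = 1)) =
      (q.ld π).part y ρ := by
    intro ρ hρ
    rw [min_eq_left h.nH, LD.part]
    refine List.map_congr_left fun i hi => ?_
    have h3 : ρ * q.H + i < 8 * q.H := by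
      have := (List.mem_range.1 hi).trans_le h.nH
      nlinarith
    rw [h1, List.getD_eq_getElem _ _ (by simpa [pt_pow] using h3), List.getElem_map,
      List.getElem_range, tapeF, pt_toN h3]
    cases y (ρ * q.H + i) <;> simp [ZMod.val_one]
  rw [cands, List.map_cons, List.map_singleton, h2 0 (by omega), h2 2 (by omega)]

end PP

end Vale.Agent.P330Q
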