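import Vale.Agent.P330Q.ProgD
import Vale.Agent.P330Q.ProgT
import Vale.Agent.P330Q.LineB

/-! The machine describes a line whose other ends give solutions (task ProgG).
Plan. On `can θ y` with `Mv w θ y` the output `1 + w` is `can (mvp θ w) (stp w θ y)`, otherwise the state
stays (states that fail a test stay for both `w`; `can_of_vld`). By `mv_back`, `mvp_mvp` a step that is
made is undone by the opposite step. So in `fnd` one of the two steps is made and the other is
not: the state is valid, and `sink` or `source` applies (`can_congr`, `cands_can`). `sne`: `aθ_can`,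
`mvp_ne`. -/

namespace Vale.Agent.P330Q

open Vale.Agent.Lib.H23 Vale.Agent.P325 Vale.Agent.P330 Vale.Agent.P330.Amp Finset
open scoped BigOperators

namespace PP

section
variable {q : PP} [Fact q.p.Prime] {cs : List (List ℕ)} {π : List ℕ} {I : EOL}

theorem pg_step (h : q.Ok cs π) (hD : (q.ld π).Ok I) {w θ : ℕ} {y : Tape} (hw : w < 2)
    (hm : (q.ld π).Mv w θ y) : prog.outp q (q.cst cs) (1 + w) (q.can cs θ y) =
      q.can cs (mvp q.H θ w) ((q.ld π).stp w θ y) := by
  funext r
  exact (out_mv h hw ((mvA_can h hm.1.1).2 hm) r).trans (new_can h hD hw hm r)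

theorem pg_can (h : q.Ok cs π) {A : q.St} (hA : Vld cs A) :
    ∃ θ y, A = q.can cs θ y ∧ (q.ld π).Valid θ y := by
  obtain ⟨y, hy⟩ := can_of_vld h hA
  exact ⟨_, y, hy, (vld_can h hA.lt).1 (hy ▸ hA)⟩

theorem pg_back (h : q.Ok cs π) (hD : (q.ld π).Ok I) {w : ℕ} (hw : w < 2) {A : q.St}
    (hm : MvA cs A w) :
    prog.outp q (q.cst cs) (1 + (1 - w)) (prog.outp q (q.cst cs) (1 + w) A) = A := by
  obtain ⟨θ, y, rfl, hv⟩ := pg_can h hm.1
  have h1 := (mvA_can h hv.1).1 hm
  have h2 := LD.mv_back hD hw h1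
  rw [pg_step h hD hw h1]
  refine (pg_step h hD (by omega) h2.1).trans ?_
  rw [LD.mvp_mvp hv.1 hw]
  exact congrArg _ h2.2

end

theorem good {q : PP} [Fact q.p.Prime] {cs : List (List ℕ)} {π : List ℕ} {I : EOL} (h : q.Ok cs π)
    (hD : (q.ld π).Ok I) (hI : I.Valid) : prog.Good q q.p q.k (q.cst cs)
      (q.canL cs (q.ld π).oθ (q.ld π).oL) (q.canL cs ((q.ld π).oθ + 1) (q.ld π).oL)
      fun l => ∃ v ∈ q.cands l, I.Sol v := by
  have hθ : (q.ld π).oθ + 1 < 10 * (q.H + 1) := by
    show 4 * (q.H + 1) + 1 < 10 * (q.H + 1)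
    omega
  have ho : stL q.p q.k q.nS (q.canL cs (q.ld π).oθ (q.ld π).oL) =
      q.can cs (q.ld π).oθ (q.ld π).oT := stL_canL h _
  have hso : stL q.p q.k q.nS (q.canL cs ((q.ld π).oθ + 1) (q.ld π).oL) =
      q.can cs ((q.ld π).oθ + 1) (q.ld π).oT := stL_canL h _
  have hm := LD.o_mv hD hI
  have h1 : prog.outp q (q.cst cs) 1 (q.can cs (q.ld π).oθ (q.ld π).oT) =
      q.can cs ((q.ld π).oθ + 1) (q.ld π).oT := by
    refine (pg_step h hD (by omega) hm).trans ?_
    rw [LD.o_stp hD hI]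
    congr 1
    exact Nat.mod_eq_of_lt hθ
  refine ⟨?_, ?_, fun A t _ a => p1 h t a, fun A t _ hb => p2 h t hb, fun A => out_keep, ?_, ?_,
    ?_, ?_, ?_⟩
  · show 1 ≤ 5 * q.Lb
    unfold Lb
    omega
  · show 3 * q.nS ≤ 23 * q.nS
    omega
  · exact (congrArg _ ho).trans ((out_stay h (w := 1) (by omega) fun hh =>
      LD.o_src hD hI ((mvA_can h hm.1.1).1 hh)).trans ho.symm)
  · exact (congrArg _ ho).trans (h1.trans hso.symm)
  · intro hh
    have h2 := congrArg aθ (hso.symm.trans (hh.trans ho))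
    rw [aθ_can h hθ, aθ_can h hm.1.1] at h2
    omega
  · exact (congrArg _ (hso.trans h1.symm)).trans
      ((pg_back h hD (w := 0) (by omega) ((mvA_can h hm.1.1).2 hm)).trans ho.symm)
  · intro A hA hne
    by_cases h0 : MvA cs A 0 <;> by_cases h1 : MvA cs A 1
    · exact (hne.elim (fun hh => hh (pg_back h hD (w := 1) (by omega) h1))
        fun hh => hh (pg_back h hD (w := 0) (by omega) h0)).elim
    · obtain ⟨θ, y, rfl, hv⟩ := pg_can h h0.1
      rcases LD.source hD hI hv (fun hh => h1 ((mvA_can h hv.1).2 hh)) with hs | ⟨rfl, hs⟩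
      · exact ⟨_, by erw [cands_can h]; simp, hs⟩
      · exact absurd ((can_congr hs).trans ho.symm) hA
    · obtain ⟨θ, y, rfl, hv⟩ := pg_can h h1.1
      exact ⟨_, by erw [cands_can h]; simp,
        LD.sink hD hI hv fun hh => h0 ((mvA_can h hv.1).2 hh)⟩
    · have e0 : prog.outp q (q.cst cs) 1 A = A := out_stay h (w := 0) (by omega) h0
      have e1 : prog.outp q (q.cst cs) 2 A = A := out_stay h (w := 1) (by omega) h1
      rw [e0, e1, e0] at hne
      exact (hne.elim (fun hh => hh rfl) fun hh => hh rfl).elim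

end PP

end Vale.Agent.P330Q
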