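import Vale.Agent.P330Q.Prog
import Vale.Agent.P330Q.RouteB
import Vale.Agent.P330Q.KumA
import Vale.Agent.P330.Hard

/-! Polynomial time of the pieces of the program (helper file of task ProgPT). -/

namespace Vale.Agent.P330Q

open Vale.Agent.Lib.H23 Vale.Agent.P333 Vale.Agent.P325 Vale.Agent.P330 Vale.Agent.P330.Amp

variable {X : Type} [Enc X]

attribute [local fun_prop] PU

section
variable {Y : Type} [Enc Y]
theorem pg_comp {f : Y → ℕ} {g : X → Y} (hf : PU f) (hg : PT g) :
    PU fun x => f (g x) := hf.comp hg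
theorem pg_const (c : ℕ) : PU fun _ : X => c := PU.const c
theorem pg_ite {p : X → Prop} {ip : ∀ x, Decidable (p x)} {f g : X → Y}
    (hp : PT fun x => @decide (p x) (ip x)) (hf : PT f) (hg : PT g) :
    PT fun x => @ite _ (p x) (ip x) (f x) (g x) := pt_ite hp hf hg
theorem pg_or {p q : X → Prop} {ip : ∀ x, Decidable (p x)} {iq : ∀ x, Decidable (q x)}
    (hp : PT fun x => @decide (p x) (ip x)) (hq : PT fun x => @decide (q x) (iq x)) :
    PT fun x => @decide (p x ∨ q x) (@instDecidableOr _ _ (ip x) (iq x)) :=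
  (hp.or hq).congr fun _ => Bool.decide_or ..
theorem pg_and {p q : X → Prop} {ip : ∀ x, Decidable (p x)} {iq : ∀ x, Decidable (q x)}
    (hp : PT fun x => @decide (p x) (ip x)) (hq : PT fun x => @decide (q x) (iq x)) :
    PT fun x => @decide (p x ∧ q x) (@instDecidableAnd _ _ (ip x) (iq x)) :=
  (hp.and hq).congr fun _ => Bool.decide_and ..
theorem pg_true {b : X → Bool} (hb : PT b) : PT fun x => decide (b x = true) :=
  hb.congr fun _ => Bool.decide_eq_true
theorem pg_set {l : X → List Y} {n : X → ℕ} {v : X → Y} (hl : PT l) (hn : PT n) (hv : PT v) :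
    PT fun x => (l x).set (n x) (v x) :=
  (pt_ite (pt_decLt hn hl.length)
    ((pt_take hn hl).append (hv.cons (PT.drop (hn.add (PT.const 1)) hl))) hl).congr fun _ =>
      List.set_eq_take_append_cons_drop
theorem pg_min {f g : X → ℕ} (hf : PT f) (hg : PU g) : PU fun x => min (f x) (g x) :=
  hg.of_le (pt_min hf hg.pt) fun _ => min_le_right _ _
end

attribute [local fun_prop] pg_comp pg_const PU.add PU.mul PU.len PU.range PU.pt
  pg_ite pg_or pg_and pg_true pg_set pg_min pt_decEq pt_decLt pt_decLe pt_mkA pt_mkB KP.pt_lam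

section
variable {H n θ w ρ φ α β r : X → ℕ}

@[local fun_prop] theorem pg_lreg (h : PT φ) : PT fun x => lreg (φ x) := by
  unfold lreg; fun_prop
@[local fun_prop] theorem pg_lup (h : PT φ) : PT fun x => lup (φ x) := by
  unfold lup; fun_prop
@[local fun_prop] theorem pg_eAct (h : PT φ) : PT fun x => eAct (φ x) := by
  unfold eAct; fun_prop
@[local fun_prop] theorem pg_stat (h : PT φ) (hρ : PT ρ) : PT fun x => stat (φ x) (ρ x) := by
  unfold stat; exact PT.getD (PT.getD (PT.const _) h (PT.const _)) hρ (PT.const _)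
@[local fun_prop] theorem pg_ph (hH : PT H) (hθ : PT θ) : PT fun x => ph (H x) (θ x) := by
  unfold ph; fun_prop
@[local fun_prop] theorem pg_ix (hH : PT H) (hθ : PT θ) : PT fun x => ix (H x) (θ x) := by
  unfold ix; fun_prop
@[local fun_prop] theorem pg_ptr (hH : PT H) (hθ : PT θ) : PT fun x => ptr (H x) (θ x) := by
  unfold ptr; fun_prop
@[local fun_prop] theorem pg_ee (hH : PT H) (hθ : PT θ) (hρ : PT ρ) :
    PT fun x => ee (H x) (θ x) (ρ x) := by
  unfold ee; fun_prop
@[local fun_prop] theorem pg_fu (hH : PT H) (hθ : PT θ) (hρ : PT ρ) :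
    PT fun x => fu (H x) (θ x) (ρ x) := by
  unfold fu; fun_prop
@[local fun_prop] theorem pg_hi (hH : PT H) (hn : PT n) (hθ : PT θ) (hρ : PT ρ) :
    PT fun x => hi (H x) (n x) (θ x) (ρ x) := by
  unfold hi; fun_prop
@[local fun_prop] theorem pg_nxt (hH : PT H) (hθ : PT θ) : PT fun x => nxt (H x) (θ x) := by
  unfold nxt; fun_prop
@[local fun_prop] theorem pg_prv (hH : PT H) (hθ : PT θ) : PT fun x => prv (H x) (θ x) := by
  unfold prv; fun_prop
@[local fun_prop] theorem pg_mvp (hH : PT H) (hθ : PT θ) (hw : PT w) :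
    PT fun x => mvp (H x) (θ x) (w x) := by
  unfold mvp; fun_prop
@[local fun_prop] theorem pg_bdy (hH : PT H) (hθ : PT θ) (hw : PT w) :
    PT fun x => bdy (H x) (θ x) (w x) := by
  unfold bdy; fun_prop
@[local fun_prop] theorem pg_fills (hH : PT H) (hθ : PT θ) (hw : PT w) :
    PT fun x => fills (H x) (θ x) (w x) := by
  unfold fills; fun_prop
@[local fun_prop] theorem pg_cel (hH : PT H) (hθ : PT θ) (hw : PT w) :
    PT fun x => cel (H x) (θ x) (w x) := by
  unfold cel; fun_prop
@[local fun_prop] theorem pg_keepT (hr : PT r) : PT fun x => keepT (r x) := by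
  unfold keepT; fun_prop
@[local fun_prop] theorem pg_two (ha : PT α) (hb : PT β) (hr : PT r) :
    PT fun x => two (α x) (β x) (r x) := by
  unfold two; fun_prop
end

attribute [local fun_prop] pg_eAct pg_ph pg_ee pg_fu pg_hi pg_mvp pg_bdy pg_fills pg_cel pg_keepT
  pg_two

namespace PP

variable {q : X → PP} {κ i x e c θ w j b f t : X → ℕ} {σ v : X → List ℕ} {u : X → Bool}

theorem pg_tup (hq : PT q) : PT fun z => ((q z).K, List.range (q z).ko, (q z).n, (q z).jj) :=
  hq.of_enc fun _ => rfl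
@[local fun_prop] theorem pg_K (hq : PT q) : PT fun z => (q z).K := (pg_tup hq).fst
@[local fun_prop] theorem pg_ko (hq : PT q) : PU fun z => (q z).ko := (pg_tup hq).snd.fst
@[local fun_prop] theorem pg_ko' (hq : PT q) : PT fun z => (q z).ko := (pg_ko hq).pt
@[local fun_prop] theorem pg_n (hq : PT q) : PT fun z => (q z).n := (pg_tup hq).snd.snd.fst
@[local fun_prop] theorem pg_jj (hq : PT q) : PT fun z => (q z).jj := (pg_tup hq).snd.snd.snd
@[local fun_prop] theorem pg_p (hq : PT q) : PT fun z => (q z).p := KP.pt_p (pg_K hq)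
@[local fun_prop] theorem pg_k (hq : PT q) : PU fun z => (q z).k :=
  (pg_ko hq).add (PU.const 3)
@[local fun_prop] theorem pg_k' (hq : PT q) : PT fun z => (q z).k := (pg_k hq).pt
@[local fun_prop] theorem pg_H (hq : PT q) : PT fun z => (q z).H := pt_two_pow (pg_ko hq)
@[local fun_prop] theorem pg_L (hq : PT q) : PU fun z => (q z).L := PU.len (pg_jj hq)
@[local fun_prop] theorem pg_L' (hq : PT q) : PT fun z => (q z).L := (pg_L hq).pt
@[local fun_prop] theorem pg_Xn (hq : PT q) : PU fun z => (q z).Xn :=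
  ((PU.const 4).mul (pg_k hq)).add (PU.const 4)
@[local fun_prop] theorem pg_Xn' (hq : PT q) : PT fun z => (q z).Xn := (pg_Xn hq).pt
@[local fun_prop] theorem pg_nS (hq : PT q) : PU fun z => (q z).nS :=
  ((pg_L hq).add (PU.const 16)).mul (pg_Xn hq)
@[local fun_prop] theorem pg_nS' (hq : PT q) : PT fun z => (q z).nS := (pg_nS hq).pt
@[local fun_prop] theorem pg_Lb (hq : PT q) : PU fun z => (q z).Lb :=
  ((pg_L hq).add (pg_k hq)).add (PU.const 4)
@[local fun_prop] theorem pg_Lb' (hq : PT q) : PT fun z => (q z).Lb := (pg_Lb hq).pt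
theorem pg_ns (hq : PT q) : PU fun z => (q z).ns :=
  (PU.const 6).add ((PU.const 2).mul (pg_L hq))
@[local fun_prop] theorem pg_nm (hq : PT q) (h1 : PT κ) (h2 : PT i) (h3 : PT x) :
    PT fun z => (q z).nm (κ z) (i z) (x z) := by
  unfold nm; fun_prop
@[local fun_prop] theorem pg_rY (hq : PT q) : PT fun z => (q z).rY := by
  exact pg_nm hq (PT.const _) ((pg_L' hq).add (PT.const _)) (PT.const _)
@[local fun_prop] theorem pg_rT (hq : PT q) : PT fun z => (q z).rT := by
  exact pg_nm hq (PT.const _) ((pg_L' hq).add (PT.const _)) (PT.const _)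
@[local fun_prop] theorem pg_r1 (hq : PT q) : PT fun z => (q z).r1 := by
  unfold r1; fun_prop
@[local fun_prop] theorem pg_m1 (hq : PT q) : PT fun z => (q z).m1 := by
  unfold m1; fun_prop
@[local fun_prop] theorem pg_Et (hq : PT q) (h1 : PT e) (h2 : PT c) :
    PT fun z => (q z).Et (e z) (c z) := by
  unfold Et; fun_prop
@[local fun_prop] theorem pg_thw (hq : PT q) (h1 : PT θ) (h2 : PT w) :
    PT fun z => (q z).thw (θ z) (w z) := by
  unfold thw; fun_prop
@[local fun_prop] theorem pg_posG (hq : PT q) (hσ : PT σ) (h1 : PT w) (h2 : PT i) :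
    PT fun z => (q z).posG (σ z) (w z) (i z) := by
  unfold posG; fun_prop
@[local fun_prop] theorem pg_load0 (hq : PT q) (h1 : PT κ) (h2 : PT i) (h3 : PT x) :
    PT fun z => (q z).load0 (κ z) (i z) (x z) := by
  unfold load0; fun_prop
@[local fun_prop] theorem pg_load2 (hq : PT q) (h1 : PT κ) (h2 : PT i) (h3 : PT x) :
    PT fun z => (q z).load2 (κ z) (i z) (x z) := by
  unfold load2; fun_prop
@[local fun_prop] theorem pg_load3 (hq : PT q) (hσ : PT σ) (h1 : PT κ) (h2 : PT i) (h3 : PT x) :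
    PT fun z => (q z).load3 (σ z) (κ z) (i z) (x z) := by
  have h4 : PT fun z => (List.range ((q z).k + 1)).map fun e =>
      ((q z).K.lam (q z).k e (x z), (q z).nm 9 (i z) e, false) :=
    PT.map (f := fun z e => ((q z).K.lam (q z).k e (x z), (q z).nm 9 (i z) e, false))
      ((KP.pt_lam (pg_K (hq.comp PT.id.fst)) (pg_k (hq.comp PT.id.fst)) PT.id.snd
        (h3.comp PT.id.fst)).pair ((pg_nm (hq.comp PT.id.fst) (PT.const _) (h2.comp PT.id.fst)
          PT.id.snd).pair (PT.const _))) ((pg_k hq).add (PU.const 1)).range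
  have h5 := pg_nm hq (PT.const 0) ((pg_L' hq).add (PT.const 1)) (PT.const 0)
  unfold load3
  exact pt_ite (by fun_prop) (by fun_prop) (pt_ite (by fun_prop) h4
    (pt_ite (by fun_prop) (by fun_prop) (pt_ite (by fun_prop) (by fun_prop)
    (pt_ite (by fun_prop) (((PT.const _).pair (h5.pair (PT.const _))).cons (by fun_prop))
    (by fun_prop)))))
@[local fun_prop] theorem pg_load4 (hq : PT q) (h1 : PT κ) (h2 : PT i) (h3 : PT x) :
    PT fun z => (q z).load4 (κ z) (i z) (x z) := by
  unfold load4; fun_prop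
theorem pg_load (hq : PT q) (hb : PT b) (hσ : PT σ) (h1 : PT κ) (h2 : PT i) (h3 : PT x) :
    PT fun z => (q z).load (b z) (σ z) (κ z) (i z) (x z) := by
  unfold load
  exact pt_ite (pt_decEq hb (PT.const _)) (pg_load0 hq h1 h2 h3)
    (pt_ite (pt_decEq hb (PT.const _)) (pg_load2 hq h1 h2 h3)
    (pt_ite (pt_decEq hb (PT.const _)) (pg_load3 hq hσ h1 h2 h3)
    (pt_ite (pt_decEq hb (PT.const _)) (pg_load4 hq h1 h2 h3) (pg_keepT (pg_nm hq h1 h2 h3)))))

end PP

end Vale.Agent.P330Q
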