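import Vale.Agent.P330Q.ProgA
import Vale.Agent.P330Q.RouteB
import Vale.Agent.P330Q.LineA
import Vale.Agent.P330Q.KumA

/-! The tests pass exactly for the canonical states (task ProgS).
Plan. `cl_can`: induction with `lyr_succ`, `lde_zero`. `cE_can`: `lyr_end`, `toN_add`, cases on the bit
`ko` and on `toN a % 8`. `can_of_vld`: `ext_le` turns `pr` into `rg A i x = lde * lde` for `x ≤ k`;
`x = 0` shows that the computed layers are the true layers and that `aY A` is idempotent, so it is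
`tapeF` of `fun m => decide (aY A (ofN _ m) = 1)`. `vld_can`: `ext_congr`, `ext_prod`. -/

namespace Vale.Agent.P330Q

open Vale.Agent.Lib.H23 Vale.Agent.P325 Vale.Agent.P330 Vale.Agent.P330.Amp Finset
open scoped BigOperators

private theorem ps_and {ko : ℕ} (hk : 3 ≤ ko) (m : ℕ) {c : ℕ} (hc : c < 8) :
    m &&& (2 ^ ko + c) = 2 ^ ko * (m.testBit ko).toNat + (m % 8 &&& c) := by
  have h1 : 8 ≤ 2 ^ ko := Nat.pow_le_pow_right (n := 2) (by omega) hk
  have h2 : m &&& c ≤ c := Nat.and_le_right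
  have h3 : m &&& c = m % 8 &&& c := by
    have := Nat.and_mod_two_pow (a := m) (b := c) (n := 3)
    rwa [show 2 ^ 3 = 8 from rfl, Nat.mod_eq_of_lt hc, Nat.mod_eq_of_lt (by omega)] at this
  have h4 := Nat.two_pow_add_eq_or_of_lt (show c < 2 ^ ko by omega) 1
  rw [mul_one] at h4
  rw [h4, Nat.and_or_distrib_left, Nat.and_two_pow, mul_comm, ← h3,
    Nat.two_pow_add_eq_or_of_lt (show m &&& c < 2 ^ ko by omega)]

private theorem ps_m1 {ko : ℕ} (hk : 3 ≤ ko) (m : ℕ) :
    m &&& (2 ^ ko + 6) = 2 ^ ko ↔ m.testBit ko = true ∧ m % 8 < 2 := by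
  have h1 : 8 ≤ 2 ^ ko := Nat.pow_le_pow_right (n := 2) (by omega) hk
  have h2 : ∀ u < 8, (u &&& 6 = 0 ↔ u < 2) := by decide
  have h3 := h2 _ (Nat.mod_lt m (by omega))
  have h4 : m % 8 &&& 6 ≤ 6 := Nat.and_le_right
  rw [ps_and hk m (by omega)]
  cases m.testBit ko
  · simp only [Bool.toNat_false, Bool.false_eq_true, false_and, iff_false]
    omega
  · simp only [Bool.toNat_true, true_and]
    omega

private theorem ps_m2 (ko m : ℕ) : m &&& 2 ^ ko = 0 ↔ m.testBit ko = false := by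
  rw [Nat.and_two_pow]
  cases m.testBit ko <;> simp

private theorem ps_m3 {ko : ℕ} (hk : 3 ≤ ko) (m c : ℕ) :
    m &&& (2 ^ ko + 7) = 2 ^ ko + c ↔ m.testBit ko = true ∧ m % 8 = c := by
  have h1 : 8 ≤ 2 ^ ko := Nat.pow_le_pow_right (n := 2) (by omega) hk
  have h2 : ∀ u < 8, u &&& 7 = u := by decide
  have h4 : m % 8 < 8 := Nat.mod_lt m (by omega)
  rw [ps_and hk m (by omega), h2 _ h4]
  cases m.testBit ko
  · simp only [Bool.toNat_false, Bool.false_eq_true, false_and, iff_false]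
    omega
  · simp only [Bool.toNat_true, true_and]
    omega

namespace PP

/-- the line -/
abbrev ld (q : PP) (π : List ℕ) : LD := ⟨q.ko, q.n, π⟩

variable {q : PP} [Fact q.p.Prime] {cs : List (List ℕ)} {π : List ℕ} {θ : ℕ} {y : Tape}

theorem rg_can {i x : ℕ} (hi : i < q.Pn) (hx : x < q.Xn) :
    rg (q.can cs θ y) i x = q.canR cs θ (q.tapeF y) i x := by
  have h1 : i * q.Xn + x < q.nS := by
    have := Nat.mul_le_mul_right q.Xn (show i + 1 ≤ q.Pn from hi)
    rw [Nat.succ_mul] at this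
    unfold nS
    omega
  rw [rg, dif_pos h1, can]
  dsimp only
  rw [add_comm, Nat.add_mul_div_right _ _ (by omega), Nat.div_eq_of_lt hx, zero_add,
    Nat.add_mul_mod_self_right, Nat.mod_eq_of_lt hx]
theorem aY_can : aY (q.can cs θ y) = q.tapeF y := by
  rw [aY, rg_can (by unfold Pn; omega) (Nat.succ_pos _), canR, if_neg (by omega), if_pos ⟨rfl, rfl⟩]
private theorem ps_aT : aT (q.can cs θ y) = fun _ => (θ : ZMod q.p) := by
  rw [aT, rg_can (by unfold Pn; omega) (Nat.succ_pos _), canR, if_neg (by omega), if_neg (by omega),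
    if_pos ⟨rfl, rfl⟩]

private theorem ps_rg0 (h : q.Ok cs π) {i : ℕ} (hi : i < q.L + 2) (a : Vec q.k) :
    rg (q.can cs θ y) i 0 a = q.opF cs (q.tapeF y) i a * q.opG cs (q.tapeF y) i a := by
  rw [rg_can (by unfold Pn; omega) (Nat.succ_pos _), canR, if_pos ⟨hi, Nat.zero_le _⟩,
    KP.lde_zero h.K, KP.lde_zero h.K]

omit [Fact q.p.Prime] in
private theorem ps_pow : 2 ^ q.k = 8 * q.H := by
  rw [pow_add, mul_comm]
  rfl

private theorem ps_xor (a : Vec q.k) {c : ℕ} (hc : c < 8 * q.H) :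
    q.tapeF y (a + ofN _ c) = if y (toN a ^^^ c) then 1 else 0 := by
  rw [tapeF, toN_add, toN_ofN, ps_pow, Nat.mod_eq_of_lt hc]

theorem aθ_can (h : q.Ok cs π) (hθ : θ < 10 * (q.H + 1)) : aθ (q.can cs θ y) = θ := by
  rw [aθ, ps_aT, ZMod.val_natCast_of_lt (hθ.trans_le h.big)]
theorem cl_can (h : q.Ok cs π) {l : ℕ} (hl : l ≤ q.L) :
    cl (q.can cs θ y) l = lyr q.jj cs l (q.tapeF y) := by
  induction l with
  | zero => exact aY_can
  | succ l ih =>
    funext a
    rw [cl]
    dsimp only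
    rw [ih (by omega), ps_rg0 (i := l) h (by omega), ps_rg0 (i := l) h (by omega), opF, opG,
      if_pos (by omega), if_pos (by omega), lyr_succ h.rt hl]
theorem cG_can (h : q.Ok cs π) (i : ℕ) : cG (q.can cs θ y) i = q.opG cs (q.tapeF y) i := by
  unfold cG opG
  split_ifs with h1
  · exact cl_can h h1.le
  · funext a
    rw [aS, aY_can]
  · exact aY_can
theorem cE_can (h : q.Ok cs π) (e : ℕ) (a : Vec q.k) :
    cE (q.can cs θ y) e a = if (q.ld π).E e y (toN a) then 1 else 0 := by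
  have h8 : 8 ≤ q.H := Nat.pow_le_pow_right (n := 2) (by omega) h.ko
  rw [cE, LD.E]
  by_cases h0 : e = 0
  swap
  · rw [if_neg h0, if_neg h0, aY_can, ps_xor a (by omega), ps_xor a (by omega)]
    by_cases h1 : e = 1
    · rw [if_pos h1, if_pos h1]
    · rw [if_neg h1, if_neg h1]
  have e1 : cl (q.can cs θ y) q.L a = if y ((q.ld π).pi (toN a)) then 1 else 0 := by
    rw [cl_can h le_rfl, lyr_end h.rt, tapeF, toN_ofN, Nat.mod_eq_of_lt (h.rt.fin _ (toN_lt a)).1]
    rfl
  have e2 : q.tapeF y (a + ofN _ 2 + ofN _ 1) = if y (toN a ^^^ 3) then 1 else 0 := by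
    rw [add_assoc, ← ofN_xor]
    exact ps_xor a (c := 3) (by omega)
  rw [if_pos h0, if_pos h0, e1, ps_rg0 h (by omega), opF, opG, if_neg (lt_irrefl _),
    if_neg (lt_irrefl _), if_pos rfl, aS, aY_can, e2, ps_xor a (by omega), ps_xor a (by omega), LD.E0]
  simp only [ps_m1 h.ko, ps_m2, ps_m3 h.ko]
  have h1 : toN a % 8 < 8 := Nat.mod_lt _ (by omega)
  generalize toN a % 8 = u at h1 ⊢
  generalize y ((q.ld π).pi (toN a)) = b0
  generalize y (toN a ^^^ 2) = b2
  generalize y (toN a ^^^ 3) = b3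
  generalize y (toN a ^^^ 4) = b4
  cases (toN a).testBit q.ko
  · simp
  · interval_cases u
    · simp
    · simp
    · cases b2 <;> cases b3 <;> simp
    · cases b2 <;> cases b3 <;> simp
    · cases b4 <;> simp
    · simp
    · simp
    · simp
private theorem ps_inj {b c : Bool} :
    (if b then 1 else 0 : ZMod q.p) - (if c then 1 else 0) = 0 ↔ b = c := by
  cases b <;> cases c <;> simp

theorem shp_can (h : q.Ok cs π) (θ' : ℕ) : Shp (q.can cs θ y) θ' ↔ (q.ld π).Shape θ' y := by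
  have hH : 0 < q.H := by positivity
  constructor
  · intro hs m hm
    have h1 : toN (ofN q.k m) = m := by rw [toN_ofN, ps_pow, Nat.mod_eq_of_lt hm]
    have h2 : m / q.H < 8 := Nat.div_lt_of_lt_mul (by rwa [mul_comm])
    constructor
    · intro h3
      have h4 := congrFun (hs (2 * (m / q.H)) (by omega)) (ofN q.k m)
      have a1 : ¬ 2 * (m / q.H) % 2 = 1 := by omega
      have a2 : 2 * (m / q.H) / 2 = m / q.H := by omega
      simp only [piece, thr, if_neg a1, a2, h1] at h4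
      rw [if_pos ⟨trivial, h3⟩, aY_can, cE_can h, tapeF, h1] at h4
      exact ps_inj.1 h4
    · intro h3
      have h4 := congrFun (hs (2 * (m / q.H) + 1) (by omega)) (ofN q.k m)
      have a1 : (2 * (m / q.H) + 1) % 2 = 1 := by omega
      have a2 : (2 * (m / q.H) + 1) / 2 = m / q.H := by omega
      simp only [piece, thr, if_pos a1, a2, h1] at h4
      rw [if_pos ⟨trivial, h3⟩, aY_can, tapeF, h1] at h4
      revert h4
      cases y m <;> simp
  · intro hs i _
    funext a
    obtain ⟨h1, h2⟩ := hs (toN a) ((toN_lt a).trans_eq ps_pow)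
    by_cases a1 : i % 2 = 1
    · simp only [piece, thr, if_pos a1]
      split_ifs with a2
      · rw [aY_can, tapeF, h2 (by rw [← a2.1] at a2; exact a2.2)]
        rfl
      · rfl
    · simp only [piece, thr, if_neg a1]
      split_ifs with a2
      · rw [aY_can, cE_can h, tapeF, ← a2.1]
        exact ps_inj.2 (h1 (by rw [← a2.1] at a2; exact a2.2))
      · rfl
theorem vld_can (h : q.Ok cs π) (hθ : θ < 10 * (q.H + 1)) :
    Vld cs (q.can cs θ y) ↔ (q.ld π).Valid θ y := by
  refine ⟨fun hv => ⟨hθ, (shp_can h θ).1 (aθ_can (y := y) h hθ ▸ hv.shp)⟩, fun hv => ⟨?_, ?_, ?_, ?_,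
    fun r hr => ?_, fun i hi x hx a => ?_⟩⟩
  · rwa [aθ_can h hθ]
  · rw [aθ_can h hθ]
    exact (shp_can h θ).2 hv.2
  · rw [ps_aT]
  · funext a
    rw [ps_rg0 h (by omega), opF, opG, if_neg (by omega), if_neg (by omega), if_neg (by omega),
      aY_can, tapeF]
    cases y (toN a) <;> simp
  · simp only [used, Bool.or_eq_false_iff, decide_eq_false_iff_not] at hr
    rw [can, canR, if_neg hr.1, if_neg fun e => hr.2 ⟨Or.inl e.1, e.2⟩,
      if_neg fun e => hr.2 ⟨Or.inr e.1, e.2⟩]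
  · rw [aY_can, cG_can h, KP.ext_congr (U' := fun x a => q.K.lde x (q.opF cs (q.tapeF y) i) a *
      q.K.lde x (q.opG cs (q.tapeF y) i) a) fun x hx => ?_, KP.ext_prod h.K hx]
    rw [rg_can (by unfold Pn; omega) (by unfold Xn nX; omega), canR, if_pos ⟨hi, hx⟩]
theorem can_of_vld (h : q.Ok cs π) {A : q.St} (hA : Vld cs A) : ∃ y, A = q.can cs (aθ A) y := by
  have h1 : ∀ i < q.L + 2, ∀ x ≤ q.k, ∀ a, rg A i x a =
      q.K.lde x (q.opF cs (aY A) i) a * q.K.lde x (cG A i) a := fun i hi x hx a => by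
    rw [← hA.pr i hi x (by unfold Xn nX; omega) a, KP.ext_le h.K hx]
  have h2 : ∀ i < q.L + 2, ∀ a, rg A i 0 a = q.opF cs (aY A) i a * cG A i a := fun i hi a => by
    rw [h1 i hi 0 (Nat.zero_le _), KP.lde_zero h.K, KP.lde_zero h.K]
  have h3 : ∀ l ≤ q.L, cl A l = lyr q.jj cs l (aY A) := by
    intro l hl
    induction l with
    | zero => rfl
    | succ l ih =>
      funext a
      rw [cl]
      dsimp only
      rw [h2 l (by omega), h2 l (by omega), opF, cG, if_pos (by omega), if_pos (by omega),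
        ih (by omega), lyr_succ h.rt hl]
  have h4 : ∀ i, cG A i = q.opG cs (aY A) i := by
    intro i
    unfold cG opG
    split_ifs with h5
    · exact h3 i h5.le
    · rfl
    · rfl
  have h5 : q.tapeF (fun m => decide (aY A (ofN _ m) = 1)) = aY A := by
    funext a
    have h6 := h2 (q.L + 1) (by omega) a
    rw [hA.sq, opF, cG, if_neg (by omega), if_neg (by omega), if_neg (by omega)] at h6
    simp only [tapeF, ofN_toN, decide_eq_true_eq]
    split_ifs with h7
    · exact h7.symm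
    · by_contra h8
      exact h7 (mul_left_cancel₀ (Ne.symm h8) (h6.symm.trans (mul_one _).symm))
  refine ⟨fun m => decide (aY A (ofN _ m) = 1), funext fun r => ?_⟩
  rw [can, h5, canR]
  split_ifs with c1 c2 c3
  · funext a
    rw [← rg_coe (A := A), h1 _ c1.1 _ c1.2, h4]
  · rw [← rg_coe (A := A), c2.1, c2.2, aY]
  · rw [← rg_coe (A := A), c3.1, c3.2, ← aT, hA.cT, aθ, ZMod.natCast_zmod_val]
  · refine hA.un r ?_
    simp only [used, Bool.or_eq_false_iff, decide_eq_false_iff_not]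
    exact ⟨c1, fun e => e.1.elim (fun e1 => c2 ⟨e1, e.2⟩) fun e1 => c3 ⟨e1, e.2⟩⟩

end PP

end Vale.Agent.P330Q
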