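import Vale.Agent.P330Q.Code

/-! Operations on functions on the cube that act bit by bit (task Tens).
Plan. `tens_closed` by induction on the number `n ≤ k` of layers (sum over the `v` with
`toN v < 2 ^ n`, or prove the special cases `diag`, `read`, `shm` directly by induction on `n`:
after `n` layers the low `n` bits have been treated). `mask_spec`: after `n ≤ ko` layers compare
`toN a % 2 ^ n` with `t % 2 ^ n` (`Nat.mod_pow_succ`, `Nat.testBit`). -/

namespace Vale.Agent.P330Q

open Vale.Agent.Lib.H23 Vale.Agent.P333 Vale.Agent.P325 Vale.Agent.P330 Vale.Agent.P330.Amp Finset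
open scoped BigOperators

section defs

variable {R : Type} [CommRing R] {k : ℕ}

/-- one layer, along the bit `j` -/
def lay (α β : ℕ → Bool → R) (j : ℕ) (y : Vec k → R) : Vec k → R :=
  fun a => α j (bt a j) * y a + β j (bt a j) * y (a + ej k j)

def tensN (α β : ℕ → Bool → R) (n : ℕ) (y : Vec k → R) : Vec k → R :=
  (List.range n).foldl (fun z j => lay α β j z) y

/-- all layers -/
def tens (α β : ℕ → Bool → R) (y : Vec k → R) : Vec k → R := tensN α β k y

/-- a recurrence with the fixed source `y` and the start `z` -/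
def rec2 (α β : ℕ → Bool → R) (y z : Vec k → R) (n : ℕ) : Vec k → R :=
  (List.range n).foldl (fun w j a => α j (bt a j) * y a + β j (bt a j) * w a) z

/-- coefficients given as numbers -/
def cf (α : ℕ → Bool → ℕ) : ℕ → Bool → R := fun j b => (α j b : R)

/-- the point mass -/
def dlt (c : ℕ) : Vec k → R := fun a => if a = ofN k c then 1 else 0

end defs

/-- read the cell `c` -/
def rdA (c j : ℕ) (b : Bool) : ℕ := if b = c.testBit j then 1 else 0
def rdB (c j : ℕ) (b : Bool) : ℕ := if b = c.testBit j then 0 else 1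

/-- keep the cells with `a &&& msk = val` and shift by `sh` -/
def shA (msk val sh j : ℕ) (b : Bool) : ℕ :=
  if (!msk.testBit j || b == val.testBit j) && !sh.testBit j then 1 else 0
def shB (msk val sh j : ℕ) (b : Bool) : ℕ :=
  if (!msk.testBit j || b == val.testBit j) && sh.testBit j then 1 else 0

/-- keep the cells of the region `ρ` with offset below `t` (`suf = false`) or from `t` on -/
def mkA (ko t : ℕ) (suf : Bool) (j : ℕ) (b : Bool) : ℕ :=
  if j < ko then (if 2 ^ ko ≤ t then (if suf then 0 else 1)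
    else if b == suf && t.testBit j == !suf then 1 else 0) else 0
def mkB (ko ρ t j : ℕ) (b : Bool) : ℕ :=
  if j < ko then (if 2 ^ ko ≤ t then 0 else if b = t.testBit j then 1 else 0)
  else if b = ρ.testBit (j - ko) then 1 else 0

/-- coefficients given by a table: row `j` is `[α false, α true, β false, β true]` -/
def tA (T : List (List ℕ)) (j : ℕ) (b : Bool) : ℕ := (T.getD j []).getD (if b then 1 else 0) 0
def tB (T : List (List ℕ)) (j : ℕ) (b : Bool) : ℕ := (T.getD j []).getD (if b then 3 else 2) 0

/-- `tens` on lists of values -/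
def tensL (p k : ℕ) (T : List (List ℕ)) (l : List ℕ) : List ℕ :=
  (List.range k).foldl (fun w j => (List.range (2 ^ k)).map fun a =>
    addm p (mulm p (tA T j (a.testBit j)) (w.getD a 0))
      (mulm p (tB T j (a.testBit j)) (w.getD (a ^^^ 2 ^ j) 0))) l

/-- the function with the listed values -/
def fnL (p k : ℕ) (l : List ℕ) : Vec k → ZMod p := fun a => (l.getD (toN a) 0 : ℕ)

variable {R : Type} [CommRing R] {k : ℕ} {α β : ℕ → Bool → R} {y z : Vec k → R}

theorem tensN_succ (n : ℕ) : tensN α β (n + 1) y = lay α β n (tensN α β n y) := by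
  simp [tensN, List.range_succ]

theorem rec2_succ (n : ℕ) (a : Vec k) :
    rec2 α β y z (n + 1) a = α n (bt a n) * y a + β n (bt a n) * rec2 α β y z n a := by
  simp [rec2, List.range_succ]

theorem bt_ofN {j : ℕ} (hj : j < k) (c : ℕ) : bt (ofN k c) j = c.testBit j := by
  rw [bt, toN_ofN, Nat.testBit_mod_two_pow, decide_eq_true hj, Bool.true_and]

theorem bt_of_ge {j : ℕ} (hj : k ≤ j) (a : Vec k) : bt a j = false := by
  exact Nat.testBit_lt_two_pow ((toN_lt a).trans_le (Nat.pow_le_pow_right (by omega) hj))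

theorem bt_coe (a : Vec k) (j : Fin k) : bt a j = decide (a j = 1) := by
  exact testBit_toN a j

theorem bt_add (a v : Vec k) (j : ℕ) : bt (a + v) j = xor (bt a j) (bt v j) := by
  rw [bt, toN_add, Nat.testBit_xor]
  rfl

theorem bt_ej {i : ℕ} (hi : i < k) (j : ℕ) : bt (ej k j) i = decide (j = i) := by
  rw [ej, bt_ofN hi, Nat.testBit_two_pow]

theorem vec_ext {a v : Vec k} (h : ∀ j < k, bt a j = bt v j) : a = v := by
  rw [← ofN_toN a, ← ofN_toN v]
  funext i
  exact congrArg b2 (h i i.2)


private theorem tn_delta (a v : Vec k) :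
    ∏ j ∈ range k, (if bt a j = bt v j then (1 : R) else 0) = if a = v then 1 else 0 := by
  rw [Finset.prod_boole]
  refine if_congr ⟨fun h => vec_ext fun j hj => h j (mem_range.2 hj), fun h j _ => by rw [h]⟩ rfl rfl

private theorem tn_sum_prod (F : ℕ → Bool → R) :
    ∑ v : Vec k, ∏ j ∈ range k, F j (bt v j) = ∏ j ∈ range k, (F j false + F j true) := by
  have h := Finset.prod_univ_sum (fun _ : Fin k => (univ : Finset (ZMod 2)))
    (fun j s => F j (decide (s = 1)))
  rw [Fintype.piFinset_univ] at h
  simp only [Finset.prod_range, bt_coe]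
  rw [← h]
  refine prod_congr rfl fun j _ => ?_
  change ∑ s : Fin 2, F j (decide (s = 1)) = _
  rw [Fin.sum_univ_two]
  rfl

private theorem tn_kerN (n : ℕ) (hn : n ≤ k) (a : Vec k) : tensN α β n y a = ∑ v : Vec k,
    (∏ j ∈ range k, if j < n then (if bt a j = bt v j then α j (bt a j) else β j (bt a j))
      else if bt a j = bt v j then 1 else 0) * y v := by
  induction n generalizing a with
  | zero =>
    simp only [Nat.not_lt_zero, if_false, tn_delta]
    simp [tensN]
  | succ n ih =>
    rw [tensN_succ, lay, ih (by omega), ih (by omega), mul_sum, mul_sum, ← sum_add_distrib]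
    refine sum_congr rfl fun v _ => ?_
    rw [← mul_assoc, ← mul_assoc, ← add_mul]
    congr 1
    have hm : n ∈ range k := mem_range.2 hn
    rw [← mul_prod_erase _ _ hm, ← mul_prod_erase _ _ hm, ← mul_prod_erase _ _ hm]
    have e1 : ∏ j ∈ (range k).erase n, (if j < n then (if bt (a + ej k n) j = bt v j then
        α j (bt (a + ej k n) j) else β j (bt (a + ej k n) j))
        else if bt (a + ej k n) j = bt v j then 1 else 0) = ∏ j ∈ (range k).erase n,
        (if j < n then (if bt a j = bt v j then α j (bt a j) else β j (bt a j))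
        else if bt a j = bt v j then 1 else 0) := by
      refine prod_congr rfl fun j hj => ?_
      rw [mem_erase, mem_range] at hj
      rw [bt_add, bt_ej hj.2, decide_eq_false (Ne.symm hj.1), Bool.xor_false]
    have e2 : ∏ j ∈ (range k).erase n, (if j < n + 1 then (if bt a j = bt v j then
        α j (bt a j) else β j (bt a j)) else if bt a j = bt v j then 1 else 0) =
        ∏ j ∈ (range k).erase n,
        (if j < n then (if bt a j = bt v j then α j (bt a j) else β j (bt a j))
        else if bt a j = bt v j then 1 else 0) := by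
      refine prod_congr rfl fun j hj => ?_
      rw [mem_erase] at hj
      exact if_congr (by omega) rfl rfl
    rw [e1, e2, bt_add, bt_ej hn]
    cases bt a n <;> cases bt v n <;> simp

private theorem tn_ker (a : Vec k) : tens α β y a = ∑ v : Vec k,
    (∏ j ∈ range k, if bt a j = bt v j then α j (bt a j) else β j (bt a j)) * y v := by
  rw [tens, tn_kerN k le_rfl]
  refine sum_congr rfl fun v _ => ?_
  rw [prod_congr rfl fun j hj => if_pos (mem_range.1 hj)]

theorem tens_congr {α' β' : ℕ → Bool → R} (h : ∀ j < k, ∀ b, α j b = α' j b ∧ β j b = β' j b) :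
    tens α β y = tens α' β' y := by
  funext a
  rw [tn_ker, tn_ker]
  refine sum_congr rfl fun v _ => ?_
  congr 1
  refine prod_congr rfl fun j hj => ?_
  rw [(h j (mem_range.1 hj) _).1, (h j (mem_range.1 hj) _).2]

theorem rec2_congr {α' β' : ℕ → Bool → R} {n : ℕ}
    (h : ∀ j < n, ∀ b, α j b = α' j b ∧ β j b = β' j b) : rec2 α β y z n = rec2 α' β' y z n := by
  induction n with
  | zero => rfl
  | succ n ih =>
    funext a
    rw [rec2_succ, rec2_succ, ih fun j hj => h j (by omega), (h n (by omega) _).1,
      (h n (by omega) _).2]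


theorem tens_closed (a : Vec k) : tens α β y a = ∑ v : Vec k,
    (∏ j ∈ range k, if bt v j then β j (bt a j) else α j (bt a j)) * y (a + v) := by
  rw [tn_ker]
  refine (Fintype.sum_equiv (Equiv.addLeft a) _ _ fun v => ?_).symm
  rw [Equiv.coe_addLeft]
  congr 1
  refine prod_congr rfl fun j _ => ?_
  rw [bt_add]
  cases bt a j <;> cases bt v j <;> rfl

theorem tens_add : tens α β (fun a => y a + z a) = fun a => tens α β y a + tens α β z a := by
  funext a
  simp only [tn_ker, mul_add, sum_add_distrib]

theorem tens_sub : tens α β (fun a => y a - z a) = fun a => tens α β y a - tens α β z a := by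
  funext a
  simp only [tn_ker, mul_sub, sum_sub_distrib]

theorem tens_cmul (t : R) : tens α β (fun a => t * y a) = fun a => t * tens α β y a := by
  funext a
  simp only [tn_ker, mul_sum, mul_left_comm t]

theorem tens_zero : tens α β (fun _ : Vec k => 0) = fun _ => 0 := by
  funext a
  simp only [tn_ker, mul_zero, sum_const_zero]

theorem tens_sum {ι : Type} (s : Finset ι) (f : ι → Vec k → R) :
    tens α β (fun a => ∑ i ∈ s, f i a) = fun a => ∑ i ∈ s, tens α β (f i) a := by
  funext a
  simp only [tn_ker, mul_sum]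
  exact sum_comm

/-- composition, bit by bit -/
theorem tens_tens {α' β' : ℕ → Bool → R} : tens α β (tens α' β' y) =
    tens (fun j b => α j b * α' j b + β j b * β' j (!b))
      (fun j b => α j b * β' j b + β j b * α' j (!b)) y := by
  funext a
  simp only [tn_ker, mul_sum]
  rw [sum_comm]
  refine sum_congr rfl fun w _ => ?_
  simp only [← mul_assoc, ← prod_mul_distrib]
  rw [← sum_mul, tn_sum_prod fun j d => (if bt a j = d then α j (bt a j) else β j (bt a j)) *
    if d = bt w j then α' j d else β' j d]
  congr 1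
  refine prod_congr rfl fun j _ => ?_
  cases bt a j <;> cases bt w j <;> simp [add_comm]

theorem tens_id : tens (fun _ _ => 1) (fun _ _ => 0) y = y := by
  funext a
  simp only [tn_ker, tn_delta]
  simp

theorem tens_diag (a : Vec k) :
    tens α (fun _ _ => 0) y a = (∏ j ∈ range k, α j (bt a j)) * y a := by
  have e : ∀ v : Vec k, ∏ j ∈ range k, (if bt a j = bt v j then α j (bt a j) else 0) =
      (∏ j ∈ range k, α j (bt a j)) * if a = v then 1 else 0 := by
    intro v
    rw [← tn_delta, ← prod_mul_distrib]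
    refine prod_congr rfl fun j _ => ?_
    split_ifs <;> simp
  simp only [tn_ker, e]
  simp

theorem tens_dlt (c : ℕ) (a : Vec k) : tens α β (dlt c) a =
    ∏ j ∈ range k, if bt a j = c.testBit j then α j (bt a j) else β j (bt a j) := by
  simp only [tn_ker, dlt, mul_ite, mul_one, mul_zero, sum_ite_eq', mem_univ, if_true]
  refine prod_congr rfl fun j hj => ?_
  rw [bt_ofN (mem_range.1 hj)]

theorem prod_rdA (c : ℕ) (a : Vec k) : ∏ j ∈ range k, (cf (rdA c) j (bt a j) : R) = dlt c a := by
  rw [dlt, ← tn_delta]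
  refine prod_congr rfl fun j hj => ?_
  rw [bt_ofN (mem_range.1 hj)]
  simp [cf, rdA]

theorem tens_read (c : ℕ) : tens (cf (rdA c)) (cf (rdB c)) y = fun _ => y (ofN k c) := by
  funext a
  have e : ∀ v : Vec k, ∏ j ∈ range k, (if bt a j = bt v j then (cf (rdA c) j (bt a j) : R)
      else cf (rdB c) j (bt a j)) = if v = ofN k c then 1 else 0 := by
    intro v
    rw [← tn_delta]
    refine prod_congr rfl fun j hj => ?_
    rw [bt_ofN (mem_range.1 hj)]
    simp only [cf, rdA, rdB]
    cases bt a j <;> cases bt v j <;> cases c.testBit j <;> simp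
  simp only [tn_ker, e]
  simp

theorem tens_shm {msk val : ℕ} (hm : msk < 2 ^ k) (hv : val &&& msk = val) (sh : ℕ) (a : Vec k) :
    tens (cf (shA msk val sh)) (cf (shB msk val sh)) y a =
      if toN a &&& msk = val then y (a + ofN k sh) else 0 := by
  have hiff : (∀ j ∈ range k, (!msk.testBit j || bt a j == val.testBit j) = true) ↔
      toN a &&& msk = val := by
    constructor
    · intro h
      refine Nat.eq_of_testBit_eq fun j => ?_
      have h1 : val.testBit j = (val.testBit j && msk.testBit j) := by rw [← Nat.testBit_and, hv]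
      rw [Nat.testBit_and]
      by_cases hj : j < k
      · have h2 := h j (mem_range.2 hj)
        rw [bt] at h2
        revert h1 h2
        cases (toN a).testBit j <;> cases msk.testBit j <;> cases val.testBit j <;> simp
      · have h2 : msk.testBit j = false :=
          Nat.testBit_lt_two_pow (hm.trans_le (Nat.pow_le_pow_right (by omega) (not_lt.1 hj)))
        rw [h1, h2]
        simp
    · intro h j _
      rw [← h, Nat.testBit_and, bt]
      cases (toN a).testBit j <;> cases msk.testBit j <;> rfl
  have e : ∀ v : Vec k, ∏ j ∈ range k, (if bt v j then (cf (shB msk val sh) j (bt a j) : R)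
      else cf (shA msk val sh) j (bt a j)) =
      (if toN a &&& msk = val then 1 else 0) * if v = ofN k sh then 1 else 0 := by
    intro v
    rw [← tn_delta, ← if_congr hiff rfl rfl, ← Finset.prod_boole, ← prod_mul_distrib]
    refine prod_congr rfl fun j hj => ?_
    rw [bt_ofN (mem_range.1 hj)]
    simp only [cf, shA, shB]
    cases (!msk.testBit j || bt a j == val.testBit j) <;> cases bt v j <;> cases sh.testBit j <;> simp
  simp only [tens_closed, e]
  simp

private theorem tn_mod (x n : ℕ) : x % 2 ^ (n + 1) = x % 2 ^ n + 2 ^ n * (x.testBit n).toNat := by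
  rw [Nat.mod_pow_succ, Nat.toNat_testBit]

private theorem tn_low {ko ρ t : ℕ} (ht : t < 2 ^ ko) (suf : Bool) (a : Vec k) (n : ℕ) (hn : n ≤ ko) :
    rec2 (cf (mkA ko t suf)) (cf (mkB ko ρ t)) y (if suf then y else fun _ => 0) n a =
      if (if suf then t % 2 ^ n ≤ toN a % 2 ^ n else toN a % 2 ^ n < t % 2 ^ n) then y a else 0 := by
  induction n with
  | zero => cases suf <;> simp [rec2, Nat.mod_one]
  | succ n ih =>
    have h1 : toN a % 2 ^ n < 2 ^ n := Nat.mod_lt _ (by positivity)
    have h2 : t % 2 ^ n < 2 ^ n := Nat.mod_lt _ (by positivity)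
    rw [rec2_succ, ih (by omega), tn_mod, tn_mod, show (toN a).testBit n = bt a n from rfl]
    simp only [cf, mkA, mkB, if_pos (show n < ko by omega), if_neg (not_le.2 ht)]
    generalize toN a % 2 ^ n = u at h1 ⊢
    generalize t % 2 ^ n = w at h2 ⊢
    generalize 2 ^ n = N at h1 h2 ⊢
    cases suf <;> cases bt a n <;> cases t.testBit n <;> simp <;> omega

theorem mask_spec {ko ρ t : ℕ} (hk : k = ko + 3) (h1 : 1 ≤ ko) (hρ : ρ < 8) (ht : t ≤ 2 ^ ko)
    (suf : Bool) (a : Vec k) :
    rec2 (cf (mkA ko t suf)) (cf (mkB ko ρ t)) y (if suf then y else fun _ => 0) k a =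
      if toN a / 2 ^ ko = ρ ∧ (if suf then t ≤ toN a % 2 ^ ko else toN a % 2 ^ ko < t) then y a
      else 0 := by
  have hlow : rec2 (cf (mkA ko t suf)) (cf (mkB ko ρ t)) y (if suf then y else fun _ => 0) ko a =
      if (if suf then t ≤ toN a % 2 ^ ko else toN a % 2 ^ ko < t) then y a else 0 := by
    rcases ht.lt_or_eq with h | h
    · rw [tn_low h suf a ko le_rfl, Nat.mod_eq_of_lt h]
    · obtain ⟨n, rfl⟩ : ∃ n, ko = n + 1 := ⟨ko - 1, by omega⟩
      have h2 : toN a % 2 ^ (n + 1) < 2 ^ (n + 1) := Nat.mod_lt _ (by positivity)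
      rw [rec2_succ]
      simp only [cf, mkA, mkB, if_pos (Nat.lt_succ_self n), if_pos h.ge]
      subst h
      cases suf <;> simp [h2, not_le.2 h2]
  have hup : ∀ m, rec2 (cf (mkA ko t suf)) (cf (mkB ko ρ t)) y (if suf then y else fun _ => 0)
      (ko + m) a = (if ∀ i < m, bt a (ko + i) = ρ.testBit i then 1 else 0) *
        rec2 (cf (mkA ko t suf)) (cf (mkB ko ρ t)) y (if suf then y else fun _ => 0) ko a := by
    intro m
    induction m with
    | zero => simp
    | succ m ih =>
      rw [← add_assoc, rec2_succ, ih]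
      simp only [cf, mkA, mkB, if_neg (show ¬ ko + m < ko by omega), Nat.add_sub_cancel_left,
        Nat.forall_lt_succ_right]
      by_cases h2 : bt a (ko + m) = ρ.testBit m <;> simp [h2]
  have hiff : (∀ i < 3, bt a (ko + i) = ρ.testBit i) ↔ toN a / 2 ^ ko = ρ := by
    constructor
    · intro h
      refine Nat.eq_of_testBit_eq fun i => ?_
      rw [Nat.testBit_div_two_pow, add_comm]
      by_cases hi : i < 3
      · exact h i hi
      · have h2 : ρ.testBit i = false := Nat.testBit_lt_two_pow
          (hρ.trans_le (Nat.pow_le_pow_right (n := 2) (by omega) (not_lt.1 hi)))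
        rw [h2]
        exact bt_of_ge (by omega) a
    · intro h i _
      rw [← h, Nat.testBit_div_two_pow, add_comm]
      rfl
  have h3 := hup 3
  rw [← hk] at h3
  rw [h3, hlow, if_congr hiff rfl rfl]
  by_cases h4 : toN a / 2 ^ ko = ρ <;> simp [h4]


theorem fnL_tensL {p : ℕ} (T : List (List ℕ)) (l : List ℕ) :
    fnL p k (tensL p k T l) = tens (cf (tA T)) (cf (tB T)) (fnL p k l) := by
  have key : ∀ n ≤ k, fnL p k ((List.range n).foldl (fun w j => (List.range (2 ^ k)).map fun a =>
      addm p (mulm p (tA T j (a.testBit j)) (w.getD a 0))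
        (mulm p (tB T j (a.testBit j)) (w.getD (a ^^^ 2 ^ j) 0))) l) =
      tensN (cf (tA T)) (cf (tB T)) n (fnL p k l) := by
    intro n hn
    induction n with
    | zero => rfl
    | succ n ih =>
      funext a
      rw [tensN_succ, ← ih (by omega), List.range_succ, List.foldl_append, List.foldl_cons,
        List.foldl_nil, fnL, List.getD_eq_getElem _ _ (by simpa using toN_lt a), List.getElem_map,
        List.getElem_range, cast_addm, cast_mulm, cast_mulm, lay, fnL, fnL, toN_add, ej, toN_ofN,
        Nat.mod_eq_of_lt (Nat.pow_lt_pow_right (by omega) hn)]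
      rfl
  exact key k le_rfl


theorem fnL_map {p : ℕ} (f : ℕ → ℕ) (a : Vec k) :
    fnL p k ((List.range (2 ^ k)).map f) a = (f (toN a) : ℕ) := by
  rw [fnL, List.getD_eq_getElem _ _ (by simpa using toN_lt a), List.getElem_map, List.getElem_range]


private theorem tn_beq {X : Type} [Enc X] {b u : X → Bool} (hb : PT b) (hu : PT u) :
    PT fun x => decide (b x = u x) :=
  (hb.xor hu).not.congr fun x => by cases b x <;> cases u x <;> rfl

private theorem tn_beq' {X : Type} [Enc X] {b u : X → Bool} (hb : PT b) (hu : PT u) :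
    PT fun x => (b x == u x) :=
  (hb.xor hu).not.congr fun x => by cases b x <;> cases u x <;> rfl

private theorem tn_dec {X : Type} [Enc X] {b : X → Bool} (hb : PT b) :
    PT fun x => decide (b x = true) := hb.congr fun x => by simp

private theorem tn_getD_lt (T : List (List ℕ)) (j i : ℕ) : (T.getD j []).getD i 0 < 2 ^ (sz T + 2) := by
  refine (lt_two_pow_sz _).trans_le (Nat.pow_le_pow_right (by omega) ?_)
  have h1 := sz_getD_le (T.getD j []) i 0
  have h2 := sz_getD_le T j []
  have h3 : sz (0 : ℕ) = 1 := rfl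
  rw [sz_nil] at h2
  omega

private theorem tn_bound (p k : ℕ) (T : List (List ℕ)) (g : ℕ → ℕ) (N : ℕ) (hN : 2 ^ k ≤ N)
    (m : List ℕ) : ∀ (w : List ℕ) (B : ℕ), w.length ≤ N → (∀ a ∈ w, a < 2 ^ B) →
    (m.foldl (fun w j => (List.range (2 ^ k)).map fun a =>
      addm p (mulm p (tA T j (a.testBit j)) (w.getD a 0))
        (mulm p (tB T j (a.testBit j)) (w.getD (a ^^^ g j) 0))) w).length ≤ N ∧
    ∀ a ∈ m.foldl (fun w j => (List.range (2 ^ k)).map fun a =>
      addm p (mulm p (tA T j (a.testBit j)) (w.getD a 0))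
        (mulm p (tB T j (a.testBit j)) (w.getD (a ^^^ g j) 0))) w,
      a < 2 ^ (B + m.length * (sz T + 3)) := by
  induction m with
  | nil => exact fun w B h1 h2 => ⟨h1, by simpa using h2⟩
  | cons j m ih =>
    intro w B h1 h2
    have hg : ∀ i, w.getD i 0 < 2 ^ B := by
      intro i
      by_cases hi : i < w.length
      · rw [List.getD_eq_getElem _ _ hi]
        exact h2 _ (List.getElem_mem hi)
      · rw [List.getD_eq_default _ _ (not_lt.1 hi)]
        positivity
    have h3 := ih ((List.range (2 ^ k)).map fun a =>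
      addm p (mulm p (tA T j (a.testBit j)) (w.getD a 0))
        (mulm p (tB T j (a.testBit j)) (w.getD (a ^^^ g j) 0))) (B + (sz T + 3)) (by simpa using hN)
      (by
        intro a ha
        obtain ⟨i, -, rfl⟩ := List.mem_map.1 ha
        have a1 : mulm p (tA T j (i.testBit j)) (w.getD i 0) < 2 ^ (sz T + 2) * 2 ^ B :=
          (Nat.mod_le _ _).trans_lt (Nat.mul_lt_mul'' (tn_getD_lt _ _ _) (hg _))
        have a2 : mulm p (tB T j (i.testBit j)) (w.getD (i ^^^ g j) 0) < 2 ^ (sz T + 2) * 2 ^ B :=
          (Nat.mod_le _ _).trans_lt (Nat.mul_lt_mul'' (tn_getD_lt _ _ _) (hg _))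
        refine (Nat.mod_le _ _).trans_lt ?_
        have e : 2 ^ (B + (sz T + 3)) = 2 * (2 ^ (sz T + 2) * 2 ^ B) := by ring
        omega)
    have e : B + (j :: m).length * (sz T + 3) = B + (sz T + 3) + m.length * (sz T + 3) := by
      rw [List.length_cons]
      ring
    rw [e]
    exact h3

theorem pt_tensL {X : Type} [Enc X] {p k : X → ℕ} {T : X → List (List ℕ)} {l : X → List ℕ}
    (hp : PT p) (hk : PU fun x => 2 ^ k x) (hT : PT T) (hl : PT l) :
    PT fun x => tensL (p x) (k x) (T x) (l x) := by
  have hk1 : PT k := ((PT.size hk.pt).sub (PT.const 1)).congr fun x => by simp [Nat.size_pow]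
  have hk2 : PU k := hk.of_le hk1 fun x => Nat.lt_two_pow_self.le
  obtain ⟨L, hL⟩ := hl.size_le
  obtain ⟨K, hK⟩ := hk.range.size_le
  obtain ⟨Q, hQ⟩ := hT.size_le
  refine (PT.foldl (f := fun x w j => (List.range (2 ^ k x)).map fun a =>
      addm (p x) (mulm (p x) (tA (T x) j (a.testBit j)) (w.getD a 0))
        (mulm (p x) (tB (T x) j (a.testBit j)) (w.getD (a ^^^ 2 ^ min j (k x)) 0)))
    ?_ hk2.range hl ⟨(L + K) * (4 * (L + K * (Q + 3)) + 1 + 1) + 1, fun x n => ?_⟩).congr fun x => ?_
  · refine PT.map ?_ (hk.range.comp PT.fst')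
    have h2 : PT fun q : (X × List ℕ × ℕ) × ℕ => 2 ^ min q.1.2.2 (k q.1.1) :=
      pt_two_pow ((hk2.comp (PT.fst PT.fst')).of_le (by fun_prop) fun _ => min_le_right _ _)
    have h3 : PT fun q : (X × List ℕ × ℕ) × ℕ => decide (q.2.testBit q.1.2.2 = true) :=
      tn_dec (by fun_prop)
    have h4 : PT fun q : (X × List ℕ × ℕ) × ℕ => tA (T q.1.1) q.1.2.2 (q.2.testBit q.1.2.2) :=
      PT.getD (by fun_prop) (pt_ite h3 (PT.const _) (PT.const _)) (PT.const _)
    have h5 : PT fun q : (X × List ℕ × ℕ) × ℕ => tB (T q.1.1) q.1.2.2 (q.2.testBit q.1.2.2) :=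
      PT.getD (by fun_prop) (pt_ite h3 (PT.const _) (PT.const _)) (PT.const _)
    exact pt_addm (by fun_prop) (pt_mulm (by fun_prop) h4 (by fun_prop))
      (pt_mulm (by fun_prop) h5 (PT.getD (by fun_prop) (pt_xor PT.snd' h2) (PT.const _)))
  · have a1 := hL x
    have a2 := hK x
    have a3 := hQ x
    have a4 := length_lt_sz (l x)
    have a5 := length_lt_sz (List.range (2 ^ k x))
    rw [List.length_range] at a5
    have a6 : ((List.range (k x)).take n).length ≤ K.eval (sz x) := by
      have : k x < 2 ^ k x := Nat.lt_two_pow_self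
      rw [List.length_take, List.length_range]
      omega
    obtain ⟨b1, b2⟩ := tn_bound (p x) (k x) (T x) (fun j => 2 ^ min j (k x))
      (L.eval (sz x) + K.eval (sz x)) (by omega) ((List.range (k x)).take n) (l x) (L.eval (sz x))
      (by omega) fun a ha => (lt_two_pow_sz a).trans_le
        (Nat.pow_le_pow_right (by omega) ((sz_lt_of_mem ha).le.trans a1))
    refine (ip_sz_list b1 (B := 4 * (L.eval (sz x) + K.eval (sz x) * (Q.eval (sz x) + 3)) + 1)
      fun a ha => sz_nat_le ((b2 a ha).trans_le (Nat.pow_le_pow_right (by omega) ?_))).trans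
      (le_of_eq ?_)
    · exact Nat.add_le_add_left (Nat.mul_le_mul a6 (by omega)) _
    · simp
  · refine List.foldl_ext _ _ _ fun w j hj => ?_
    rw [min_eq_left (List.mem_range.1 hj).le]


section pt

variable {X : Type} [Enc X] {c j m v s : X → ℕ} {b u : X → Bool}

@[fun_prop]
theorem pt_rdA (hc : PT c) (hj : PT j) (hb : PT b) :
    PT fun x => rdA (c x) (j x) (b x) := by
  exact pt_ite (tn_beq hb (pt_testBit hc hj)) (PT.const _) (PT.const _)

@[fun_prop]
theorem pt_rdB (hc : PT c) (hj : PT j) (hb : PT b) :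
    PT fun x => rdB (c x) (j x) (b x) := by
  exact pt_ite (tn_beq hb (pt_testBit hc hj)) (PT.const _) (PT.const _)

@[fun_prop]
theorem pt_shA (hm : PT m) (hv : PT v) (hs : PT s) (hj : PT j) (hb : PT b) :
    PT fun x => shA (m x) (v x) (s x) (j x) (b x) := by
  exact pt_ite (tn_dec (((pt_testBit hm hj).not.or (tn_beq' hb (pt_testBit hv hj))).and
    (pt_testBit hs hj).not)) (PT.const _) (PT.const _)

@[fun_prop]
theorem pt_shB (hm : PT m) (hv : PT v) (hs : PT s) (hj : PT j) (hb : PT b) :
    PT fun x => shB (m x) (v x) (s x) (j x) (b x) := by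
  exact pt_ite (tn_dec (((pt_testBit hm hj).not.or (tn_beq' hb (pt_testBit hv hj))).and
    (pt_testBit hs hj))) (PT.const _) (PT.const _)

theorem pt_mkA (hm : PU m) (hv : PT v) (hu : PT u) (hj : PT j) (hb : PT b) :
    PT fun x => mkA (m x) (v x) (u x) (j x) (b x) := by
  exact pt_ite (pt_decLt hj hm.pt) (pt_ite (pt_decLe (pt_two_pow hm) hv)
    (pt_ite (tn_dec hu) (PT.const _) (PT.const _))
    (pt_ite (tn_dec ((tn_beq' hb hu).and (tn_beq' (pt_testBit hv hj) hu.not))) (PT.const _)
      (PT.const _))) (PT.const _)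

theorem pt_mkB (hm : PU m) (hs : PT s) (hv : PT v) (hj : PT j) (hb : PT b) :
    PT fun x => mkB (m x) (s x) (v x) (j x) (b x) := by
  exact pt_ite (pt_decLt hj hm.pt) (pt_ite (pt_decLe (pt_two_pow hm) hv) (PT.const _)
    (pt_ite (tn_beq hb (pt_testBit hv hj)) (PT.const _) (PT.const _)))
    (pt_ite (tn_beq hb (pt_testBit hs (hj.sub hm.pt))) (PT.const _) (PT.const _))


end pt

end Vale.Agent.P330Q
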