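import Vale.Agent.P330Q.Net

/-! Networks of words, part a: the local gadget (purification, versions, thresholds). -/

namespace Vale.Agent.P330Q

open Vale.Agent.Lib.H23 Vale.Agent.P333 Vale.Agent.P325 Vale.Agent.P330 Vale.Agent.P330.Amp Finset

variable {W : ℕ}

theorem wires_pre (C : GC W) : ∀ x : List Bool, ∃ r, C.wires x = x ++ r ∧ r.length = C.length := by
  induction C with
  | nil => exact fun x => ⟨[], by simp [GC.wires], rfl⟩
  | cons g C ih =>
    intro x
    obtain ⟨r, h1, h2⟩ := ih (x ++ [g.2.val fun i => x.getD (g.1 i) false])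
    exact ⟨_ :: r, h1.trans (List.append_assoc _ _ _), by simp [h2]⟩

theorem wires_in (C : GC W) (x : List Bool) {n : ℕ} (h : n < x.length) :
    (C.wires x).getD n false = x.getD n false := by
  obtain ⟨r, h1, -⟩ := wires_pre C x
  rw [h1, List.getD_append _ _ _ _ h]

theorem wires_gate (C : GC W) (x : List Bool) (hC : C.Ok x.length) (g : ℕ) (h : g < C.length) :
    (C.wires x).getD (x.length + g) false =
      C[g].2.val fun i => (C.wires x).getD (C[g].1 i) false := by
  have e : C.wires x = GC.wires (C.drop (g + 1)) (GC.wires (C.take g) x ++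
      [C[g].2.val fun i => (GC.wires (C.take g) x).getD (C[g].1 i) false]) := by
    conv_lhs => rw [← List.take_append_drop g C, List.drop_eq_getElem_cons h]
    simp only [GC.wires, List.foldl_append, List.foldl_cons]
  obtain ⟨r, h1, h2⟩ := wires_pre (C.take g) x
  have h3 : (GC.wires (C.take g) x).length = x.length + g := by
    rw [h1, List.length_append, h2, List.length_take, min_eq_left h.le]
  rw [e, wires_in _ _ (by simp [h3]), ← h3, List.getD_append_right _ _ _ _ le_rfl, Nat.sub_self,
    List.getD_cons_zero]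
  refine congrArg _ (funext fun i => ?_)
  have h4 := hC g h i
  rw [wires_in (C.drop (g + 1)) _ (by simp [h3]; omega), List.getD_append _ _ _ _ (by omega)]

/-- pure values -/
def Pur (y : Val) : Prop := ∃ γ, y = pv γ

/-- The local constraints: chains `y 0 v e 0`, wires `y 1 v x 0`, thresholds `y 2 v o h`. -/
structure Loc (C : GC W) (D K n : ℕ) (lb : List Bool) (out : ℕ → ℕ)
    (y : ℕ → ℕ → ℕ → ℕ → Val) : Prop where
  ch : ∀ e < D, ∀ v, v + 1 < K → ∀ γ, rd true (y 0 v e 0) = some γ → y 0 (v + 1) e 0 = pv γ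
  lf : ∀ e < D, ∀ v < K, ∀ γ, rd false (y 0 v e 0) = some γ → y 1 v e 0 = pv γ
  cst : ∀ v < K, ∀ x < lb.length, y 1 v (D + x) 0 = pv (lb.getD x false)
  gt : ∀ v < K, ∀ g (h : g < C.length),
    HF (fun i => rd false (y 1 v (C[g].1 i) 0)) C[g].2.val (y 1 v (D + lb.length + g) 0)
  t0 : ∀ o < n, ∀ v ≤ K, y 2 v o 0 = 3
  t1 : ∀ o < n, ∀ h < K, y 2 0 o (h + 1) = 0
  t2 : ∀ o < n, ∀ v < K, ∀ h < K,
    (y 2 v o (h + 1) = 3 ∨ (y 1 v (out o) 0 = 3 ∧ y 2 v o h = 3) → y 2 (v + 1) o (h + 1) = 3) ∧
    (y 2 v o (h + 1) = 0 → y 1 v (out o) 0 = 0 ∨ y 2 v o h = 0 → y 2 (v + 1) o (h + 1) = 0)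

namespace Loc

variable {C : GC W} {D K n : ℕ} {lb : List Bool} {out : ℕ → ℕ} {y : ℕ → ℕ → ℕ → ℕ → Val}
  (H : Loc C D K n lb out y)
include H

theorem chain_pure {e v : ℕ} (he : e < D) {γ : Bool} (h : y 0 v e 0 = pv γ) (d : ℕ)
    (hv : v + d < K) : y 0 (v + d) e 0 = pv γ := by
  induction d with
  | zero => exact h
  | succ d ih => exact H.ch e he (v + d) hv γ (by rw [ih (by omega), rd_pv])

theorem leaf_pure {e v : ℕ} (he : e < D) {γ : Bool} (h : y 0 0 e 0 = pv γ) (hv : v < K) :
    y 1 v e 0 = pv γ := by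
  have h1 := H.chain_pure he h v (by omega)
  rw [Nat.zero_add] at h1
  exact H.lf e he v hv γ (by rw [h1, rd_pv])

theorem leaf_unique {e v v' : ℕ} (he : e < D) (h : v < v') (hv : v' < K) :
    Pur (y 1 v e 0) ∨ Pur (y 1 v' e 0) := by
  have key : ∀ z : Val, (∃ γ, rd false z = some γ) ∨ rd true z = some false := by decide
  rcases key (y 0 v e 0) with ⟨γ, h1⟩ | h1
  · exact .inl ⟨γ, H.lf e he v (by omega) γ h1⟩
  · obtain ⟨d, rfl⟩ := Nat.exists_eq_add_of_le (show v + 1 ≤ v' from h)
    have h2 := H.chain_pure he (H.ch e he v (by omega) _ h1) d hv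
    exact .inr ⟨false, H.lf e he _ hv _ (by rw [h2, rd_pv])⟩

open Classical in
theorem bad_card : ((range K).filter fun v => ¬ ∀ e < D, Pur (y 1 v e 0)).card ≤ D := by
  have h1 : ((range K).filter fun v => ¬ ∀ e < D, Pur (y 1 v e 0)) ⊆
      (range D).biUnion fun e => (range K).filter fun v => ¬ Pur (y 1 v e 0) := by
    intro v hv
    simp only [mem_filter, mem_range, mem_biUnion] at hv ⊢
    by_contra h3
    exact hv.2 fun e he => by_contra fun h => h3 ⟨e, he, hv.1, h⟩
  refine (card_le_card h1).trans ((card_biUnion_le_card_mul _ _ 1 fun e he => ?_).trans (by simp))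
  rw [mem_range] at he
  refine card_le_one.2 fun k hk k' hk' => ?_
  simp only [mem_filter, mem_range] at hk hk'
  by_contra hne
  rcases Nat.lt_or_gt_of_ne hne with h | h
  · exact (H.leaf_unique he h hk'.1).elim hk.2 hk'.2
  · exact (H.leaf_unique he h hk.1).elim hk'.2 hk.2

/-- a version with pure inputs evaluates the circuit -/
theorem eval (hC : C.Ok (D + lb.length)) {v : ℕ} (hv : v < K) (hp : ∀ e < D, Pur (y 1 v e 0))
    (x : ℕ) (hx : x < D + lb.length + C.length) :
    y 1 v x 0 = pv ((C.wires (((List.range D).map fun e => decide (y 1 v e 0 = 3)) ++ lb)).getD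
      x false) := by
  set l := ((List.range D).map fun e => decide (y 1 v e 0 = 3)) ++ lb with hl
  have hlen : l.length = D + lb.length := by simp [hl]
  induction x using Nat.strong_induction_on with
  | _ x ih =>
    by_cases h1 : x < D
    · rw [wires_in _ _ (by omega), hl, List.getD_append _ _ _ _ (by simpa using h1),
        List.getD_eq_getElem _ _ (by simpa using h1)]
      obtain ⟨γ, h⟩ := hp x h1
      simp only [List.getElem_map, List.getElem_range, h]
      cases γ <;> rfl
    by_cases h2 : x < D + lb.length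
    · obtain ⟨x, rfl⟩ := Nat.exists_eq_add_of_le (not_lt.1 h1)
      rw [wires_in _ _ (by omega), hl, List.getD_append_right _ _ _ _ (by simp),
        H.cst v hv x (by omega)]
      simp
    · obtain ⟨g, rfl⟩ := Nat.exists_eq_add_of_le (not_lt.1 h2)
      have hg : g < C.length := by omega
      have h3 := wires_gate C l (hlen ▸ hC) g hg
      rw [hlen] at h3
      rw [h3]
      refine H.gt v hv g hg _ fun r hr => congrArg _ (funext fun i => hr i _ ?_)
      have h4 := hC g hg i
      simp only [ih _ h4 (by omega), rd_pv]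

theorem thr {o : ℕ} (ho : o < n) (v : ℕ) (hv : v ≤ K) : ∀ h ≤ K,
    (h ≤ ((range v).filter fun i => y 1 i (out o) 0 = 3).card → y 2 v o h = 3) ∧
    (((range v).filter fun i => y 1 i (out o) 0 ≠ 0).card < h → y 2 v o h = 0) := by
  induction v with
  | zero =>
    intro h hh
    cases h with
    | zero => exact ⟨fun _ => H.t0 o ho 0 hv, fun h => by simp at h⟩
    | succ h => exact ⟨fun h => by simp at h, fun _ => H.t1 o ho h hh⟩
  | succ v ih =>
    intro h hh
    cases h with
    | zero => exact ⟨fun _ => H.t0 o ho _ hv, fun h => by simp at h⟩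
    | succ h =>
      have a := ih (by omega) (h + 1) hh
      have b := ih (by omega) h (by omega)
      have c := H.t2 o ho v hv h hh
      simp only [range_add_one, filter_insert]
      constructor
      · intro h1
        split_ifs at h1 with h2
        · rw [card_insert_of_notMem (by simp)] at h1
          exact c.1 (.inr ⟨h2, b.1 (by omega)⟩)
        · exact c.1 (.inl (a.1 h1))
      · intro h1
        split_ifs at h1 with h2
        · rw [card_insert_of_notMem (by simp)] at h1
          exact c.2 (a.2 (by omega)) (.inr (b.2 (by omega)))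
        · exact c.2 (a.2 h1) (.inl (by simpa using h2))

theorem sub (q r : ℕ → Prop) [DecidablePred q] [DecidablePred r]
    (h : ∀ v < K, (∀ e < D, Pur (y 1 v e 0)) → q v → r v) :
    ((range K).filter q).card ≤ ((range K).filter r).card + D := by
  classical
  refine le_trans (card_le_card fun k hk => ?_) ((card_union_le _ _).trans
    (Nat.add_le_add_left H.bad_card _))
  simp only [mem_union, mem_filter, mem_range] at hk ⊢
  by_cases g : ∀ e < D, Pur (y 1 k e 0)
  exacts [.inl ⟨hk.1, h k hk.1 g hk.2⟩, .inr ⟨hk.1, g⟩]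

/-- if all pure versions agree, all levels are pure -/
theorem all_levels (hK : K = 65 * (D + 1)) {o : ℕ} (ho : o < n) (γ : Bool)
    (h : ∀ v < K, (∀ e < D, Pur (y 1 v e 0)) → y 1 v (out o) 0 = pv γ) {j : ℕ} (hj : j < 64) :
    y 2 K o ((j + 1) * (D + 1)) = pv γ := by
  have h0 := Nat.mul_le_mul_right (D + 1) (show j + 1 ≤ 64 by omega)
  have h1 := H.thr ho K le_rfl ((j + 1) * (D + 1)) (by omega)
  cases γ
  · have h2 := H.sub (fun i => y 1 i (out o) 0 ≠ 0) (fun _ => False) fun v hv g h' => h' (h v hv g)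
    rw [filter_false, card_empty] at h2
    have h3 := Nat.mul_le_mul_right (D + 1) (show 1 ≤ j + 1 by omega)
    exact h1.2 (by omega)
  · have h2 := H.sub (fun _ => True) (fun i => y 1 i (out o) 0 = 3) fun v hv g _ => h v hv g
    rw [filter_true, card_range] at h2
    exact h1.1 (by omega)

/-- all levels but one are pure, and monotone -/
theorem levels (hK : K = 65 * (D + 1)) {o : ℕ} (ho : o < n)
    (h : ∀ v < K, (∀ e < D, Pur (y 1 v e 0)) → Pur (y 1 v (out o) 0)) : ∃ b, ∀ j < 64,
      (j < b → y 2 K o ((j + 1) * (D + 1)) = pv true) ∧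
      (b < j → y 2 K o ((j + 1) * (D + 1)) = pv false) := by
  have h2 := H.sub (fun i => y 1 i (out o) 0 ≠ 0) (fun i => y 1 i (out o) 0 = 3) fun v hv g h' => by
    obtain ⟨γ, e⟩ := h v hv g
    cases γ
    exacts [absurd e h', e]
  set one := ((range K).filter fun i => y 1 i (out o) 0 = 3).card with hone
  refine ⟨one / (D + 1), fun j hj => ?_⟩
  have h0 := Nat.mul_le_mul_right (D + 1) (show j + 1 ≤ 64 by omega)
  have h1 := H.thr ho K le_rfl ((j + 1) * (D + 1)) (by omega)
  have h3 := Nat.div_mul_le_self one (D + 1)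
  have h4 := Nat.lt_div_mul_add (a := one) (show 0 < D + 1 by omega)
  refine ⟨fun h5 => h1.1 ((Nat.mul_le_mul_right _ h5).trans h3), fun h5 => h1.2 ?_⟩
  have h6 := Nat.mul_le_mul_right (D + 1) (show one / (D + 1) + 2 ≤ j + 1 by omega)
  rw [add_mul] at h6
  omega

end Loc

theorem sum_levels (f : ℕ → ℕ) (b n : ℕ) (h : ∀ j < n, f j ≤ 1 ∧ (j < b → f j = 1) ∧
    (b < j → f j = 0)) : min b n ≤ ((List.range n).map f).sum ∧
      ((List.range n).map f).sum ≤ min b n + 1 ∧ (n ≤ b → ((List.range n).map f).sum ≤ n) := by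
  induction n with
  | zero => simp
  | succ n ih =>
    have h1 := ih fun j hj => h j (by omega)
    have h2 := h n (by omega)
    rw [List.range_succ, List.map_append, List.sum_append]
    simp only [List.map_cons, List.map_nil, List.sum_cons, List.sum_nil]
    omega

end Vale.Agent.P330Q
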