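import Vale.Agent.P330Q.WNa

/-! Networks of words, part b: codes, readings, tables and size bounds. -/

namespace Vale.Agent.P330Q

open Vale.Agent.Lib.H23 Vale.Agent.P333 Vale.Agent.P325 Vale.Agent.P330 Vale.Agent.P330.Amp Finset
open Enc

/-- unary numbers -/
def un (n : ℕ) : List Unit := (List.range n).map fun _ => ()

@[simp] theorem length_un (n : ℕ) : (un n).length = n := by simp [un]

theorem sz_un (n : ℕ) : sz (un n) = 2 * n + 1 := by
  rw [← sz_replicate_unit, un, List.map_const', List.length_range]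

theorem pt_un {α : Type} [Enc α] {f : α → ℕ} (hf : PU f) : PT fun x => un (f x) :=
  PT.map (f := fun _ _ => ()) (PT.const _) hf.range

def serStep (s : List Tr × List Bool) : List Tr × List Bool :=
  lcase s.1 s fun t st => lcase t.toList (st, false :: s.2) fun a b =>
    (a :: enc b :: st, true :: s.2)

theorem serStep_iter (N : ℕ) : ∀ (st : List Tr) (c : List Bool), (st.map Tr.size).sum = N →
    serStep^[N] (st, c) = ([], (st.flatMap ser).reverse ++ c) ∧
    ∀ i < N, sz (serStep^[i] (st, c)) ≤ 6 * N + sz c + 2 := by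
  induction N with
  | zero =>
    intro st c h
    cases st with
    | nil => simp
    | cons t st => have := t.size_pos; simp at h; omega
  | succ N ih =>
    intro st c h
    cases st with
    | nil => simp at h
    | cons t st =>
      have hsz : ∀ l : List Tr, sz l ≤ 2 * (l.map Tr.size).sum + 1 := by
        intro l
        induction l with
        | nil => simp
        | cons a l ih =>
          have := a.size_pos
          have : sz a = a.size := rfl
          simp; omega
      obtain ⟨st', b, e, h', h''⟩ : ∃ st' b, serStep (t :: st, c) = (st', b :: c) ∧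
          (st'.map Tr.size).sum = N ∧ (t :: st).flatMap ser = b :: st'.flatMap ser := by
        cases t with
        | nil => exact ⟨st, false, rfl, by simp at h; omega, by simp [ser]⟩
        | node a b =>
          refine ⟨a :: b :: st, true, ?_, by simp at h ⊢; omega, by simp [ser]⟩
          simp only [serStep, lcase, Tr.toList, enc_toList]
      obtain ⟨i1, i2⟩ := ih st' (b :: c) h'
      refine ⟨?_, fun i hi => ?_⟩
      · rw [Function.iterate_succ_apply, e, i1, h'']
        simp
      · cases i with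
        | zero =>
          have := hsz (t :: st)
          simp only [Function.iterate_zero, id, sz_pair]
          omega
        | succ i =>
          rw [Function.iterate_succ_apply, e]
          have j2 := i2 i (by omega)
          have := sz_bool b
          simp only [sz_cons] at j2
          omega

theorem pt_ser : PT ser := by
  have h0 : PT Tr.toList := PT.retag enc_toList
  have h1 : PT (fun l : List Tr => (enc l : Tr)) := PT.retag (fun _ => rfl)
  have hstep : PT serStep := by
    unfold serStep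
    refine PT.lcase (by fun_prop) (by fun_prop) (PT.lcase (PT.comp h0 (by fun_prop))
      (by fun_prop) (PT.pair (PT.cons (by fun_prop) (PT.cons (PT.comp h1 (by fun_prop))
        (by fun_prop))) (by fun_prop)))
  have hu : PU fun t : Tr => 9 * t.size :=
    (PU.const 9).mul (PU.of_len PT.szUnary fun _ => List.length_replicate)
  refine (PT.padIter hstep (pt_un hu) (s := fun t : Tr => ([t], []))
    (by fun_prop)).snd.reverse.congr fun t => ?_
  obtain ⟨i1, i2⟩ := serStep_iter t.size [t] [] (by simp)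
  have := t.size_pos
  rw [padIter_eq (N := t.size) (by simp; omega)
    (fun i hi => (i2 i hi).trans (by simp; omega)) (by rw [i1]; rfl), i1]
  simp

/-- the reading with given bits -/
def mkRd (w κ : ℕ) (b : ℕ → ℕ → Bool) : Rd :=
  (List.range 64).map fun j => (List.range w).map fun c =>
    Nat.ofBits fun i : Fin κ => b j (c * κ + i)

def Shape (w κ : ℕ) (ρ : Rd) : Prop :=
  ρ.length = 64 ∧ ∀ u ∈ ρ, u.length = w ∧ ∀ n ∈ u, n < 2 ^ κ

theorem shape_mkRd (w κ : ℕ) (b : ℕ → ℕ → Bool) : Shape w κ (mkRd w κ b) := by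
  refine ⟨by simp [mkRd], fun u hu => ?_⟩
  obtain ⟨j, -, rfl⟩ := List.mem_map.1 hu
  refine ⟨by simp, fun n hn => ?_⟩
  obtain ⟨c, -, rfl⟩ := List.mem_map.1 hn
  exact Nat.ofBits_lt_two_pow _

theorem getD_range {α : Type} (f : ℕ → α) (d : α) {n i : ℕ} (h : i < n) :
    ((List.range n).map f).getD i d = f i := by
  rw [List.getD_eq_getElem _ _ (by simpa using h)]; simp

theorem bit_mkRd {w κ : ℕ} (b : ℕ → ℕ → Bool) {j c i : ℕ} (hj : j < 64) (hc : c < w)
    (hi : i < κ) : (wd (mkRd w κ b) j c).testBit i = b j (c * κ + i) := by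
  rw [wd, mkRd, getD_range _ _ hj, getD_range _ _ hc, Nat.testBit_ofBits_lt _ _ hi]

theorem Shape.lt {w κ : ℕ} {ρ : Rd} (h : Shape w κ ρ) {j c : ℕ} (hj : j < 64) (hc : c < w) :
    wd ρ j c < 2 ^ κ := by
  have h0 : j < ρ.length := by rw [h.1]; exact hj
  have h1 := h.2 _ (List.getElem_mem h0)
  rw [wd, List.getD_eq_getElem ρ _ h0, List.getD_eq_getElem _ _ (by rw [h1.1]; exact hc)]
  exact h1.2 _ (List.getElem_mem _)

theorem eq_of_bits {κ m n : ℕ} (hm : m < 2 ^ κ) (hn : n < 2 ^ κ)
    (h : ∀ i < κ, m.testBit i = n.testBit i) : m = n := by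
  refine Nat.eq_of_testBit_eq fun i => ?_
  by_cases hi : i < κ
  · exact h i hi
  · have := Nat.pow_le_pow_right (show 0 < 2 by omega) (not_lt.1 hi)
    rw [Nat.testBit_lt_two_pow (by omega), Nat.testBit_lt_two_pow (by omega)]

theorem pt_mkRd {α : Type} [Enc α] {w κ : α → ℕ} {b : α → ℕ → ℕ → Bool} (hw : PU w) (hκ : PU κ)
    (hb : PT fun p : α × ℕ × ℕ => b p.1 p.2.1 p.2.2) : PT fun x => mkRd (w x) (κ x) (b x) := by
  have hκ' := hκ.pt
  refine PT.map (PT.map (f := fun (p : α × ℕ) c =>
    Nat.ofBits fun i : Fin (κ p.1) => b p.1 p.2 (c * κ p.1 + i)) ?_ (hw.comp PT.fst'))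
    (PT.const _)
  exact pt_ofBits (n := fun q : (α × ℕ) × ℕ => κ q.1.1)
    (f := fun q i => b q.1.1 q.1.2 (q.2 * κ q.1.1 + i)) (hκ.comp PT.fst'.fst)
    (hb.comp (g := fun r : ((α × ℕ) × ℕ) × ℕ => (r.1.1.1, r.1.1.2, r.1.2 * κ r.1.1.1 + r.2))
      (by fun_prop))

/-- the input described by a list of bits -/
def parse (κ w d : ℕ) (u : List Bool) : Inp :=
  (List.range 3).map fun s => (List.range d).map fun l =>
    mkRd w κ fun j o => u.getD (((s * d + l) * 64 + j) * (w * κ) + o) false

variable {X : Type} [Enc X]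

abbrev XL (X : Type) : Type := List Unit × List Unit × List Unit × X

/-- the local function on bits -/
def fB (g : Inp × X → List ℕ) (p : List Bool × XL X) : List Bool :=
  (List.range (p.2.2.1.length * p.2.1.length)).map fun o =>
    ((g (parse p.2.1.length p.2.2.1.length p.2.2.2.1.length p.1, p.2.2.2.2)).getD
      (o / p.2.1.length) 0).testBit (o % p.2.1.length)

theorem pt_fB {g : Inp × X → List ℕ} (hg : PT g) : PT (fB g) := by
  have hκ : PU fun p : List Bool × XL X => p.2.1.length := PU.len (by fun_prop)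
  have hw : PU fun p : List Bool × XL X => p.2.2.1.length := PU.len (by fun_prop)
  have hd : PU fun p : List Bool × XL X => p.2.2.2.1.length := PU.len (by fun_prop)
  have h1 : PT fun p : List Bool × XL X =>
      parse p.2.1.length p.2.2.1.length p.2.2.2.1.length p.1 := by
    refine PT.map (PT.map (f := fun (q : (List Bool × XL X) × ℕ) l =>
      mkRd q.1.2.2.1.length q.1.2.1.length fun j o => q.1.1.getD
        (((q.2 * q.1.2.2.2.1.length + l) * 64 + j) * (q.1.2.2.1.length * q.1.2.1.length) + o)
        false) ?_ (hd.comp PT.fst')) (PT.const _)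
    exact pt_mkRd (hw.comp PT.fst'.fst) (hκ.comp PT.fst'.fst) (by fun_prop)
  have h2 := hg.comp (h1.pair (PT.snd'.snd.snd.snd))
  exact PT.map (pt_testBit (PT.getD (h2.comp PT.fst') (by fun_prop) (PT.const 0)) (by fun_prop))
    (hw.mul hκ).range

/-! ### tables -/

namespace WN

theorem pt_tab : PT (WN.tab : WN X → _) := PT.retag fun _ => rfl

theorem pu_k : PU fun N : WN X => N.k := pt_tab.fst.fst
theorem pu_w : PU fun N : WN X => N.w := pt_tab.fst.snd.fst
theorem pu_κ : PU fun N : WN X => N.κ := pt_tab.fst.snd.snd.fst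
theorem pu_d : PU fun N : WN X => N.d := pt_tab.fst.snd.snd.snd.fst
theorem pu_l : PU fun N : WN X => N.l := pt_tab.fst.snd.snd.snd.snd
theorem pu_T : PU fun N : WN X => N.T := PU.of_len pt_tab.snd.fst fun _ => by simp [WN.tab]
theorem pu_TA : PU fun N : WN X => N.T * 2 ^ N.k :=
  PU.of_len (pt_flatten pt_tab.snd.snd) fun _ => by simp [WN.tab, Function.comp_def]

variable (N : WN X)

def tS (t s : ℕ) : ℕ := (N.tab.2.1.getD t ([], [])).1.getD s 0

def tV (t l : ℕ) : ℕ := (N.tab.2.1.getD t ([], [])).2.getD l 0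

def tL (t a : ℕ) : Tr := ((N.tab.2.2.getD t []).map (enc : X → Tr)).getD a Tr.nil

omit [Enc X] in
theorem tS_eq {t s : ℕ} (ht : t < N.T) (hs : s < 3) : N.tS t s = N.src t s := by
  simp only [tS, tab]
  rw [getD_range _ _ ht, getD_range _ _ hs]

omit [Enc X] in
theorem tV_eq {t l : ℕ} (ht : t < N.T) (hl : l < N.d) : N.tV t l = N.V t l := by
  simp only [tV, tab]
  rw [getD_range _ _ ht, getD_range _ _ hl]

theorem tL_eq {t a : ℕ} (ht : t < N.T) (ha : a < 2 ^ N.k) : N.tL t a = enc (N.lab t a) := by
  simp only [tL, tab]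
  rw [getD_range _ _ ht, List.map_map, getD_range _ _ ha]
  rfl

section
variable {α : Type} [Enc α] {M : α → WN X} {t s : α → ℕ} (hM : PT M) (ht : PT t) (hs : PT s)
include hM ht hs

theorem pt_tS : PT fun x => (M x).tS (t x) (s x) :=
  PT.getD (PT.getD (pt_tab.comp hM).snd.fst ht (PT.const _)).fst hs (PT.const _)

theorem pt_tV : PT fun x => (M x).tV (t x) (s x) :=
  PT.getD (PT.getD (pt_tab.comp hM).snd.fst ht (PT.const _)).snd hs (PT.const _)

theorem pt_tL : PT fun x => (M x).tL (t x) (s x) :=
  PT.getD ((PT.getD (pt_tab.comp hM).snd.snd ht (PT.const _)).of_enc fun _ => enc_map_enc _) hs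
    (PT.const _)

end

end WN

/-! ### polynomial bounds -/

/-- bounded by a power of the size -/
def PB {X : Type} (f : WN X → ℕ) : Prop := ∃ c, ∀ N, f N ≤ N.size ^ c

section
omit [Enc X]
variable {f g : WN X → ℕ}

theorem PB.of_le (hf : PB f) (h : ∀ N, g N ≤ f N) : PB g :=
  hf.imp fun _ hc N => (h N).trans (hc N)

theorem PB.size : PB (WN.size : WN X → ℕ) := ⟨1, fun _ => by simp⟩

theorem PB.const (c : ℕ) : PB fun _ : WN X => c :=
  ⟨c, fun N => Nat.lt_two_pow_self.le.trans (Nat.pow_le_pow_left (by unfold WN.size; omega) _)⟩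

theorem PB.mul (hf : PB f) (hg : PB g) : PB fun N => f N * g N := by
  obtain ⟨a, ha⟩ := hf
  obtain ⟨b, hb⟩ := hg
  exact ⟨a + b, fun N => by rw [pow_add]; exact Nat.mul_le_mul (ha N) (hb N)⟩

theorem PB.pow (hf : PB f) (k : ℕ) : PB fun N => f N ^ k := by
  obtain ⟨a, ha⟩ := hf
  exact ⟨a * k, fun N => by rw [pow_mul]; exact Nat.pow_le_pow_left (ha N) _⟩

theorem PB.add (hf : PB f) (hg : PB g) : PB fun N => f N + g N := by
  obtain ⟨a, ha⟩ := hf
  obtain ⟨b, hb⟩ := hg
  refine ⟨a + b + 1, fun N => ?_⟩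
  have h0 : 2 ≤ N.size := by unfold WN.size; omega
  have h1 : N.size ^ a ≤ N.size ^ (a + b) := Nat.pow_le_pow_right (by omega) (by omega)
  have h2 : N.size ^ b ≤ N.size ^ (a + b) := Nat.pow_le_pow_right (by omega) (by omega)
  have h3 := Nat.mul_le_mul_left (N.size ^ (a + b)) h0
  have := ha N
  have := hb N
  show f N + g N ≤ _
  rw [pow_succ]
  omega

end

end Vale.Agent.P330Q
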