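import Vale.Agent.P330Q.WNb

/-! Networks of words, part c: the pure circuit on the cube. -/

namespace Vale.Agent.P330Q

open Vale.Agent.Lib.H23 Vale.Agent.P333 Vale.Agent.P325 Vale.Agent.P330 Vale.Agent.P330.Amp Finset
open Enc

/-- names of nodes in base `B` -/
def nm (B t k v p h : ℕ) : ℕ := (((t * B + k) * B + v) * B + p) * B + h

theorem dig_div {B a b : ℕ} (h : b < B) : (a * B + b) / B = a := by
  rw [add_comm, Nat.add_mul_div_right _ _ (by omega), Nat.div_eq_of_lt h, zero_add]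

theorem dig_lt {B a A b : ℕ} (ha : a < A) (h : b < B) : a * B + b < A * B := by
  have := Nat.mul_le_mul_right B (Nat.succ_le_of_lt ha)
  rw [Nat.succ_mul] at this
  omega

variable {X : Type} {W : ℕ} (cl : List Unit × List Unit → GC (W + 3))
  (out : (List Unit × List Unit) × ℕ → ℕ) (N : WN X)

def nD : ℕ := 3 * N.d * 64 * (N.w * N.κ)

def nL : ℕ := N.l + 2 * (N.κ + N.w + N.d) + 6

def uv : List Unit × List Unit := (un (nD N), un (nL N))

def nK : ℕ := 65 * (nD N + 1)

def nB : ℕ := nK N + nD N + nL N + (cl (uv N)).length + N.w * N.κ + 3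

def nM : ℕ := N.T * nB cl N * nB cl N * nB cl N * nB cl N

def gat (p : ℕ) : (Fin (W + 3) → ℕ) × Code ((Fin (W + 3) → Bool) → Bool) :=
  (cl (uv N)).getD (p - (nD N + nL N)) (fun _ => 0, ⟨fun _ => false⟩)

/-- the output node of level `j` and bit `o` -/
def outN (t j o : ℕ) : ℕ := nm (nB cl N) t 2 (nK N) o ((j + 1) * (nD N + 1))

def lsrc (t k v p h : ℕ) (i : Fin (W + 3)) : ℕ × ℕ :=
  if k = 0 then
    if v = 0 then (outN cl N (N.tS t (p / (N.w * N.κ) / 64 / N.d)) (p / (N.w * N.κ) % 64)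
      (p % (N.w * N.κ)), N.tV t (p / (N.w * N.κ) / 64 % N.d))
    else (nm (nB cl N) t 0 (v - 1) p 0, 0)
  else if k = 1 then
    if p < nD N then (nm (nB cl N) t 0 v p 0, 0) else (nm (nB cl N) t 1 v ((gat cl N p).1 i) 0, 0)
  else if i = 0 then (nm (nB cl N) t 2 (v - 1) p h, 0)
  else if i = 1 then (nm (nB cl N) t 1 (v - 1) (out (uv N, p)) 0, 0)
  else (nm (nB cl N) t 2 (v - 1) p (h - 1), 0)

variable [Enc X]

/-- the bits of the label -/
def lbit (t a x : ℕ) : Bool := (ser (enc (un N.κ, un N.w, un N.d, N.tL t a))).getD x false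

def llab (t k v p h a : ℕ) : Code ((Fin (W + 3) → Bool) → Bool) :=
  if k = 0 then ⟨fun r => r 0⟩
  else if k = 1 then
    if p < nD N then ⟨fun r => r 0⟩
    else if p < nD N + nL N then
      bif lbit N t a (p - nD N) then ⟨fun _ => true⟩ else ⟨fun _ => false⟩
    else (gat cl N p).2
  else if h = 0 then ⟨fun _ => true⟩ else if v = 0 then ⟨fun _ => false⟩
  else ⟨fun r => r 0 || (r 1 && r 2)⟩

/-- the circuit -/
def net : SC (W + 3) where
  k := N.k
  M := nM cl N
  src z i :=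
    let y := lsrc cl out N (z / nB cl N / nB cl N / nB cl N / nB cl N)
      (z / nB cl N / nB cl N / nB cl N % nB cl N) (z / nB cl N / nB cl N % nB cl N)
      (z / nB cl N % nB cl N) (z % nB cl N) i
    (y.1 % nM cl N, y.2)
  win z _ := decide (z / nB cl N / nB cl N / nB cl N % nB cl N = 0)
  lab z a := (llab cl N (z / nB cl N / nB cl N / nB cl N / nB cl N)
      (z / nB cl N / nB cl N / nB cl N % nB cl N) (z / nB cl N / nB cl N % nB cl N)
      (z / nB cl N % nB cl N) (z % nB cl N) a).val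

theorem net_wf : (net cl out N).WF := fun _ hz _ => Nat.mod_lt _ (Nat.zero_lt_of_lt hz)

omit [Enc X] in
theorem nm_lt {t k v p h : ℕ} (ht : t < N.T) (hk : k < nB cl N) (hv : v < nB cl N)
    (hp : p < nB cl N) (hh : h < nB cl N) : nm (nB cl N) t k v p h < nM cl N :=
  dig_lt (dig_lt (dig_lt (dig_lt ht hk) hv) hp) hh

theorem net_sat {x : ℕ → Vec N.k → Val} {a : Vec N.k} {t k v p h : ℕ} (hk : k < nB cl N)
    (hv : v < nB cl N) (hp : p < nB cl N) (hh : h < nB cl N)
    (H : (net cl out N).sat x (nm (nB cl N) t k v p h) a) :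
    HF (fun i => rd (decide (k = 0)) (x ((lsrc cl out N t k v p h i).1 % nM cl N)
      (a + ofN N.k (lsrc cl out N t k v p h i).2))) (llab cl N t k v p h (toN a)).val
      (x (nm (nB cl N) t k v p h) a) := by
  unfold SC.sat at H
  simp only [net, nm, dig_div hk, dig_div hv, dig_div hp, dig_div hh, Nat.mul_add_mod_of_lt hk,
    Nat.mul_add_mod_of_lt hv, Nat.mul_add_mod_of_lt hp, Nat.mul_add_mod_of_lt hh] at H
  exact H

/-! ### polynomial time -/

theorem pu_nD : PU (nD : WN X → ℕ) :=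
  (((PU.const 3).mul WN.pu_d).mul (PU.const 64)).mul (WN.pu_w.mul WN.pu_κ)

theorem pu_nL : PU (nL : WN X → ℕ) :=
  (WN.pu_l.add ((PU.const 2).mul ((WN.pu_κ.add WN.pu_w).add WN.pu_d))).add (PU.const 6)

theorem pt_uv : PT (uv : WN X → _) := (pt_un pu_nD).pair (pt_un pu_nL)

theorem pu_nK : PU (nK : WN X → ℕ) := (PU.const 65).mul (pu_nD.add (PU.const 1))

variable {cl out} (hcl : PT cl) (hout : PT out)
include hcl

theorem pu_nB : PU (nB cl : WN X → ℕ) :=
  ((((pu_nK.add pu_nD).add pu_nL).add (PU.len (hcl.comp pt_uv))).add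
    (WN.pu_w.mul WN.pu_κ)).add (PU.const 3)

theorem pu_nM : PU (nM cl : WN X → ℕ) :=
  (((WN.pu_T.mul (pu_nB hcl)).mul (pu_nB hcl)).mul (pu_nB hcl)).mul (pu_nB hcl)

section
variable {α : Type} [Enc α] {M : α → WN X} {t k v p h a : α → ℕ} (hM : PT M) (ht : PT t)
  (hk : PT k) (hv : PT v) (hp : PT p) (hh : PT h) (ha : PT a)

include hM hp in
theorem pt_gat : PT fun x => gat cl (M x) (p x) :=
  PT.getD (hcl.comp (pt_uv.comp hM)) (hp.sub ((pu_nD.pt.comp hM).add (pu_nL.pt.comp hM)))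
    (PT.const _)

include hM ht hk hv hp hh in
theorem pt_nm : PT fun x => nm (nB cl (M x)) (t x) (k x) (v x) (p x) (h x) := by
  have hB := (pu_nB hcl).pt.comp hM
  exact ((((((ht.mul hB).add hk).mul hB).add hv).mul hB).add hp).mul hB |>.add hh

include hM ht hv hp in
theorem pt_outN : PT fun x => outN cl (M x) (t x) (v x) (p x) :=
  pt_nm hcl hM ht (PT.const 2) (pu_nK.pt.comp hM) hp
    ((hv.add (PT.const 1)).mul ((pu_nD.pt.comp hM).add (PT.const 1)))

include hout hM ht hk hv hp hh in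
theorem pt_lsrc (i : Fin (W + 3)) :
    PT fun x => lsrc cl out (M x) (t x) (k x) (v x) (p x) (h x) i := by
  have hw := (WN.pu_w.pt.comp hM).mul (WN.pu_κ.pt.comp hM)
  have hd := WN.pu_d.pt.comp hM
  have h64 := (hp.div hw).div (PT.const 64)
  have c0 : PT fun _ : α => (0 : ℕ) := PT.const 0
  have c1 : PT fun _ : α => (1 : ℕ) := PT.const 1
  have c2 : PT fun _ : α => (2 : ℕ) := PT.const 2
  exact pt_ite (pt_decEq hk c0) (pt_ite (pt_decEq hv c0)
    ((pt_outN hcl hM (WN.pt_tS hM ht (h64.div hd)) (pt_mod (hp.div hw) (PT.const 64))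
      (pt_mod hp hw)).pair (WN.pt_tV hM ht (pt_mod h64 hd)))
    ((pt_nm hcl hM ht c0 (hv.sub c1) hp c0).pair c0))
    (pt_ite (pt_decEq hk c1) (pt_ite (pt_decLt hp (pu_nD.pt.comp hM))
      ((pt_nm hcl hM ht c0 hv hp c0).pair c0)
      ((pt_nm hcl hM ht c1 hv (pt_apply (pt_gat hcl hM hp).fst i) c0).pair c0))
    (pt_ite (PT.const _) ((pt_nm hcl hM ht c2 (hv.sub c1) hp hh).pair c0)
    (pt_ite (PT.const _) ((pt_nm hcl hM ht c1 (hv.sub c1)
      (hout.comp ((pt_uv.comp hM).pair hp)) c0).pair c0)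
      ((pt_nm hcl hM ht c2 (hv.sub c1) hp (hh.sub c1)).pair c0))))

include hM ht hk hv hp hh ha in
theorem pt_llab : PT fun x => llab cl (M x) (t x) (k x) (v x) (p x) (h x) (a x) := by
  have hD := pu_nD.pt.comp hM
  have c0 : PT fun _ : α => (0 : ℕ) := PT.const 0
  have h1 : PT fun x => (enc (un (M x).κ, un (M x).w, un (M x).d, (M x).tL (t x) (a x)) : Tr) :=
    ((pt_un (WN.pu_κ.comp hM)).pair ((pt_un (WN.pu_w.comp hM)).pair
      ((pt_un (WN.pu_d.comp hM)).pair (WN.pt_tL hM ht ha)))).of_enc fun _ => rfl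
  have h2 : PT fun x => lbit (M x) (t x) (a x) (p x - nD (M x)) :=
    PT.getD (pt_ser.comp h1) (hp.sub hD) (PT.const _)
  exact pt_ite (pt_decEq hk c0) (PT.const _) (pt_ite (pt_decEq hk (PT.const 1))
    (pt_ite (pt_decLt hp hD) (PT.const _) (pt_ite (pt_decLt hp (hD.add (pu_nL.pt.comp hM)))
      (PT.cond h2 (PT.const _) (PT.const _)) (pt_gat hcl hM hp).snd))
    (pt_ite (pt_decEq hh c0) (PT.const _) (pt_ite (pt_decEq hv c0) (PT.const _) (PT.const _))))

end

include hout in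
theorem pt_net : PT fun N : WN X => net cl out N := by
  have hB : PT fun q : WN X × ℕ => nB cl q.1 := (pu_nB hcl).pt.comp PT.fst'
  have hM : PT fun q : WN X × ℕ => nM cl q.1 := (pu_nM hcl).pt.comp PT.fst'
  have hA : PT fun q : WN X × ℕ => 2 ^ q.1.k := (pt_two_pow WN.pu_k).comp PT.fst'
  have hU : PU fun N : WN X => nM cl N * 2 ^ N.k :=
    PT.congr ((((WN.pu_TA.mul (pu_nB hcl)).mul (pu_nB hcl)).mul (pu_nB hcl)).mul (pu_nB hcl))
      fun N => congrArg List.range (by unfold nM; ring)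
  have h1 : PT fun q : WN X × ℕ => ((net cl out q.1).src q.2, (net cl out q.1).win q.2) := by
    have z1 := PT.snd'.div hB
    have z2 := z1.div hB
    have z3 := z2.div hB
    refine (pt_pi fun i => ?_).pair (pt_pi fun i => pt_decEq (pt_mod z3 hB) (PT.const 0))
    have y := pt_lsrc hcl hout PT.fst' (z3.div hB) (pt_mod z3 hB) (pt_mod z2 hB) (pt_mod z1 hB)
      (pt_mod PT.snd' hB) i
    exact (pt_mod y.fst hM).pair y.snd
  have h2 : PT fun q : WN X × ℕ => (⟨(net cl out q.1).lab (q.2 / 2 ^ q.1.k) (q.2 % 2 ^ q.1.k)⟩ :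
      Code ((Fin (W + 3) → Bool) → Bool)) := by
    have z0 := PT.snd'.div hA
    have z1 := z0.div hB
    have z2 := z1.div hB
    have z3 := z2.div hB
    exact pt_llab hcl PT.fst' (z3.div hB) (pt_mod z3 hB) (pt_mod z2 hB) (pt_mod z1 hB)
      (pt_mod z0 hB) (pt_mod PT.snd' hA)
  exact (WN.pu_k.range.pair ((PT.map h1 (pu_nM hcl).range).pair (PT.map h2 hU.range))).of_enc
    fun _ => rfl

omit hcl [Enc X] in
theorem pb_nM {c : ℕ} (hc : ∀ u v : List Unit, (cl (u, v)).length ≤ (u.length + v.length + 2) ^ c) :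
    PB fun N : WN X => nM cl N + 2 := by
  have s : ∀ f : WN X → ℕ, (∀ N, f N ≤ N.size) → PB f := fun f h => PB.size.of_le h
  have hw := (s (fun N => N.w) fun N => by unfold WN.size; omega).mul
    (s (fun N => N.κ) fun N => by unfold WN.size; omega)
  have hD : PB (nD : WN X → ℕ) := (((PB.const 3).mul
    (s (fun N => N.d) fun N => by unfold WN.size; omega)).mul (PB.const 64)).mul hw
  have hL : PB (nL : WN X → ℕ) :=
    ((PB.const 3).mul PB.size).of_le fun N => by unfold WN.size nL; omega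
  have hC : PB fun N : WN X => (cl (uv N)).length :=
    (((hD.add hL).add (PB.const 2)).pow c).of_le fun N => by
      simpa [uv] using hc (un (nD N)) (un (nL N))
  have hB : PB (nB cl : WN X → ℕ) :=
    ((((((PB.const 65).mul (hD.add (PB.const 1))).add hD).add hL).add hC).add hw).add (PB.const 3)
  exact (((((s (fun N => N.T) fun N => by unfold WN.size; omega).mul hB).mul hB).mul hB).mul
    hB).add (PB.const 2)

end Vale.Agent.P330Q
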